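import Crest.Agent.R300.LBDefs

/-! Row 300 lower bound: ℓ¹ and probability basics. -/

set_option autoImplicit false

namespace Crest.Agent.R300.LB

open Finset

section noMonoid
variable {M : Type*}

theorem Pos.add {f g : Alg M} (hf : Pos f) (hg : Pos g) : Pos (f + g) := by
  intro w
  rw [MonoidAlgebra.coeff_add, Finsupp.add_apply]
  exact add_nonneg (hf w) (hg w)

theorem Pos.smul {f : Alg M} {a : ℝ} (ha : 0 ≤ a) (hf : Pos f) : Pos (a • f) := by
  intro w
  rw [MonoidAlgebra.coeff_smul, Finsupp.smul_apply, smul_eq_mul]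
  exact mul_nonneg ha (hf w)

theorem pos_zero : Pos (0 : Alg M) := by
  intro w
  simp

theorem Pos.sum {κ : Type*} (s : Finset κ) (f : κ → Alg M) (h : ∀ i ∈ s, Pos (f i)) :
    Pos (∑ i ∈ s, f i) := by
  classical
  induction s using Finset.induction_on with
  | empty => simpa using pos_zero
  | insert a s ha ih =>
    rw [Finset.sum_insert ha]
    exact (h a (Finset.mem_insert_self _ _)).add
      (ih fun i hi => h i (Finset.mem_insert_of_mem hi))

theorem pos_single (w : M) {a : ℝ} (ha : 0 ≤ a) : Pos (MonoidAlgebra.single w a : Alg M) := by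
  classical
  intro v
  rw [MonoidAlgebra.coeff_single, Finsupp.single_apply]
  split_ifs
  · exact ha
  · exact le_rfl

theorem abs_coeff_le_norm (f : Alg M) (w : M) : |f.coeff w| ≤ ‖f‖ := by
  by_cases hw : w ∈ f.coeff.support
  · rw [norm_def]
    exact Finset.single_le_sum (f := fun w => |f.coeff w|) (fun _ _ => abs_nonneg _) hw
  · rw [Finsupp.notMem_support_iff.1 hw, abs_zero]
    exact norm_nonneg _

theorem pr_eq_sum (φ : M → ℝ) (f : Alg M) {s : Finset M} (hs : f.coeff.support ⊆ s) :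
    pr φ f = ∑ w ∈ s, f.coeff w * φ w := by
  have h : pr φ f = ∑ w ∈ f.coeff.support, f.coeff w * φ w := by
    show Finsupp.linearCombination ℝ φ f.coeff = _
    rw [Finsupp.linearCombination_apply, Finsupp.sum]
    rfl
  rw [h]
  refine Finset.sum_subset hs fun w _ hw => ?_
  rw [Finsupp.notMem_support_iff.1 hw, zero_mul]

theorem pr_single (φ : M → ℝ) (w : M) (a : ℝ) :
    pr φ (MonoidAlgebra.single w a : Alg M) = a * φ w := by
  show Finsupp.linearCombination ℝ φ (Finsupp.single w a) = _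
  rw [Finsupp.linearCombination_single, smul_eq_mul]

theorem abs_pr_le (φ : M → ℝ) (hφ : ∀ w, |φ w| ≤ 1) (f : Alg M) : |pr φ f| ≤ ‖f‖ := by
  rw [pr_eq_sum φ f subset_rfl, norm_def]
  refine (Finset.abs_sum_le_sum_abs _ _).trans (Finset.sum_le_sum fun w _ => ?_)
  rw [abs_mul]
  exact mul_le_of_le_one_right (abs_nonneg _) (hφ w)

theorem iota_single (w : M) (a : ℝ) :
    iota (MonoidAlgebra.single w a : Alg M) = MonoidAlgebra.single (FreeMonoid.of w) a :=
  MonoidAlgebra.mapDomainLinearMap_single _ _ _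

theorem lb1_coeff_iota (f : Alg M) : (iota f).coeff = f.coeff.mapDomain FreeMonoid.of := rfl

theorem norm_iota (f : Alg M) : ‖iota f‖ = ‖f‖ := by
  classical
  rw [norm_def, norm_def, lb1_coeff_iota,
    Finsupp.mapDomain_support_of_injective FreeMonoid.of_injective,
    Finset.sum_image fun a _ b _ h => FreeMonoid.of_injective h]
  refine Finset.sum_congr rfl fun w _ => ?_
  rw [Finsupp.mapDomain_apply FreeMonoid.of_injective]

end noMonoid

section monoid
variable {M : Type*} [Monoid M]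

theorem mass_single (w : M) (a : ℝ) : mass (MonoidAlgebra.single w a : Alg M) = a := by
  unfold mass
  rw [MonoidAlgebra.lift_single]
  simp

theorem mass_eq_sum (f : Alg M) {s : Finset M} (hs : f.coeff.support ⊆ s) :
    mass f = ∑ w ∈ s, f.coeff w := by
  have h : mass f = ∑ w ∈ f.coeff.support, f.coeff w := by
    unfold mass
    rw [MonoidAlgebra.lift_apply, Finsupp.sum]
    simp
  rw [h]
  exact Finset.sum_subset hs fun w _ hw => Finsupp.notMem_support_iff.1 hw

theorem abs_mass_le (f : Alg M) : |mass f| ≤ ‖f‖ := by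
  rw [mass_eq_sum f subset_rfl, norm_def]
  exact Finset.abs_sum_le_sum_abs _ _

theorem pos_one : Pos (1 : Alg M) := by
  rw [MonoidAlgebra.one_def]
  exact pos_single _ zero_le_one

theorem Pos.mul {f g : Alg M} (hf : Pos f) (hg : Pos g) : Pos (f * g) := by
  rw [MonoidAlgebra.mul_def, Finsupp.sum]
  refine Pos.sum _ _ fun a _ => ?_
  rw [Finsupp.sum]
  exact Pos.sum _ _ fun b _ => pos_single _ (mul_nonneg (hf a) (hg b))

theorem Pos.pow {f : Alg M} (hf : Pos f) (n : ℕ) : Pos (f ^ n) := by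
  induction n with
  | zero => rw [pow_zero]; exact pos_one
  | succ n ih => rw [pow_succ]; exact ih.mul hf

theorem Pos.norm_eq {f : Alg M} (hf : Pos f) : ‖f‖ = mass f := by
  rw [mass_eq_sum f subset_rfl, norm_def]
  exact Finset.sum_congr rfl fun w _ => abs_of_nonneg (hf w)

theorem Pos.mass_nonneg {f : Alg M} (hf : Pos f) : 0 ≤ mass f := by
  rw [← hf.norm_eq]
  exact norm_nonneg _

/-- products of minorants are minorants -/
theorem Pos.mul_sub_mul {P P' μ μ' : Alg M} (hμ : Pos μ) (hμ' : Pos μ') (h : Pos (P - μ))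
    (h' : Pos (P' - μ')) : Pos (P * P' - μ * μ') := by
  have e : P * P' - μ * μ' = (P - μ) * (P' - μ') + (P - μ) * μ' + μ * (P' - μ') := by
    noncomm_ring
  rw [e]
  exact ((h.mul h').add (h.mul hμ')).add (hμ.mul h')

theorem Prob.norm_eq {f : Alg M} (hf : Prob f) : ‖f‖ = 1 := by
  rw [hf.1.norm_eq, hf.2]

theorem prob_one : Prob (1 : Alg M) :=
  ⟨pos_one, map_one _⟩

theorem prob_single (w : M) : Prob (MonoidAlgebra.single w 1 : Alg M) :=
  ⟨pos_single _ zero_le_one, mass_single _ _⟩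

theorem Prob.mul {f g : Alg M} (hf : Prob f) (hg : Prob g) : Prob (f * g) :=
  ⟨hf.1.mul hg.1, by rw [map_mul, hf.2, hg.2, mul_one]⟩

theorem Prob.pow {f : Alg M} (hf : Prob f) (n : ℕ) : Prob (f ^ n) :=
  ⟨hf.1.pow n, by rw [map_pow, hf.2, one_pow]⟩

theorem Prob.list_prod (l : List (Alg M)) (h : ∀ x ∈ l, Prob x) : Prob l.prod := by
  induction l with
  | nil => rw [List.prod_nil]; exact prob_one
  | cons a l ih =>
    rw [List.prod_cons]
    exact (h a List.mem_cons_self).mul (ih fun x hx => h x (List.mem_cons_of_mem _ hx))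

theorem Prob.pat {a b : Alg M} (ha : Prob a) (hb : Prob b) (t : ℕ) (U : ℕ → Bool) :
    Prob (pat a b t U) := by
  refine Prob.list_prod _ fun x hx => ?_
  obtain ⟨i, -, rfl⟩ := List.mem_map.1 hx
  split_ifs
  · exact hb
  · exact ha

theorem Prob.sum_coeff {f : Alg M} (hf : Prob f) : ∑ w ∈ f.coeff.support, f.coeff w = 1 := by
  rw [← mass_eq_sum f subset_rfl, hf.2]

theorem prob_lett {q : ℝ} (h0 : 0 ≤ q) (h1 : q ≤ 1) {Y : Bool → Alg M} (hY : ∀ b, Prob (Y b))
    (b : Bool) : Prob (lett q Y b) := by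
  refine ⟨(pos_one.smul h0).add ((hY b).1.smul (sub_nonneg.2 h1)), ?_⟩
  unfold lett
  rw [map_add, map_smul, map_smul, map_one, (hY b).2]
  simp

theorem chan_of (q : ℝ) (Y : Bool → Alg M) (b : Bool) :
    chan q Y (FreeMonoid.of b) = lett q Y b := by
  unfold chan
  rw [FreeMonoid.lift_eval_of]

theorem prob_chan {q : ℝ} (h0 : 0 ≤ q) (h1 : q ≤ 1) {Y : Bool → Alg M} (hY : ∀ b, Prob (Y b))
    (x : FreeMonoid Bool) : Prob (chan q Y x) := by
  induction x using FreeMonoid.inductionOn' with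
  | one => rw [map_one]; exact prob_one
  | of_mul b x ih => rw [map_mul, chan_of]; exact (prob_lett h0 h1 hY b).mul ih

theorem mass_iota (f : Alg M) : mass (iota f) = mass f := by
  induction f using MonoidAlgebra.induction_linear with
  | zero => simp
  | add f g hf hg => rw [map_add, map_add, map_add, hf, hg]
  | single w a => rw [iota_single, mass_single, mass_single]

theorem Prob.iota {f : Alg M} (hf : Prob f) : Prob (iota f) := by
  refine ⟨?_, by rw [mass_iota, hf.2]⟩
  intro w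
  rw [lb1_coeff_iota]
  by_cases hw : w ∈ Set.range (FreeMonoid.of : M → FreeMonoid M)
  · obtain ⟨v, rfl⟩ := hw
    rw [Finsupp.mapDomain_apply FreeMonoid.of_injective]
    exact hf.1 v
  · rw [Finsupp.mapDomain_of_notMem_range _ _ hw]

/-- the pointwise minimum of two laws -/
theorem overlap {P Q : Alg M} (hP : Prob P) (hQ : Prob Q) :
    ∃ μ : Alg M, Pos μ ∧ Pos (P - μ) ∧ Pos (Q - μ) ∧ 1 - ‖P - Q‖ / 2 ≤ mass μ := by
  classical
  let μ : Alg M := MonoidAlgebra.ofCoeff (Finsupp.zipWith min (min_self 0) P.coeff Q.coeff)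
  have hμ : ∀ w, μ.coeff w = min (P.coeff w) (Q.coeff w) := fun w => rfl
  refine ⟨μ, fun w => ?_, fun w => ?_, fun w => ?_, ?_⟩
  · rw [hμ]; exact le_min (hP.1 w) (hQ.1 w)
  · rw [MonoidAlgebra.coeff_sub, Finsupp.sub_apply, hμ]; exact sub_nonneg.2 (min_le_left _ _)
  · rw [MonoidAlgebra.coeff_sub, Finsupp.sub_apply, hμ]; exact sub_nonneg.2 (min_le_right _ _)
  · set s := P.coeff.support ∪ Q.coeff.support with hs
    have h1 : μ.coeff.support ⊆ s := Finsupp.support_zipWith (hf := min_self 0)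
    have h2 : (P - Q).coeff.support ⊆ s := by
      rw [MonoidAlgebra.coeff_sub]; exact Finsupp.support_sub
    have hP1 := hP.2
    have hQ1 := hQ.2
    rw [mass_eq_sum P (s := s) Finset.subset_union_left] at hP1
    rw [mass_eq_sum Q (s := s) Finset.subset_union_right] at hQ1
    rw [mass_eq_sum μ h1, norm_eq_sum _ h2]
    have h3 : ∑ w ∈ s, μ.coeff w
        = ∑ w ∈ s, ((P.coeff w + Q.coeff w) / 2 - |(P - Q).coeff w| / 2) := by
      refine Finset.sum_congr rfl fun w _ => ?_
      rw [hμ, MonoidAlgebra.coeff_sub, Finsupp.sub_apply]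
      rcases le_total (P.coeff w) (Q.coeff w) with h | h
      · rw [min_eq_left h, abs_of_nonpos (sub_nonpos.2 h)]; ring
      · rw [min_eq_right h, abs_of_nonneg (sub_nonneg.2 h)]; ring
    rw [h3, Finset.sum_sub_distrib, ← Finset.sum_div, ← Finset.sum_div, Finset.sum_add_distrib,
      hP1, hQ1]
    norm_num

theorem Slip.mono {A : Alg M} {s s' : ℝ} (h : Slip A s) (hs : s ≤ s') : Slip A s' := by
  intro g
  refine (h g).trans (Real.sqrt_le_sqrt ?_)
  have : (0 : ℝ) < g + 1 := by positivity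
  exact div_le_div_of_nonneg_right hs this.le

/-- telescoping: `A^g - A^(g+k) = ∑_j A^j * (A^g (1-A))` -/
theorem Slip.pow_sub_pow {A : Alg M} {s : ℝ} (hA : Prob A) (h : Slip A s) (g k : ℕ) :
    ‖A ^ g - A ^ (g + k)‖ ≤ k * √(s / (g + 1)) := by
  induction k with
  | zero => simp
  | succ k ih =>
    have e : A ^ g - A ^ (g + (k + 1)) = (A ^ g - A ^ (g + k)) + A ^ k * (A ^ g * (1 - A)) := by
      rw [← mul_assoc, ← pow_add, add_comm k g, mul_sub, mul_one, ← pow_succ, add_assoc]
      abel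
    rw [e]
    refine (norm_add_le _ _).trans ?_
    have h2 : ‖A ^ k * (A ^ g * (1 - A))‖ ≤ √(s / (g + 1)) := by
      refine (norm_mul_le _ _).trans ?_
      rw [(hA.pow k).norm_eq, one_mul]
      exact h g
    push_cast
    linarith

/-- ℓ¹ bound for a polynomial in a contraction -/
theorem norm_aeval_le {A : Alg M} (hA : ‖A‖ ≤ 1) (f : Polynomial ℝ) {m : ℕ}
    (hm : f.natDegree < m) : ‖Polynomial.aeval A f‖ ≤ ∑ i ∈ range m, |f.coeff i| := by
  rw [Polynomial.aeval_eq_sum_range' hm]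
  refine (norm_sum_le _ _).trans (Finset.sum_le_sum fun i _ => ?_)
  refine (norm_smul_le _ _).trans ?_
  rw [Real.norm_eq_abs]
  refine mul_le_of_le_one_right (abs_nonneg _) ?_
  exact (norm_pow_le A i).trans (pow_le_one₀ (norm_nonneg _) hA)

theorem Cell.prob_R {C : Cell M} (hA : Prob C.A) : Prob C.R :=
  hA.pow _

theorem Cell.prob_put {C : Cell M} (hA : Prob C.A) {X : Alg M} (hX : Prob X) (y : ℕ) :
    Prob (C.put X y) :=
  ((hA.pow _).mul hX).mul (hA.pow _)

theorem Cell.Ay_eq (C : Cell M) {y : ℕ} (hy : y ≤ 2 * C.W) : C.Ay y = C.R + C.E y := by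
  unfold Cell.Ay Cell.R Cell.E Cell.put Cell.N
  have e : C.A ^ (2 * C.W + C.n) = C.A ^ y * C.A ^ C.n * C.A ^ (2 * C.W - y) := by
    rw [← pow_add, ← pow_add]
    congr 1
    omega
  rw [e, mul_sub, sub_mul]
  abel

theorem Cell.By_eq (C : Cell M) (y : ℕ) : C.By y = C.Ay y + C.D y := by
  unfold Cell.By Cell.Ay Cell.D Cell.put
  rw [mul_sub, sub_mul]
  abel

theorem Cell.put_shift (C : Cell M) (X : Alg M) {y : ℕ} (hy : y < 2 * C.W) :
    C.A * C.put X y = C.put X (y + 1) * C.A := by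
  unfold Cell.put
  have e : 2 * C.W - y = (2 * C.W - (y + 1)) + 1 := by omega
  rw [e, pow_succ' C.A y, pow_succ C.A (2 * C.W - (y + 1))]
  simp only [mul_assoc]

end monoid

section ring
variable {𝔸 : Type*} [NormedRing 𝔸]

theorem mul_perturb (X X' Y Y' : 𝔸) :
    ‖X * Y - X' * Y'‖ ≤ ‖X‖ * ‖Y - Y'‖ + ‖X - X'‖ * ‖Y'‖ := by
  have e : X * Y - X' * Y' = X * (Y - Y') + (X - X') * Y' := by noncomm_ring
  rw [e]
  exact (norm_add_le _ _).trans (add_le_add (norm_mul_le _ _) (norm_mul_le _ _))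

theorem lb1_pow_le {η : ℝ} (hη : 0 ≤ η) (k : ℕ) (hk : k * η ≤ 1) :
    (1 + η) ^ k - 1 ≤ 2 * k * η := by
  have h1 : (1 + η) ^ k ≤ Real.exp (k * η) := by
    rw [Real.exp_nat_mul]
    refine pow_le_pow_left₀ (by linarith) ?_ k
    linarith [Real.add_one_le_exp η]
  have h0 : 0 ≤ (k : ℝ) * η := by positivity
  have h2 := Real.abs_exp_sub_one_le (x := k * η) (by rw [abs_of_nonneg h0]; exact hk)
  rw [abs_of_nonneg h0] at h2
  have h3 := le_abs_self (Real.exp (k * η) - 1)
  linarith

theorem lb1_prod_perturb [NormOneClass 𝔸] {κ : Type*} (l : List κ) (X X' : κ → 𝔸) {η : ℝ}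
    (h1 : ∀ i ∈ l, ‖X i‖ ≤ 1) (h2 : ∀ i ∈ l, ‖X i - X' i‖ ≤ η) (hη : 0 ≤ η) :
    ‖(l.map X).prod‖ ≤ 1 ∧
      ‖(l.map X).prod - (l.map X').prod‖ ≤ (1 + η) ^ l.length - 1 := by
  induction l with
  | nil => simp
  | cons a l ih =>
    obtain ⟨ih1, ih2⟩ := ih (fun i hi => h1 i (List.mem_cons_of_mem _ hi))
      (fun i hi => h2 i (List.mem_cons_of_mem _ hi))
    have ha1 := h1 a List.mem_cons_self
    have ha2 := h2 a List.mem_cons_self
    simp only [List.map_cons, List.prod_cons, List.length_cons]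
    refine ⟨(norm_mul_le _ _).trans (mul_le_one₀ ha1 (norm_nonneg _) ih1), ?_⟩
    refine (mul_perturb _ _ _ _).trans ?_
    have h3 : ‖(l.map X').prod‖ ≤ (1 + η) ^ l.length := by
      have e : (l.map X').prod = (l.map X).prod - ((l.map X).prod - (l.map X').prod) := by abel
      rw [e]
      refine (norm_sub_le _ _).trans ?_
      linarith
    have h4 : ‖X a‖ * ‖(l.map X).prod - (l.map X').prod‖ ≤ (1 + η) ^ l.length - 1 :=
      (mul_le_of_le_one_left (norm_nonneg _) ha1).trans ih2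
    have h5 : ‖X a - X' a‖ * ‖(l.map X').prod‖ ≤ η * (1 + η) ^ l.length :=
      mul_le_mul ha2 h3 (norm_nonneg _) hη
    rw [pow_succ]
    linarith

/-- `(1+η)^k - 1 ≤ 2kη` when `kη ≤ 1` -/
theorem list_prod_perturb [NormOneClass 𝔸] {κ : Type*} (l : List κ) (X X' : κ → 𝔸) {η : ℝ}
    (h1 : ∀ i ∈ l, ‖X i‖ ≤ 1) (h2 : ∀ i ∈ l, ‖X i - X' i‖ ≤ η) (hη : 0 ≤ η)
    (hk : l.length * η ≤ 1) :
    ‖(l.map X).prod - (l.map X').prod‖ ≤ 2 * l.length * η := by
  have h := (lb1_prod_perturb l X X' h1 h2 hη).2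
  exact h.trans (lb1_pow_le hη l.length hk)

theorem pow_perturb [NormOneClass 𝔸] {X X' : 𝔸} {η : ℝ} (h1 : ‖X‖ ≤ 1) (h2 : ‖X - X'‖ ≤ η)
    (k : ℕ) (hk : k * η ≤ 1) : ‖X ^ k - X' ^ k‖ ≤ 2 * k * η := by
  have hη : 0 ≤ η := (norm_nonneg _).trans h2
  have h := list_prod_perturb (List.replicate k ()) (fun _ => X) (fun _ => X')
    (fun _ _ => h1) (fun _ _ => h2) hη (by simpa using hk)
  simpa using h

/-- three factors of norm at most one, each perturbed by at most `η ≤ 1/3` -/
theorem mul3_perturb [NormOneClass 𝔸] {X X' Y Y' Z Z' : 𝔸} {η : ℝ} (hX : ‖X‖ ≤ 1) (hY : ‖Y‖ ≤ 1)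
    (hZ : ‖Z‖ ≤ 1) (h1 : ‖X - X'‖ ≤ η) (h2 : ‖Y - Y'‖ ≤ η) (h3 : ‖Z - Z'‖ ≤ η)
    (hη : η ≤ 1 / 3) : ‖X * Y * Z - X' * Y' * Z'‖ ≤ 6 * η := by
  have hη0 : 0 ≤ η := (norm_nonneg _).trans h1
  have h := list_prod_perturb [(X, X'), (Y, Y'), (Z, Z')] Prod.fst Prod.snd (η := η)
    (by simp [hX, hY, hZ]) (by simp [h1, h2, h3]) hη0 (by simp; linarith)
  simp only [List.map_cons, List.map_nil, List.prod_cons, List.prod_nil, mul_one,
    List.length_cons, List.length_nil] at h
  rw [mul_assoc, mul_assoc]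
  refine h.trans (le_of_eq ?_)
  push_cast
  ring

end ring

section words

theorem lb1_map_pat {G H : Type*} [Monoid G] [Monoid H] (α : G →* H) (a b : G) (t : ℕ)
    (U : ℕ → Bool) : α (pat a b t U) = pat (α a) (α b) t U := by
  unfold pat
  rw [map_list_prod, List.map_map]
  congr 1
  refine List.map_congr_left fun i _ => ?_
  simp only [Function.comp]
  split_ifs <;> rfl

theorem lb1_cell_Ap {M : Type*} [Monoid M] (S : St) (α : FreeMonoid Bool →* Alg M) :
    (S.cell α).Ap = α S.a ∧ (S.cell α).Bp = α S.b := by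
  have e : 2 * S.W - S.W = S.W := by omega
  constructor
  · simp only [Cell.Ap, Cell.Ay, Cell.put, St.cell, St.a, map_mul, map_pow, e]
  · simp only [Cell.Bp, Cell.By, Cell.put, St.cell, St.b, map_mul, map_pow, e]

theorem lb1_length_pow {α : Type*} (x : FreeMonoid α) (k : ℕ) :
    (x ^ k).length = k * x.length := by
  induction k with
  | zero => simp
  | succ k ih => rw [pow_succ, FreeMonoid.length_mul, ih]; ring

theorem lb1_pat_succ {G : Type*} [Monoid G] (a b : G) (t : ℕ) (U : ℕ → Bool) :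
    pat a b (t + 1) U = pat a b t U * (if U t then b else a) := by
  unfold pat
  rw [List.range_succ, List.map_append, List.prod_append]
  simp

theorem lb1_length_pat {α : Type*} {a b : FreeMonoid α} {L : ℕ} (ha : a.length = L)
    (hb : b.length = L) (t : ℕ) (U : ℕ → Bool) : (pat a b t U).length = t * L := by
  induction t with
  | zero => simp [pat]
  | succ t ih =>
    rw [lb1_pat_succ, FreeMonoid.length_mul, ih]
    split_ifs
    · rw [hb]; ring
    · rw [ha]; ring

theorem lb1_pat_inj {α : Type*} {a b : FreeMonoid α} {L : ℕ} (ha : a.length = L)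
    (hb : b.length = L) (hab : a ≠ b) (t : ℕ) {U V : ℕ → Bool}
    (h : pat a b t U = pat a b t V) : ∀ i < t, U i = V i := by
  induction t with
  | zero => intro i hi; omega
  | succ t ih =>
    rw [lb1_pat_succ, lb1_pat_succ] at h
    have hl : (pat a b t U).toList.length = (pat a b t V).toList.length :=
      (lb1_length_pat ha hb t U).trans (lb1_length_pat ha hb t V).symm
    have h' := congrArg FreeMonoid.toList h
    rw [FreeMonoid.toList_mul, FreeMonoid.toList_mul] at h'
    obtain ⟨h1, h2⟩ := List.append_inj h' hl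
    have h1' : pat a b t U = pat a b t V := FreeMonoid.toList.injective h1
    have h2' : (if U t then b else a) = (if V t then b else a) := FreeMonoid.toList.injective h2
    intro i hi
    rcases Nat.lt_succ_iff_lt_or_eq.1 hi with hi | rfl
    · exact ih h1' i hi
    · cases hU : U i <;> cases hV : V i <;> simp [hU, hV] at h2' ⊢
      · exact hab h2'
      · exact hab h2'.symm

theorem St.cell_next {M : Type*} [Monoid M] (S : St) (α : FreeMonoid Bool →* Alg M) (P t : ℕ)
    (U V : ℕ → Bool) : (S.next P t U V).cell α = (S.cell α).next P t U V := by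
  have hA : (S.cell α).Ap = α S.a := (lb1_cell_Ap S α).1
  have hB : (S.cell α).Bp = α S.b := (lb1_cell_Ap S α).2
  unfold St.next Cell.next
  rw [hA, hB]
  simp only [St.cell, map_mul, map_pow, lb1_map_pat]

theorem St.cell_Ap {M : Type*} [Monoid M] (S : St) (α : FreeMonoid Bool →* Alg M) :
    (S.cell α).Ap = α S.a ∧ (S.cell α).Bp = α S.b :=
  lb1_cell_Ap S α

theorem St.WF.ab {S : St} (h : S.WF) :
    S.a ≠ S.b ∧ S.a.length = S.N * S.u.length ∧ S.b.length = S.N * S.u.length := by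
  obtain ⟨h1, h2, h3⟩ := h
  refine ⟨fun hab => h3 ?_, ?_, ?_⟩
  · unfold St.a St.b at hab
    exact mul_left_cancel (mul_right_cancel hab)
  · unfold St.a St.N
    rw [FreeMonoid.length_mul, FreeMonoid.length_mul, lb1_length_pow, h1]; ring
  · unfold St.b St.N
    rw [FreeMonoid.length_mul, FreeMonoid.length_mul, lb1_length_pow, h2]; ring

/-- patterns built from two different words of the same length differ -/
theorem St.WF.next {S : St} (h : S.WF) (P t : ℕ) {U V : ℕ → Bool} (hUV : ∃ i < t, U i ≠ V i) :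
    (S.next P t U V).WF := by
  obtain ⟨hab, ha, hb⟩ := h.ab
  have hb' : S.b.length = S.a.length := hb.trans ha.symm
  refine ⟨?_, ?_, fun he => ?_⟩
  · show (S.a ^ P * pat S.a S.b t U * S.a ^ P).length = (2 * P + t) * S.a.length
    rw [FreeMonoid.length_mul, FreeMonoid.length_mul, lb1_length_pow, lb1_length_pat rfl hb']
    ring
  · show (S.a ^ P * pat S.a S.b t V * S.a ^ P).length = (2 * P + t) * S.a.length
    rw [FreeMonoid.length_mul, FreeMonoid.length_mul, lb1_length_pow, lb1_length_pat rfl hb']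
    ring
  · have he' : S.a ^ P * pat S.a S.b t U * S.a ^ P = S.a ^ P * pat S.a S.b t V * S.a ^ P := he
    have h2 := mul_left_cancel (mul_right_cancel he')
    obtain ⟨i, hi, hne⟩ := hUV
    exact hne (lb1_pat_inj rfl hb' hab t h2 i hi)

end words

end Crest.Agent.R300.LB
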