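import Crest.Agent.R300.LBLatC

/-! Row 300 lower bound: the first lattice slips. -/

set_option autoImplicit false

namespace Crest.Agent.R300.LB

open Finset

variable {M : Type*} [Monoid M] {q : ℝ} {Y : Bool → Alg M}

theorem prob_tV (h0 : 0 < q) (h1 : q ≤ 1 / 2) (hY : ∀ b, Prob (Y b)) (N g r g' : ℕ) :
    Prob (tV q Y N g r g') := by
  have hA := prob_uA h0 h1 hY
  have hB := prob_uB h0 h1 hY
  exact (((hA.pow g).mul ((hB.mul (hA.pow _)).pow r)).mul hB).mul (hA.pow g')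

theorem tV_mul (q : ℝ) (Y : Bool → Alg M) {N g r g' h r' h' : ℕ} (H : g' + h = N - 1) :
    tV q Y N g r g' * tV q Y N h r' h' = tV q Y N g (r + r' + 1) h' := by
  unfold tV
  have e : uA q Y ^ (N - 1) = uA q Y ^ g' * uA q Y ^ h := by rw [← pow_add, H]
  have e2 : (uB q Y * uA q Y ^ (N - 1)) ^ (r + r' + 1) =
      (uB q Y * uA q Y ^ (N - 1)) ^ r * (uB q Y * (uA q Y ^ g' * uA q Y ^ h)) *
        (uB q Y * uA q Y ^ (N - 1)) ^ r' := by
    rw [← e, ← pow_succ, ← pow_add]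
    congr 1
    omega
  rw [e2]
  simp only [mul_assoc]

theorem tV_pow (q : ℝ) (Y : Bool → Alg M) {N y y' : ℕ} (H : y' + y = N - 1) (m : ℕ) :
    (uA q Y ^ y * uB q Y * uA q Y ^ y') ^ (m + 1) = tV q Y N y m y' := by
  have h0 : uA q Y ^ y * uB q Y * uA q Y ^ y' = tV q Y N y 0 y' := by
    simp [tV]
  induction m with
  | zero => simpa using h0
  | succ m ih => rw [pow_succ, ih, h0, tV_mul q Y H]

/-- cutting a long window at prescribed places: `cut j` is the left margin of the piece `j`, the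
right margin of the piece `j` is `N - 1 - cut (j+1)` -/
theorem tV_pieces (q : ℝ) (Y : Bool → Alg M) (N : ℕ) (cut r : ℕ → ℕ) (hc : ∀ j, cut j ≤ N - 1)
    (J : ℕ) :
    ((List.range (J + 1)).map fun j => tV q Y N (cut j) (r j) (N - 1 - cut (j + 1))).prod =
      tV q Y N (cut 0) (∑ j ∈ range (J + 1), r j + J) (N - 1 - cut (J + 1)) := by
  induction J with
  | zero => simp
  | succ J ih =>
    rw [List.range_succ, List.map_append, List.prod_append, ih]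
    simp only [List.map_cons, List.map_nil, List.prod_cons, List.prod_nil, mul_one]
    have H : N - 1 - cut (J + 1) + cut (J + 1) = N - 1 := Nat.sub_add_cancel (hc _)
    rw [tV_mul q Y H, Finset.sum_range_succ (fun j => r j) (J + 1)]
    congr 1
    omega

/-- products of pairwise close laws overlap -/
theorem overlap_list {κ : Type*} (l : List κ) (P Q : κ → Alg M) (hP : ∀ i ∈ l, Prob (P i))
    (hQ : ∀ i ∈ l, Prob (Q i)) (h : ∀ i ∈ l, ‖P i - Q i‖ ≤ 1) :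
    ∃ μ : Alg M, Pos μ ∧ Pos ((l.map P).prod - μ) ∧ Pos ((l.map Q).prod - μ) ∧
      (1 / 2 : ℝ) ^ l.length ≤ mass μ := by
  induction l with
  | nil => exact ⟨1, pos_one, by simpa using pos_zero, by simpa using pos_zero, by simp⟩
  | cons a l ih =>
    obtain ⟨μ, hμ, hμP, hμQ, hm⟩ := ih (fun i hi => hP i (List.mem_cons_of_mem _ hi))
      (fun i hi => hQ i (List.mem_cons_of_mem _ hi)) (fun i hi => h i (List.mem_cons_of_mem _ hi))
    obtain ⟨ν, hν, hνP, hνQ, hn⟩ := overlap (hP a List.mem_cons_self) (hQ a List.mem_cons_self)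
    have ha := h a List.mem_cons_self
    refine ⟨ν * μ, hν.mul hμ, ?_, ?_, ?_⟩
    · simpa using Pos.mul_sub_mul hν hμ hνP hμP
    · simpa using Pos.mul_sub_mul hν hμ hνQ hμQ
    · rw [map_mul, List.length_cons, pow_succ']
      exact mul_le_mul (by linarith) hm (by positivity) hν.mass_nonneg

/-- two windows whose total lengths differ by `2Δ` are within distance one -/
theorem windows_close (h0 : 0 < q) (h1 : q ≤ 1 / 2) (hY : ∀ b, Prob (Y b)) {Δ J N r : ℕ}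
    (hJ : 3e8 ≤ q ^ 3 * J) (hN : N = 2 * Δ * J) (hr : 1e-16 * q ^ 4 * N ≤ 2 * r)
    {g₁ r₁ g₁' g₂ r₂ g₂' : ℕ} (hr₁ : r ≤ r₁)
    (hlen : g₂ + g₂' + r₂ * N = g₁ + g₁' + r₁ * N + 2 * Δ)
    (w₁ : ‖tV q Y N g₁ r₁ g₁' - uA q Y ^ (g₁ + g₁' + r₁ * N + 1)‖ ≤ 1 / 4)
    (w₂ : ‖tV q Y N g₂ r₂ g₂' - uA q Y ^ (g₂ + g₂' + r₂ * N + 1)‖ ≤ 1 / 4) :
    ‖tV q Y N g₁ r₁ g₁' - tV q Y N g₂ r₂ g₂'‖ ≤ 1 := by
  have hA := prob_uA h0 h1 hY
  have hs := (slip_uA h0 h1 hY).pow_sub_pow hA (g₁ + g₁' + r₁ * N + 1) (2 * Δ)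
  have e : g₂ + g₂' + r₂ * N + 1 = g₁ + g₁' + r₁ * N + 1 + 2 * Δ := by omega
  rw [e] at w₂
  set n := g₁ + g₁' + r₁ * N + 1 with hn
  have hnr : (r : ℝ) * N ≤ n := by
    have : r * N ≤ n := by
      have := Nat.mul_le_mul_right N hr₁
      omega
    exact_mod_cast this
  have hNr : (N : ℝ) = 2 * Δ * J := by rw [hN]; push_cast; ring
  have hkey : 16 * (Δ : ℝ) ^ 2 ≤ q ^ 2 * (n + 1) := by
    have hN0 : (0 : ℝ) ≤ N := Nat.cast_nonneg _
    have a1 : 1e-16 * q ^ 4 * N * N ≤ 2 * n := by nlinarith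
    have a2 : (9e16 : ℝ) ≤ (q ^ 3 * J) ^ 2 := by nlinarith
    have a3 : q ^ 2 * (1e-16 * q ^ 4 * N * N) = 4e-16 * (Δ : ℝ) ^ 2 * (q ^ 3 * J) ^ 2 := by
      rw [hNr]; ring
    have a4 : q ^ 2 * (1e-16 * q ^ 4 * N * N) ≤ q ^ 2 * (2 * n) :=
      mul_le_mul_of_nonneg_left a1 (by positivity)
    have a5 : 4e-16 * (Δ : ℝ) ^ 2 * 9e16 ≤ 4e-16 * (Δ : ℝ) ^ 2 * (q ^ 3 * J) ^ 2 :=
      mul_le_mul_of_nonneg_left a2 (by positivity)
    have a6 : (0 : ℝ) ≤ q ^ 2 := by positivity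
    have a7 : (0 : ℝ) ≤ (Δ : ℝ) ^ 2 := by positivity
    nlinarith
  have hb : ((2 * Δ : ℕ) : ℝ) * √(1 / q ^ 2 / (n + 1)) ≤ 1 / 2 := by
    have hp : (0 : ℝ) < q ^ 2 * (n + 1) := by positivity
    have : ((2 * Δ : ℕ) : ℝ) * √(1 / q ^ 2 / (n + 1)) =
        √((2 * Δ) ^ 2 * (1 / q ^ 2 / (n + 1))) := by
      rw [Real.sqrt_mul (by positivity), Real.sqrt_sq (by positivity)]
      push_cast; ring
    rw [this]
    refine Real.sqrt_le_iff.2 ⟨by norm_num, ?_⟩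
    rw [div_div, ← mul_div_assoc, div_le_iff₀ hp]
    nlinarith
  have tri : tV q Y N g₁ r₁ g₁' - tV q Y N g₂ r₂ g₂' =
      (tV q Y N g₁ r₁ g₁' - uA q Y ^ n) + (uA q Y ^ n - uA q Y ^ (n + 2 * Δ)) -
        (tV q Y N g₂ r₂ g₂' - uA q Y ^ (n + 2 * Δ)) := by abel
  rw [tri]
  refine (norm_sub_le _ _).trans ?_
  have := norm_add_le (tV q Y N g₁ r₁ g₁' - uA q Y ^ n) (uA q Y ^ n - uA q Y ^ (n + 2 * Δ))
  linarith

/-- `N = 2ΔJ`, `y = ΔJ - 1`, `r = ⌊1e-16 q⁴ N⌋ - 3`, `j0 = J / 2`.  First word: `J` pieces with `r`,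
cuts `y + jΔ` for `j ≤ j0` and `y - (J-j)Δ` for `j > j0`; second word: cuts `y - jΔ`, `y + (J-j)Δ`,
and `r + 1` in the piece `j0`.  Every piece of the second word is longer by `2Δ`; all margins lie
in `[N/4 - 1, N]`.  `tV_pieces`, `tV_pow`, `lat_window`, `windows_close`, `overlap_list`, `foguel`
with `m = J (r+1)`, `m + 1 ≤ J N`.  (For `tV_pieces` set `cut j = y` for `j ≥ J`.) -/
theorem lat_slip (h0 : 0 < q) (h1 : q ≤ 1 / 2) (hY : ∀ b, Prob (Y b)) {Δ J : ℕ}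
    (hJ : 3e8 ≤ q ^ 3 * J) (hN : 8e16 ≤ q ^ 4 * (2 * Δ * J)) :
    Slip (uA q Y ^ (Δ * J - 1) * uB q Y * uA q Y ^ (Δ * J))
      (4 * J * (2 * Δ * J) * 2 ^ J) := by
  have hA := prob_uA h0 h1 hY
  have hB := prob_uB h0 h1 hY
  have hq3 : q ^ 3 ≤ 1 := pow_le_one₀ h0.le (by linarith)
  have hq4 : q ^ 4 ≤ 1 := pow_le_one₀ h0.le (by linarith)
  have hJ2 : 2 ≤ J := by
    have : (2 : ℝ) ≤ J := by
      have : (0 : ℝ) ≤ J := Nat.cast_nonneg _
      nlinarith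
    exact_mod_cast this
  have hΔ : 1 ≤ Δ := by
    rcases Nat.eq_zero_or_pos Δ with h | h
    · rw [h] at hN; norm_num at hN
    · exact h
  obtain ⟨D, hD⟩ : ∃ D, D = Δ * J := ⟨_, rfl⟩
  obtain ⟨N, hNN⟩ : ∃ N, N = 2 * Δ * J := ⟨_, rfl⟩
  have hND : N = 2 * D := by rw [hNN, hD]; ring
  have hD2 : 2 ≤ D := by rw [hD]; nlinarith
  have hNr : (N : ℝ) = 2 * Δ * J := by rw [hNN]; push_cast; ring
  rw [← hNr] at hN ⊢
  rw [← hD]
  have hN0 : (0 : ℝ) ≤ N := Nat.cast_nonneg _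
  obtain ⟨x, hx⟩ : ∃ x : ℝ, x = 1e-16 * q ^ 4 * N := ⟨_, rfl⟩
  have hx8 : 8 ≤ x := by rw [hx]; nlinarith
  have hxN : x ≤ N := by rw [hx]; nlinarith
  have hfl : 8 ≤ ⌊x⌋₊ := Nat.le_floor (by exact_mod_cast hx8)
  obtain ⟨r, hr⟩ : ∃ r, ⌊x⌋₊ = r + 3 := ⟨⌊x⌋₊ - 3, by omega⟩
  have hr1 : (r : ℝ) + 3 ≤ x := by
    have := Nat.floor_le (show 0 ≤ x by linarith)
    rw [hr] at this; push_cast at this; exact this
  have hr2 : x ≤ 2 * r := by
    have := Nat.lt_floor_add_one x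
    rw [hr] at this; push_cast at this
    have h5 : (5 : ℝ) ≤ r := by exact_mod_cast (show 5 ≤ r by omega)
    linarith
  have hrN : r + 3 ≤ N := by exact_mod_cast hr1.trans hxN
  obtain ⟨K, rfl⟩ : ∃ K, J = K + 1 := ⟨J - 1, by omega⟩
  set j0 := (K + 1) / 2 with hj0
  let c1 : ℕ → ℕ := fun j => if j ≤ j0 then D - 1 + j * Δ else D - 1 - (D - j * Δ)
  let c2 : ℕ → ℕ := fun j => if j ≤ j0 then D - 1 - j * Δ else D - 1 + (D - j * Δ)
  let r1 : ℕ → ℕ := fun _ => r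
  let r2 : ℕ → ℕ := fun j => if j = j0 then r + 1 else r
  have f1 : ∀ j, j ≤ j0 → 2 * (j * Δ) ≤ D := by
    intro j hj
    have : 2 * j ≤ K + 1 := by omega
    rw [hD]; nlinarith
  have f2 : ∀ j, ¬ j ≤ j0 → D ≤ 2 * (j * Δ) := by
    intro j hj
    have : K + 1 ≤ 2 * j := by omega
    rw [hD]; nlinarith
  have f3 : ∀ j, j < K + 1 → j * Δ + Δ ≤ D := by
    intro j hj
    have : j + 1 ≤ K + 1 := hj
    rw [hD]; nlinarith
  have m1 : ∀ j, c1 j ≤ N - 1 ∧ N ≤ 4 * (c1 j + 1) ∧ N ≤ 4 * (N - 1 - c1 j + 1) := by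
    intro j
    by_cases hj : j ≤ j0
    · have := f1 j hj
      simp only [c1, if_pos hj]; omega
    · have := f2 j hj
      simp only [c1, if_neg hj]; omega
  have m2 : ∀ j, c2 j ≤ N - 1 ∧ N ≤ 4 * (c2 j + 1) ∧ N ≤ 4 * (N - 1 - c2 j + 1) := by
    intro j
    by_cases hj : j ≤ j0
    · have := f1 j hj
      simp only [c2, if_pos hj]; omega
    · have := f2 j hj
      simp only [c2, if_neg hj]; omega
  have hlen : ∀ j, j < K + 1 → c2 j + (N - 1 - c2 (j + 1)) + r2 j * N =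
      c1 j + (N - 1 - c1 (j + 1)) + r1 j * N + 2 * Δ := by
    intro j hj
    have g3 := f3 j hj
    have e : (j + 1) * Δ = j * Δ + Δ := by ring
    by_cases ha : j + 1 ≤ j0
    · have hb : j ≤ j0 := by omega
      have hc : j ≠ j0 := by omega
      have g1 := f1 _ ha
      simp only [c1, c2, r1, r2, if_pos ha, if_pos hb, if_neg hc]
      rw [e] at g1 ⊢
      omega
    · by_cases hb : j ≤ j0
      · have hc : j = j0 := by omega
        have g1 := f1 _ hb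
        have g2 := f2 _ ha
        simp only [c1, c2, r1, r2, if_neg ha, if_pos hb, if_pos hc]
        rw [e] at g2 ⊢
        rw [add_mul r 1 N]
        omega
      · have hc : j ≠ j0 := by omega
        have g2 := f2 _ hb
        simp only [c1, c2, r1, r2, if_neg ha, if_neg hb, if_neg hc]
        rw [e]
        omega
  have hend : ¬ (K + 1 ≤ j0) := by omega
  have hKD : (K + 1) * Δ = D := by rw [hD]; ring
  have c10 : c1 0 = D - 1 := by simp [c1]
  have c20 : c2 0 = D - 1 := by simp [c2]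
  have c1e : N - 1 - c1 (K + 1) = D := by
    simp only [c1, if_neg hend, hKD]; omega
  have c2e : N - 1 - c2 (K + 1) = D := by
    simp only [c2, if_neg hend, hKD]; omega
  have s1 : ∑ j ∈ range (K + 1), r1 j = (K + 1) * r := by simp [r1]
  have s2 : ∑ j ∈ range (K + 1), r2 j = (K + 1) * r + 1 := by
    have : ∀ j, r2 j = r + if j = j0 then 1 else 0 := by
      intro j; simp only [r2]; split_ifs <;> rfl
    rw [Finset.sum_congr rfl fun j _ => this j, Finset.sum_add_distrib, Finset.sum_ite_eq']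
    have : j0 ∈ range (K + 1) := by rw [Finset.mem_range]; omega
    simp [this]
  have p1 := tV_pieces q Y N c1 r1 (fun j => (m1 j).1) K
  have p2 := tV_pieces q Y N c2 r2 (fun j => (m2 j).1) K
  have H : D + (D - 1) = N - 1 := by omega
  rw [c10, c1e, s1, ← tV_pow q Y H] at p1
  rw [c20, c2e, s2, ← tV_pow q Y H] at p2
  have hw : ∀ j, ((r2 j : ℕ) : ℝ) + 2 ≤ 1e-16 * q ^ 4 * N := by
    intro j
    rw [← hx]
    simp only [r2]
    split_ifs <;> push_cast <;> linarith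
  obtain ⟨μ, hμ, hμ1, hμ2, hm⟩ := overlap_list (List.range (K + 1))
    (fun j => tV q Y N (c1 j) (r1 j) (N - 1 - c1 (j + 1)))
    (fun j => tV q Y N (c2 j) (r2 j) (N - 1 - c2 (j + 1)))
    (fun j _ => prob_tV h0 h1 hY _ _ _ _) (fun j _ => prob_tV h0 h1 hY _ _ _ _)
    (fun j hj => by
      refine windows_close h0 h1 hY hJ hNN (r := r) (by rw [← hx]; exact hr2) le_rfl
        (hlen j (List.mem_range.1 hj)) ?_ ?_
      · refine lat_window h0 h1 hY (m1 j).2.1 ((m1 j).1.trans (Nat.sub_le _ _)) (m1 (j + 1)).2.2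
          (by omega) ?_
        rw [← hx]; simp only [r1]; linarith
      · exact lat_window h0 h1 hY (m2 j).2.1 ((m2 j).1.trans (Nat.sub_le _ _)) (m2 (j + 1)).2.2
          (by omega) (hw j))
  rw [p1] at hμ1
  rw [p2] at hμ2
  have e2 : (K + 1) * r + 1 + K + 1 = (K + 1) * r + K + 1 + 1 := by ring
  rw [e2] at hμ2
  rw [List.length_range] at hm
  have hX : Prob (uA q Y ^ (D - 1) * uB q Y * uA q Y ^ D) := ((hA.pow _).mul hB).mul (hA.pow _)
  refine (foguel hX hμ hμ1 hμ2 (by positivity) hm).mono ?_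
  have hle : (K + 1) * r + K + 1 + 1 ≤ (K + 1) * N := by nlinarith
  have hle' : ((((K + 1) * r + K + 1 : ℕ) : ℝ)) + 1 ≤ ((K + 1 : ℕ) : ℝ) * N := by
    exact_mod_cast hle
  rw [one_div, inv_pow, div_inv_eq_mul]
  have h2 : (0 : ℝ) ≤ 2 ^ (K + 1) := by positivity
  refine mul_le_mul_of_nonneg_right ?_ h2
  linarith

end Crest.Agent.R300.LB
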