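import Crest.Agent.R300.LBDefs

/-! Row 300 lower bound: the choice of the parameters of the base pair. -/

set_option autoImplicit false

namespace Crest.Agent.R300.LB

open Finset

theorem LBNumB_core {x q : ℝ} {T J : ℕ} (hx : 100 ≤ x) (hT : (T : ℝ) ≤ x) (hq : 0 < q)
    (hqx : 1 / q ≤ x) (hJ : (2 : ℝ) ^ J ≤ x) (hJ1 : 1 ≤ J) :
    ∃ Δ w W g1 : ℕ, 8e16 ≤ q ^ 4 * (2 * Δ * J) ∧
      ((4 * J * (2 * Δ * J) * 2 ^ J : ℕ) : ℝ) ≤ x ^ 1000 ∧ 14000 * (T : ℝ) ^ 3 ≤ q ^ 2 * w ∧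
      T * (w - 1) ≤ W ∧ 36 * (w : ℝ) ^ 2 * (1 / q ^ 2) ≤ g1 + 1 ∧ T * g1 + W + 1 ≤ Δ * J ∧
      3 * √(108 * (T : ℝ) ^ 3 / (q ^ 2 * (w : ℝ) ^ 3)) ≤ (x ^ 725)⁻¹ := by
  have hx1 : 1 ≤ x := by linarith
  have hx0 : 0 < x := by linarith
  have hp : ∀ m n : ℕ, m ≤ n → x ^ m ≤ x ^ n := fun m n h => pow_le_pow_right₀ hx1 h
  have hc : ∀ n k : ℕ, 100 ^ k * x ^ n ≤ x ^ (n + k) := fun n k => by
    rw [pow_add, mul_comm]
    exact mul_le_mul_of_nonneg_left (pow_le_pow_left₀ (by norm_num) hx k) (by positivity)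
  have h1 : ∀ n : ℕ, 1 ≤ x ^ n := fun n => one_le_pow₀ hx1
  have hqx' : 1 ≤ q * x := by rwa [div_le_iff₀ hq, mul_comm] at hqx
  have hqn : ∀ n : ℕ, 1 ≤ q ^ n * x ^ n := fun n => by rw [← mul_pow]; exact one_le_pow₀ hqx'
  have hJx : (J : ℝ) ≤ x := by
    have : (J : ℝ) ≤ 2 ^ J := by exact_mod_cast (Nat.lt_two_pow_self (n := J)).le
    linarith
  have hJ1' : (1 : ℝ) ≤ J := by exact_mod_cast hJ1
  obtain ⟨Δ, hΔ1, hΔ2⟩ : ∃ Δ : ℕ, (Δ : ℝ) ≤ x ^ 990 ∧ x ^ 989 ≤ Δ := by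
    refine ⟨⌊x ^ 990⌋₊, Nat.floor_le (by positivity), ?_⟩
    have a1 := Nat.lt_floor_add_one (x ^ 990)
    have a2 := hc 989 1
    have a3 := h1 989
    norm_num at a2
    linarith
  have hceil : ∀ n : ℕ, ∃ w : ℕ, x ^ n ≤ w ∧ (w : ℝ) ≤ x ^ (n + 1) := fun n => by
    refine ⟨⌈x ^ n⌉₊, Nat.le_ceil _, ?_⟩
    have a1 := Nat.ceil_lt_add_one (show 0 ≤ x ^ n by positivity)
    have a2 := hc n 1
    have a3 := h1 n
    rw [pow_one] at a2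
    linarith
  obtain ⟨w, hw1, hw2⟩ := hceil 490
  obtain ⟨g1, hg1, hg2⟩ := hceil 985
  have hT0 : (0 : ℝ) ≤ T := Nat.cast_nonneg T
  have hT3 : (T : ℝ) ^ 3 ≤ x ^ 3 := pow_le_pow_left₀ hT0 hT 3
  refine ⟨Δ, w, T * (w - 1), g1, ?_, ?_, ?_, le_rfl, ?_, ?_, ?_⟩
  · have a1 : x ^ 13 ≤ 2 * Δ * J := by
      have := hp 13 989 (by norm_num)
      have b : (Δ : ℝ) * 1 ≤ Δ * J := mul_le_mul_of_nonneg_left hJ1' (Nat.cast_nonneg _)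
      have b' : (0 : ℝ) ≤ Δ := Nat.cast_nonneg _
      linarith
    have a2 : (100 : ℝ) ^ 9 ≤ x ^ 9 := pow_le_pow_left₀ (by norm_num) hx 9
    calc (8e16 : ℝ) ≤ 1 * x ^ 9 := by norm_num at a2 ⊢; linarith
      _ ≤ q ^ 4 * x ^ 4 * x ^ 9 := mul_le_mul_of_nonneg_right (hqn 4) (by positivity)
      _ = q ^ 4 * x ^ 13 := by ring
      _ ≤ _ := mul_le_mul_of_nonneg_left a1 (by positivity)
  · push_cast
    calc 4 * (J : ℝ) * (2 * Δ * J) * 2 ^ J ≤ 4 * x * (2 * x ^ 990 * x) * x := by gcongr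
      _ = 8 * x ^ 993 := by ring
      _ ≤ 100 ^ 1 * x ^ 993 := mul_le_mul_of_nonneg_right (by norm_num) (by positivity)
      _ ≤ x ^ (993 + 1) := hc 993 1
      _ ≤ x ^ 1000 := hp _ _ (by norm_num)
  · calc 14000 * (T : ℝ) ^ 3 ≤ 100 ^ 3 * x ^ 3 := by gcongr; norm_num
      _ ≤ x ^ (3 + 3) := hc 3 3
      _ = 1 * x ^ 6 := by ring
      _ ≤ q ^ 2 * x ^ 2 * x ^ 6 := mul_le_mul_of_nonneg_right (hqn 2) (by positivity)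
      _ = q ^ 2 * x ^ 8 := by ring
      _ ≤ q ^ 2 * w :=
        mul_le_mul_of_nonneg_left ((hp 8 490 (by norm_num)).trans hw1) (by positivity)
  · have a1 : 1 / q ^ 2 ≤ x ^ 2 := by
      rw [div_le_iff₀ (by positivity), mul_comm]; exact hqn 2
    calc 36 * (w : ℝ) ^ 2 * (1 / q ^ 2) ≤ 36 * (x ^ (490 + 1)) ^ 2 * x ^ 2 := by gcongr
      _ = 36 * x ^ 984 := by ring
      _ ≤ 100 ^ 1 * x ^ 984 := mul_le_mul_of_nonneg_right (by norm_num) (by positivity)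
      _ ≤ x ^ (984 + 1) := hc 984 1
      _ ≤ g1 + 1 := hg1.trans (le_add_of_nonneg_right zero_le_one)
  · have a0 : T * (w - 1) ≤ T * w := Nat.mul_le_mul_left _ (Nat.sub_le _ _)
    have a1 : Δ ≤ Δ * J := Nat.le_mul_of_pos_right _ hJ1
    have a2 : T * g1 + T * w + 1 ≤ Δ := by
      have : (T : ℝ) * g1 + T * w + 1 ≤ Δ := by
        have b1 : (T : ℝ) * g1 ≤ x ^ 987 := by
          calc (T : ℝ) * g1 ≤ x * x ^ (985 + 1) := by gcongr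
            _ = x ^ 987 := by ring
        have b2 : (T : ℝ) * w ≤ x ^ 987 := by
          calc (T : ℝ) * w ≤ x * x ^ (490 + 1) := by gcongr
            _ = x ^ 492 := by ring
            _ ≤ x ^ 987 := hp _ _ (by norm_num)
        have b3 := h1 987
        have b4 := hc 987 2
        norm_num at b4
        linarith
      exact_mod_cast this
    omega
  · have hw0 : (0 : ℝ) < w := lt_of_lt_of_le (by positivity) hw1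
    have a1 : 108 * (T : ℝ) ^ 3 / (q ^ 2 * (w : ℝ) ^ 3) ≤ ((3 * x ^ 725)⁻¹) ^ 2 := by
      rw [inv_pow, ← one_div, div_le_div_iff₀ (by positivity) (by positivity), one_mul]
      calc 108 * (T : ℝ) ^ 3 * (3 * x ^ 725) ^ 2 ≤ 108 * x ^ 3 * (3 * x ^ 725) ^ 2 := by gcongr
        _ = 972 * x ^ 1453 := by ring
        _ ≤ 100 ^ 2 * x ^ 1453 := mul_le_mul_of_nonneg_right (by norm_num) (by positivity)
        _ ≤ x ^ (1453 + 2) := hc 1453 2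
        _ = 1 * x ^ 1455 := by ring
        _ ≤ q ^ 2 * x ^ 2 * x ^ 1455 := mul_le_mul_of_nonneg_right (hqn 2) (by positivity)
        _ = q ^ 2 * x ^ 1457 := by ring
        _ ≤ q ^ 2 * x ^ 1470 := mul_le_mul_of_nonneg_left (hp _ _ (by norm_num)) (by positivity)
        _ = q ^ 2 * (x ^ 490) ^ 3 := by ring
        _ ≤ q ^ 2 * (w : ℝ) ^ 3 := by gcongr
    have a2 := Real.sqrt_le_iff.2 ⟨show 0 ≤ (3 * x ^ 725)⁻¹ by positivity, a1⟩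
    calc 3 * √(108 * (T : ℝ) ^ 3 / (q ^ 2 * (w : ℝ) ^ 3)) ≤ 3 * (3 * x ^ 725)⁻¹ := by gcongr
      _ = (x ^ 725)⁻¹ := by field_simp

/-- `J = ⌈3e8/q³⌉`, `Δ = ⌊σ/(8 J² 2^J)⌋`, `N = 2ΔJ ≥ σ/(8 J 2^J)`, `g1 = ⌊N/(8T)⌋`,
`w = ⌊q √g1 / 6⌋`, `W = T (w-1)`.  Since `J ≤ 3e8/q³ + 1`, `log (1/q) ≤ 1/q³` and `1/q³ ≥ 8`, a large
`C0` makes `8 J 2^J ≤ σ^0.01`, `T ≤ σ^0.001`, `1/q ≤ σ^0.001`, so that `N ≥ σ^0.99`,
`w ≥ q √(N/(16T))/12 ≥ σ^0.49`. -/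
theorem base_num : ∃ C0 : ℝ, 0 < C0 ∧ ∀ (q : ℝ) (T σ : ℕ), 0 < q → q ≤ 1 / 2 → 100 ≤ T →
    C0 * (1 / q ^ 3 + Real.log T) ≤ Real.log σ →
    ∃ Δ J w W g1 : ℕ, 3e8 ≤ q ^ 3 * J ∧ 8e16 ≤ q ^ 4 * (2 * Δ * J) ∧
      4 * J * (2 * Δ * J) * 2 ^ J ≤ σ ∧ 14000 * (T : ℝ) ^ 3 ≤ q ^ 2 * w ∧ T * (w - 1) ≤ W ∧
      36 * (w : ℝ) ^ 2 * (1 / q ^ 2) ≤ g1 + 1 ∧ T * g1 + W + 1 ≤ Δ * J ∧
      3 * √(108 * (T : ℝ) ^ 3 / (q ^ 2 * (w : ℝ) ^ 3)) ≤ (σ : ℝ) ^ (-0.725 : ℝ) := by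
  refine ⟨1e12, by norm_num, fun q T σ hq hq2 hT hσ => ?_⟩
  have hT' : (100 : ℝ) ≤ T := by exact_mod_cast hT
  have hlogT : 0 ≤ Real.log T := Real.log_nonneg (by linarith)
  have hq3 : 0 < q ^ 3 := by positivity
  have hq3' : q ^ 3 ≤ q := by nlinarith [sq_nonneg q, mul_pos hq hq]
  have hi : 1 / q ≤ 1 / q ^ 3 := one_div_le_one_div_of_le hq3 hq3'
  have hi1 : 1 ≤ 1 / q := by rw [le_div_iff₀ hq]; linarith
  have hσ0 : (0 : ℝ) < σ := by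
    rcases Nat.eq_zero_or_pos σ with h | h
    · rw [h, Nat.cast_zero, Real.log_zero] at hσ
      linarith
    · exact_mod_cast h
  obtain ⟨L, hL⟩ : ∃ L, L = Real.log σ / 1000 := ⟨_, rfl⟩
  have hL1 : 1e9 * (1 / q ^ 3 + Real.log T) ≤ L := by rw [hL]; linarith
  have hxT : (T : ℝ) ≤ Real.exp L := by
    rw [← Real.exp_log (show (0 : ℝ) < T by linarith)]
    exact Real.exp_le_exp.2 (by linarith)
  have hxq : 1 / q ≤ Real.exp L := by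
    have := Real.add_one_le_exp L
    linarith
  have hJ1 : 3e8 / q ^ 3 ≤ (⌈3e8 / q ^ 3⌉₊ : ℝ) := Nat.le_ceil _
  have hJ2 : (⌈3e8 / q ^ 3⌉₊ : ℝ) < 3e8 / q ^ 3 + 1 := Nat.ceil_lt_add_one (by positivity)
  have hJ3 : 1 ≤ ⌈3e8 / q ^ 3⌉₊ := Nat.ceil_pos.2 (by positivity)
  obtain ⟨J, hJ⟩ : ∃ J, J = ⌈3e8 / q ^ 3⌉₊ := ⟨_, rfl⟩
  rw [← hJ] at hJ1 hJ2 hJ3
  have hxJ : (2 : ℝ) ^ J ≤ Real.exp L := by
    have a1 : (2 : ℝ) ≤ Real.exp 1 := by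
      have := Real.add_one_le_exp 1
      linarith
    have a2 : 3e8 / q ^ 3 = 3e8 * (1 / q ^ 3) := by ring
    calc (2 : ℝ) ^ J ≤ Real.exp 1 ^ J := pow_le_pow_left₀ (by norm_num) a1 J
      _ = Real.exp J := by rw [← Real.exp_nat_mul, mul_one]
      _ ≤ Real.exp L := Real.exp_le_exp.2 (by linarith)
  obtain ⟨Δ, w, W, g1, c1, c2, c3, c4, c5, c6, c7⟩ :=
    LBNumB_core (hT'.trans hxT) hxT hq hxq hxJ hJ3
  have e1 : Real.exp L ^ 1000 = σ := by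
    rw [← Real.exp_nat_mul, hL, ← Real.exp_log hσ0, Real.log_exp]
    congr 1
    push_cast
    ring
  have e2 : (Real.exp L ^ 725)⁻¹ = (σ : ℝ) ^ (-0.725 : ℝ) := by
    rw [← Real.exp_nat_mul, ← Real.exp_neg, Real.rpow_def_of_pos hσ0, hL]
    congr 1
    push_cast
    ring
  refine ⟨Δ, J, w, W, g1, ?_, c1, ?_, c3, c4, c5, c6, e2 ▸ c7⟩
  · rwa [div_le_iff₀ hq3, mul_comm] at hJ1
  · rw [e1] at c2
    exact_mod_cast c2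

end Crest.Agent.R300.LB
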