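import Crest.Agent.R300.LBBaseA
import Crest.Agent.R300.LBLatD
import Crest.Agent.R300.LBNumB

/-! Row 300 lower bound: the base of the hierarchy. -/

set_option autoImplicit false

namespace Crest.Agent.R300.LB

open Finset

variable {M : Type*} [Monoid M]

theorem pair_ne (y y' : ℕ) (hy' : 1 ≤ y') :
    (FreeMonoid.of false * FreeMonoid.of true) ^ y * FreeMonoid.of true *
      (FreeMonoid.of false * FreeMonoid.of true) ^ y' ≠
    (FreeMonoid.of false * FreeMonoid.of true) ^ (y + 1) * FreeMonoid.of true *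
      (FreeMonoid.of false * FreeMonoid.of true) ^ (y' - 1) := by
  intro h
  rw [pow_succ, mul_assoc, mul_assoc, mul_assoc, mul_assoc] at h
  have h2 := mul_left_cancel h
  have h3 := congrArg (fun w => (FreeMonoid.toList w).head?) h2
  simp at h3

theorem pair_length (y y' : ℕ) :
    ((FreeMonoid.of false * FreeMonoid.of true) ^ y * FreeMonoid.of true *
      (FreeMonoid.of false * FreeMonoid.of true) ^ y').length = 2 * (y + y') + 1 := by
  have key : ∀ n : ℕ, ((FreeMonoid.of false * FreeMonoid.of true) ^ n).length = 2 * n := by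
    intro n
    induction n with
    | zero => simp
    | succ n ih => rw [pow_succ, FreeMonoid.length_mul, ih]; simp; omega
  rw [FreeMonoid.length_mul, FreeMonoid.length_mul, key, key]; simp; omega

theorem base : ∃ C0 : ℝ, 0 < C0 ∧ ∀ (q : ℝ) (T σ : ℕ), 0 < q → q ≤ 1 / 2 → 100 ≤ T →
    C0 * (1 / q ^ 3 + Real.log T) ≤ Real.log σ → ∀ Y : Bool → Alg M, (∀ b, Prob (Y b)) →
    ∃ (a b : FreeMonoid Bool) (d : Alg M), a ≠ b ∧ a.length = b.length ∧ a.length ≤ σ ∧
      Slip (chan q Y a) σ ∧ mass d = 0 ∧ Bd (2 * T) (chan q Y a) d ((σ : ℝ) ^ (-0.725 : ℝ)) ∧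
      ‖chan q Y b - chan q Y a - d‖ ≤ Real.exp (-(T : ℝ) / 4) := by
  obtain ⟨C0, hC0, H⟩ := base_num
  refine ⟨C0, hC0, fun q T σ h0 h1 hT hσ Y hY => ?_⟩
  obtain ⟨Δ, J, w, W, g1, hJ, hN, hσ', hw, hW, hg1, hy, hβ⟩ := H q T σ h0 h1 hT hσ
  have hy1 : 1 ≤ Δ * J := by omega
  have hJ1 : 1 ≤ J := by
    rcases Nat.eq_zero_or_pos J with h | h
    · subst h; simp at hy1
    · exact h
  obtain ⟨d, hd0, hd, herr⟩ := base_an h0 h1 hY (y := Δ * J - 1) (y' := Δ * J) hT hw hW hg1
    (by omega) hy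
  refine ⟨(FreeMonoid.of false * FreeMonoid.of true) ^ (Δ * J - 1) * FreeMonoid.of true *
      (FreeMonoid.of false * FreeMonoid.of true) ^ (Δ * J),
    (FreeMonoid.of false * FreeMonoid.of true) ^ (Δ * J - 1 + 1) * FreeMonoid.of true *
      (FreeMonoid.of false * FreeMonoid.of true) ^ (Δ * J - 1), d, pair_ne _ _ hy1, ?_, ?_, ?_,
    hd0, ?_, ?_⟩
  · rw [pair_length, pair_length]; omega
  · rw [pair_length]
    have h2 : 1 ≤ 2 ^ J := Nat.one_le_two_pow
    have h3 : 4 * 1 * (2 * Δ * J) * 1 ≤ 4 * J * (2 * Δ * J) * 2 ^ J := by gcongr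
    have h4 : 2 * Δ * J = 2 * (Δ * J) := by ring
    omega
  · rw [chan_pair]
    refine (lat_slip h0 h1 hY hJ hN).mono ?_
    exact_mod_cast hσ'
  · rw [chan_pair]; exact hd.mono hβ
  · rw [chan_pair, chan_pair]; exact herr

end Crest.Agent.R300.LB
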