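import Crest.Agent.R300.LB1

/-! Row 300 lower bound: the weighted ℓ² geometry of formal words. -/

set_option autoImplicit false

namespace Crest.Agent.R300.LB

open Finset

variable {ι : Type*}

theorem wt_of (ω : Option ι → ℝ) (l : Option ι) : wt ω (FreeMonoid.of l) = ω l := by
  simp [wt]

theorem wt_nonneg {ω : Option ι → ℝ} (hω : ∀ l, 0 ≤ ω l) (w : FreeMonoid (Option ι)) :
    0 ≤ wt ω w := by
  induction w using FreeMonoid.inductionOn' with
  | one => simp
  | of_mul l w ih => rw [map_mul, wt_of]; exact mul_nonneg (hω l) ih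

theorem wt1_nonneg {ω : ι → ℝ} (hω : ∀ a, 0 ≤ ω a) (l : Option ι) : 0 ≤ wt1 ω l := by
  cases l with
  | none => exact zero_le_one
  | some a => exact hω a

theorem ip_eq_sum (ω : Option ι → ℝ) (F G : Wd ι) {s : Finset (FreeMonoid (Option ι))}
    (hs : F.coeff.support ⊆ s) :
    ip ω F G = ∑ w ∈ s, wt ω w * (F.coeff w * G.coeff w) := by
  refine Finset.sum_subset hs fun w _ hw => ?_
  rw [Finsupp.notMem_support_iff.1 hw, zero_mul, mul_zero]

theorem ip_comm (ω : Option ι → ℝ) (F G : Wd ι) : ip ω F G = ip ω G F := by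
  classical
  rw [ip_eq_sum ω F G (Finset.subset_union_left (s₂ := G.coeff.support)),
    ip_eq_sum ω G F (Finset.subset_union_right (s₁ := F.coeff.support))]
  simp only [mul_comm]

theorem ip_zero_left (ω : Option ι → ℝ) (G : Wd ι) : ip ω 0 G = 0 := by
  simp [ip]

theorem ip_zero_right (ω : Option ι → ℝ) (F : Wd ι) : ip ω F 0 = 0 := by
  simp [ip]

theorem ip_add_left (ω : Option ι → ℝ) (F F' G : Wd ι) :
    ip ω (F + F') G = ip ω F G + ip ω F' G := by
  simp only [ip_comm ω _ G]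
  simp [ip, mul_add, Finset.sum_add_distrib]

theorem ip_add_right (ω : Option ι → ℝ) (F G G' : Wd ι) :
    ip ω F (G + G') = ip ω F G + ip ω F G' := by
  simp [ip, mul_add, Finset.sum_add_distrib]

theorem ip_sub_left (ω : Option ι → ℝ) (F F' G : Wd ι) :
    ip ω (F - F') G = ip ω F G - ip ω F' G := by
  simp only [ip_comm ω _ G]
  simp [ip, mul_sub, Finset.sum_sub_distrib]

theorem ip_sub_right (ω : Option ι → ℝ) (F G G' : Wd ι) :
    ip ω F (G - G') = ip ω F G - ip ω F G' := by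
  simp [ip, mul_sub, Finset.sum_sub_distrib]

theorem ip_smul_left (ω : Option ι → ℝ) (c : ℝ) (F G : Wd ι) :
    ip ω (c • F) G = c * ip ω F G := by
  simp only [ip_comm ω _ G]
  simp [ip, Finset.mul_sum, mul_left_comm]

theorem ip_smul_right (ω : Option ι → ℝ) (c : ℝ) (F G : Wd ι) :
    ip ω F (c • G) = c * ip ω F G := by
  simp [ip, Finset.mul_sum, mul_left_comm]

theorem ip_sum_left (ω : Option ι → ℝ) {κ : Type*} (s : Finset κ) (F : κ → Wd ι) (G : Wd ι) :
    ip ω (∑ i ∈ s, F i) G = ∑ i ∈ s, ip ω (F i) G := by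
  classical
  induction s using Finset.induction_on with
  | empty => simp [ip_zero_left]
  | insert i s hi ih => rw [Finset.sum_insert hi, Finset.sum_insert hi, ip_add_left, ih]

theorem ip_sum_right (ω : Option ι → ℝ) {κ : Type*} (s : Finset κ) (F : Wd ι) (G : κ → Wd ι) :
    ip ω F (∑ i ∈ s, G i) = ∑ i ∈ s, ip ω F (G i) := by
  simp only [ip_comm ω F, ip_sum_left]

theorem ip_single (ω : Option ι → ℝ) (w w' : FreeMonoid (Option ι)) (a b : ℝ) [Decidable (w = w')] :
    ip ω (MonoidAlgebra.single w a) (MonoidAlgebra.single w' b) =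
      if w = w' then wt ω w * (a * b) else 0 := by
  rw [ip_eq_sum ω (MonoidAlgebra.single w a) _ (s := {w}) Finsupp.support_single_subset,
    Finset.sum_singleton]
  split_ifs with h
  · simp [h]
  · simp [Finsupp.single_eq_of_ne h]

theorem ip_self_nonneg {ω : Option ι → ℝ} (hω : ∀ l, 0 ≤ ω l) (F : Wd ι) : 0 ≤ ip ω F F := by
  exact Finset.sum_nonneg fun w _ => mul_nonneg (wt_nonneg hω w) (mul_self_nonneg _)

theorem nrm_nonneg (ω : Option ι → ℝ) (F : Wd ι) : 0 ≤ nrm ω F := Real.sqrt_nonneg _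

theorem nrm_sq {ω : Option ι → ℝ} (hω : ∀ l, 0 ≤ ω l) (F : Wd ι) : nrm ω F ^ 2 = ip ω F F := by
  exact Real.sq_sqrt (ip_self_nonneg hω F)

theorem nrm_zero (ω : Option ι → ℝ) : nrm ω (0 : Wd ι) = 0 := by
  simp [nrm, ip_zero_left]

theorem nrm_one (ω : Option ι → ℝ) : nrm ω (1 : Wd ι) = 1 := by
  classical
  simp [nrm, MonoidAlgebra.one_def, ip_single]

/-- Cauchy-Schwarz -/
theorem abs_ip_le {ω : Option ι → ℝ} (hω : ∀ l, 0 ≤ ω l) (F G : Wd ι) :
    |ip ω F G| ≤ nrm ω F * nrm ω G := by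
  have := discrim_le_zero (a := ip ω F F) (b := 2 * ip ω F G) (c := ip ω G G) fun t => by
    have := ip_self_nonneg hω (t • F + G)
    simp only [ip_add_left, ip_add_right, ip_smul_left, ip_smul_right, ip_comm ω G F] at this
    linarith
  rw [nrm, nrm, ← Real.sqrt_mul (ip_self_nonneg hω F)]
  refine Real.abs_le_sqrt ?_
  unfold discrim at this
  linarith

theorem nrm_add_le {ω : Option ι → ℝ} (hω : ∀ l, 0 ≤ ω l) (F G : Wd ι) :
    nrm ω (F + G) ≤ nrm ω F + nrm ω G := by
  refine Real.sqrt_le_iff.2 ⟨add_nonneg (nrm_nonneg _ _) (nrm_nonneg _ _), ?_⟩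
  simp only [ip_add_left, ip_add_right, ip_comm ω G F, add_sq, nrm_sq hω]
  linarith [(le_abs_self _).trans (abs_ip_le hω F G)]

theorem nrm_smul (ω : Option ι → ℝ) (c : ℝ) (F : Wd ι) : nrm ω (c • F) = |c| * nrm ω F := by
  rw [nrm, nrm, ip_smul_left, ip_smul_right, ← mul_assoc, Real.sqrt_mul (mul_self_nonneg c),
    Real.sqrt_mul_self_eq_abs]

theorem nrm_neg (ω : Option ι → ℝ) (F : Wd ι) : nrm ω (-F) = nrm ω F := by
  simpa using nrm_smul ω (-1) F

theorem nrm_sub_le {ω : Option ι → ℝ} (hω : ∀ l, 0 ≤ ω l) (F G : Wd ι) :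
    nrm ω (F - G) ≤ nrm ω F + nrm ω G := by
  simpa [sub_eq_add_neg, nrm_neg] using nrm_add_le hω F (-G)

theorem nrm_sum_le {ω : Option ι → ℝ} (hω : ∀ l, 0 ≤ ω l) {κ : Type*} (s : Finset κ)
    (F : κ → Wd ι) : nrm ω (∑ i ∈ s, F i) ≤ ∑ i ∈ s, nrm ω (F i) := by
  classical
  induction s using Finset.induction_on with
  | empty => simp [nrm_zero]
  | insert i s hi ih =>
    rw [Finset.sum_insert hi, Finset.sum_insert hi]
    exact (nrm_add_le hω _ _).trans (by linarith)

/-- Pythagoras -/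
theorem nrm_sum_orth {ω : Option ι → ℝ} (hω : ∀ l, 0 ≤ ω l) {κ : Type*} (s : Finset κ)
    (c : κ → ℝ) (F : κ → Wd ι) (h : ∀ i ∈ s, ∀ j ∈ s, i ≠ j → ip ω (F i) (F j) = 0) :
    nrm ω (∑ i ∈ s, c i • F i) ^ 2 = ∑ i ∈ s, c i ^ 2 * nrm ω (F i) ^ 2 := by
  simp only [nrm_sq hω, ip_sum_left, ip_sum_right, ip_smul_left, ip_smul_right]
  refine Finset.sum_congr rfl fun i hi => ?_
  rw [Finset.sum_eq_single_of_mem i hi fun j hj hji => by simp [h j hj i hi hji]]
  ring

theorem ip_eq_zero_of_disjoint (ω : Option ι → ℝ) {P Q : List (Option ι) → Prop} {F G : Wd ι}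
    (hF : Supp P F) (hG : Supp Q G) (h : ∀ l, P l → Q l → False) : ip ω F G = 0 := by
  refine Finset.sum_eq_zero fun w hw => ?_
  by_cases h' : G.coeff w = 0
  · simp [h']
  · exact (h _ (hF w (Finsupp.mem_support_iff.1 hw)) (hG w h')).elim

theorem Supp.mono {P Q : List (Option ι) → Prop} {F : Wd ι} (hF : Supp P F)
    (h : ∀ l, P l → Q l) : Supp Q F := by
  exact fun w hw => h _ (hF w hw)

theorem Supp.and {P Q : List (Option ι) → Prop} {F : Wd ι} (hF : Supp P F) (hG : Supp Q F) :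
    Supp (fun l => P l ∧ Q l) F := by
  exact fun w hw => ⟨hF w hw, hG w hw⟩

theorem supp_true (F : Wd ι) : Supp (fun _ => True) F := fun _ _ => trivial

theorem supp_zero (P : List (Option ι) → Prop) : Supp P (0 : Wd ι) := by
  exact fun w hw => (hw rfl).elim

theorem LBF_supp_single {P : List (Option ι) → Prop} {w : FreeMonoid (Option ι)} (a : ℝ)
    (h : P (FreeMonoid.toList w)) : Supp P (MonoidAlgebra.single w a) := fun v hv => by
  by_cases e : v = w
  · rwa [e]
  · exact (hv (Finsupp.single_eq_of_ne e)).elim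

theorem supp_one {P : List (Option ι) → Prop} (h : P []) : Supp P (1 : Wd ι) := by
  exact LBF_supp_single (w := 1) 1 h

theorem supp_oo {P : List (Option ι) → Prop} (h : P [none]) : Supp P (oo : Wd ι) := by
  exact LBF_supp_single 1 h

theorem supp_LL {P : List (Option ι) → Prop} {a : ι} (h : P [some a]) : Supp P (LL a) := by
  exact LBF_supp_single 1 h

theorem Supp.add {P : List (Option ι) → Prop} {F G : Wd ι} (hF : Supp P F) (hG : Supp P G) :
    Supp P (F + G) := by
  intro w hw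
  by_cases h : F.coeff w = 0
  · exact hG w (by simpa [h] using hw)
  · exact hF w h

theorem Supp.sub {P : List (Option ι) → Prop} {F G : Wd ι} (hF : Supp P F) (hG : Supp P G) :
    Supp P (F - G) := by
  intro w hw
  by_cases h : F.coeff w = 0
  · exact hG w (by simpa [h] using hw)
  · exact hF w h

theorem Supp.smul {P : List (Option ι) → Prop} {F : Wd ι} (hF : Supp P F) (c : ℝ) :
    Supp P (c • F) := by
  exact fun w hw => hF w fun h => hw (by simp [h])

theorem Supp.sum {P : List (Option ι) → Prop} {κ : Type*} (s : Finset κ) (F : κ → Wd ι)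
    (h : ∀ i ∈ s, Supp P (F i)) : Supp P (∑ i ∈ s, F i) := by
  intro w hw
  rw [MonoidAlgebra.coeff_sum, Finsupp.finsetSum_apply] at hw
  obtain ⟨i, hi, e⟩ := Finset.exists_ne_zero_of_sum_ne_zero hw
  exact h i hi w e

theorem Supp.mul {P Q S : List (Option ι) → Prop} {F G : Wd ι} (hF : Supp P F) (hG : Supp Q G)
    (h : ∀ l l', P l → Q l' → S (l ++ l')) : Supp S (F * G) := by
  classical
  intro w hw
  obtain ⟨u, hu, v, hv, rfl⟩ := Finset.mem_mul.1
    (MonoidAlgebra.support_coeff_mul_subset F G (Finsupp.mem_support_iff.2 hw))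
  exact h _ _ (hF u (Finsupp.mem_support_iff.1 hu)) (hG v (Finsupp.mem_support_iff.1 hv))

theorem Supp.pow {P : List (Option ι) → Prop} {F : Wd ι} (hF : Supp P F) (h0 : P [])
    (h : ∀ l l', P l → P l' → P (l ++ l')) (n : ℕ) : Supp P (F ^ n) := by
  induction n with
  | zero => rw [pow_zero]; exact supp_one h0
  | succ n ih => rw [pow_succ]; exact ih.mul hF h

/-- removing the coefficient of one word -/
theorem Supp.sub_single {P : List (Option ι) → Prop} {F : Wd ι} (hF : Supp P F)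
    (w : FreeMonoid (Option ι)) :
    Supp (fun l => P l ∧ l ≠ FreeMonoid.toList w) (F - MonoidAlgebra.single w (F.coeff w)) := by
  intro v hv
  have e : v ≠ w := by
    rintro rfl
    simp at hv
  exact ⟨hF v (by simpa [Finsupp.single_eq_of_ne e] using hv), FreeMonoid.toList.injective.ne e⟩

theorem oo_pow (n : ℕ) :
    (oo : Wd ι) ^ n = MonoidAlgebra.single (FreeMonoid.ofList (List.replicate n none)) 1 := by
  induction n with
  | zero => rfl
  | succ n ih => rw [pow_succ', ih, oo, MonoidAlgebra.single_mul_single, one_mul]; rfl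

theorem hom_zero (n : ℕ) : Hom n (0 : Wd ι) := supp_zero _

theorem hom_one : Hom 0 (1 : Wd ι) := supp_one rfl

theorem hom_oo : Hom 1 (oo : Wd ι) := supp_oo rfl

theorem hom_LL (a : ι) : Hom 1 (LL a) := supp_LL rfl

theorem Hom.mul {m n : ℕ} {F G : Wd ι} (hF : Hom m F) (hG : Hom n G) : Hom (m + n) (F * G) := by
  exact Supp.mul hF hG fun l l' h h' => by rw [List.length_append, h, h']

theorem Hom.pow {m : ℕ} {F : Wd ι} (hF : Hom m F) (n : ℕ) : Hom (m * n) (F ^ n) := by
  induction n with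
  | zero => rw [pow_zero]; exact hom_one
  | succ n ih => rw [pow_succ]; exact ih.mul hF

theorem hom_oo_pow (n : ℕ) : Hom n ((oo : Wd ι) ^ n) := by
  simpa using (hom_oo (ι := ι)).pow n

theorem Hom.add {n : ℕ} {F G : Wd ι} (hF : Hom n F) (hG : Hom n G) : Hom n (F + G) :=
  Supp.add hF hG

theorem Hom.sub {n : ℕ} {F G : Wd ι} (hF : Hom n F) (hG : Hom n G) : Hom n (F - G) :=
  Supp.sub hF hG

theorem Hom.smul {n : ℕ} {F : Wd ι} (hF : Hom n F) (c : ℝ) : Hom n (c • F) := Supp.smul hF c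

theorem Hom.sum {n : ℕ} {κ : Type*} (s : Finset κ) (F : κ → Wd ι) (h : ∀ i ∈ s, Hom n (F i)) :
    Hom n (∑ i ∈ s, F i) := Supp.sum s F h

theorem LBF_ip_mul (ω : Option ι → ℝ) {F F' G G' : Wd ι}
    (h : ∀ u v u' v', F.coeff u ≠ 0 → G.coeff v ≠ 0 → F'.coeff u' ≠ 0 → G'.coeff v' ≠ 0 →
      u * v = u' * v' → u = u' ∧ v = v') :
    ip ω (F * G) (F' * G') = ip ω F F' * ip ω G G' := by
  classical
  have e : ∀ H : Wd ι, ∑ w ∈ H.coeff.support, MonoidAlgebra.single w (H.coeff w) = H :=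
    MonoidAlgebra.sum_coeff_single
  rw [← e F, ← e G, Finset.sum_mul_sum, ip_sum_left, ip_sum_left, ip_sum_left, Finset.sum_mul_sum]
  refine Finset.sum_congr rfl fun u hu => ?_
  rw [ip_sum_left]
  refine Finset.sum_congr rfl fun v hv => ?_
  rw [← e F', ← e G', Finset.sum_mul_sum, ip_sum_right, ip_sum_right, ip_sum_right,
    Finset.sum_mul_sum]
  refine Finset.sum_congr rfl fun u' hu' => ?_
  rw [ip_sum_right]
  refine Finset.sum_congr rfl fun v' hv' => ?_
  simp only [MonoidAlgebra.single_mul_single, ip_single]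
  rw [Finsupp.mem_support_iff] at hu hv hu' hv'
  by_cases c : u * v = u' * v'
  · obtain ⟨rfl, rfl⟩ := h u v u' v' hu hv hu' hv' c
    simp only [if_true, map_mul]
    ring
  · rw [if_neg c]
    split_ifs with c1 c2
    · exact (c (by rw [c1, c2])).elim
    all_goals simp

/-- multiplicativity when the left factors live on a prefix free set of words (reduce to
single words by bilinearity: write each factor as the sum over its support) -/
theorem ip_mul_of_prefixFree (ω : Option ι → ℝ) {P : List (Option ι) → Prop}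
    (hP : ∀ l l' x x', P l → P l' → l ++ x = l' ++ x' → l = l') {F F' : Wd ι} (hF : Supp P F)
    (hF' : Supp P F') (G G' : Wd ι) : ip ω (F * G) (F' * G') = ip ω F F' * ip ω G G' := by
  refine LBF_ip_mul ω fun u v u' v' hu _ hu' _ e => ?_
  have := FreeMonoid.toList.injective
    (hP _ _ _ _ (hF u hu) (hF' u' hu') (congrArg FreeMonoid.toList e))
  exact ⟨this, mul_left_cancel (this ▸ e)⟩

theorem ip_mul_of_suffixFree (ω : Option ι → ℝ) {P : List (Option ι) → Prop}
    (hP : ∀ l l' x x', P l → P l' → x ++ l = x' ++ l' → l = l') (F F' : Wd ι) {G G' : Wd ι}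
    (hG : Supp P G) (hG' : Supp P G') : ip ω (F * G) (F' * G') = ip ω F F' * ip ω G G' := by
  refine LBF_ip_mul ω fun u v u' v' _ hv _ hv' e => ?_
  have := FreeMonoid.toList.injective
    (hP _ _ _ _ (hG v hv) (hG' v' hv') (congrArg FreeMonoid.toList e))
  exact ⟨mul_right_cancel (this ▸ e), this⟩

theorem ip_mul_hom_left (ω : Option ι → ℝ) {n : ℕ} {F F' : Wd ι} (hF : Hom n F) (hF' : Hom n F')
    (G G' : Wd ι) : ip ω (F * G) (F' * G') = ip ω F F' * ip ω G G' := by
  exact ip_mul_of_prefixFree ω (fun l l' x x' h h' e => List.append_inj_left e (h.trans h'.symm))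
    hF hF' G G'

theorem ip_mul_hom_right (ω : Option ι → ℝ) {n : ℕ} (F F' : Wd ι) {G G' : Wd ι} (hG : Hom n G)
    (hG' : Hom n G') : ip ω (F * G) (F' * G') = ip ω F F' * ip ω G G' := by
  exact ip_mul_of_suffixFree ω (fun l l' x x' h h' e => List.append_inj_right' e (h.trans h'.symm))
    F F' hG hG'

theorem nrm_mul_hom_left {ω : Option ι → ℝ} (hω : ∀ l, 0 ≤ ω l) {n : ℕ} {F : Wd ι} (hF : Hom n F)
    (G : Wd ι) : nrm ω (F * G) = nrm ω F * nrm ω G := by
  rw [nrm, ip_mul_hom_left ω hF hF, Real.sqrt_mul (ip_self_nonneg hω F), nrm, nrm]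

theorem nrm_mul_hom_right {ω : Option ι → ℝ} (hω : ∀ l, 0 ≤ ω l) {n : ℕ} (F : Wd ι) {G : Wd ι}
    (hG : Hom n G) : nrm ω (F * G) = nrm ω F * nrm ω G := by
  rw [nrm, ip_mul_hom_right ω F F hG hG, Real.sqrt_mul (ip_self_nonneg hω F), nrm, nrm]

theorem nrm_pow_hom {ω : Option ι → ℝ} (hω : ∀ l, 0 ≤ ω l) {n : ℕ} {F : Wd ι} (hF : Hom n F)
    (k : ℕ) : nrm ω (F ^ k) = nrm ω F ^ k := by
  induction k with
  | zero => rw [pow_zero, pow_zero, nrm_one]
  | succ k ih => rw [pow_succ, pow_succ, nrm_mul_hom_right hω _ hF, ih]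

theorem ip_oo_oo (ω : Option ι → ℝ) : ip ω (oo : Wd ι) oo = ω none := by
  classical
  simp [oo, ip_single, wt_of]

theorem ip_LL_LL (ω : Option ι → ℝ) (a : ι) : ip ω (LL a) (LL a) = ω (some a) := by
  classical
  simp [LL, ip_single, wt_of]

theorem ip_oo_LL (ω : Option ι → ℝ) (a : ι) : ip ω oo (LL a) = 0 := by
  classical
  rw [oo, LL, ip_single, if_neg fun e => by simpa using FreeMonoid.of_injective e]

theorem ip_LL_LL_ne (ω : Option ι → ℝ) {a b : ι} (h : a ≠ b) : ip ω (LL a) (LL b) = 0 := by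
  classical
  rw [LL, LL, ip_single, if_neg fun e => h (by simpa using FreeMonoid.of_injective e)]

theorem nrm_oo_pow (ω : ι → ℝ) (n : ℕ) : nrm (wt1 ω) ((oo : Wd ι) ^ n) = 1 := by
  have : ip (wt1 ω) ((oo : Wd ι) ^ n) (oo ^ n) = 1 := by
    induction n with
    | zero => classical simp [MonoidAlgebra.one_def, ip_single]
    | succ n ih => rw [pow_succ', ip_mul_hom_left _ hom_oo hom_oo, ih, ip_oo_oo, mul_one]; rfl
  rw [nrm, this, Real.sqrt_one]

theorem ev_oo {M : Type*} [Monoid M] (R : Alg M) (ξ : ι → Alg M) : ev R ξ oo = R := by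
  simp [ev, oo]

theorem ev_LL {M : Type*} [Monoid M] (R : Alg M) (ξ : ι → Alg M) (a : ι) :
    ev R ξ (LL a) = ξ a := by
  simp [ev, LL]

/-- words containing a defect letter evaluate to mass zero -/
theorem mass_ev_eq_zero {M : Type*} [Monoid M] (R : Alg M) {ξ : ι → Alg M}
    (hξ : ∀ a, mass (ξ a) = 0) {F : Wd ι} (hF : Supp (fun l => ∃ a, some a ∈ l) F) :
    mass (ev R ξ F) = 0 := by
  rw [ev, MonoidAlgebra.lift_apply, Finsupp.sum, map_sum]
  refine Finset.sum_eq_zero fun w hw => ?_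
  obtain ⟨a, ha⟩ := hF w (Finsupp.mem_support_iff.1 hw)
  obtain ⟨s, t, e⟩ := List.append_of_mem ha
  have : w = FreeMonoid.ofList s * FreeMonoid.of (some a) * FreeMonoid.ofList t :=
    FreeMonoid.toList.injective (by simpa using e)
  rw [map_smul, this]
  simp [hξ]

end Crest.Agent.R300.LB
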