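import Crest.Agent.R300.LBMart
import Crest.Agent.R300.LBForm

/-! Row 300 lower bound: the chaos lemma and the sum over lengths. -/

set_option autoImplicit false

namespace Crest.Agent.R300.LB

open Finset

variable {ι M : Type*} [Monoid M]

theorem chaos_hom_single {n : ℕ} (w : FreeMonoid (Option ι)) (c : ℝ)
    (hw : (FreeMonoid.toList w).length = n) : Hom n (MonoidAlgebra.single w c : Wd ι) := by
  classical
  intro v hv
  rw [MonoidAlgebra.coeff_single, Finsupp.single_apply] at hv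
  by_cases h : w = v
  · subst h; exact hw
  · simp [h] at hv

/-- first letter decomposition of a homogeneous element of positive degree -/
theorem hom_succ_decomp {n : ℕ} {F : Wd ι} (hF : Hom (n + 1) F) :
    ∃ (F0 : Wd ι) (s : Finset ι) (G : ι → Wd ι), Hom n F0 ∧ (∀ a, Hom n (G a)) ∧
      F = oo * F0 + ∑ a ∈ s, LL a * G a := by
  classical
  rw [mart_eq_sum F (Finset.Subset.refl _)]
  refine Finset.sum_induction _
    (fun X : Wd ι => ∃ (F0 : Wd ι) (s : Finset ι) (G : ι → Wd ι), Hom n F0 ∧ (∀ a, Hom n (G a)) ∧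
      X = oo * F0 + ∑ a ∈ s, LL a * G a) ?_ ?_ ?_
  · rintro X Y ⟨F0, s, G, h0, hG, rfl⟩ ⟨F0', s', G', h0', hG', rfl⟩
    refine ⟨F0 + F0', s ∪ s',
      fun a => (if a ∈ s then G a else 0) + (if a ∈ s' then G' a else 0), h0.add h0',
      fun a => Hom.add ?_ ?_, ?_⟩
    · split_ifs
      · exact hG a
      · exact hom_zero n
    · split_ifs
      · exact hG' a
      · exact hom_zero n
    · simp only [mul_add, Finset.sum_add_distrib, mul_ite, mul_zero, Finset.sum_ite_mem,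
        Finset.union_inter_cancel_left, Finset.union_inter_cancel_right]
      abel
  · exact ⟨0, ∅, fun _ => 0, hom_zero n, fun _ => hom_zero n, by simp⟩
  · intro w hw
    have hlen : (FreeMonoid.toList w).length = n + 1 := hF w (Finsupp.mem_support_iff.1 hw)
    generalize F.coeff w = c
    clear hw
    obtain ⟨l, rfl⟩ : ∃ l, FreeMonoid.ofList l = w := ⟨FreeMonoid.toList w, rfl⟩
    rw [FreeMonoid.toList_ofList] at hlen
    cases l with
    | nil => simp at hlen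
    | cons x t =>
      have ht : (FreeMonoid.toList (FreeMonoid.ofList t)).length = n := by
        rw [FreeMonoid.toList_ofList]; simpa using hlen
      cases x with
      | none =>
        refine ⟨MonoidAlgebra.single (FreeMonoid.ofList t) c, ∅, fun _ => 0,
          chaos_hom_single _ _ ht, fun _ => hom_zero n, ?_⟩
        rw [Finset.sum_empty, add_zero, oo, MonoidAlgebra.single_mul_single, one_mul,
          FreeMonoid.ofList_cons]
      | some a =>
        refine ⟨0, {a}, fun _ => MonoidAlgebra.single (FreeMonoid.ofList t) c, hom_zero n,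
          fun _ => chaos_hom_single _ _ ht, ?_⟩
        rw [Finset.sum_singleton, mul_zero, zero_add, LL, MonoidAlgebra.single_mul_single, one_mul,
          FreeMonoid.ofList_cons]

theorem chaos_hom_zero {F : Wd ι} (hF : Hom 0 F) : F = F.coeff 1 • (1 : Wd ι) := by
  classical
  have hs : F.coeff.support ⊆ {1} := by
    intro w hw
    have h : (FreeMonoid.toList w).length = 0 := hF w (Finsupp.mem_support_iff.1 hw)
    rw [List.length_eq_zero_iff] at h
    rw [Finset.mem_singleton]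
    exact FreeMonoid.toList.injective (by rw [h]; rfl)
  conv_lhs => rw [mart_eq_sum F hs]
  rw [Finset.sum_singleton, MonoidAlgebra.one_def, MonoidAlgebra.smul_single, smul_eq_mul, mul_one]

theorem chaos_ip_decomp (ω : ι → ℝ) (F0 : Wd ι) (s : Finset ι) (G : ι → Wd ι) :
    ip (wt1 ω) (oo * F0 + ∑ a ∈ s, LL a * G a) (oo * F0 + ∑ a ∈ s, LL a * G a) =
      ip (wt1 ω) F0 F0 + ∑ a ∈ s, ω a * ip (wt1 ω) (G a) (G a) := by
  classical
  have h1 : ip (wt1 ω) (oo * F0) (oo * F0) = ip (wt1 ω) F0 F0 := by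
    rw [ip_mul_hom_left _ hom_oo hom_oo, ip_oo_oo]; simp [wt1]
  have h2 : ip (wt1 ω) (oo * F0) (∑ a ∈ s, LL a * G a) = 0 := by
    rw [ip_sum_right]
    refine Finset.sum_eq_zero fun a _ => ?_
    rw [ip_mul_hom_left _ hom_oo (hom_LL a), ip_oo_LL, zero_mul]
  have h3 : ip (wt1 ω) (∑ a ∈ s, LL a * G a) (∑ a ∈ s, LL a * G a) =
      ∑ a ∈ s, ω a * ip (wt1 ω) (G a) (G a) := by
    rw [ip_sum_left]
    refine Finset.sum_congr rfl fun a ha => ?_
    rw [ip_sum_right, Finset.sum_eq_single a]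
    · rw [ip_mul_hom_left _ (hom_LL a) (hom_LL a), ip_LL_LL]; simp [wt1]
    · intro b _ hb
      rw [ip_mul_hom_left _ (hom_LL a) (hom_LL b), ip_LL_LL_ne _ (Ne.symm hb), zero_mul]
    · intro h; exact absurd ha h
  rw [ip_add_left, ip_add_right, ip_add_right, h1, h2, ip_comm _ _ (oo * F0), h2, h3]
  ring

theorem chaos_wt_nonneg {p : ℕ} {ω : ι → ℝ} (hω : ∀ a, 0 ≤ ω a) (l : Option ι) :
    0 ≤ wt1 (fun a => 3 * p * ω a) l :=
  wt1_nonneg (fun a => by have := hω a; positivity) l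

/-- The chaos lemma.  Induction on `n` (for all `F`) with `hom_succ_decomp` and `bd_step`;
`nrm F ^ 2 = nrm F0 ^ 2 + ∑ 3 p ω_a nrm (G a) ^ 2` by `ip_mul_hom_left`. -/
theorem chaos {p : ℕ} (hp : Even p) (hp2 : 2 ≤ p) {R : Alg M} (hR : Prob R) {ξ : ι → Alg M}
    {ω : ι → ℝ} (hξ : Bes p R ξ ω) (n : ℕ) (F : Wd ι) (hF : Hom n F) :
    Bd p (R ^ n) (ev R ξ F) (nrm (wt1 fun a => 3 * p * ω a) F) := by
  have hw := chaos_wt_nonneg (p := p) hξ.2.1
  induction n generalizing F with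
  | zero =>
    obtain ⟨c, rfl⟩ : ∃ c : ℝ, F = c • (1 : Wd ι) := ⟨_, chaos_hom_zero hF⟩
    rw [map_smul, map_one, pow_zero, nrm_smul, nrm_one]
    exact (bd_self prob_one).smul _
  | succ n ih =>
    obtain ⟨F0, s, G, h0, hG, rfl⟩ := hom_succ_decomp hF
    have h := bd_step hp hp2 hR (hR.pow n) hξ (ih F0 h0) s (fun a => ev R ξ (G a))
      (fun a => nrm (wt1 fun a => 3 * p * ω a) (G a)) (fun a _ => ih (G a) (hG a))
    have e1 : ev R ξ (oo * F0 + ∑ a ∈ s, LL a * G a) =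
        R * ev R ξ F0 + ∑ a ∈ s, ξ a * ev R ξ (G a) := by
      rw [map_add, map_mul, ev_oo, map_sum]
      simp only [map_mul, ev_LL]
    have e2 : nrm (wt1 fun a => 3 * p * ω a) (oo * F0 + ∑ a ∈ s, LL a * G a) =
        √(nrm (wt1 fun a => 3 * p * ω a) F0 ^ 2 +
          ∑ a ∈ s, 3 * p * ω a * nrm (wt1 fun a => 3 * p * ω a) (G a) ^ 2) := by
      simp only [nrm_sq hw]
      rw [nrm, chaos_ip_decomp]
    rw [pow_succ', e1, e2]
    exact h

theorem chaos_tele {σ u : ℝ} (hσ : 1 ≤ σ) (hu : 0 < u) :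
    1 / (u + u⁻¹) ≤
      4 * σ * (u * (1 + 1 / σ) ^ 2 / (1 + u * (1 + 1 / σ) ^ 2)) - 4 * σ * (u / (1 + u)) := by
  have hσ0 : 0 < σ := by linarith
  obtain ⟨t, ht⟩ : ∃ t, t = 1 / σ := ⟨_, rfl⟩
  have ht0 : 0 < t := by rw [ht]; positivity
  have ht1 : t ≤ 1 := by rw [ht, div_le_one hσ0]; exact hσ
  have hσt : σ * t = 1 := by rw [ht]; field_simp
  rw [← ht]
  obtain ⟨x, hx⟩ : ∃ x, x = (1 + t) ^ 2 := ⟨_, rfl⟩
  have hx1 : 1 ≤ x := by rw [hx]; nlinarith
  have hx4 : x ≤ 4 := by rw [hx]; nlinarith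
  have hσx : 2 ≤ σ * (x - 1) := by
    have : σ * (x - 1) = σ * t * (2 + t) := by rw [hx]; ring
    rw [this, hσt]; linarith
  rw [← hx]
  have e1 : 1 / (u + u⁻¹) = u / (1 + u ^ 2) := by field_simp; ring
  have e2 : 4 * σ * (u * x / (1 + u * x)) - 4 * σ * (u / (1 + u)) =
      4 * (σ * (x - 1)) * u / ((1 + u * x) * (1 + u)) := by
    field_simp; ring
  rw [e1, e2, div_le_div_iff₀ (by positivity) (by positivity)]
  have h1 : (1 + u * x) * (1 + u) ≤ (1 + u * 4) * (1 + u) := by gcongr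
  have h2 : (1 + u * 4) * (1 + u) ≤ 8 * (1 + u ^ 2) := by nlinarith [sq_nonneg (u - 1)]
  have h3 : 8 * u * (1 + u ^ 2) ≤ 4 * (σ * (x - 1)) * u * (1 + u ^ 2) := by
    gcongr; linarith
  nlinarith [mul_le_mul_of_nonneg_left (h1.trans h2) hu.le]

/-- `∑_n 1 / (a τ^(2n) + a⁻¹ τ^(-2n)) ≤ 4σ` for `τ = 1 + 1/σ`: two geometric series with ratio
`τ⁻²`, and `1 - τ⁻² ≥ 1/(2σ)`. -/
theorem sum_inv_two_sided {σ a : ℝ} (hσ : 1 ≤ σ) (ha : 0 < a) (m : ℕ) :
    ∑ n ∈ range m, 1 / (a * (1 + 1 / σ) ^ (2 * n) + a⁻¹ * ((1 + 1 / σ)⁻¹) ^ (2 * n)) ≤ 4 * σ := by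
  have hσ0 : 0 < σ := by linarith
  have key : ∀ m : ℕ, ∑ n ∈ range m,
      1 / (a * (1 + 1 / σ) ^ (2 * n) + a⁻¹ * ((1 + 1 / σ)⁻¹) ^ (2 * n)) ≤
      4 * σ * (a * (1 + 1 / σ) ^ (2 * m) / (1 + a * (1 + 1 / σ) ^ (2 * m))) := by
    intro m
    induction m with
    | zero => rw [Finset.sum_range_zero]; positivity
    | succ m ih =>
      rw [Finset.sum_range_succ]
      have hu : 0 < a * (1 + 1 / σ) ^ (2 * m) := by positivity
      have h := chaos_tele hσ hu
      have e1 : a⁻¹ * ((1 + 1 / σ)⁻¹) ^ (2 * m) = (a * (1 + 1 / σ) ^ (2 * m))⁻¹ := by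
        rw [mul_inv, inv_pow]
      have e2 : a * (1 + 1 / σ) ^ (2 * (m + 1)) = a * (1 + 1 / σ) ^ (2 * m) * (1 + 1 / σ) ^ 2 := by
        ring
      rw [e1, e2]
      linarith
  refine (key m).trans ?_
  have hu : 0 < a * (1 + 1 / σ) ^ (2 * m) := by positivity
  have : a * (1 + 1 / σ) ^ (2 * m) / (1 + a * (1 + 1 / σ) ^ (2 * m)) ≤ 1 := by
    rw [div_le_one (by linarith)]; linarith
  nlinarith

theorem chaos_wt_tilt (x : ℝ) (ω : Option ι → ℝ) (w : FreeMonoid (Option ι)) :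
    wt (fun l => x * ω l) w = x ^ (FreeMonoid.toList w).length * wt ω w := by
  induction w using FreeMonoid.inductionOn' with
  | one => simp
  | of_mul b w ih =>
    rw [FreeMonoid.toList_of_mul, List.length_cons, map_mul, map_mul, ih, wt_of, wt_of]
    ring

/-- the part of length `n` -/
noncomputable def chaosPart (F : Wd ι) (n : ℕ) : Wd ι :=
  ∑ w ∈ F.coeff.support with (FreeMonoid.toList w).length = n, MonoidAlgebra.single w (F.coeff w)

theorem chaos_part_hom (F : Wd ι) (n : ℕ) : Hom n (chaosPart F n) :=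
  Hom.sum _ _ fun w hw => chaos_hom_single w _ (Finset.mem_filter.1 hw).2

theorem chaos_part_sum (F : Wd ι) {m : ℕ}
    (hm : ∀ w ∈ F.coeff.support, (FreeMonoid.toList w).length ∈ range m) :
    ∑ n ∈ range m, chaosPart F n = F := by
  unfold chaosPart
  rw [Finset.sum_fiberwise_of_maps_to hm]
  exact (mart_eq_sum F (Finset.Subset.refl _)).symm

theorem chaos_part_ip (ω : Option ι → ℝ) (F : Wd ι) (n : ℕ) :
    ip ω (chaosPart F n) (chaosPart F n) =
      ∑ w ∈ F.coeff.support with (FreeMonoid.toList w).length = n,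
        wt ω w * (F.coeff w * F.coeff w) := by
  classical
  unfold chaosPart
  rw [ip_sum_left]
  refine Finset.sum_congr rfl fun w hw => ?_
  rw [ip_sum_right, Finset.sum_eq_single w]
  · rw [ip_single, if_pos rfl]
  · intro v _ hv
    rw [ip_single, if_neg (Ne.symm hv)]
  · intro h; exact absurd hw h

theorem chaos_part_tilt (x : ℝ) (ω : Option ι → ℝ) (F : Wd ι) {m : ℕ}
    (hm : ∀ w ∈ F.coeff.support, (FreeMonoid.toList w).length ∈ range m) :
    ∑ n ∈ range m, x ^ n * ip ω (chaosPart F n) (chaosPart F n) = ip (fun l => x * ω l) F F := by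
  rw [ip, ← Finset.sum_fiberwise_of_maps_to hm]
  refine Finset.sum_congr rfl fun n _ => ?_
  rw [chaos_part_ip, Finset.mul_sum]
  refine Finset.sum_congr rfl fun w hw => ?_
  rw [chaos_wt_tilt, (Finset.mem_filter.1 hw).2]
  ring

/-- ℓ¹ bound for a non homogeneous formal element through two tilted norms.  Split
`F = ∑_n F_n` by length, `‖ev F_n‖ ≤ nrm F_n` (`chaos`, `Bd.norm_le`), Cauchy-Schwarz with the
weights `a τ^(2n) + a⁻¹ τ^(-2n)`; the tilted weight of a word of length `n` is `x^(2n)` times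
its weight. -/
theorem length_sum {p : ℕ} (hp : Even p) (hp2 : 2 ≤ p) {R : Alg M} (hR : Prob R)
    {ξ : ι → Alg M} {ω : ι → ℝ} (hξ : Bes p R ξ ω) {σ a : ℝ} (hσ : 1 ≤ σ) (ha : 0 < a)
    (F : Wd ι) :
    ‖ev R ξ F‖ ^ 2 ≤ 4 * σ *
      (a * nrm (fun l => (1 + 1 / σ) ^ 2 * wt1 (fun i => 3 * p * ω i) l) F ^ 2 +
        a⁻¹ * nrm (fun l => ((1 + 1 / σ)⁻¹) ^ 2 * wt1 (fun i => 3 * p * ω i) l) F ^ 2) := by
  classical
  have hw := chaos_wt_nonneg (p := p) hξ.2.1
  have hσ0 : 0 < σ := by linarith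
  obtain ⟨m, hm⟩ : ∃ m, ∀ w ∈ F.coeff.support, (FreeMonoid.toList w).length ∈ range m :=
    ⟨F.coeff.support.sup (fun w => (FreeMonoid.toList w).length) + 1, fun w hw =>
      Finset.mem_range.2 (Nat.lt_succ_of_le
        (Finset.le_sup (f := fun w => (FreeMonoid.toList w).length) hw))⟩
  set x : ℕ → ℝ := fun n => nrm (wt1 fun i => 3 * p * ω i) (chaosPart F n) with hx
  set c : ℕ → ℝ := fun n =>
    a * (1 + 1 / σ) ^ (2 * n) + a⁻¹ * ((1 + 1 / σ)⁻¹) ^ (2 * n) with hc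
  have hcpos : ∀ n, 0 < c n := fun n => by simp only [hc]; positivity
  have h1 : ‖ev R ξ F‖ ≤ ∑ n ∈ range m, x n := by
    conv_lhs => rw [← chaos_part_sum F hm, map_sum]
    refine (norm_sum_le _ _).trans (Finset.sum_le_sum fun n _ => ?_)
    exact (chaos hp hp2 hR hξ n _ (chaos_part_hom F n)).norm_le (by omega) (hR.pow n)
  have h2 : (∑ n ∈ range m, x n) ^ 2 ≤
      (∑ n ∈ range m, 1 / c n) * ∑ n ∈ range m, c n * x n ^ 2 := by
    refine Finset.sum_sq_le_sum_mul_sum_of_sq_le_mul _ (fun n _ => (one_div_pos.2 (hcpos n)).le)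
      (fun n _ => mul_nonneg (hcpos n).le (sq_nonneg _)) fun n _ => le_of_eq ?_
    have := (hcpos n).ne'
    field_simp
  have h3 : ∑ n ∈ range m, c n * x n ^ 2 =
      a * nrm (fun l => (1 + 1 / σ) ^ 2 * wt1 (fun i => 3 * p * ω i) l) F ^ 2 +
        a⁻¹ * nrm (fun l => ((1 + 1 / σ)⁻¹) ^ 2 * wt1 (fun i => 3 * p * ω i) l) F ^ 2 := by
    rw [nrm_sq (fun l => mul_nonneg (sq_nonneg _) (hw l)),
      nrm_sq (fun l => mul_nonneg (sq_nonneg _) (hw l)), ← chaos_part_tilt _ _ F hm,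
      ← chaos_part_tilt _ _ F hm, Finset.mul_sum, Finset.mul_sum, ← Finset.sum_add_distrib]
    refine Finset.sum_congr rfl fun n _ => ?_
    simp only [hc, hx, nrm_sq hw, pow_mul]
    ring
  have h4 : ∑ n ∈ range m, 1 / c n ≤ 4 * σ := sum_inv_two_sided hσ ha m
  have h5 : 0 ≤ ∑ n ∈ range m, c n * x n ^ 2 :=
    Finset.sum_nonneg fun n _ => mul_nonneg (hcpos n).le (sq_nonneg _)
  rw [← h3]
  calc ‖ev R ξ F‖ ^ 2 ≤ (∑ n ∈ range m, x n) ^ 2 := by gcongr
    _ ≤ _ := h2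
    _ ≤ _ := mul_le_mul_of_nonneg_right h4 h5

theorem chaos_ip_pow (ω : Option ι → ℝ) {F G : Wd ι} (hF : Hom 1 F) (hG : Hom 1 G) (m : ℕ) :
    ip ω (F ^ m) (G ^ m) = ip ω F G ^ m := by
  induction m with
  | zero =>
    classical
    rw [pow_zero, pow_zero, pow_zero, MonoidAlgebra.one_def, ip_single, if_pos rfl]
    simp
  | succ m ih => rw [pow_succ', pow_succ', ip_mul_hom_left _ hF hG, ih, pow_succ']

theorem chaos_pow_le {x : ℝ} (hx : 0 ≤ x) (m : ℕ) (h : x * m ≤ 1) :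
    (1 + x) ^ m - 1 ≤ 2 * (x * m) := by
  have h1 : (1 + x) ^ m ≤ Real.exp (x * m) := by
    rw [mul_comm x, Real.exp_nat_mul]
    gcongr
    linarith [Real.add_one_le_exp x]
  have h0 : 0 ≤ x * m := by positivity
  have h2 := Real.abs_exp_sub_one_le (x := x * m) (by rw [abs_of_nonneg h0]; exact h)
  rw [abs_of_nonneg h0] at h2
  linarith [le_abs_self (Real.exp (x * m) - 1)]

/-- `m` independent samples: apply `chaos` with the reference `iota P`, the single letter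
`iota d` and `F = (o + L)^m - o^m`, `nrm F ^ 2 = (1 + 3pβ²)^m - 1 ≤ 6pβ²m`; then
`pow_perturb` for `iota Q` against `iota P + iota d`. -/
theorem samp_bound {p : ℕ} (hp : Even p) (hp2 : 2 ≤ p) {P Q d : Alg M} (hP : Prob P)
    (hQ : Prob Q) {β η : ℝ} (h0 : mass d = 0) (hd : Bd p P d β) (hη : ‖Q - P - d‖ ≤ η) (m : ℕ)
    (h1 : m * η ≤ 1) (h2 : 3 * p * β ^ 2 * m ≤ 1) :
    ‖iota Q ^ m - iota P ^ m‖ ≤ 2 * m * η + √(6 * p * β ^ 2 * m) := by
  have hp1 : 1 ≤ p := by omega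
  have hB : Bes p (iota P) (fun _ : Unit => iota d) (fun _ => β ^ 2) :=
    bes_single hp1 (by rw [mass_iota, h0]) (hd.iota hp1 hP.1)
  have hoL : Hom 1 (oo + LL () : Wd Unit) := hom_oo.add (hom_LL ())
  have hF : Hom m ((oo + LL () : Wd Unit) ^ m - oo ^ m) := by
    have := hoL.pow m
    rw [one_mul] at this
    exact this.sub (hom_oo_pow m)
  have hc := (chaos hp hp2 hP.iota hB m _ hF).norm_le hp1 (hP.iota.pow m)
  rw [map_sub, map_pow, map_pow, map_add, ev_oo, ev_LL] at hc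
  have hn : nrm (wt1 fun _ : Unit => 3 * p * β ^ 2) ((oo + LL () : Wd Unit) ^ m - oo ^ m) ≤
      √(6 * p * β ^ 2 * m) := by
    rw [nrm]
    refine Real.sqrt_le_sqrt ?_
    rw [ip_sub_left, ip_sub_right, ip_sub_right, chaos_ip_pow _ hoL hoL,
      chaos_ip_pow _ hoL hom_oo, chaos_ip_pow _ hom_oo hoL, chaos_ip_pow _ hom_oo hom_oo]
    simp only [ip_add_left, ip_add_right, ip_oo_oo, ip_LL_LL, ip_oo_LL, ip_comm _ (LL ()) oo,
      wt1, Option.elim_none, Option.elim_some, add_zero, zero_add, one_pow]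
    have := chaos_pow_le (x := 3 * p * β ^ 2) (by positivity) m h2
    linarith
  have hq : ‖iota Q ^ m - (iota P + iota d) ^ m‖ ≤ 2 * m * η := by
    refine pow_perturb hQ.iota.norm_eq.le ?_ m h1
    have : iota Q - (iota P + iota d) = iota (Q - P - d) := by
      rw [map_sub, map_sub]; abel
    rw [this, norm_iota]
    exact hη
  calc ‖iota Q ^ m - iota P ^ m‖
      = ‖(iota Q ^ m - (iota P + iota d) ^ m) + ((iota P + iota d) ^ m - iota P ^ m)‖ := by
        congr 1; abel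
    _ ≤ _ := (norm_add_le _ _).trans (add_le_add hq (hc.trans hn))

end Crest.Agent.R300.LB
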