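import Crest.Agent.R300.LBDefs

/-! Row 300 lower bound: ℓ² bounds for the smoothing kernel, and the pigeonhole pattern. -/

set_option autoImplicit false

namespace Crest.Agent.R300.LB

open Finset

open Polynomial

theorem kerA_parseval (p : ℝ[X]) : ∑ i ∈ p.support, p.coeff i ^ 2 =
    Real.circleAverage (fun z : ℂ => ‖aeval z p‖ ^ 2) 0 1 := by
  have h := (p.map (algebraMap ℝ ℂ)).sum_sq_norm_coeff_eq_circleAverage
  rw [support_map_of_injective _ (algebraMap ℝ ℂ).injective] at h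
  simp only [coeff_map, eval_map_algebraMap] at h
  rw [← h]
  refine sum_congr rfl fun i _ => ?_
  simp

theorem kerA_sum_le {s t : Finset ℕ} {f : ℕ → ℝ} (h : ∀ i ∈ s, f i ≠ 0 → i ∈ t)
    (h0 : ∀ i, 0 ≤ f i) : ∑ i ∈ s, f i ≤ ∑ i ∈ t, f i := by
  rw [← sum_filter_ne_zero s]
  refine sum_le_sum_of_subset_of_nonneg (fun i hi => ?_) fun i _ _ => h0 i
  exact h i (mem_filter.1 hi).1 (mem_filter.1 hi).2

theorem kerA_range_le (p : ℝ[X]) (m : ℕ) :
    ∑ i ∈ range m, p.coeff i ^ 2 ≤ ∑ i ∈ p.support, p.coeff i ^ 2 := by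
  refine kerA_sum_le ?_ ?_
  · intro i _ hi
    rw [mem_support_iff]
    intro h
    exact hi (by simp [h])
  · intro i
    positivity

theorem kerA_cmp (p q : ℝ[X]) (h : ∀ z : ℂ, ‖z‖ = 1 → ‖aeval z p‖ ≤ ‖aeval z q‖) (m n : ℕ)
    (hq : ∀ i, n ≤ i → q.coeff i = 0) :
    ∑ i ∈ range m, p.coeff i ^ 2 ≤ ∑ i ∈ range n, q.coeff i ^ 2 := by
  have h1 : ∑ i ∈ q.support, q.coeff i ^ 2 ≤ ∑ i ∈ range n, q.coeff i ^ 2 := by
    refine sum_le_sum_of_subset_of_nonneg (fun i hi => ?_) fun _ _ _ => by positivity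
    rw [mem_range]
    by_contra hn
    exact mem_support_iff.1 hi (hq i (not_lt.1 hn))
  refine (kerA_range_le p m).trans (le_trans ?_ h1)
  rw [kerA_parseval, kerA_parseval]
  have hc : ∀ r : ℝ[X], CircleIntegrable (fun z : ℂ => ‖aeval z r‖ ^ 2) 0 1 := fun r =>
    ((r.continuous_aeval.norm.pow 2).continuousOn).circleIntegrable zero_le_one
  refine Real.circleAverage_mono (hc p) (hc q) fun z hz => ?_
  have hz' : ‖z‖ = 1 := by simpa using hz
  exact pow_le_pow_left₀ (norm_nonneg _) (h z hz') 2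

theorem kerA_coeff_avg (w i : ℕ) : (avgP w).coeff i = if i < w then 1 / (w : ℝ) else 0 := by
  simp only [avgP, coeff_C_mul, finsetSum_coeff, coeff_X_pow, sum_ite_eq, mem_range]
  split_ifs <;> simp

theorem kerA_aeval_avg (w : ℕ) (z : ℂ) :
    aeval z (avgP w) = (1 / (w : ℂ)) * ∑ i ∈ range w, z ^ i := by
  simp [avgP]

theorem kerA_avg_le (w : ℕ) (hw : 1 ≤ w) {z : ℂ} (hz : ‖z‖ = 1) : ‖aeval z (avgP w)‖ ≤ 1 := by
  have hw' : (0 : ℝ) < w := by exact_mod_cast hw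
  rw [kerA_aeval_avg, norm_mul]
  have : ‖∑ i ∈ range w, z ^ i‖ ≤ w := by
    refine (norm_sum_le _ _).trans ?_
    simp [hz]
  calc ‖(1 / (w : ℂ))‖ * ‖∑ i ∈ range w, z ^ i‖ ≤ ‖(1 / (w : ℂ))‖ * w := by gcongr
    _ = 1 := by simp; field_simp

theorem kerA_avg_sq (w : ℕ) {z : ℂ} (hz : ‖z‖ = 1) :
    aeval z (avgP w) ^ 2 = z ^ (w - 1) * ((‖aeval z (avgP w)‖ ^ 2 : ℝ) : ℂ) := by
  have hz1 : z * (starRingEnd ℂ) z = 1 := by
    rw [Complex.mul_conj, Complex.normSq_eq_norm_sq, hz]; simp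
  have h : z ^ (w - 1) * (starRingEnd ℂ) (aeval z (avgP w)) = aeval z (avgP w) := by
    rw [kerA_aeval_avg, map_mul, map_sum]
    have e : z ^ (w - 1) * ∑ i ∈ range w, (starRingEnd ℂ) (z ^ i) = ∑ i ∈ range w, z ^ i := by
      rw [mul_sum, ← sum_range_reflect (fun i => z ^ i) w]
      refine sum_congr rfl fun i hi => ?_
      have hi' : i ≤ w - 1 := by have := mem_range.1 hi; omega
      obtain ⟨j, hj⟩ := Nat.exists_eq_add_of_le hi'
      have : w - 1 - i = j := by omega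
      rw [this, hj, map_pow, pow_add, mul_comm (z ^ i), mul_assoc, ← mul_pow, hz1, one_pow, mul_one]
    have e2 : (starRingEnd ℂ) (1 / (w : ℂ)) = 1 / (w : ℂ) := by simp
    rw [e2, mul_left_comm, e]
  rw [← Complex.normSq_eq_norm_sq, ← Complex.mul_conj, mul_left_comm, h, sq]

theorem kerA_kern_le (T w W : ℕ) (hw : 1 ≤ w) {z : ℂ} (hz : ‖z‖ = 1) :
    ‖aeval z (kern T w W)‖ ≤ T * ‖aeval z (avgP w)‖ ^ 2 := by
  set k : ℝ := ‖aeval z (avgP w)‖ ^ 2 with hk
  have hk0 : 0 ≤ k := by positivity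
  have hk1 : k ≤ 1 := pow_le_one₀ (norm_nonneg _) (kerA_avg_le w hw hz)
  have h : aeval z (kern T w W) =
      z ^ (W - T * (w - 1)) * z ^ (T * (w - 1)) * ((1 - (1 - k) ^ T : ℝ) : ℂ) := by
    simp only [kern, map_mul, map_sub, map_pow, aeval_X]
    rw [kerA_avg_sq w hz, ← hk, ← mul_one_sub, mul_pow, ← pow_mul, mul_comm (w - 1) T]
    push_cast
    ring
  rw [h, norm_mul, norm_mul, norm_pow, norm_pow, hz, one_pow, one_pow, one_mul, one_mul,
    Complex.norm_real, Real.norm_eq_abs]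
  have h1 : (1 - k) ^ T ≤ 1 := pow_le_one₀ (by linarith) (by linarith)
  have h2 : 1 + (T : ℝ) * (-k) ≤ (1 + -k) ^ T := one_add_mul_le_pow (by linarith) T
  rw [abs_of_nonneg (by linarith)]
  rw [← sub_eq_add_neg] at h2
  linarith

/-- On the unit circle `avgP w ^ 2 / X^(w-1) = k ∈ [0,1]` (Fejér type: `avgP w` is
palindromic, so this is `|avgP w|²`), hence `|kern| = 1 - (1-k)^T ≤ T k ≤ T |avgP w|` and Parseval
(`Polynomial.sum_sq_norm_coeff_eq_circleAverage`) gives the bound.  Alternatively: factor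
`kern = X^a * avgP w ^ 2 * ∑_{j<T} X^(..) (X^(w-1) - avgP w ^ 2)^j` and show that multiplication
by `avgP w` and by `X^(w-1) - avgP w ^ 2` are ℓ² contractions. -/
theorem kern_sq (T w W m : ℕ) (hw : 1 ≤ w) :
    ∑ i ∈ range m, (kern T w W).coeff i ^ 2 ≤ (T : ℝ) ^ 2 / w := by
  have hw' : (0 : ℝ) < w := by exact_mod_cast hw
  refine (kerA_cmp _ (C (T : ℝ) * avgP w) (fun z hz => ?_) m w fun i hi => ?_).trans ?_
  · refine (kerA_kern_le T w W hw hz).trans ?_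
    rw [map_mul, norm_mul, aeval_C]
    have h1 := kerA_avg_le w hw hz
    have h0 := norm_nonneg (aeval z (avgP w))
    have : ‖algebraMap ℝ ℂ (T : ℝ)‖ = T := by simp
    rw [this]
    gcongr
    nlinarith
  · rw [coeff_C_mul, kerA_coeff_avg, if_neg (by omega), mul_zero]
  · rw [sum_congr rfl (g := fun _ => ((T : ℝ) / w) ^ 2)]
    · rw [sum_const, card_range, nsmul_eq_mul]
      apply le_of_eq
      field_simp
    · intro i hi
      rw [coeff_C_mul, kerA_coeff_avg, if_pos (mem_range.1 hi)]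
      ring

/-- `(X - 1) avgP w = (X^w - 1)/w` and `‖(X^w - 1) avgP w‖₂² = 2/w`. -/
theorem kern_diff_sq (T w W m : ℕ) (hw : 1 ≤ w) :
    ∑ i ∈ range m, ((X - 1) * kern T w W).coeff i ^ 2 ≤ 2 * (T : ℝ) ^ 2 / (w : ℝ) ^ 3 := by
  have hw' : (0 : ℝ) < w := by exact_mod_cast hw
  have hco : ∀ i, (C ((T : ℝ) / w) * ((X ^ w - 1) * avgP w)).coeff i =
      (T : ℝ) / w * ((if w ≤ i ∧ i < 2 * w then 1 / (w : ℝ) else 0) -
        if i < w then 1 / (w : ℝ) else 0) := by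
    intro i
    rw [coeff_C_mul, sub_mul, one_mul, coeff_sub, coeff_X_pow_mul', kerA_coeff_avg, kerA_coeff_avg]
    congr 2
    split_ifs <;> first | rfl | omega
  refine (kerA_cmp _ (C ((T : ℝ) / w) * ((X ^ w - 1) * avgP w)) (fun z hz => ?_) m (2 * w)
    fun i hi => ?_).trans ?_
  · have h1 := kerA_kern_le T w W hw hz
    have h2 : (z - 1) * aeval z (avgP w) = (1 / (w : ℂ)) * (z ^ w - 1) := by
      rw [kerA_aeval_avg, mul_left_comm, mul_geom_sum]
    have h3 : ‖z - 1‖ * ‖aeval z (avgP w)‖ = 1 / (w : ℝ) * ‖z ^ w - 1‖ := by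
      rw [← norm_mul, h2, norm_mul]; simp
    have : ‖algebraMap ℝ ℂ ((T : ℝ) / w)‖ = T / w := by simp
    simp only [map_mul, map_sub, map_pow, aeval_X, map_one, aeval_C, norm_mul, this]
    calc ‖z - 1‖ * ‖aeval z (kern T w W)‖ ≤ ‖z - 1‖ * (T * ‖aeval z (avgP w)‖ ^ 2) := by gcongr
      _ = T * (‖z - 1‖ * ‖aeval z (avgP w)‖) * ‖aeval z (avgP w)‖ := by ring
      _ = _ := by rw [h3]; ring
  · rw [hco, if_neg (by omega), if_neg (by omega)]; simp
  · rw [sum_congr rfl (g := fun _ => ((T : ℝ) / w ^ 2) ^ 2)]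
    · rw [sum_const, card_range, nsmul_eq_mul]
      apply le_of_eq
      push_cast
      field_simp
    · intro i hi
      have := mem_range.1 hi
      rw [hco]
      by_cases h : i < w
      · rw [if_neg (by omega), if_pos h]; ring
      · rw [if_pos (by omega), if_neg h]; ring

theorem kerA_natDegree_avg (w : ℕ) : (avgP w).natDegree ≤ w - 1 := by
  rw [natDegree_le_iff_coeff_eq_zero]
  intro i hi
  rw [kerA_coeff_avg, if_neg (by omega)]

theorem kern_natDegree {T w W : ℕ} (hW : T * (w - 1) ≤ W) : (kern T w W).natDegree ≤ 2 * W := by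
  have h1 : (avgP w ^ 2).natDegree ≤ 2 * (w - 1) :=
    natDegree_pow_le.trans (Nat.mul_le_mul_left 2 (kerA_natDegree_avg w))
  have h2 : ((X : ℝ[X]) ^ (w - 1) - avgP w ^ 2).natDegree ≤ 2 * (w - 1) :=
    (natDegree_sub_le _ _).trans (max_le (by rw [natDegree_X_pow]; omega) h1)
  have h3 : (((X : ℝ[X]) ^ (w - 1) - avgP w ^ 2) ^ T).natDegree ≤ T * (2 * (w - 1)) :=
    natDegree_pow_le.trans (Nat.mul_le_mul_left T h2)
  have h4 : T * (2 * (w - 1)) = 2 * (T * (w - 1)) := by ring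
  have h5 : ((X : ℝ[X]) ^ (T * (w - 1)) - (X ^ (w - 1) - avgP w ^ 2) ^ T).natDegree ≤
      2 * (T * (w - 1)) :=
    (natDegree_sub_le _ _).trans (max_le (by rw [natDegree_X_pow]; omega) (h4 ▸ h3))
  unfold kern
  refine natDegree_mul_le.trans ?_
  rw [natDegree_X_pow]
  omega

/-- ℓ¹ bound -/
def kerA_B (p : ℝ[X]) (β : ℝ) : Prop := ∀ m, ∑ i ∈ range m, |p.coeff i| ≤ β

theorem kerA_B.nonneg {p : ℝ[X]} {β : ℝ} (h : kerA_B p β) : 0 ≤ β := by simpa using h 0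

theorem kerA_B.mono {p : ℝ[X]} {β γ : ℝ} (h : kerA_B p β) (hγ : β ≤ γ) : kerA_B p γ :=
  fun m => (h m).trans hγ

theorem kerA_B.mul {p q : ℝ[X]} {β γ : ℝ} (hp : kerA_B p β) (hq : kerA_B q γ) :
    kerA_B (p * q) (β * γ) := by
  intro m
  calc ∑ i ∈ range m, |(p * q).coeff i|
      ≤ ∑ i ∈ range m, ∑ k ∈ range (i + 1), |p.coeff k| * |q.coeff (i - k)| := by
        refine sum_le_sum fun i _ => ?_
        rw [coeff_mul, Finset.Nat.sum_antidiagonal_eq_sum_range_succ_mk]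
        refine (abs_sum_le_sum_abs _ _).trans (le_of_eq ?_)
        simp [abs_mul]
    _ = ∑ i ∈ range m, ∑ k ∈ range (m - i), |p.coeff i| * |q.coeff k| :=
        Finset.sum_range_diag_flip m (fun a b => |p.coeff a| * |q.coeff b|)
    _ ≤ ∑ i ∈ range m, |p.coeff i| * γ := by
        refine sum_le_sum fun i _ => ?_
        rw [← mul_sum]
        exact mul_le_mul_of_nonneg_left (hq _) (abs_nonneg _)
    _ ≤ β * γ := by
        rw [← sum_mul]
        exact mul_le_mul_of_nonneg_right (hp m) hq.nonneg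

theorem kerA_B_X_pow (n : ℕ) : kerA_B (X ^ n) 1 := by
  intro m
  simp only [coeff_X_pow, abs_ite, abs_one, abs_zero, sum_ite_eq', mem_range]
  split_ifs <;> norm_num

theorem kerA_B.pow {p : ℝ[X]} {β : ℝ} (hp : kerA_B p β) (n : ℕ) : kerA_B (p ^ n) (β ^ n) := by
  induction n with
  | zero => simpa using kerA_B_X_pow 0
  | succ n ih => rw [pow_succ, pow_succ]; exact ih.mul hp

theorem kerA_B.neg {p : ℝ[X]} {β : ℝ} (hp : kerA_B p β) : kerA_B (-p) β := by
  intro m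
  simpa using hp m

theorem kerA_B_sum {ι : Type*} (s : Finset ι) {p : ι → ℝ[X]} {β : ι → ℝ}
    (h : ∀ a ∈ s, kerA_B (p a) (β a)) : kerA_B (∑ a ∈ s, p a) (∑ a ∈ s, β a) := by
  intro m
  calc ∑ i ∈ range m, |(∑ a ∈ s, p a).coeff i| ≤ ∑ i ∈ range m, ∑ a ∈ s, |(p a).coeff i| := by
        refine sum_le_sum fun i _ => ?_
        rw [finsetSum_coeff]
        exact abs_sum_le_sum_abs _ _
    _ = ∑ a ∈ s, ∑ i ∈ range m, |(p a).coeff i| := sum_comm
    _ ≤ _ := sum_le_sum fun a ha => h a ha m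

theorem kerA_B_C {c : ℝ} (hc : 0 ≤ c) : kerA_B (C c) c := by
  intro m
  simp only [coeff_C, abs_ite, abs_zero, sum_ite_eq', mem_range, abs_of_nonneg hc]
  split_ifs
  · exact le_rfl
  · exact hc

theorem kerA_diff_le {a b : ℕ} (h : b ≤ a) :
    ∃ u : ℝ[X], X ^ a - X ^ b = (X - 1) * u ∧ kerA_B u ((a - b : ℕ) : ℝ) := by
  obtain ⟨c, rfl⟩ := Nat.exists_eq_add_of_le h
  refine ⟨X ^ b * ∑ i ∈ range c, X ^ i, ?_, ?_⟩
  · rw [mul_left_comm, mul_geom_sum]; ring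
  · have := (kerA_B_X_pow b).mul (kerA_B_sum (range c) fun i _ => kerA_B_X_pow i)
    simpa using this

theorem kerA_diff {a b n : ℕ} (h1 : a ≤ b + n) (h2 : b ≤ a + n) :
    ∃ u : ℝ[X], X ^ a - X ^ b = (X - 1) * u ∧ kerA_B u n := by
  rcases le_total b a with h | h
  · obtain ⟨u, hu, hB⟩ := kerA_diff_le h
    exact ⟨u, hu, hB.mono (by exact_mod_cast (by omega : a - b ≤ n))⟩
  · obtain ⟨u, hu, hB⟩ := kerA_diff_le h
    refine ⟨-u, ?_, hB.neg.mono (by exact_mod_cast (by omega : b - a ≤ n))⟩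
    rw [mul_neg, ← hu]; ring

theorem kerA_Q {w : ℕ} (hw : 1 ≤ w) :
    ∃ u : ℝ[X], X ^ (w - 1) - avgP w ^ 2 = (X - 1) * u ∧ kerA_B u w := by
  have hw' : (0 : ℝ) < w := by exact_mod_cast hw
  have h : ∀ i j : ℕ, ∃ u : ℝ[X], i < w → j < w →
      X ^ (w - 1) - X ^ (i + j) = (X - 1) * u ∧ kerA_B u w := by
    intro i j
    by_cases hij : i < w ∧ j < w
    · obtain ⟨u, hu⟩ := kerA_diff (a := w - 1) (b := i + j) (n := w) (by omega) (by omega)
      exact ⟨u, fun _ _ => hu⟩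
    · exact ⟨0, fun hi hj => absurd ⟨hi, hj⟩ hij⟩
  choose u hu using h
  refine ⟨C (1 / (w : ℝ) ^ 2) * ∑ i ∈ range w, ∑ j ∈ range w, u i j, ?_, ?_⟩
  · have e1 : (X - 1) * ∑ i ∈ range w, ∑ j ∈ range w, u i j =
        ∑ i ∈ range w, ∑ j ∈ range w, ((X : ℝ[X]) ^ (w - 1) - X ^ (i + j)) := by
      rw [mul_sum]
      refine sum_congr rfl fun i hi => ?_
      rw [mul_sum]
      exact sum_congr rfl fun j hj => (hu i j (mem_range.1 hi) (mem_range.1 hj)).1.symm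
    have e2 : ∑ i ∈ range w, ∑ j ∈ range w, ((X : ℝ[X]) ^ (w - 1) - X ^ (i + j)) =
        C ((w : ℝ) ^ 2) * X ^ (w - 1) - (∑ i ∈ range w, X ^ i) ^ 2 := by
      simp only [sum_sub_distrib, sum_const, card_range, nsmul_eq_mul, pow_add]
      rw [sq (∑ i ∈ range w, X ^ i), sum_mul_sum]
      simp only [map_pow, map_natCast]
      ring
    have e3 : C (1 / (w : ℝ) ^ 2) * C ((w : ℝ) ^ 2) = (1 : ℝ[X]) := by
      rw [← C_mul, ← C_1]; congr 1; field_simp
    have e4 : C (1 / (w : ℝ) ^ 2) = (C (1 / (w : ℝ)) : ℝ[X]) ^ 2 := by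
      rw [← C_pow]; congr 1; ring
    rw [mul_left_comm, e1, e2, mul_sub, ← mul_assoc, e3, one_mul, avgP, mul_pow, e4]
  · have := (kerA_B_C (c := 1 / (w : ℝ) ^ 2) (by positivity)).mul
      (kerA_B_sum (range w) fun i hi => kerA_B_sum (range w) fun j hj =>
        (hu i j (mem_range.1 hi) (mem_range.1 hj)).2)
    refine this.mono (le_of_eq ?_)
    simp only [sum_const, card_range, nsmul_eq_mul]
    field_simp

theorem kerA_X_sub_one_ne : (X - 1 : ℝ[X]) ≠ 0 := by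
  simpa using X_sub_C_ne_zero (1 : ℝ)

theorem kerA_deg (T : ℕ) {v : ℝ[X]} (hv : v ≠ 0) :
    ((X - 1) ^ T * v).natDegree = v.natDegree + T := by
  have : (X - 1 : ℝ[X]).natDegree = 1 := by simpa using natDegree_X_sub_C (x := (1 : ℝ))
  rw [natDegree_mul (pow_ne_zero _ kerA_X_sub_one_ne) hv, natDegree_pow, this]
  omega

/-- `X^W - kern = (X-1)^T v` with `‖v‖₁ ≤ w^T`: `X^(w-1) - avgP w ^ 2` is the average of
`X^(w-1) - X^(i+j)`, each of which is `(X-1)` times a polynomial with ℓ¹ norm `≤ w - 1`. -/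
theorem kern_factor {T w W : ℕ} (hw : 1 ≤ w) (hW : T * (w - 1) ≤ W) :
    ∃ v : ℝ[X], X ^ W - kern T w W = (X - 1) ^ T * v ∧ (v ≠ 0 → v.natDegree + T ≤ 2 * W) ∧
      ∀ m, ∑ i ∈ range m, |v.coeff i| ≤ (w : ℝ) ^ T := by
  obtain ⟨u, hu, hB⟩ := kerA_Q hw
  have h : X ^ W - kern T w W = (X - 1) ^ T * (X ^ (W - T * (w - 1)) * u ^ T) := by
    have : (X : ℝ[X]) ^ W = X ^ (W - T * (w - 1)) * X ^ (T * (w - 1)) := by
      rw [← pow_add]; congr 1; omega
    rw [kern, hu, mul_pow, mul_sub, ← this]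
    ring
  refine ⟨_, h, fun hv => ?_, ?_⟩
  · rw [← kerA_deg T hv, ← h]
    exact (natDegree_sub_le _ _).trans (max_le (by rw [natDegree_X_pow]; omega) (kern_natDegree hW))
  · have := (kerA_B_X_pow (W - T * (w - 1))).mul (hB.pow T)
    rw [one_mul] at this
    exact this

theorem kerA_B_of_bound {m : ℕ} {v : ℝ[X]} {γ : ℝ} (hm : v.natDegree ≤ m)
    (h : ∀ i, |v.coeff i| ≤ γ) : kerA_B v (((m : ℝ) + 1) * γ) := by
  intro k
  calc ∑ i ∈ range k, |v.coeff i| ≤ ∑ i ∈ range (m + 1), |v.coeff i| := by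
        refine kerA_sum_le ?_ fun _ => abs_nonneg _
        intro i _ hi
        rw [mem_range]
        by_contra hn
        exact hi (by rw [coeff_eq_zero_of_natDegree_lt (by omega), abs_zero])
    _ ≤ ∑ _i ∈ range (m + 1), γ := sum_le_sum fun i _ => h i
    _ = _ := by simp

theorem kerA_step {m : ℕ} {v : ℝ[X]} {γ : ℝ} (hm : v.natDegree ≤ m)
    (h : kerA_B ((X - 1) * v) γ) : kerA_B v (((m : ℝ) + 1) * γ) := by
  refine kerA_B_of_bound hm fun i => le_trans ?_ (h (i + 1))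
  have : v.coeff i = -∑ j ∈ range (i + 1), ((X - 1) * v).coeff j := by
    induction i with
    | zero => simp [sub_mul]
    | succ i ih =>
      rw [sum_range_succ, neg_add, ← ih, sub_mul, one_mul, coeff_sub, coeff_X_mul]
      ring
  rw [this, abs_neg]
  exact abs_sum_le_sum_abs _ _

theorem kerA_steps {m : ℕ} {v : ℝ[X]} (hv : v ≠ 0) (T : ℕ) : ∀ {γ : ℝ},
    v.natDegree + T ≤ m → kerA_B ((X - 1) ^ T * v) γ → kerA_B v (((m : ℝ) + 1) ^ T * γ) := by
  induction T with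
  | zero => intro γ _ h; simpa using h
  | succ T ih =>
    intro γ hm h
    rw [pow_succ', mul_assoc] at h
    have := ih (by omega) (kerA_step (m := m) (by rw [kerA_deg T hv]; omega) h)
    rwa [← mul_assoc, ← pow_succ] at this

/-- dividing by `X - 1` multiplies the ℓ¹ norm by at most `m + 1` (partial sums) -/
theorem div_factor {T m : ℕ} {c : ℝ[X]} (hd : (X - 1) ^ T ∣ c) (hm : c.natDegree ≤ m)
    (hc : ∀ i, |c.coeff i| ≤ 1) :
    ∃ v : ℝ[X], c = (X - 1) ^ T * v ∧ (v ≠ 0 → v.natDegree + T ≤ m) ∧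
      ∀ k, ∑ i ∈ range k, |v.coeff i| ≤ ((m : ℝ) + 1) ^ (T + 1) := by
  obtain ⟨v, rfl⟩ := hd
  have h1 : v ≠ 0 → v.natDegree + T ≤ m := fun hv => by rwa [kerA_deg T hv] at hm
  refine ⟨v, rfl, h1, ?_⟩
  by_cases hv : v = 0
  · intro k
    simp only [hv, coeff_zero, abs_zero, sum_const_zero]
    positivity
  · have := kerA_steps hv T (h1 hv) (kerA_B_of_bound hm hc)
    rw [mul_one, ← pow_succ] at this
    exact this

end Crest.Agent.R300.LB
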