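import Crest.Agent.R300.LB1
import Crest.Agent.R300.LBKerA

/-! Row 300 lower bound: moving a defect inside a long run of the unit law. -/

set_option autoImplicit false

namespace Crest.Agent.R300.LB

open Finset

open Polynomial

variable {M : Type*} [Monoid M]

theorem sh_add (A Z : Alg M) (m : ℕ) (f g : ℝ[X]) :
    sh A Z m (f + g) = sh A Z m f + sh A Z m g := by
  simp only [sh, coeff_add, add_smul, Finset.sum_add_distrib]

theorem sh_sub (A Z : Alg M) (m : ℕ) (f g : ℝ[X]) :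
    sh A Z m (f - g) = sh A Z m f - sh A Z m g := by
  simp only [sh, coeff_sub, sub_smul, Finset.sum_sub_distrib]

theorem kerB_sh_zero (A Z : Alg M) (m : ℕ) : sh A Z m 0 = 0 := by
  simp [sh]

theorem sh_X_pow (A Z : Alg M) {m i : ℕ} (hi : i ≤ m) :
    sh A Z m (X ^ i) = A ^ i * Z * A ^ (m - i) := by
  unfold sh
  rw [Finset.sum_eq_single i]
  · simp
  · intro j _ hj
    rw [coeff_X_pow, if_neg hj, zero_smul]
  · intro h
    exact absurd (Finset.mem_range.2 (by omega)) h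

theorem sh_X_sub_one_mul (A Z : Alg M) {m : ℕ} {v : ℝ[X]} (hv : v.natDegree ≤ m) :
    sh A Z (m + 1) ((X - 1) * v) = A * sh A Z m v - sh A Z m v * A := by
  rw [sub_mul, one_mul, sh_sub]
  congr 1
  · unfold sh
    rw [Finset.sum_range_succ', Finset.mul_sum]
    simp only [coeff_X_mul, mul_coeff_zero, coeff_X_zero, zero_mul, zero_smul, add_zero]
    refine Finset.sum_congr rfl fun i _ => ?_
    rw [mul_smul_comm, Nat.add_sub_add_right, pow_succ']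
    simp only [mul_assoc]
  · unfold sh
    rw [Finset.sum_range_succ, coeff_eq_zero_of_natDegree_lt (by omega : v.natDegree < m + 1),
      zero_smul, add_zero, Finset.sum_mul]
    refine Finset.sum_congr rfl fun i hi => ?_
    have hi' : i ≤ m := Nat.lt_succ_iff.1 (Finset.mem_range.1 hi)
    rw [smul_mul_assoc, show m + 1 - i = (m - i) + 1 by omega, pow_succ]
    simp only [mul_assoc]

theorem kerB_norm_pow {A : Alg M} (hA : ‖A‖ ≤ 1) (k : ℕ) : ‖A ^ k‖ ≤ 1 :=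
  (norm_pow_le A k).trans (pow_le_one₀ (norm_nonneg _) hA)

theorem kerB_norm_conj {A : Alg M} (hA : ‖A‖ ≤ 1) (Z : Alg M) (k l : ℕ) :
    ‖A ^ k * Z * A ^ l‖ ≤ ‖Z‖ := by
  have h1 := kerB_norm_pow hA k
  have h2 := kerB_norm_pow hA l
  calc ‖A ^ k * Z * A ^ l‖ ≤ ‖A ^ k * Z‖ * ‖A ^ l‖ := norm_mul_le _ _
    _ ≤ ‖A ^ k * Z‖ := mul_le_of_le_one_right (norm_nonneg _) h2
    _ ≤ ‖A ^ k‖ * ‖Z‖ := norm_mul_le _ _
    _ ≤ ‖Z‖ := mul_le_of_le_one_left (norm_nonneg _) h1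

theorem norm_sh_le {A : Alg M} (hA : ‖A‖ ≤ 1) (Z : Alg M) (m : ℕ) (f : ℝ[X]) :
    ‖sh A Z m f‖ ≤ (∑ i ∈ range (m + 1), |f.coeff i|) * ‖Z‖ := by
  unfold sh
  rw [Finset.sum_mul]
  refine (norm_sum_le _ _).trans (Finset.sum_le_sum fun i _ => ?_)
  rw [norm_smul, Real.norm_eq_abs]
  exact mul_le_mul_of_nonneg_left (kerB_norm_conj hA Z _ _) (abs_nonneg _)

/-- every factor `X - 1` costs `g1` units of margin on both sides and gains `2κ`:
`A^g1 (A S - S A) A^g1 = A^g1 S (A^g1 (1-A)) - (A^g1 (1-A)) S A^g1`; induction on `T`. -/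
theorem sh_factor_bound {A : Alg M} (hA : ‖A‖ ≤ 1) {g1 : ℕ} {κ : ℝ}
    (hκ : ‖A ^ g1 * (1 - A)‖ ≤ κ) (Z : Alg M) (T m : ℕ) (v : ℝ[X]) (hv : v.natDegree + T ≤ m)
    {g g' : ℕ} (hg : T * g1 ≤ g) (hg' : T * g1 ≤ g') :
    ‖A ^ g * sh A Z m ((X - 1) ^ T * v) * A ^ g'‖ ≤
      (2 * κ) ^ T * (∑ i ∈ range (m + 1), |v.coeff i|) * ‖Z‖ := by
  have hκ0 : 0 ≤ κ := (norm_nonneg _).trans hκ
  induction T generalizing m g g' with
  | zero =>
    rw [pow_zero, pow_zero, one_mul, one_mul]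
    exact (kerB_norm_conj hA _ _ _).trans (norm_sh_le hA Z m v)
  | succ T ih =>
    obtain ⟨m, rfl⟩ : ∃ m', m = m' + 1 := ⟨m - 1, by omega⟩
    have hT : (T + 1) * g1 = T * g1 + g1 := by ring
    obtain ⟨a, rfl⟩ : ∃ a, g = g1 + a := ⟨g - g1, by omega⟩
    obtain ⟨b, rfl⟩ : ∃ b, g' = b + g1 := ⟨g' - g1, by omega⟩
    have hdeg : ((X - 1 : ℝ[X]) ^ T * v).natDegree ≤ m := by
      have h1 : (X - 1 : ℝ[X]).natDegree ≤ 1 := by
        have := natDegree_X_sub_C_le (R := ℝ) 1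
        simpa using this
      have h2 : ((X - 1 : ℝ[X]) ^ T).natDegree ≤ T * 1 :=
        natDegree_pow_le.trans (Nat.mul_le_mul_left _ h1)
      exact natDegree_mul_le.trans (by omega)
    rw [pow_succ', mul_assoc (X - 1 : ℝ[X]), sh_X_sub_one_mul A Z hdeg]
    set S := sh A Z m ((X - 1) ^ T * v) with hS
    have h1 := ih m (by omega) (g := g1 + a) (g' := b) (by omega) (by omega)
    have h2 := ih m (by omega) (g := a) (g' := b + g1) (by omega) (by omega)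
    rw [← hS] at h1 h2
    have hc : A * A ^ (b + g1) = A ^ b * (A ^ g1 * A) := by
      rw [← pow_succ', ← pow_succ, ← pow_add]; rfl
    have hc' : A ^ (g1 + a) * A = A ^ g1 * A * A ^ a := by
      rw [← pow_succ, ← pow_succ, ← pow_add]; congr 1; omega
    have key : A ^ (g1 + a) * (A * S - S * A) * A ^ (b + g1) =
        (A ^ (g1 + a) * S * A ^ b) * (A ^ g1 * (1 - A)) -
          (A ^ g1 * (1 - A)) * (A ^ a * S * A ^ (b + g1)) := by
      have e1 : A ^ (g1 + a) * (A * S) * A ^ (b + g1) =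
          A ^ g1 * A * (A ^ a * S * A ^ (b + g1)) := by
        rw [← mul_assoc (A ^ (g1 + a)), hc']; simp only [mul_assoc]
      have e2 : A ^ (g1 + a) * (S * A) * A ^ (b + g1) =
          A ^ (g1 + a) * S * A ^ b * (A ^ g1 * A) := by
        simp only [mul_assoc]; rw [hc]
      have e3 : A ^ (g1 + a) * S * A ^ b * A ^ g1 = A ^ g1 * (A ^ a * S * A ^ (b + g1)) := by
        rw [pow_add, pow_add]; simp only [mul_assoc]
      simp only [mul_sub, sub_mul, mul_one]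
      rw [e1, e2, e3]
      abel
    rw [key]
    have hmono : ∑ i ∈ range (m + 1), |v.coeff i| ≤ ∑ i ∈ range (m + 1 + 1), |v.coeff i| := by
      rw [Finset.sum_range_succ _ (m + 1)]
      linarith [abs_nonneg (v.coeff (m + 1))]
    have hs0 : 0 ≤ ∑ i ∈ range (m + 1), |v.coeff i| := Finset.sum_nonneg fun _ _ => abs_nonneg _
    set Q := (2 * κ) ^ T * (∑ i ∈ range (m + 1), |v.coeff i|) * ‖Z‖ with hQ
    have hQ0 : 0 ≤ Q := by positivity
    calc _ ≤ ‖(A ^ (g1 + a) * S * A ^ b) * (A ^ g1 * (1 - A))‖ +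
          ‖(A ^ g1 * (1 - A)) * (A ^ a * S * A ^ (b + g1))‖ := norm_sub_le _ _
      _ ≤ Q * κ + κ * Q := add_le_add
          ((norm_mul_le _ _).trans (mul_le_mul h1 hκ (norm_nonneg _) hQ0))
          ((norm_mul_le _ _).trans (mul_le_mul hκ h2 (norm_nonneg _) hκ0))
      _ = (2 * κ) ^ (T + 1) * (∑ i ∈ range (m + 1), |v.coeff i|) * ‖Z‖ := by rw [hQ]; ring
      _ ≤ _ := by gcongr

theorem kerB_slip {A : Alg M} {s x : ℝ} (hs : Slip A s) {g1 : ℕ} (hx : 0 < x)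
    (hg1 : 36 * x ^ 2 * s ≤ g1 + 1) : ‖A ^ g1 * (1 - A)‖ ≤ 1 / (6 * x) := by
  refine (hs g1).trans (Real.sqrt_le_iff.2 ⟨by positivity, ?_⟩)
  rw [div_pow, div_le_div_iff₀ (by positivity) (by positivity)]
  nlinarith

/-- smoothing (`kern_factor`, `sh_factor_bound` with `κ = 1/(6w)`) -/
theorem smooth {A : Alg M} (hA : Prob A) {s : ℝ} (hs : Slip A s) {T w W g1 : ℕ} (hw : 1 ≤ w)
    (hW : T * (w - 1) ≤ W) (hg1 : 36 * (w : ℝ) ^ 2 * s ≤ g1 + 1) (Z : Alg M) {g g' : ℕ}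
    (hg : T * g1 ≤ g) (hg' : T * g1 ≤ g') :
    ‖A ^ (g + W) * Z * A ^ (g' + W) - A ^ g * sh A Z (2 * W) (kern T w W) * A ^ g'‖ ≤
      (1 / 3) ^ T * ‖Z‖ := by
  obtain ⟨v, hv, hdeg, hl1⟩ := kern_factor hw hW
  have hw0 : (0 : ℝ) < w := by exact_mod_cast hw
  have e : A ^ (g + W) * Z * A ^ (g' + W) = A ^ g * sh A Z (2 * W) (X ^ W) * A ^ g' := by
    rw [sh_X_pow A Z (by omega), show 2 * W - W = W by omega, add_comm g', pow_add, pow_add]
    simp only [mul_assoc]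
  rw [e, ← sub_mul, ← mul_sub, ← sh_sub, hv]
  by_cases h0 : v = 0
  · rw [h0, mul_zero, kerB_sh_zero, mul_zero, zero_mul, norm_zero]; positivity
  refine (sh_factor_bound hA.norm_eq.le (kerB_slip hs hw0 hg1) Z T _ v (hdeg h0) hg hg').trans ?_
  calc _ ≤ (2 * (1 / (6 * (w : ℝ)))) ^ T * (w : ℝ) ^ T * ‖Z‖ := by
        gcongr; exact hl1 _
    _ = _ := by
        rw [← mul_pow]; congr 2; field_simp; norm_num

/-- first order cancellation (`div_factor`, `sh_factor_bound` with `κ = 1/(6(m+1))`) -/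
theorem kill {A : Alg M} (hA : Prob A) {s : ℝ} (hs : Slip A s) {T m g1 : ℕ} {c : ℝ[X]}
    (hd : (X - 1) ^ T ∣ c) (hm : c.natDegree ≤ m) (hc : ∀ i, |c.coeff i| ≤ 1)
    (hg1 : 36 * ((m : ℝ) + 1) ^ 2 * s ≤ g1 + 1) (Z : Alg M) {g g' : ℕ}
    (hg : T * g1 ≤ g) (hg' : T * g1 ≤ g') :
    ‖A ^ g * sh A Z m c * A ^ g'‖ ≤ (m + 1) * (1 / 3) ^ T * ‖Z‖ := by
  obtain ⟨v, hv, hdeg, hl1⟩ := div_factor hd hm hc
  have hw0 : (0 : ℝ) < (m : ℝ) + 1 := by positivity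
  rw [hv]
  by_cases h0 : v = 0
  · rw [h0, mul_zero, kerB_sh_zero, mul_zero, zero_mul, norm_zero]; positivity
  refine (sh_factor_bound hA.norm_eq.le (kerB_slip hs hw0 hg1) Z T _ v (hdeg h0) hg hg').trans ?_
  calc _ ≤ (2 * (1 / (6 * ((m : ℝ) + 1)))) ^ T * ((m : ℝ) + 1) ^ (T + 1) * ‖Z‖ := by
        gcongr; exact hl1 _
    _ = _ := by
        have : 2 * (1 / (6 * ((m : ℝ) + 1))) * ((m : ℝ) + 1) = 1 / 3 := by field_simp; norm_num
        rw [pow_succ, ← mul_assoc, ← mul_pow, this]; ring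

/-- smoothing for a shiftable family: `A^k X_y A^k = A^k (A^y X_0 A^(2W-y)) A^(k-2W)` -/
theorem smooth_family {A : Alg M} (hA : Prob A) {s : ℝ} (hs : Slip A s) {T w W g1 k : ℕ}
    (hw : 1 ≤ w) (hW : T * (w - 1) ≤ W) (hg1 : 36 * (w : ℝ) ^ 2 * s ≤ g1 + 1)
    (hk : T * g1 + 2 * W ≤ k) (Z : ℕ → Alg M) (hZ : ∀ y < 2 * W, A * Z y = Z (y + 1) * A) :
    ‖A ^ k * Z W * A ^ k -
      ∑ y ∈ range (2 * W + 1), (kern T w W).coeff y • (A ^ k * Z y * A ^ k)‖ ≤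
      (1 / 3) ^ T * ‖Z 0‖ := by
  have h1 : ∀ y ≤ 2 * W, A ^ y * Z 0 = Z y * A ^ y := by
    intro y hy
    induction y with
    | zero => simp
    | succ y ih =>
      rw [pow_succ', mul_assoc, ih (by omega), ← mul_assoc, hZ y (by omega), mul_assoc]
  have h2 : ∀ y ≤ 2 * W, A ^ k * Z y * A ^ k =
      A ^ k * (A ^ y * Z 0 * A ^ (2 * W - y)) * A ^ (k - 2 * W) := by
    intro y hy
    rw [h1 y hy]
    simp only [mul_assoc]
    rw [← pow_add, ← pow_add]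
    congr 3; omega
  have h3 := smooth hA hs hw hW hg1 (Z 0) (g := k) (g' := k - 2 * W) (by omega) (by omega)
  have e1 : A ^ k * Z W * A ^ k = A ^ (k + W) * Z 0 * A ^ (k - 2 * W + W) := by
    rw [h2 W (by omega), show 2 * W - W = W by omega, add_comm (k - 2 * W), pow_add, pow_add]
    simp only [mul_assoc]
  have e2 : ∑ y ∈ range (2 * W + 1), (kern T w W).coeff y • (A ^ k * Z y * A ^ k) =
      A ^ k * sh A (Z 0) (2 * W) (kern T w W) * A ^ (k - 2 * W) := by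
    unfold sh
    rw [Finset.mul_sum, Finset.sum_mul]
    refine Finset.sum_congr rfl fun y hy => ?_
    rw [h2 y (Nat.lt_succ_iff.1 (Finset.mem_range.1 hy)), mul_smul_comm, smul_mul_assoc]
  rw [e1, e2]
  exact h3

end Crest.Agent.R300.LB
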