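import Crest.Agent.R300.LBLp

/-! Row 300 lower bound: change of the reference law. -/

set_option autoImplicit false

namespace Crest.Agent.R300.LB

open Finset

variable {M : Type*} [Monoid M]

open Classical in
/-- restriction to a set, as a linear map -/
noncomputable def rcFilt (G : M → Prop) : Alg M →ₗ[ℝ] Alg M where
  toFun y := MonoidAlgebra.ofCoeff (y.coeff.filter G)
  map_add' x y := by
    apply MonoidAlgebra.coeff_injective
    simp [MonoidAlgebra.coeff_add, Finsupp.filter_add]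
  map_smul' c x := by
    apply MonoidAlgebra.coeff_injective
    simp [MonoidAlgebra.coeff_smul, Finsupp.filter_smul]

omit [Monoid M] in
open Classical in
theorem rcFilt_coeff (G : M → Prop) (y : Alg M) (w : M) :
    (rcFilt G y).coeff w = if G w then y.coeff w else 0 := Finsupp.filter_apply _ _ _

theorem rc_sum_le_norm (h : Alg M) (s : Finset M) : ∑ w ∈ s, |h.coeff w| ≤ ‖h‖ := by
  classical
  rw [norm_eq_sum h (s := s ∪ h.coeff.support) Finset.subset_union_right]
  exact Finset.sum_le_sum_of_subset_of_nonneg Finset.subset_union_left fun _ _ _ => abs_nonneg _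

theorem rc_sq {p : ℕ} (hp : 2 ≤ p) {R : Alg M} (hR : Prob R) {d : M → ℝ} {β : ℝ} (hβ : 0 ≤ β)
    (h : ∑ w ∈ R.coeff.support, R.coeff w * |d w| ^ p ≤ β ^ p) :
    ∑ w ∈ R.coeff.support, R.coeff w * d w ^ 2 ≤ β ^ 2 := by
  have hp' : (1 : ℝ) ≤ (p : ℝ) / 2 := by
    have : (2 : ℝ) ≤ p := by exact_mod_cast hp
    linarith
  have e : ∀ x : ℝ, (x ^ 2) ^ ((p : ℝ) / 2) = |x| ^ p := fun x => by
    rw [← sq_abs, ← Real.rpow_natCast, ← Real.rpow_natCast, ← Real.rpow_mul (abs_nonneg x)]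
    congr 1; push_cast; ring
  have h1 := Real.rpow_arith_mean_le_arith_mean_rpow R.coeff.support R.coeff (fun w => d w ^ 2)
    (fun w _ => hR.1 w) hR.sum_coeff (fun w _ => sq_nonneg _) hp'
  simp only [e] at h1
  have h2 := h1.trans h
  rw [← abs_of_nonneg hβ, ← e] at h2
  exact (Real.rpow_le_rpow_iff (Finset.sum_nonneg fun w _ => mul_nonneg (hR.1 w) (sq_nonneg _))
    (sq_nonneg _) (by linarith)).1 h2

/-- Reference change.  `G = {w | R w / 2 ≤ R' w}`, `Ψ y = y 1_G - mass (y 1_G) • R'`.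
Off `G` either the density of `f` is `≤ -1/4` or `(R' - R - f) w ≤ -R w / 4`, so
`R(Gᶜ) ≤ (4/8)^p + 4 η`; Cauchy-Schwarz and `L² ≤ L^p` give the error bound; on `G` the density
with respect to `R'` is `y R / R'` with `R / R' ≤ 2`. -/
theorem rc {p : ℕ} (hp : 2 ≤ p) {R R' f : Alg M} (hR : Prob R) (hR' : Prob R')
    (hf : Bd p R f (1 / 8)) {η : ℝ} (hη : ‖R' - R - f‖ ≤ η) :
    ∃ Ψ : Alg M →ₗ[ℝ] Alg M, ∀ (y : Alg M) (β : ℝ), Bd p R y β → mass y = 0 →
      Bd p R' (Ψ y) (3 * β) ∧ mass (Ψ y) = 0 ∧ ‖y - Ψ y‖ ≤ 2 * β * √((1 / 2) ^ p + 4 * η) := by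
  classical
  let G : M → Prop := fun w => R.coeff w / 2 ≤ R'.coeff w
  have hG : ∑ w ∈ R.coeff.support with ¬ G w, R.coeff w ≤ (1 / 2) ^ p + 4 * η := by
    obtain ⟨-, e, he, he'⟩ := hf
    have h1 : ∀ w ∈ R.coeff.support.filter (fun w => ¬ G w), R.coeff w ≤
        4 ^ p * (R.coeff w * |e w| ^ p) + 4 * |(R' - R - f).coeff w| := by
      intro w hw
      have h2 : R'.coeff w < R.coeff w / 2 := not_le.1 (Finset.mem_filter.1 hw).2
      have h3 := hR.1 w
      have h4 : (R' - R - f).coeff w = R'.coeff w - R.coeff w - e w * R.coeff w := by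
        simp [MonoidAlgebra.coeff_sub, he]
      have h5 : 0 ≤ 4 ^ p * (R.coeff w * |e w| ^ p) := by positivity
      rcases le_or_gt (-1 / 4) (e w) with h6 | h6
      · have := neg_abs_le ((R' - R - f).coeff w)
        nlinarith
      · have h7 : 1 ≤ (4 * |e w|) ^ p :=
          one_le_pow₀ (by rw [abs_of_neg (by linarith)]; linarith)
        rw [mul_pow] at h7
        have := abs_nonneg ((R' - R - f).coeff w)
        nlinarith
    refine (Finset.sum_le_sum h1).trans ?_
    rw [Finset.sum_add_distrib, ← Finset.mul_sum, ← Finset.mul_sum]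
    refine add_le_add ?_ (mul_le_mul_of_nonneg_left ((rc_sum_le_norm _ _).trans hη) (by norm_num))
    have h2 : ∑ w ∈ R.coeff.support with ¬ G w, R.coeff w * |e w| ^ p ≤ (1 / 8) ^ p :=
      (Finset.sum_le_sum_of_subset_of_nonneg (Finset.filter_subset _ _)
        fun w _ _ => mul_nonneg (hR.1 w) (by positivity)).trans he'
    calc _ ≤ (4 : ℝ) ^ p * (1 / 8) ^ p := by gcongr
      _ = _ := by rw [← mul_pow]; norm_num
  refine ⟨rcFilt G - ((mass (M := M)).toLinearMap ∘ₗ rcFilt G).smulRight R', fun y β hy hy0 => ?_⟩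
  have hΨ : (rcFilt G - ((mass (M := M)).toLinearMap ∘ₗ rcFilt G).smulRight R' :
      Alg M →ₗ[ℝ] Alg M) y = rcFilt G y - mass (rcFilt G y) • R' := rfl
  rw [hΨ]
  have hn := hy.norm_le (by omega) hR
  obtain ⟨hβ, d, hd, hd'⟩ := hy
  have hsupp : ∀ (P : M → Prop), (rcFilt P y).coeff.support ⊆ R.coeff.support := by
    intro P w hw
    rw [Finsupp.mem_support_iff] at hw ⊢
    intro h0
    rw [rcFilt_coeff, hd, h0] at hw
    simp at hw
  have h1 : Bd p R' (rcFilt G y) (2 * β) := by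
    refine ⟨by positivity, fun w => if G w then d w * (R.coeff w / R'.coeff w) else 0,
      fun w => ?_, ?_⟩
    · rw [rcFilt_coeff]
      beta_reduce
      split_ifs with h
      · rw [hd]
        by_cases h0 : R'.coeff w = 0
        · have h2 : R.coeff w / 2 ≤ R'.coeff w := h
          have : R.coeff w = 0 := le_antisymm (by linarith) (hR.1 w)
          simp [this]
        · field_simp
      · simp
    · have h2 : ∀ w ∈ R'.coeff.support, R'.coeff w *
          |if G w then d w * (R.coeff w / R'.coeff w) else 0| ^ p ≤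
          2 ^ p * (R.coeff w * |d w| ^ p) := by
        intro w hw
        have h3 := hR.1 w
        have h4 : 0 < R'.coeff w := lt_of_le_of_ne (hR'.1 w) (Finsupp.mem_support_iff.1 hw).symm
        split_ifs with h
        · have h5 : R.coeff w / 2 ≤ R'.coeff w := h
          have h6 : R.coeff w / R'.coeff w ≤ 2 := by rw [div_le_iff₀ h4]; linarith
          have h7 : 0 ≤ R.coeff w / R'.coeff w := by positivity
          obtain ⟨k, rfl⟩ : ∃ k, p = k + 1 := ⟨p - 1, by omega⟩
          rw [abs_mul, abs_of_nonneg h7, mul_pow, pow_succ (R.coeff w / R'.coeff w)]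
          have h8 : (R.coeff w / R'.coeff w) ^ k ≤ 2 ^ (k + 1) :=
            (pow_le_pow_left₀ h7 h6 k).trans (pow_le_pow_right₀ (by norm_num) (by omega))
          calc _ = (R.coeff w / R'.coeff w) ^ k * (R.coeff w * |d w| ^ (k + 1)) := by
                field_simp
            _ ≤ _ := by gcongr
        · rw [abs_zero, zero_pow (by omega), mul_zero]; positivity
      refine (Finset.sum_le_sum h2).trans ?_
      rw [← Finset.mul_sum, mul_pow]
      refine mul_le_mul_of_nonneg_left (le_trans ?_ hd') (by positivity)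
      refine (Finset.sum_le_sum_of_subset_of_nonneg
        (Finset.subset_union_left (s₂ := R.coeff.support))
        fun w _ _ => mul_nonneg (hR.1 w) (by positivity)).trans (le_of_eq ?_)
      refine (Finset.sum_subset Finset.subset_union_right fun w _ hw => ?_).symm
      rw [Finsupp.notMem_support_iff.1 hw, zero_mul]
  have h2 : |mass (rcFilt G y)| ≤ β := by
    refine (abs_mass_le _).trans (le_trans ?_ hn)
    rw [norm_def]
    refine le_trans (Finset.sum_le_sum fun w _ => ?_) (rc_sum_le_norm y _)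
    rw [rcFilt_coeff]
    split_ifs <;> simp
  have h3 : y = rcFilt G y + rcFilt (fun w => ¬ G w) y := by
    apply MonoidAlgebra.coeff_injective
    ext w
    rw [MonoidAlgebra.coeff_add, Finsupp.add_apply, rcFilt_coeff, rcFilt_coeff]
    by_cases h : G w <;> simp [h]
  have h4 : ‖rcFilt (fun w => ¬ G w) y‖ ≤ β * √((1 / 2) ^ p + 4 * η) := by
    have e1 : ‖rcFilt (fun w => ¬ G w) y‖ =
        ∑ w ∈ R.coeff.support with ¬ G w, (√(R.coeff w) * |d w|) * √(R.coeff w) := by
      rw [norm_eq_sum _ (hsupp _), Finset.sum_filter]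
      refine Finset.sum_congr rfl fun w _ => ?_
      rw [rcFilt_coeff]
      by_cases h : G w
      · simp [h]
      · simp only [h, not_false_eq_true, if_true]
        rw [hd, abs_mul, abs_of_nonneg (hR.1 w), mul_right_comm, Real.mul_self_sqrt (hR.1 w),
          mul_comm]
    rw [e1]
    refine (Real.sum_mul_le_sqrt_mul_sqrt _ _ _).trans (mul_le_mul ?_ ?_ (by positivity) hβ)
    · rw [Real.sqrt_le_left hβ]
      refine le_trans ?_ (rc_sq hp hR hβ hd')
      refine le_trans (le_of_eq ?_) (Finset.sum_le_sum_of_subset_of_nonneg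
        (Finset.filter_subset (fun w => ¬ G w) _)
        fun w _ _ => mul_nonneg (hR.1 w) (by positivity))
      refine Finset.sum_congr rfl fun w _ => ?_
      rw [mul_pow, Real.sq_sqrt (hR.1 w), sq_abs]
    · refine Real.sqrt_le_sqrt (le_trans (le_of_eq ?_) hG)
      exact Finset.sum_congr rfl fun w _ => Real.sq_sqrt (hR.1 w)
  refine ⟨?_, by simp [hR'.2], ?_⟩
  · have h5 := ((bd_self (p := p) hR').smul (mass (rcFilt G y))).neg
    have h6 := Bd.add (by omega) hR'.1 h1 h5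
    rw [← sub_eq_add_neg] at h6
    exact h6.mono (by linarith)
  · have h5 : mass (rcFilt G y) = -mass (rcFilt (fun w => ¬ G w) y) := by
      have := congrArg mass h3
      rw [map_add, hy0] at this
      linarith
    have h6 : y - (rcFilt G y - mass (rcFilt G y) • R') =
        rcFilt (fun w => ¬ G w) y + mass (rcFilt G y) • R' := by
      conv_lhs => rw [h3]
      rw [← h3]
      nth_rewrite 1 [h3]
      abel
    rw [h6]
    refine (norm_add_le _ _).trans ?_
    rw [norm_smul, hR'.norm_eq, h5, norm_neg, Real.norm_eq_abs]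
    have := abs_mass_le (rcFilt (fun w => ¬ G w) y)
    linarith

theorem rc_bes {ι : Type*} {p : ℕ} (hp : 2 ≤ p) {R R' f : Alg M} (hR : Prob R) (hR' : Prob R')
    (hf : Bd p R f (1 / 8)) {η : ℝ} (hη : ‖R' - R - f‖ ≤ η) {ξ : ι → Alg M} {ω : ι → ℝ}
    (hξ : Bes p R ξ ω) :
    ∃ ξ' : ι → Alg M, Bes p R' ξ' (fun a => 9 * ω a) ∧
      ∀ a, ‖ξ a - ξ' a‖ ≤ 2 * √(ω a) * √((1 / 2) ^ p + 4 * η) := by
  obtain ⟨Ψ, hΨ⟩ := rc hp hR hR' hf hη
  refine ⟨fun a => Ψ (ξ a), ⟨fun a => (hΨ _ _ (hξ.bd a) (hξ.1 a)).2.1,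
    fun a => mul_nonneg (by norm_num) (hξ.2.1 a), fun s c => ?_⟩,
    fun a => (hΨ _ _ (hξ.bd a) (hξ.1 a)).2.2⟩
  have h1 := (hΨ _ _ (hξ.2.2 s c) (by simp [map_sum, hξ.1])).1
  have e : √(∑ a ∈ s, c a ^ 2 * (9 * ω a)) = 3 * √(∑ a ∈ s, c a ^ 2 * ω a) := by
    have : ∑ a ∈ s, c a ^ 2 * (9 * ω a) = 3 ^ 2 * ∑ a ∈ s, c a ^ 2 * ω a := by
      rw [Finset.mul_sum]; exact Finset.sum_congr rfl fun a _ => by ring
    rw [this, Real.sqrt_mul (by positivity), Real.sqrt_sq (by norm_num)]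
  rw [e]
  simpa [map_sum] using h1

/-- the last object: the difference of the two cells as one `L^p` small defect -/
theorem fin_obj {C : Cell M} {p : ℕ} (hp : 2 ≤ p) {e2 h2 s θ : ℝ} (hC : C.OK p e2 h2 s θ)
    (he : e2 ≤ 1 / 64) :
    ∃ d : Alg M, mass d = 0 ∧ Bd p C.Ap d (3 * √h2) ∧
      ‖C.Bp - C.Ap - d‖ ≤ θ + 2 * √h2 * √((1 / 2) ^ p + 4 * θ) := by
  obtain ⟨hA, hca, -, -, ξE, ξD, hE, hD, hE', hD'⟩ := hC
  have hW : C.W ≤ 2 * C.W := by omega
  have h1 : Bd p C.R (ξE C.W) (1 / 8) := (hE.bd C.W).mono (by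
    rw [Real.sqrt_le_left (by norm_num)]; linarith)
  have h2 : ‖C.Ap - C.R - ξE C.W‖ ≤ θ := by
    rw [Cell.Ap, C.Ay_eq hW, add_sub_cancel_left]; exact hE' _ hW
  obtain ⟨Ψ, hΨ⟩ := rc hp (Cell.prob_R hA) (Cell.prob_put hA hca C.W) h1 h2
  obtain ⟨h3, h4, h5⟩ := hΨ _ _ (hD.bd C.W) (hD.1 C.W)
  refine ⟨Ψ (ξD C.W), h4, h3, ?_⟩
  have e : C.Bp - C.Ap - Ψ (ξD C.W) = (C.D C.W - ξD C.W) + (ξD C.W - Ψ (ξD C.W)) := by
    rw [Cell.Bp, Cell.Ap, C.By_eq]; abel
  rw [e]
  exact (norm_add_le _ _).trans (add_le_add (hD' _ hW) h5)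

end Crest.Agent.R300.LB
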