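import Crest.Agent.R300.LBLatU
import Crest.Agent.R300.LBChaos
import Crest.Agent.R300.LBKerB
import Crest.Agent.R300.LBRC

/-! Row 300 lower bound: the base pair `A^y B A^y'`, `A^(y+1) B A^(y'-1)`. -/

set_option autoImplicit false

namespace Crest.Agent.R300.LB

open Finset

open Polynomial

variable {M : Type*} [Monoid M]

theorem baseA_orth (ω : Option Unit → ℝ) (a k b c : ℕ) :
    ip ω (oo ^ a * LL () * oo ^ b) (oo ^ (a + k + 1) * LL () * oo ^ c) = 0 := by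
  have e : (oo : Wd Unit) ^ (a + k + 1) * LL () * oo ^ c =
      oo ^ a * (oo * (oo ^ k * LL () * oo ^ c)) := by
    rw [add_assoc, pow_add, pow_succ']
    simp only [mul_assoc]
  rw [e, mul_assoc, ip_mul_hom_left _ (hom_oo_pow a) (hom_oo_pow a),
    ip_mul_hom_left _ (hom_LL ()) hom_oo, ip_comm _ (LL ()), ip_oo_LL, zero_mul, mul_zero]

theorem baseA_comm (A : Alg M) (a b : ℕ) : A ^ a * (1 - A) * A ^ b = A ^ (a + b) * (1 - A) := by
  simp only [mul_sub, sub_mul, mul_one]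
  rw [← pow_succ, ← pow_succ, ← pow_add, ← pow_add, add_right_comm]

theorem baseA_mass_sh {A ξ : Alg M} (h0 : mass ξ = 0) (m : ℕ) (f : ℝ[X]) :
    mass (sh A ξ m f) = 0 := by
  simp [sh, map_sum, h0]

/-- first order chaos: `chaos` for `∑_i f_i o^(g+i) L o^(m-i+g')`, whose terms are orthogonal
single words -/
theorem bd_sh {p : ℕ} (hp : Even p) (hp2 : 2 ≤ p) {A ξ : Alg M} (hA : Prob A) (h0 : mass ξ = 0)
    {β : ℝ} (hξ : Bd p A ξ β) (g g' m : ℕ) (f : ℝ[X]) :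
    Bd p (A ^ (g + m + 1 + g')) (A ^ g * sh A ξ m f * A ^ g')
      √(3 * p * β ^ 2 * ∑ i ∈ range (m + 1), f.coeff i ^ 2) := by
  have hω := chaos_wt_nonneg (p := p) (ω := fun _ : Unit => β ^ 2) fun _ => sq_nonneg β
  have h := chaos hp hp2 hA (bes_single (by omega) h0 hξ) (g + m + 1 + g')
    (∑ i ∈ range (m + 1), f.coeff i • (oo ^ (g + i) * LL () * oo ^ (m - i + g')))
    (Hom.sum _ _ fun i hi => Hom.smul (by
      have hi' : i ≤ m := Nat.lt_succ_iff.1 (mem_range.1 hi)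
      have := ((hom_oo_pow (ι := Unit) (g + i)).mul (hom_LL ())).mul (hom_oo_pow (m - i + g'))
      rwa [show g + i + 1 + (m - i + g') = g + m + 1 + g' by omega] at this) _)
  have e1 : ev A (fun _ : Unit => ξ)
      (∑ i ∈ range (m + 1), f.coeff i • (oo ^ (g + i) * LL () * oo ^ (m - i + g'))) =
      A ^ g * sh A ξ m f * A ^ g' := by
    rw [map_sum, sh, Finset.mul_sum, Finset.sum_mul]
    refine Finset.sum_congr rfl fun i _ => ?_
    rw [map_smul, map_mul, map_mul, map_pow, map_pow, ev_oo, ev_LL, mul_smul_comm, smul_mul_assoc,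
      pow_add, pow_add]
    simp only [mul_assoc]
  rw [e1] at h
  refine h.mono (le_of_eq ?_)
  rw [← Real.sqrt_sq (nrm_nonneg _ _), nrm_sum_orth hω, Finset.mul_sum]
  · congr 1
    refine Finset.sum_congr rfl fun i _ => ?_
    rw [nrm_mul_hom_right hω _ (hom_oo_pow _), nrm_mul_hom_left hω (hom_oo_pow _), nrm_oo_pow,
      nrm_oo_pow, one_mul, mul_one, nrm_sq hω, ip_LL_LL]
    simp only [wt1, Option.elim_some]
    ring
  · intro i _ j _ hij
    rcases lt_or_gt_of_ne hij with h | h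
    · obtain ⟨k, rfl⟩ := Nat.exists_eq_add_of_lt h
      rw [show g + (i + k + 1) = g + i + k + 1 by ring]
      exact baseA_orth _ _ _ _ _
    · obtain ⟨k, rfl⟩ := Nat.exists_eq_add_of_lt h
      rw [show g + (j + k + 1) = g + j + k + 1 by ring, ip_comm]
      exact baseA_orth _ _ _ _ _

/-- `A^m (1-A) = (1/(m+1)) ∑_i A^i (1-A) A^(m-i)` -/
theorem bd_pow_mul_one_sub {p : ℕ} (hp : Even p) (hp2 : 2 ≤ p) {A : Alg M} (hA : Prob A) {β : ℝ}
    (hξ : Bd p A (1 - A) β) (m : ℕ) :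
    Bd p (A ^ (m + 1)) (A ^ m * (1 - A)) √(3 * p * β ^ 2 / (m + 1)) := by
  have h := bd_sh hp hp2 hA (by rw [map_sub, map_one, hA.2, sub_self]) hξ 0 0 m (avgP (m + 1))
  have hm : (0 : ℝ) < (m : ℝ) + 1 := by positivity
  have e1 : sh A (1 - A) m (avgP (m + 1)) = A ^ m * (1 - A) := by
    rw [sh, Finset.sum_congr rfl (g := fun _ => (1 / ((m : ℝ) + 1)) • (A ^ m * (1 - A)))]
    · rw [Finset.sum_const, card_range, ← Nat.cast_smul_eq_nsmul ℝ, smul_smul]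
      push_cast
      rw [mul_one_div_cancel hm.ne', one_smul]
    · intro i hi
      have hi' := mem_range.1 hi
      rw [kerA_coeff_avg, if_pos hi', baseA_comm, show i + (m - i) = m by omega]
      push_cast
      rfl
  have e2 : ∑ i ∈ range (m + 1), (avgP (m + 1)).coeff i ^ 2 = 1 / ((m : ℝ) + 1) := by
    rw [Finset.sum_congr rfl (g := fun _ => (1 / ((m : ℝ) + 1)) ^ 2)]
    · rw [Finset.sum_const, card_range, nsmul_eq_mul]
      push_cast
      field_simp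
    · intro i hi
      rw [kerA_coeff_avg, if_pos (mem_range.1 hi)]
      push_cast
      rfl
  rw [e1, e2, mul_one_div] at h
  simpa using h

variable {q : ℝ} {Y : Bool → Alg M}

theorem baseA_split (h0 : 0 < q) (h1 : q ≤ 1 / 2) (Y : Bool → Alg M) (a b : ℕ) :
    uA q Y ^ a * uB q Y * uA q Y ^ b = uA q Y ^ (a + b + 1) +
      (q / (1 + q)) • (uA q Y ^ (a + b) * (1 - uA q Y)) +
      (1 - q) • (uA q Y ^ a * uZ q Y * uA q Y ^ b) := by
  rw [uB_eq h0 h1 Y]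
  simp only [mul_add, add_mul, mul_smul_comm, smul_mul_assoc]
  rw [baseA_comm, ← pow_succ, ← pow_add, add_right_comm a 1 b]

/-- `A^y B A^y' = A^(m+1) + θ A^m (1-A) + (1-q) A^y ζ A^y'` (`m = y + y'`, `uB_eq`); smooth the last
term (`smooth`, `bd_sh`, `kern_sq`, `bd_uZ`: `√(6T · 9/q² · T²/w) ≤ 1/16`) and use
`bd_pow_mul_one_sub`, `bd_one_sub` (`m + 1 ≥ g1 + 1 ≥ w`). -/
theorem base_ref (h0 : 0 < q) (h1 : q ≤ 1 / 2) (hY : ∀ b, Prob (Y b)) {T w W g1 y y' : ℕ}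
    (hT : 1 ≤ T) (hw : 14000 * (T : ℝ) ^ 3 ≤ q ^ 2 * w) (hW : T * (w - 1) ≤ W)
    (hg1 : 36 * (w : ℝ) ^ 2 * (1 / q ^ 2) ≤ g1 + 1) (hy : T * g1 + W ≤ y) (hy' : T * g1 + W ≤ y') :
    ∃ f : Alg M, Bd (2 * T) (uA q Y ^ (y + y' + 1)) f (1 / 8) ∧
      ‖uA q Y ^ y * uB q Y * uA q Y ^ y' - uA q Y ^ (y + y' + 1) - f‖ ≤ 2 * (1 / 3) ^ T := by
  have hA := prob_uA h0 h1 hY
  have hT' : (1 : ℝ) ≤ T := by exact_mod_cast hT
  have hT3 : (T : ℝ) ≤ (T : ℝ) ^ 3 := by nlinarith [mul_nonneg (sub_nonneg.2 hT') (sq_nonneg (T : ℝ)), sq_nonneg ((T : ℝ) - 1)]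
  have hq2 : q ^ 2 ≤ 1 / 4 := by nlinarith
  have hq0 : 0 < q ^ 2 := by positivity
  have hw0 : (0 : ℝ) ≤ w := Nat.cast_nonneg w
  have hwT : 56000 * (T : ℝ) ≤ w := by nlinarith
  have hw1 : 1 ≤ w := by
    have : (1 : ℝ) ≤ w := by linarith
    exact_mod_cast this
  have hwpos : (0 : ℝ) < w := by linarith
  obtain ⟨g, rfl⟩ : ∃ g, y = g + W := ⟨y - W, by omega⟩
  obtain ⟨g', rfl⟩ : ∃ g', y' = g' + W := ⟨y' - W, by omega⟩
  have hp : Even (2 * T) := even_two_mul T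
  have hs := smooth hA (slip_uA h0 h1 hY) hw1 hW hg1 (uZ q Y) (g := g) (g' := g') (by omega)
    (by omega)
  have b1 := (bd_pow_mul_one_sub hp (by omega) hA (bd_one_sub h0 h1 hY _)
    (g + W + (g' + W))).smul (q / (1 + q))
  have b2 := (bd_sh hp (by omega) hA (mass_uZ h0 h1 hY) (bd_uZ h0 h1 hY _) g g' (2 * W)
    (kern T w W)).smul (1 - q)
  rw [show g + 2 * W + 1 + g' = g + W + (g' + W) + 1 by ring] at b2
  refine ⟨_, (b1.add (by omega) (hA.pow _).1 b2).mono ?_, ?_⟩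
  · have c1 : |q / (1 + q)| * √(3 * ((2 * T : ℕ) : ℝ) * (1 / q ^ 2) ^ 2 /
        (((g + W + (g' + W) : ℕ) : ℝ) + 1)) ≤ 1 / 16 := by
      have hm : (g1 : ℝ) + 1 ≤ ((g + W + (g' + W) : ℕ) : ℝ) + 1 := by
        have : g1 ≤ g + W + (g' + W) := by
          have := Nat.le_mul_of_pos_left g1 hT
          omega
        exact_mod_cast Nat.succ_le_succ this
      set N : ℝ := ((g + W + (g' + W) : ℕ) : ℝ) + 1 with hN
      have hN0 : 0 < N := by positivity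
      have hN1 : 36 * (w : ℝ) ^ 2 ≤ N * q ^ 2 := by
        have := hg1.trans hm
        rwa [mul_one_div, div_le_iff₀ hq0] at this
      have hθ : |q / (1 + q)| ≤ q := by
        rw [abs_of_pos (by positivity)]
        exact div_le_self h0.le (by linarith)
      refine (mul_le_mul_of_nonneg_right hθ (Real.sqrt_nonneg _)).trans ?_
      rw [← Real.sqrt_sq h0.le, ← Real.sqrt_mul (sq_nonneg q), Real.sqrt_le_left (by norm_num),
        Real.sqrt_sq h0.le]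
      push_cast
      have e : q ^ 2 * (3 * (2 * (T : ℝ)) * (1 / q ^ 2) ^ 2 / N) = 6 * T / (N * q ^ 2) := by
        field_simp; norm_num
      rw [e, div_le_iff₀ (by positivity)]
      nlinarith
    have c2 : |1 - q| * √(3 * ((2 * T : ℕ) : ℝ) * (3 / q) ^ 2 *
        ∑ i ∈ range (2 * W + 1), (kern T w W).coeff i ^ 2) ≤ 1 / 16 := by
      have hθ : |1 - q| ≤ 1 := by rw [abs_of_pos (by linarith)]; linarith
      refine (mul_le_of_le_one_left (Real.sqrt_nonneg _) hθ).trans ?_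
      rw [Real.sqrt_le_left (by norm_num)]
      refine (mul_le_mul_of_nonneg_left (kern_sq T w W _ hw1) (by positivity)).trans ?_
      push_cast
      have e : 3 * (2 * (T : ℝ)) * (3 / q) ^ 2 * ((T : ℝ) ^ 2 / w) = 54 * T ^ 3 / (q ^ 2 * w) := by
        field_simp; norm_num
      rw [e, div_le_iff₀ (by positivity)]
      nlinarith
    linarith
  · have e : uA q Y ^ (g + W) * uB q Y * uA q Y ^ (g' + W) - uA q Y ^ (g + W + (g' + W) + 1) -
        ((q / (1 + q)) • (uA q Y ^ (g + W + (g' + W)) * (1 - uA q Y)) +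
          (1 - q) • (uA q Y ^ g * sh (uA q Y) (uZ q Y) (2 * W) (kern T w W) * uA q Y ^ g')) =
        (1 - q) • (uA q Y ^ (g + W) * uZ q Y * uA q Y ^ (g' + W) -
          uA q Y ^ g * sh (uA q Y) (uZ q Y) (2 * W) (kern T w W) * uA q Y ^ g') := by
      rw [baseA_split h0 h1, smul_sub]
      abel
    rw [e, norm_smul, Real.norm_eq_abs, abs_of_pos (by linarith)]
    have hz := norm_uZ h0 h1 hY
    have h3 : (0 : ℝ) ≤ (1 / 3) ^ T := by positivity
    refine (mul_le_of_le_one_left (norm_nonneg _) (by linarith)).trans (hs.trans ?_)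
    nlinarith

/-- the difference is `(1-q) (A^(y+1) ζ A^(y'-1) - A^y ζ A^y')`; smooth both terms, the result is
`(1-q) A^(y-W) sh A ζ (2W+1) ((X-1) kern) A^(y'-1-W)` (`sh_X_sub_one_mul`, `kern_natDegree`),
then `bd_sh`, `kern_diff_sq`. -/
theorem base_diff (h0 : 0 < q) (h1 : q ≤ 1 / 2) (hY : ∀ b, Prob (Y b)) {T w W g1 y y' : ℕ}
    (hT : 1 ≤ T) (hw : 1 ≤ w) (hW : T * (w - 1) ≤ W)
    (hg1 : 36 * (w : ℝ) ^ 2 * (1 / q ^ 2) ≤ g1 + 1) (hy : T * g1 + W ≤ y)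
    (hy' : T * g1 + W + 1 ≤ y') :
    ∃ f : Alg M, mass f = 0 ∧
      Bd (2 * T) (uA q Y ^ (y + y' + 1)) f √(108 * (T : ℝ) ^ 3 / (q ^ 2 * (w : ℝ) ^ 3)) ∧
      ‖uA q Y ^ (y + 1) * uB q Y * uA q Y ^ (y' - 1) - uA q Y ^ y * uB q Y * uA q Y ^ y' - f‖ ≤
        4 * (1 / 3) ^ T := by
  have hA := prob_uA h0 h1 hY
  have hwpos : (0 : ℝ) < w := by exact_mod_cast hw
  obtain ⟨g, rfl⟩ : ∃ g, y = g + W := ⟨y - W, by omega⟩
  obtain ⟨g', rfl⟩ : ∃ g', y' = g' + W + 1 := ⟨y' - W - 1, by omega⟩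
  have hp : Even (2 * T) := even_two_mul T
  have hs1 := smooth hA (slip_uA h0 h1 hY) hw hW hg1 (uZ q Y) (g := g + 1) (g' := g') (by omega)
    (by omega)
  have hs2 := smooth hA (slip_uA h0 h1 hY) hw hW hg1 (uZ q Y) (g := g) (g' := g' + 1) (by omega)
    (by omega)
  have b2 := (bd_sh hp (by omega) hA (mass_uZ h0 h1 hY) (bd_uZ h0 h1 hY _) g g' (2 * W + 1)
    ((X - 1) * kern T w W)).smul (1 - q)
  rw [show g + (2 * W + 1) + 1 + g' = g + W + (g' + W + 1) + 1 by ring] at b2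
  have hθ : |1 - q| ≤ 1 := by rw [abs_of_pos (by linarith)]; linarith
  refine ⟨_, ?_, b2.mono ?_, ?_⟩
  · rw [map_smul, map_mul, map_mul, baseA_mass_sh (mass_uZ h0 h1 hY), mul_zero, zero_mul,
      smul_zero]
  · refine (mul_le_of_le_one_left (Real.sqrt_nonneg _) hθ).trans (Real.sqrt_le_sqrt ?_)
    refine (mul_le_mul_of_nonneg_left (kern_diff_sq T w W _ hw) (by positivity)).trans
      (le_of_eq ?_)
    push_cast
    field_simp
    norm_num
  · rw [sh_X_sub_one_mul _ _ (kern_natDegree hW)]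
    set S := sh (uA q Y) (uZ q Y) (2 * W) (kern T w W) with hS
    have e : uA q Y ^ (g + W + 1) * uB q Y * uA q Y ^ (g' + W + 1 - 1) -
        uA q Y ^ (g + W) * uB q Y * uA q Y ^ (g' + W + 1) -
        (1 - q) • (uA q Y ^ g * (uA q Y * S - S * uA q Y) * uA q Y ^ g') =
        (1 - q) • ((uA q Y ^ (g + 1 + W) * uZ q Y * uA q Y ^ (g' + W) -
          uA q Y ^ (g + 1) * S * uA q Y ^ g') -
          (uA q Y ^ (g + W) * uZ q Y * uA q Y ^ (g' + 1 + W) -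
          uA q Y ^ g * S * uA q Y ^ (g' + 1))) := by
      have e1 : uA q Y ^ g * (uA q Y * S - S * uA q Y) * uA q Y ^ g' =
          uA q Y ^ (g + 1) * S * uA q Y ^ g' - uA q Y ^ g * S * uA q Y ^ (g' + 1) := by
        rw [pow_succ, pow_succ']
        simp only [mul_sub, sub_mul, mul_assoc]
      rw [e1, baseA_split h0 h1, baseA_split h0 h1, Nat.add_sub_cancel,
        show g + W + 1 + (g' + W) = g + W + (g' + W + 1) by ring,
        show g + 1 + W = g + W + 1 by ring, show g' + 1 + W = g' + W + 1 by ring]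
      simp only [smul_sub]
      abel
    rw [e, norm_smul, Real.norm_eq_abs]
    have hz := norm_uZ h0 h1 hY
    have h3 : (0 : ℝ) ≤ (1 / 3) ^ T := by positivity
    refine (mul_le_of_le_one_left (norm_nonneg _) hθ).trans ((norm_sub_le _ _).trans ?_)
    nlinarith

/-- `base_ref`, `base_diff`, `rc`; the error is at most `4·3^(-T) + 2 √(4^(-T) + 8·3^(-T))
≤ 10 · 3^(-T/2) ≤ exp (-T/4)` -/
theorem base_an (h0 : 0 < q) (h1 : q ≤ 1 / 2) (hY : ∀ b, Prob (Y b)) {T w W g1 y y' : ℕ}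
    (hT : 100 ≤ T) (hw : 14000 * (T : ℝ) ^ 3 ≤ q ^ 2 * w) (hW : T * (w - 1) ≤ W)
    (hg1 : 36 * (w : ℝ) ^ 2 * (1 / q ^ 2) ≤ g1 + 1) (hy : T * g1 + W ≤ y)
    (hy' : T * g1 + W + 1 ≤ y') :
    ∃ d : Alg M, mass d = 0 ∧
      Bd (2 * T) (uA q Y ^ y * uB q Y * uA q Y ^ y') d
        (3 * √(108 * (T : ℝ) ^ 3 / (q ^ 2 * (w : ℝ) ^ 3))) ∧
      ‖uA q Y ^ (y + 1) * uB q Y * uA q Y ^ (y' - 1) - uA q Y ^ y * uB q Y * uA q Y ^ y' - d‖ ≤
        Real.exp (-(T : ℝ) / 4) := by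
  have hA := prob_uA h0 h1 hY
  have hT' : (100 : ℝ) ≤ T := by exact_mod_cast hT
  have hT3 : (1 : ℝ) ≤ (T : ℝ) ^ 3 := one_le_pow₀ (by linarith)
  have hq2 : q ^ 2 ≤ 1 / 4 := by nlinarith
  have hq0 : 0 < q ^ 2 := by positivity
  have hw0 : (0 : ℝ) ≤ w := Nat.cast_nonneg w
  have hw1' : (1 : ℝ) ≤ w := by nlinarith
  have hw1 : 1 ≤ w := by exact_mod_cast hw1'
  obtain ⟨f, hf, hη⟩ := base_ref h0 h1 hY (T := T) (y := y) (y' := y') (by omega) hw hW hg1 hy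
    (by omega)
  obtain ⟨f', hm', hf', hη'⟩ := base_diff h0 h1 hY (T := T) (by omega) hw1 hW hg1 hy hy'
  obtain ⟨Ψ, hΨ⟩ := rc (by omega) (hA.pow _) (((hA.pow y).mul (prob_uB h0 h1 hY)).mul (hA.pow y'))
    hf hη
  obtain ⟨k1, k2, k3⟩ := hΨ f' _ hf' hm'
  refine ⟨Ψ f', k2, k1, ?_⟩
  have hβ : √(108 * (T : ℝ) ^ 3 / (q ^ 2 * (w : ℝ) ^ 3)) ≤ 1 := by
    rw [Real.sqrt_le_left zero_le_one, div_le_iff₀ (by positivity)]
    have : (w : ℝ) ≤ (w : ℝ) ^ 3 := le_self_pow₀ hw1' (by norm_num)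
    nlinarith
  set u : ℝ := (1 / 3) ^ T with hu
  have hu0 : 0 < u := by positivity
  have hu1 : u ≤ 1 := pow_le_one₀ (by norm_num) (by norm_num)
  have h4 : (1 / 2 : ℝ) ^ (2 * T) ≤ u := by
    rw [pow_mul]
    exact pow_le_pow_left₀ (by norm_num) (by norm_num) T
  have hs0 := Real.sqrt_nonneg u
  have hs2 := Real.sq_sqrt hu0.le
  have hs1 : √u ≤ 1 := Real.sqrt_le_one.2 hu1
  have h5 : √((1 / 2 : ℝ) ^ (2 * T) + 4 * (2 * u)) ≤ 3 * √u := by
    rw [Real.sqrt_le_left (by positivity)]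
    nlinarith
  have h6 : 10 * √u ≤ Real.exp (-(T : ℝ) / 4) := by
    rw [← sq_le_sq₀ (by positivity) (Real.exp_pos _).le, mul_pow, hs2, ← Real.exp_nat_mul,
      show ((2 : ℕ) : ℝ) * (-(T : ℝ) / 4) = (T : ℝ) * (-(1 / 2)) by push_cast; ring,
      Real.exp_nat_mul]
    have e1 : (1 / 2 : ℝ) ≤ Real.exp (-(1 / 2)) := by
      have := Real.add_one_le_exp (-(1 / 2) : ℝ)
      linarith
    refine le_trans ?_ (pow_le_pow_left₀ (by norm_num) e1 T)
    have e2 : (2 / 3 : ℝ) ^ T ≤ (2 / 3) ^ 12 :=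
      pow_le_pow_of_le_one (by norm_num) (by norm_num) (by omega)
    have e3 : u = (2 / 3) ^ T * (1 / 2) ^ T := by rw [hu, ← mul_pow]; norm_num
    have e4 : (0 : ℝ) < (1 / 2) ^ T := by positivity
    rw [e3]
    nlinarith
  have h7 : 2 * √(108 * (T : ℝ) ^ 3 / (q ^ 2 * (w : ℝ) ^ 3)) *
      √((1 / 2 : ℝ) ^ (2 * T) + 4 * (2 * u)) ≤ 2 * 1 * (3 * √u) := by gcongr
  have e : uA q Y ^ (y + 1) * uB q Y * uA q Y ^ (y' - 1) - uA q Y ^ y * uB q Y * uA q Y ^ y' -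
      Ψ f' = (uA q Y ^ (y + 1) * uB q Y * uA q Y ^ (y' - 1) - uA q Y ^ y * uB q Y * uA q Y ^ y' -
      f') + (f' - Ψ f') := by abel
  rw [e]
  refine (norm_add_le _ _).trans ?_
  nlinarith

end Crest.Agent.R300.LB
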