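import Crest.Agent.R300.LBRunA

/-! Row 300 lower bound: a composite defect inside long runs of `a`-cells. -/

set_option autoImplicit false

namespace Crest.Agent.R300.LB

open Finset

variable {M : Type*} [Monoid M] (X : Ctx M)

namespace Ctx

/-- the true cluster around the composite defect, shifted to position `y` -/
noncomputable def mid (l : List Ty) (i lL lR i' y : ℕ) : Alg M :=
  X.G y ^ i * X.C.Ay y ^ lL * X.C.D y * (l.map fun τ => X.C.cT τ y).prod * X.C.Ay y ^ lR *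
    X.G y ^ i'

/-- the formal cluster -/
noncomputable def fmid (l : List Ty) (i lL lR i' y : ℕ) : Wd (Bool × ℕ) :=
  fG X.u y ^ i * fA y ^ lL * fD y * (l.map fun τ => fT τ y).prod * fA y ^ lR * fG X.u y ^ i'

/-- true factor of a cluster: `none` is a defective block -/
noncomputable def cmpT (y : ℕ) (o : Option Ty) : Alg M :=
  o.elim (X.G y) fun τ => X.C.cT τ y

/-- formal factor of a cluster -/
noncomputable def cmpF (y : ℕ) (o : Option Ty) : Wd (Bool × ℕ) :=
  o.elim (fG X.u y) fun τ => fT τ y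

/-- the list of factors of a cluster -/
def cmpL (l : List Ty) (i lL lR i' : ℕ) : List (Option Ty) :=
  List.replicate i none ++ List.replicate lL (some Ty.a) ++ [some Ty.d] ++ l.map some ++
    List.replicate lR (some Ty.a) ++ List.replicate i' none

theorem cmpL_length (l : List Ty) (i lL lR i' : ℕ) :
    (cmpL l i lL lR i').length = i + lL + 1 + l.length + lR + i' := by
  simp only [cmpL, List.length_append, List.length_replicate, List.length_map,
    List.length_singleton]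

theorem mid_eq (l : List Ty) (i lL lR i' y : ℕ) :
    X.mid l i lL lR i' y = ((cmpL l i lL lR i').map (X.cmpT y)).prod := by
  simp only [cmpL, List.map_append, List.prod_append, List.map_replicate, List.prod_replicate,
    List.map_map, List.map_cons, List.map_nil, List.prod_cons, List.prod_nil, mul_one]
  rfl

theorem fmid_eq (l : List Ty) (i lL lR i' y : ℕ) :
    X.fmid l i lL lR i' y = ((cmpL l i lL lR i').map (X.cmpF y)).prod := by
  simp only [cmpL, List.map_append, List.prod_append, List.map_replicate, List.prod_replicate,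
    List.map_map, List.map_cons, List.map_nil, List.prod_cons, List.prod_nil, mul_one]
  rfl

theorem cmpT_shift (o : Option Ty) {y : ℕ} (hy : y < 2 * X.C.W) :
    X.C.A * X.cmpT y o = X.cmpT (y + 1) o * X.C.A := by
  cases o with
  | none => exact X.G_shift hy
  | some τ => exact X.cT_shift τ hy

theorem norm_cmpT_le (o : Option Ty) {y : ℕ} (hy : y ≤ 2 * X.C.W) : ‖X.cmpT y o‖ ≤ 1 := by
  cases o with
  | none => exact (X.norm_G_le hy).trans (by norm_num)
  | some τ => exact X.norm_cT_le τ hy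

theorem cmpT_err (o : Option Ty) {y : ℕ} (hy : y ≤ 2 * X.C.W) :
    ‖X.cmpT y o - X.ev (X.cmpF y o)‖ ≤ X.nb ^ 2 * X.θ := by
  cases o with
  | none => exact X.G_err hy
  | some τ =>
    refine (X.cT_err τ hy).trans ?_
    have h1 := X.hnb
    exact mul_le_mul_of_nonneg_right (by nlinarith) X.hθ

theorem cmp_list_shift (L : List (Option Ty)) {y : ℕ} (hy : y < 2 * X.C.W) :
    X.C.A * (L.map (X.cmpT y)).prod = (L.map (X.cmpT (y + 1))).prod * X.C.A := by
  induction L with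
  | nil => simp
  | cons o L ih =>
    simp only [List.map_cons, List.prod_cons]
    rw [← mul_assoc, X.cmpT_shift o hy, mul_assoc, ih, mul_assoc]

theorem cmp_list_norm (L : List (Option Ty)) {y : ℕ} (hy : y ≤ 2 * X.C.W) :
    ‖(L.map (X.cmpT y)).prod‖ ≤ 1 := by
  induction L with
  | nil => simp
  | cons o L ih =>
    simp only [List.map_cons, List.prod_cons]
    refine (norm_mul_le _ _).trans ?_
    exact mul_le_one₀ (X.norm_cmpT_le o hy) (norm_nonneg _) ih

theorem cmp_geom (n : ℕ) : ∑ i ∈ range n, (0.0101 : ℝ) ^ i ≤ 1.02 := by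
  have h : ∀ n : ℕ, ∑ i ∈ range n, (0.0101 : ℝ) ^ i + 0.0101 ^ n * 1.02 ≤ 1.02 := by
    intro n
    induction n with
    | zero => norm_num
    | succ n ih =>
      rw [sum_range_succ, pow_succ]
      have : (0 : ℝ) ≤ 0.0101 ^ n := by positivity
      nlinarith
  have h1 := h n
  have : (0 : ℝ) ≤ 0.0101 ^ n := by positivity
  nlinarith

theorem cmp_pow_mono {a b : ℕ} (h : a ≤ b) : X.nb ^ a * X.θ ≤ X.nb ^ b * X.θ := by
  have h1 := X.hnb
  exact mul_le_mul_of_nonneg_right (pow_le_pow_right₀ (by linarith) h) X.hθ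

theorem mid_shift (l : List Ty) (i lL lR i' : ℕ) {y : ℕ} (hy : y < 2 * X.C.W) :
    X.C.A * X.mid l i lL lR i' y = X.mid l i lL lR i' (y + 1) * X.C.A := by
  rw [mid_eq, mid_eq]
  exact X.cmp_list_shift _ hy

theorem norm_mid_le (l : List Ty) (i lL lR i' : ℕ) {y : ℕ} (hy : y ≤ 2 * X.C.W) :
    ‖X.mid l i lL lR i' y‖ ≤ 1 := by
  rw [mid_eq]
  exact X.cmp_list_norm _ hy

/-- `list_prod_perturb` for a product of at most `m0` factors, each within `nb² θ` -/
theorem mid_err (l : List Ty) {i lL lR i' : ℕ} (h : i + lL + 1 + l.length + lR + i' ≤ X.m0)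
    {y : ℕ} (hy : y ≤ 2 * X.C.W) :
    ‖X.mid l i lL lR i' y - X.ev (X.fmid l i lL lR i' y)‖ ≤ X.nb ^ 4 * X.θ := by
  rw [mid_eq, fmid_eq, map_list_prod, List.map_map]
  have hnb := X.hnb
  have hθ := X.hθ
  have hlen : ((cmpL l i lL lR i').length : ℝ) ≤ X.nb := by
    rw [cmpL_length]
    exact le_trans (by exact_mod_cast h) X.hm0
  have hη : 0 ≤ X.nb ^ 2 * X.θ := by positivity
  have h3 : ((cmpL l i lL lR i').length : ℝ) * (X.nb ^ 2 * X.θ) ≤ X.nb ^ 3 * X.θ := by
    calc _ ≤ X.nb * (X.nb ^ 2 * X.θ) := mul_le_mul_of_nonneg_right hlen hη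
      _ = X.nb ^ 3 * X.θ := by ring
  have h4 := X.pow_θ_le (k := 3) (by norm_num)
  have h5 := list_prod_perturb (cmpL l i lL lR i') (X.cmpT y) (X.ev ∘ X.cmpF y)
    (fun o _ => X.norm_cmpT_le o hy) (fun o _ => X.cmpT_err o hy) hη (by linarith)
  refine h5.trans ?_
  have h6 : 0 ≤ X.nb ^ 3 * X.θ := by positivity
  calc 2 * ((cmpL l i lL lR i').length : ℝ) * (X.nb ^ 2 * X.θ)
      = 2 * (((cmpL l i lL lR i').length : ℝ) * (X.nb ^ 2 * X.θ)) := by ring
    _ ≤ X.nb * (X.nb ^ 3 * X.θ) := by nlinarith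
    _ = X.nb ^ 4 * X.θ := by ring

theorem hom_fmid (l : List Ty) (i lL lR i' y : ℕ) :
    Hom (2 * X.u * i + lL + 1 + l.length + lR + 2 * X.u * i') (X.fmid l i lL lR i' y) := by
  have h := (((((hom_fG X.u y).pow i).mul ((hom_fA y).pow lL)).mul (hom_fD y)).mul
    (hom_list l y)).mul ((hom_fA y).pow lR) |>.mul ((hom_fG X.u y).pow i')
  simp only [one_mul] at h
  exact h

theorem firstD_fmid (l : List Ty) (i lL lR i' y : ℕ) :
    FirstD (2 * X.u * i + lL) (X.fmid l i lL lR i' y) := by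
  have h1 : Hom (2 * X.u * i + lL) (fG X.u y ^ i * fA y ^ lL) := by
    have h := ((hom_fG X.u y).pow i).mul ((hom_fA y).pow lL)
    simpa only [one_mul] using h
  have h2 : NoD (fG X.u y ^ i * fA y ^ lL) := ((noD_fG X.u y).pow i).mul ((noD_fA y).pow lL)
  exact ((firstD_mul h1 h2 y _).mul _).mul _

/-- different positions are orthogonal (the `D` letters differ), so the kernel gains `√φ` -/
theorem nrm_fmid_sum (l : List Ty) (hl : l.length * (X.ωE + X.ωD) ≤ 1 / 2) (i i' : ℕ)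
    {lL lR : ℕ} (hL : lL ≤ 2 * X.u) (hR : lR ≤ 2 * X.u) :
    nrm X.ω (∑ y ∈ range (2 * X.C.W + 1), X.c y • X.fmid l i lL lR i' y) ≤
      1.4 * √(X.φ * X.ωD) * √X.ωD ^ l.count Ty.d * (0.0101 : ℝ) ^ (i + i') := by
  have hω := X.ω_nonneg
  set B : ℝ := 1.4 * √X.ωD * √X.ωD ^ l.count Ty.d * (0.0101 : ℝ) ^ (i + i') with hB
  have hB0 : 0 ≤ B := by positivity
  have hD : ∀ y, nrm X.ω (fD y) = √X.ωD := fun y => by
    rw [← X.nrm_fD_sq y, Real.sqrt_sq (nrm_nonneg _ _)]
  have hone : ∀ y, nrm X.ω (X.fmid l i lL lR i' y) ≤ B := fun y => by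
    unfold fmid
    rw [nrm_mul_hom_right hω _ ((hom_fG X.u y).pow i'),
      nrm_mul_hom_right hω _ ((hom_fA y).pow lR), nrm_mul_hom_right hω _ (hom_list l y),
      nrm_mul_hom_right hω _ (hom_fD y), nrm_mul_hom_right hω _ ((hom_fA y).pow lL),
      nrm_pow_hom hω (hom_fG X.u y), nrm_pow_hom hω (hom_fG X.u y), hD]
    have g0 := nrm_nonneg X.ω (fG X.u y)
    have g1 := X.nrm_fG_le y
    have a1 := X.nrm_fA_pow_le y hL
    have a2 := X.nrm_fA_pow_le y hR
    have l1 := X.nrm_list l hl y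
    calc nrm X.ω (fG X.u y) ^ i * nrm X.ω (fA y ^ lL) * √X.ωD *
          nrm X.ω (l.map fun τ => fT τ y).prod * nrm X.ω (fA y ^ lR) * nrm X.ω (fG X.u y) ^ i'
        ≤ (0.0101 : ℝ) ^ i * 1.0001 * √X.ωD * (1.3 * √X.ωD ^ l.count Ty.d) * 1.0001 *
          (0.0101 : ℝ) ^ i' := by
          have := nrm_nonneg X.ω (fA y ^ lL)
          have := nrm_nonneg X.ω (fA y ^ lR)
          have := nrm_nonneg X.ω (l.map fun τ => fT τ y).prod
          gcongr
      _ = (1.0001 * 1.3 * 1.0001) *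
          (√X.ωD * √X.ωD ^ l.count Ty.d * (0.0101 : ℝ) ^ (i + i')) := by
          rw [pow_add]; ring
      _ ≤ 1.4 * (√X.ωD * √X.ωD ^ l.count Ty.d * (0.0101 : ℝ) ^ (i + i')) := by
          gcongr; norm_num
      _ = B := by rw [hB]; ring
  have horth : ∀ y ∈ range (2 * X.C.W + 1), ∀ y' ∈ range (2 * X.C.W + 1), y ≠ y' →
      ip X.ω (X.fmid l i lL lR i' y) (X.fmid l i lL lR i' y') = 0 := by
    intro y _ y' _ hne
    have hd : ip X.ω (fD y) (fD y') = 0 :=
      ip_LL_LL_ne X.ω (fun e => hne (Prod.mk.inj e).2)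
    unfold fmid
    rw [ip_mul_hom_right X.ω _ _ ((hom_fG X.u y).pow i') ((hom_fG X.u y').pow i'),
      ip_mul_hom_right X.ω _ _ ((hom_fA y).pow lR) ((hom_fA y').pow lR),
      ip_mul_hom_right X.ω _ _ (hom_list l y) (hom_list l y'),
      ip_mul_hom_right X.ω _ _ (hom_fD y) (hom_fD y'), hd]
    simp only [mul_zero, zero_mul]
  have hsq := nrm_sum_orth hω _ X.c _ horth
  have hle : nrm X.ω (∑ y ∈ range (2 * X.C.W + 1), X.c y • X.fmid l i lL lR i' y) ^ 2 ≤
      (√X.φ * B) ^ 2 := by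
    rw [hsq, mul_pow, Real.sq_sqrt X.hφ]
    calc ∑ y ∈ range (2 * X.C.W + 1), X.c y ^ 2 * nrm X.ω (X.fmid l i lL lR i' y) ^ 2
        ≤ ∑ y ∈ range (2 * X.C.W + 1), X.c y ^ 2 * B ^ 2 := by
          refine sum_le_sum fun y _ => ?_
          have := nrm_nonneg X.ω (X.fmid l i lL lR i' y)
          have := hone y
          gcongr
      _ = (∑ y ∈ range (2 * X.C.W + 1), X.c y ^ 2) * B ^ 2 := by rw [sum_mul]
      _ ≤ X.φ * B ^ 2 := mul_le_mul_of_nonneg_right X.c2 (sq_nonneg _)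
  have hfin := (pow_le_pow_iff_left₀ (nrm_nonneg _ _) (by positivity) two_ne_zero).1 hle
  refine hfin.trans (le_of_eq ?_)
  rw [Real.sqrt_mul X.hφ, hB]
  ring

/-- Write `mL = 2u nL + lL`, `mR = lR + 2u nR` (`lL, lR < 2u`, `nL, nR ≥ T`), decompose `Q^nL` by
`pow_add_left_decomp` and `Q^nR` by `pow_add_right_decomp` (the terms `G^nL`, `G^nR` have norm
`≤ 2^(-T) ≤ θ` and are dropped), and take
`F = ∑_{i<nL} ∑_{i'<nR} fL (nL-1-i) * (o^u * (∑_y c y • fmid l i lL lR i' y) * o^u) * fR (nR-1-i')`;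
errors by `fL_err`, `smooth_apx`, `fR_err`, `mul3_perturb`. -/
theorem comp (l : List Ty) (hl : l.length * (X.ωE + X.ωD) ≤ 1 / 2) {mL mR : ℕ}
    (hL : 2 * X.u * X.T ≤ mL) (hR : 2 * X.u * X.T ≤ mR) (hm : mL + 1 + l.length + mR ≤ X.m0) :
    ∃ F : Wd (Bool × ℕ), Hom (mL + 1 + l.length + mR) F ∧ FirstD mL F ∧
      nrm X.ω F ≤ 4 * √(X.φ * X.ωD) * √X.ωD ^ l.count Ty.d ∧
      ‖X.C.Ap ^ mL * X.C.D X.C.W * (l.map fun τ => X.C.cT τ X.C.W).prod * X.C.Ap ^ mR -
        X.ev F‖ ≤ X.nb ^ 16 * X.θ := by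
  have hω := X.ω_nonneg
  have hnb := X.hnb
  have hθ := X.hθ
  have hu := X.hu
  have hu2 : 0 < 2 * X.u := by omega
  obtain ⟨nL, lL, hlL, rfl⟩ : ∃ nL lL, lL < 2 * X.u ∧ mL = 2 * X.u * nL + lL :=
    ⟨mL / (2 * X.u), mL % (2 * X.u), Nat.mod_lt _ hu2, (Nat.div_add_mod _ _).symm⟩
  obtain ⟨nR, lR, hlR, rfl⟩ : ∃ nR lR, lR < 2 * X.u ∧ mR = lR + 2 * X.u * nR :=
    ⟨mR / (2 * X.u), mR % (2 * X.u), Nat.mod_lt _ hu2, (Nat.mod_add_div _ _).symm⟩
  have hTL : X.T ≤ nL := by
    by_contra hc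
    have : 2 * X.u * (nL + 1) ≤ 2 * X.u * X.T := Nat.mul_le_mul_left _ (by omega)
    rw [Nat.mul_succ] at this
    omega
  have hTR : X.T ≤ nR := by
    by_contra hc
    have : 2 * X.u * (nR + 1) ≤ 2 * X.u * X.T := Nat.mul_le_mul_left _ (by omega)
    rw [Nat.mul_succ] at this
    omega
  have hnL : nL ≤ 2 * X.u * nL := Nat.le_mul_of_pos_left _ hu2
  have hnR : nR ≤ 2 * X.u * nR := Nat.le_mul_of_pos_left _ hu2
  have hsplit : ∀ n i, i < n → 2 * X.u * (n - 1 - i) + 2 * X.u + 2 * X.u * i = 2 * X.u * n := by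
    intro n i hi
    obtain ⟨k, rfl⟩ := Nat.exists_eq_add_of_lt hi
    rw [show i + k + 1 - 1 - i = k by omega]
    ring
  -- the formal terms
  set S : ℕ → ℕ → Wd (Bool × ℕ) := fun i i' =>
    ∑ y ∈ range (2 * X.C.W + 1), X.c y • X.fmid l i lL lR i' y with hS
  set t : ℕ → ℕ → Wd (Bool × ℕ) := fun i i' =>
    X.fL (nL - 1 - i) * (oo ^ X.u * S i i' * oo ^ X.u) * X.fR (nR - 1 - i') with ht
  have hSh : ∀ i i', Hom (2 * X.u * i + lL + 1 + l.length + lR + 2 * X.u * i') (S i i') :=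
    fun i i' => Hom.sum _ _ fun y _ => (X.hom_fmid l i lL lR i' y).smul _
  have hSf : ∀ i i', FirstD (2 * X.u * i + lL) (S i i') :=
    fun i i' => Supp.sum _ _ fun y _ => Supp.smul (X.firstD_fmid l i lL lR i' y) _
  refine ⟨∑ i ∈ range nL, ∑ i' ∈ range nR, t i i', ?_, ?_, ?_, ?_⟩
  · refine Hom.sum _ _ fun i hi => Hom.sum _ _ fun i' hi' => ?_
    have h := ((X.hom_fL (nL - 1 - i)).mul
      (((hom_oo_pow X.u).mul (hSh i i')).mul (hom_oo_pow X.u))).mul (X.hom_fR (nR - 1 - i'))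
    have e1 := hsplit nL i (mem_range.1 hi)
    have e2 := hsplit nR i' (mem_range.1 hi')
    convert h using 1
    omega
  · refine Supp.sum _ _ fun i hi => Supp.sum _ _ fun i' hi' => ?_
    have h := (FirstD.noD_mul (X.hom_fL (nL - 1 - i)) (X.noD_fL (nL - 1 - i))
      ((FirstD.noD_mul (hom_oo_pow X.u) (noD_oo.pow X.u) (hSf i i')).mul (oo ^ X.u))).mul
        (X.fR (nR - 1 - i'))
    have e1 := hsplit nL i (mem_range.1 hi)
    have e : 2 * X.u * (nL - 1 - i) + X.u + (X.u + (2 * X.u * i + lL)) = 2 * X.u * nL + lL := by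
      omega
    rw [e] at h
    exact h
  · set K : ℝ := √(X.φ * X.ωD) * √X.ωD ^ l.count Ty.d with hK
    have hK0 : 0 ≤ K := by positivity
    have hterm : ∀ i ∈ range nL, ∀ i' ∈ range nR,
        nrm X.ω (t i i') ≤ 1.6 * K * ((0.0101 : ℝ) ^ i * (0.0101 : ℝ) ^ i') := by
      intro i hi i' hi'
      have e1 := hsplit nL i (mem_range.1 hi)
      have e2 := hsplit nR i' (mem_range.1 hi')
      have b1 := X.nrm_fL_le (m := nL - 1 - i) (by omega)
      have b2 := X.nrm_fR_le (m := nR - 1 - i') (by omega)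
      have b3 := X.nrm_fmid_sum l hl i i' hlL.le hlR.le
      simp only [ht]
      rw [nrm_mul_hom_right hω _ (X.hom_fR _), nrm_mul_hom_left hω (X.hom_fL _),
        nrm_mul_hom_right hω _ (hom_oo_pow X.u), nrm_mul_hom_left hω (hom_oo_pow X.u),
        X.nrm_oo_pow', one_mul, mul_one]
      calc nrm X.ω (X.fL (nL - 1 - i)) * nrm X.ω (S i i') * nrm X.ω (X.fR (nR - 1 - i'))
          ≤ 1.05 * (1.4 * √(X.φ * X.ωD) * √X.ωD ^ l.count Ty.d * (0.0101 : ℝ) ^ (i + i')) *
            1.05 := by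
            have := nrm_nonneg X.ω (S i i')
            have := nrm_nonneg X.ω (X.fR (nR - 1 - i'))
            gcongr
        _ = (1.05 * 1.4 * 1.05) * K * ((0.0101 : ℝ) ^ i * (0.0101 : ℝ) ^ i') := by
            rw [hK, pow_add]; ring
        _ ≤ 1.6 * K * ((0.0101 : ℝ) ^ i * (0.0101 : ℝ) ^ i') := by
            gcongr; norm_num
    calc nrm X.ω (∑ i ∈ range nL, ∑ i' ∈ range nR, t i i')
        ≤ ∑ i ∈ range nL, ∑ i' ∈ range nR,
            1.6 * K * ((0.0101 : ℝ) ^ i * (0.0101 : ℝ) ^ i') := by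
          refine (nrm_sum_le hω _ _).trans (sum_le_sum fun i hi => ?_)
          exact (nrm_sum_le hω _ _).trans (sum_le_sum fun i' hi' => hterm i hi i' hi')
      _ = 1.6 * K * ((∑ i ∈ range nL, (0.0101 : ℝ) ^ i) *
            ∑ i' ∈ range nR, (0.0101 : ℝ) ^ i') := by
          rw [sum_mul_sum, mul_sum]
          exact sum_congr rfl fun i _ => by rw [mul_sum]
      _ ≤ 1.6 * K * (1.02 * 1.02) := by
          have g1 := cmp_geom nL
          have g2 := cmp_geom nR
          have : 0 ≤ ∑ i' ∈ range nR, (0.0101 : ℝ) ^ i' := by positivity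
          gcongr
      _ ≤ 4 * √(X.φ * X.ωD) * √X.ωD ^ l.count Ty.d := by
          rw [mul_assoc 4, ← hK]; nlinarith
  · have hW : X.C.W ≤ 2 * X.C.W := by omega
    set R := X.C.R ^ X.u with hR'
    set G := X.G X.C.W with hG
    set core : Alg M := X.mid l 0 lL lR 0 X.C.W with hcore
    have hcore' : core = X.C.Ap ^ lL * X.C.D X.C.W * (l.map fun τ => X.C.cT τ X.C.W).prod *
        X.C.Ap ^ lR := by
      simp only [hcore, mid, pow_zero, one_mul, mul_one, Cell.Ap]
    have hmid : ∀ i i', X.mid l i lL lR i' X.C.W = G ^ i * core * G ^ i' := by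
      intro i i'
      simp only [hcore, mid, pow_zero, one_mul, mul_one, mul_assoc, hG]
    have hncore : ‖core‖ ≤ 1 := X.norm_mid_le l 0 lL lR 0 hW
    have hpR : Prob R := (Cell.prob_R X.hA).pow _
    have hpQ : Prob X.Q := (X.prob_Ay X.C.W).pow _
    have hQ : X.Q = R * R + G := X.Q_eq
    set SL := ∑ i ∈ range nL, X.Q ^ (nL - 1 - i) * (R * R) * G ^ i with hSL
    set SR := ∑ i ∈ range nR, G ^ i * (R * R) * X.Q ^ (nR - 1 - i) with hSR
    have dL : X.Q ^ nL = G ^ nL + SL := by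
      rw [hSL, hQ]; exact pow_add_left_decomp _ _ _
    have dR : X.Q ^ nR = G ^ nR + SR := by
      rw [hSR, hQ]; exact pow_add_right_decomp _ _ _
    have hGn : ∀ n, X.T ≤ n → ‖G ^ n‖ ≤ X.θ := by
      intro n hn
      calc ‖G ^ n‖ ≤ ‖G‖ ^ n := norm_pow_le _ _
        _ ≤ (1 / 2 : ℝ) ^ n := pow_le_pow_left₀ (norm_nonneg _) (X.norm_G_le hW) _
        _ ≤ (1 / 2 : ℝ) ^ X.T := pow_le_pow_of_le_one (by norm_num) (by norm_num) hn
        _ ≤ X.θ := X.hT
    have hθ1 : X.θ ≤ 1 := X.θ_le.trans (by norm_num)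
    have hSLn : ‖SL‖ ≤ 2 := by
      have e : SL = X.Q ^ nL - G ^ nL := by rw [dL]; abel
      rw [e]
      refine (norm_sub_le _ _).trans ?_
      rw [(hpQ.pow nL).norm_eq]
      linarith [hGn nL hTL]
    have htarget : X.C.Ap ^ (2 * X.u * nL + lL) * X.C.D X.C.W *
        (l.map fun τ => X.C.cT τ X.C.W).prod * X.C.Ap ^ (lR + 2 * X.u * nR) =
        SL * core * SR + (G ^ nL * core * X.Q ^ nR + SL * core * G ^ nR) := by
      have e : X.C.Ap ^ (2 * X.u * nL + lL) * X.C.D X.C.W *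
          (l.map fun τ => X.C.cT τ X.C.W).prod * X.C.Ap ^ (lR + 2 * X.u * nR) =
          X.Q ^ nL * core * X.Q ^ nR := by
        rw [hcore', Q, pow_add, pow_add, pow_mul _ (2 * X.u) nL, pow_mul _ (2 * X.u) nR]
        simp only [mul_assoc]
      rw [e, dL]
      have e2 : SR = X.Q ^ nR - G ^ nR := by rw [dR]; abel
      rw [e2]
      noncomm_ring
    have hmain : SL * core * SR = ∑ i ∈ range nL, ∑ i' ∈ range nR,
        (X.Q ^ (nL - 1 - i) * R) * (R * X.mid l i lL lR i' X.C.W * R) *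
          (R * X.Q ^ (nR - 1 - i')) := by
      rw [hSL, hSR, sum_mul, sum_mul_sum]
      refine sum_congr rfl fun i _ => sum_congr rfl fun i' _ => ?_
      rw [hmid]
      simp only [mul_assoc]
    have hrest : ‖G ^ nL * core * X.Q ^ nR + SL * core * G ^ nR‖ ≤ 3 * X.θ := by
      have r1 : ‖G ^ nL * core * X.Q ^ nR‖ ≤ X.θ * 1 * 1 := by
        refine (norm_mul_le _ _).trans ?_
        rw [(hpQ.pow nR).norm_eq]
        refine mul_le_mul_of_nonneg_right ((norm_mul_le _ _).trans ?_) zero_le_one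
        exact mul_le_mul (hGn nL hTL) hncore (norm_nonneg _) hθ
      have r2 : ‖SL * core * G ^ nR‖ ≤ 2 * 1 * X.θ := by
        refine (norm_mul_le _ _).trans ?_
        refine mul_le_mul ((norm_mul_le _ _).trans ?_) (hGn nR hTR) (norm_nonneg _) (by norm_num)
        exact mul_le_mul hSLn hncore (norm_nonneg _) (by norm_num)
      linarith [norm_add_le (G ^ nL * core * X.Q ^ nR) (SL * core * G ^ nR)]
    have h12 := X.pow_θ_le (k := 12) (by norm_num)
    have hterm : ∀ i ∈ range nL, ∀ i' ∈ range nR,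
        ‖(X.Q ^ (nL - 1 - i) * R) * (R * X.mid l i lL lR i' X.C.W * R) *
          (R * X.Q ^ (nR - 1 - i')) - X.ev (t i i')‖ ≤ 6 * (X.nb ^ 12 * X.θ) := by
      intro i hi i' hi'
      have e1 := hsplit nL i (mem_range.1 hi)
      have e2 := hsplit nR i' (mem_range.1 hi')
      have hi1 := mem_range.1 hi
      have hi2 := mem_range.1 hi'
      have b1 := X.fL_err (m := nL - 1 - i) (by omega)
      have b2 := X.fR_err (m := nR - 1 - i') (by omega)
      have b3 := X.smooth_apx (X.mid l i lL lR i') (X.fmid l i lL lR i')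
        (fun y hy => X.mid_shift l i lL lR i' hy) (X.norm_mid_le l i lL lR i' (Nat.zero_le _))
        (fun y hy => X.mid_err l (i := i) (lL := lL) (lR := lR) (i' := i') (by omega) hy)
      have b4 : X.θ + X.nb * (X.nb ^ 4 * X.θ) ≤ X.nb ^ 12 * X.θ := by
        have c0 := X.cmp_pow_mono (a := 0) (b := 11) (by norm_num)
        have c1 := X.cmp_pow_mono (a := 5) (b := 11) (by norm_num)
        have c2 : 0 ≤ X.nb ^ 11 * X.θ := by positivity
        calc X.θ + X.nb * (X.nb ^ 4 * X.θ) = X.nb ^ 0 * X.θ + X.nb ^ 5 * X.θ := by ring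
          _ ≤ X.nb * (X.nb ^ 11 * X.θ) := by nlinarith
          _ = X.nb ^ 12 * X.θ := by ring
      have n2 : ‖R * X.mid l i lL lR i' X.C.W * R‖ ≤ 1 := by
        refine (norm_mul_le _ _).trans ?_
        rw [hpR.norm_eq, mul_one]
        refine (norm_mul_le _ _).trans ?_
        rw [hpR.norm_eq, one_mul]
        exact X.norm_mid_le l i lL lR i' hW
      have := mul3_perturb ((hpQ.pow (nL - 1 - i)).mul hpR).norm_eq.le n2
        (hpR.mul (hpQ.pow (nR - 1 - i'))).norm_eq.le b1 (b3.trans b4) b2 (by linarith)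
      simp only [ht]
      rw [map_mul, map_mul]
      exact this
    have hnLr : (nL : ℝ) ≤ X.nb := le_trans (by exact_mod_cast (by omega : nL ≤ X.m0)) X.hm0
    have hnRr : (nR : ℝ) ≤ X.nb := le_trans (by exact_mod_cast (by omega : nR ≤ X.m0)) X.hm0
    have hsum : ‖SL * core * SR - X.ev (∑ i ∈ range nL, ∑ i' ∈ range nR, t i i')‖ ≤
        6 * (X.nb ^ 14 * X.θ) := by
      rw [hmain, map_sum, ← sum_sub_distrib]
      refine (norm_sum_le _ _).trans ?_
      calc _ ≤ ∑ i ∈ range nL, ∑ i' ∈ range nR, 6 * (X.nb ^ 12 * X.θ) := by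
            refine sum_le_sum fun i hi => ?_
            rw [map_sum, ← sum_sub_distrib]
            exact (norm_sum_le _ _).trans (sum_le_sum fun i' hi' => hterm i hi i' hi')
        _ = (nL : ℝ) * ((nR : ℝ) * (6 * (X.nb ^ 12 * X.θ))) := by
            simp only [sum_const, card_range, nsmul_eq_mul]
        _ ≤ X.nb * (X.nb * (6 * (X.nb ^ 12 * X.θ))) := by
            have : 0 ≤ X.nb ^ 12 * X.θ := by positivity
            gcongr
        _ = 6 * (X.nb ^ 14 * X.θ) := by ring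
    rw [htarget, add_sub_right_comm]
    refine (norm_add_le _ _).trans ?_
    have c0 := X.cmp_pow_mono (a := 0) (b := 14) (by norm_num)
    have c1 := X.cmp_pow_mono (a := 15) (b := 16) (by norm_num)
    have c2 : 0 ≤ X.nb ^ 14 * X.θ := by positivity
    have c3 : X.nb ^ 15 * X.θ = X.nb * (X.nb ^ 14 * X.θ) := by ring
    rw [pow_zero, one_mul] at c0
    nlinarith

end Ctx

end Crest.Agent.R300.LB
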