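import Crest.Agent.R300.LBNum

/-! Row 300 lower bound: the final choice of parameters. -/

set_option autoImplicit false

namespace Crest.Agent.R300.LB

open Finset

theorem numF_delta {c : ℝ} (hc' : c < 1 / (4 * Real.log 2)) :
    ∃ δ η : ℝ, 0 < δ ∧ δ ≤ 0.02 ∧ 0 < η ∧ (c + η) * Real.log 2 ≤ (1 / 4 - δ) * (1 - δ) ^ 3 := by
  have hl2 := Real.log_two_gt_d9
  have hl2' := Real.log_two_lt_d9
  rw [lt_div_iff₀ (by positivity)] at hc'
  set e : ℝ := 1 / 4 - c * Real.log 2 with he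
  have he0 : 0 < e := by linarith
  have h1 : min 0.02 (e / 4) ≤ 0.02 := min_le_left _ _
  have h2 : min 0.02 (e / 4) ≤ e / 4 := min_le_right _ _
  have h3 : 0 < min 0.02 (e / 4) := lt_min (by norm_num) (by positivity)
  refine ⟨min 0.02 (e / 4), e / 2, h3, h1, by positivity, ?_⟩
  generalize min 0.02 (e / 4) = δ at h1 h2 h3
  have h4 : 1 - 3 * δ ≤ (1 - δ) ^ 3 := by nlinarith [mul_pos h3 h3]
  have h5 := mul_le_mul_of_nonneg_left h4 (show 0 ≤ 1 / 4 - δ by linarith)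
  nlinarith [mul_pos h3 h3]

theorem numF_exp {c η δ x g : ℝ} {k : ℕ} (hδ0 : 0 < δ) (hδ : δ ≤ 0.02)
    (hcη : (c + η) * Real.log 2 ≤ (1 / 4 - δ) * (1 - δ) ^ 3)
    (hk : (1 - δ) * x ≤ (k + 3) * Real.log 2) (hx : 0 ≤ x)
    (hg : (1 / 4 - δ) * ((k : ℝ) - 7) ≤ g) : (c + η) * x - 3 ≤ g * (1 - δ) ^ 2 := by
  have hl2 := Real.log_two_gt_d9
  have h0 : 0 ≤ (1 / 4 - δ) * (1 - δ) ^ 2 := mul_nonneg (by linarith) (sq_nonneg _)
  have h1 : (1 / 4 - δ) * (1 - δ) ^ 2 ≤ 1 / 4 := by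
    have : (1 - δ) ^ 2 ≤ 1 := by nlinarith
    nlinarith
  have h2 := mul_le_mul_of_nonneg_right hcη hx
  have h3 := mul_le_mul_of_nonneg_left hk h0
  have h4 : (c + η) * x ≤ (1 / 4 - δ) * (1 - δ) ^ 2 * (k + 3) :=
    le_of_mul_le_mul_right (a := Real.log 2) (by nlinarith) (by linarith)
  have h5 := mul_le_mul_of_nonneg_right hg (sq_nonneg (1 - δ))
  nlinarith

theorem numF_KK_pos {T : ℕ} (hT : 100 ≤ T) : 0 < KK T := by
  have : 0 < T := by omega
  unfold KK tt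
  positivity

theorem numF_sigma {T : ℕ} (hT : 100 ≤ T) {z : ℝ} (hz : 13 * Real.log T + 1 ≤ z) :
    ∃ σ : ℕ, 1 ≤ σ ∧ z - 1 ≤ Real.log ((KK T * (136 * σ) : ℕ) : ℝ) ∧
      Real.log ((KK T * (136 * σ) : ℕ) : ℝ) ≤ z ∧ z - 1 - 13 * Real.log T ≤ Real.log σ := by
  have hT' : (100 : ℝ) ≤ T := by exact_mod_cast hT
  have hK0 : (0 : ℝ) < KK T := by exact_mod_cast numF_KK_pos hT
  have hK1 : (KK T : ℝ) ≤ (T : ℝ) ^ 11 := by exact_mod_cast KK_le hT
  set K : ℝ := KK T * 136 with hK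
  have hK2 : 0 < K := by positivity
  have hK3 : Real.log K ≤ 13 * Real.log T := by
    have h1 : K ≤ (T : ℝ) ^ 13 := by
      calc K ≤ (T : ℝ) ^ 11 * T ^ 2 := mul_le_mul hK1 (by nlinarith) (by norm_num) (by positivity)
        _ = _ := by ring
    have := Real.log_le_log hK2 h1
    rw [Real.log_pow] at this
    exact_mod_cast this
  have h1 : 2 ≤ Real.exp z / K := by
    rw [← Real.exp_log hK2, ← Real.exp_sub]
    linarith [Real.add_one_le_exp (z - Real.log K)]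
  have h2 : (⌊Real.exp z / K⌋₊ : ℝ) ≤ Real.exp z / K := Nat.floor_le (by linarith)
  have h3 : Real.exp z / K < ⌊Real.exp z / K⌋₊ + 1 := Nat.lt_floor_add_one _
  set σ := ⌊Real.exp z / K⌋₊ with hσ
  have h4 : (1 : ℝ) ≤ σ := by linarith
  have e : ((KK T * (136 * σ) : ℕ) : ℝ) = K * σ := by rw [hK]; push_cast; ring
  have h5 : z - 1 ≤ Real.log (K * σ) := by
    rw [Real.le_log_iff_exp_le (by positivity), Real.exp_sub, div_le_iff₀ (Real.exp_pos _)]
    rw [div_lt_iff₀ hK2] at h3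
    have h6 : (2 : ℝ) ≤ Real.exp 1 := by linarith [Real.add_one_le_exp (1 : ℝ)]
    have h7 := mul_le_mul_of_nonneg_left h6 (show 0 ≤ K * σ by positivity)
    nlinarith
  refine ⟨σ, by exact_mod_cast h4, by rw [e]; exact h5, ?_, ?_⟩
  · rw [e, Real.log_le_iff_le_exp (by positivity)]
    rw [le_div_iff₀ hK2] at h2
    linarith
  · rw [Real.log_mul hK2.ne' (by positivity)] at h5
    linarith

/-- Let `ℓ = log n`, `L = q³ ℓ`, `ℓr = log (n/r) ≥ (1-δ) ℓ`, `T = ⌈ℓ^4⌉`,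
`Λ = C0/q³ + (C0 + 14 + 40/δ) log T + 2/δ`, `k = ⌊log₂ (ℓr/Λ)⌋`, `Z = exp (ℓr / 2^k) ≥ e^Λ`,
`σ = ⌊Z / (136 KK T)⌋`, so `Z/2 ≤ S₁ = 136 KK T σ ≤ Z`, `S₁^(2^k) ≤ n/r` and
`log S₁^(2^k) ≥ ℓr - 2^k log 2 ≥ (1-δ) ℓr`.  `gam δ k ≥ (1/4-δ)(k-7)`,
`k ≥ log (ℓr/Λ)/log 2 - 1`, `log (ℓr/Λ) ≥ (1-δ) log L - C` (either `C0/q³` or the `log T` part is at
least `Λ/2`; `log L ≤ log ℓ`), and `δ` is chosen with `(1/4-δ)(1-δ)³ / log 2 > c`.
`4^(k+1) ≤ 4ℓ²`, so `T/4^(k+1) ≥ ℓ²/4`. -/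
theorem num_final (c : ℝ) (hc : 0 < c) (hc' : c < 1 / (4 * Real.log 2)) (r : ℕ) (hr : 1 ≤ r)
    (B C0 : ℝ) (hC0 : 0 < C0) :
    ∃ δ : ℝ, 0 < δ ∧ δ ≤ 0.02 ∧ ∃ (N₀ : ℕ) (R : ℝ), ∀ n ≥ N₀, ∀ q : ℝ, 0 < q → q ≤ 1 / 2 →
      R ≤ q ^ 3 * Real.log n →
      ∃ T σ k : ℕ, 100 ≤ T ∧ 1 ≤ σ ∧ 1 ≤ k ∧ C0 * (1 / q ^ 3 + Real.log T) ≤ Real.log σ ∧
        (T : ℝ) ^ 40 ≤ ((KK T * (136 * σ) : ℕ) : ℝ) ^ δ ∧
        r * (KK T * (136 * σ)) ^ (2 ^ k) ≤ n ∧
        20 * Real.log n ≤ T / 4 ^ (k + 1) ∧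
        18 * T * (((KK T * (136 * σ)) ^ (2 ^ k) : ℕ) : ℝ) ^ (-gam δ k) ≤
          (n : ℝ) ^ (-(c * Real.log (q ^ 3 * Real.log n) + B)) ∧
        6 * Real.exp (-(T : ℝ) / (2 * 4 ^ (k + 1))) ≤
          (n : ℝ) ^ (-(c * Real.log (q ^ 3 * Real.log n) + B)) := by
  obtain ⟨δ, η, hδ0, hδ, hη, hcη⟩ := numF_delta hc'
  have hr0 : (0 : ℝ) < r := by exact_mod_cast hr
  have hlr : 0 ≤ Real.log r := Real.log_nonneg (by exact_mod_cast hr)
  set A : ℝ := C0 + 14 + 40 / δ with hA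
  have hA0 : 0 < A := by positivity
  have p1 : 0 ≤ 10 * A / δ ^ 2 := by positivity
  have p2 : 0 ≤ 2 / δ ^ 2 := by positivity
  have p3 : 0 ≤ |Real.log C0| / δ := by positivity
  have p4 : 0 ≤ (|B| + 4) / η := by positivity
  have p5 : 0 ≤ |B| := abs_nonneg B
  have p6 : 0 ≤ Real.log r / δ := by positivity
  refine ⟨δ, hδ0, hδ, 0, Real.exp (10 * A / δ ^ 2 + 2 / δ ^ 2 + |Real.log C0| / δ +
    (|B| + 4) / η + |B| + Real.log r / δ + 100), fun n _ q hq0 hq hL => ?_⟩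
  set ℓ := Real.log n with hℓ
  have hL0 : 0 < q ^ 3 * ℓ := (Real.exp_pos _).trans_le hL
  have hq3 : 0 < q ^ 3 := by positivity
  have hq3' : q ^ 3 ≤ 1 := pow_le_one₀ hq0.le (by linarith)
  have hℓ0 : 0 < ℓ := (mul_pos_iff_of_pos_left hq3).1 hL0
  have hn0 : (0 : ℝ) < n := by
    rcases Nat.eq_zero_or_pos n with h | h
    · rw [hℓ, h] at hℓ0; simp at hℓ0
    · exact_mod_cast h
  have hx0 := (Real.le_log_iff_exp_le hL0).2 hL
  set x := Real.log (q ^ 3 * ℓ) with hx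
  set y := Real.log ℓ with hy
  have hxy : x ≤ y := Real.log_le_log hL0 (by nlinarith)
  have ey : Real.exp y = ℓ := Real.exp_log hℓ0
  have ex : Real.exp x = q ^ 3 * ℓ := Real.exp_log hL0
  have hy100 : 100 ≤ y := by linarith
  have hℓy : 50 * y ≤ ℓ := by
    have := Real.quadratic_le_exp_of_nonneg (show 0 ≤ y by linarith)
    rw [ey] at this
    nlinarith
  -- `T`
  set T := ⌈ℓ ^ 4⌉₊ with hT
  have hT1 : ℓ ^ 4 ≤ T := Nat.le_ceil _
  have hℓ1 : 1 ≤ ℓ := by linarith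
  have hℓ4 : ℓ ≤ ℓ ^ 4 := le_self_pow₀ hℓ1 (by norm_num)
  have hT2 : (T : ℝ) ≤ ℓ ^ 5 := by
    have h1 : (T : ℝ) < ℓ ^ 4 + 1 := Nat.ceil_lt_add_one (by positivity)
    have h2 : ℓ ^ 4 * 2 ≤ ℓ ^ 4 * ℓ := mul_le_mul_of_nonneg_left (by linarith) (by positivity)
    calc (T : ℝ) ≤ ℓ ^ 4 * 2 := by linarith
      _ ≤ ℓ ^ 4 * ℓ := h2
      _ = ℓ ^ 5 := by ring
  have hT100' : (100 : ℝ) ≤ T := by linarith
  have hT100 : 100 ≤ T := by exact_mod_cast hT100'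
  have hT0 : (0 : ℝ) < T := by linarith
  have hlT0 : 0 ≤ Real.log T := Real.log_nonneg (by linarith)
  have hlT : Real.log T ≤ 5 * y := by
    have := Real.log_le_log hT0 hT2
    rwa [Real.log_pow] at this
  -- `Λ`, `k`
  set Λ : ℝ := C0 * (1 / q ^ 3) + A * Real.log T + 2 / δ with hΛ
  have hδi : 100 ≤ 2 / δ := by rw [le_div_iff₀ hδ0]; linarith
  have hΛ1 : 2 / δ ≤ Λ := by
    have : 0 ≤ C0 * (1 / q ^ 3) + A * Real.log T := by positivity
    linarith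
  have hΛ0 : 0 < Λ := by linarith
  have hlr1 : Real.log r ≤ δ * ℓ := by
    have : Real.log r / δ ≤ ℓ := by linarith
    rwa [div_le_iff₀' hδ0] at this
  set m : ℝ := ℓ - Real.log r with hm
  have hm1 : (1 - δ) * ℓ ≤ m := by linarith
  have hm2 : ℓ / 2 ≤ m := by nlinarith
  have hΛ2 : Λ * Real.exp ((1 - δ) * x) ≤ 4 * m := by
    have h1 : C0 ≤ Real.exp (δ * x) := by
      rw [← Real.log_le_iff_le_exp hC0]
      have : |Real.log C0| / δ ≤ x := by linarith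
      rw [div_le_iff₀' hδ0] at this
      exact (le_abs_self _).trans this
    have h2 : 1 / q ^ 3 = ℓ * Real.exp (-x) := by
      rw [Real.exp_neg, ex]; field_simp
    have h3 : C0 * (1 / q ^ 3) * Real.exp ((1 - δ) * x) ≤ ℓ := by
      calc C0 * (1 / q ^ 3) * Real.exp ((1 - δ) * x)
          ≤ Real.exp (δ * x) * (1 / q ^ 3) * Real.exp ((1 - δ) * x) := by gcongr
        _ = ℓ * Real.exp (δ * x + -x + (1 - δ) * x) := by
            rw [h2, Real.exp_add, Real.exp_add]; ring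
        _ = ℓ := by rw [show δ * x + -x + (1 - δ) * x = 0 by ring, Real.exp_zero, mul_one]
    have h4 : A * Real.log T + 2 / δ ≤ Real.exp (δ * y) := by
      have h5 := Real.quadratic_le_exp_of_nonneg (show 0 ≤ δ * y by positivity)
      have h6 : 10 * A / δ ^ 2 ≤ y := by linarith
      have h7 : 2 / δ ^ 2 ≤ y := by linarith
      rw [div_le_iff₀ (by positivity)] at h6 h7
      have h8 : 2 / δ ≤ δ * y := by rw [div_le_iff₀ hδ0]; nlinarith
      have h9 := mul_le_mul_of_nonneg_left hlT hA0.le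
      have h10 := mul_le_mul_of_nonneg_right h6 (show 0 ≤ y by linarith)
      nlinarith
    have h5 : (A * Real.log T + 2 / δ) * Real.exp ((1 - δ) * x) ≤ ℓ := by
      calc (A * Real.log T + 2 / δ) * Real.exp ((1 - δ) * x)
          ≤ Real.exp (δ * y) * Real.exp ((1 - δ) * y) :=
            mul_le_mul h4 (Real.exp_le_exp.2 (mul_le_mul_of_nonneg_left hxy (by linarith)))
              (Real.exp_pos _).le (Real.exp_pos _).le
        _ = ℓ := by rw [← Real.exp_add, show δ * y + (1 - δ) * y = y by ring, ey]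
    calc Λ * Real.exp ((1 - δ) * x) = C0 * (1 / q ^ 3) * Real.exp ((1 - δ) * x) +
          (A * Real.log T + 2 / δ) * Real.exp ((1 - δ) * x) := by rw [hΛ]; ring
      _ ≤ 4 * m := by linarith
  have hx100 : 100 ≤ x := by linarith
  have hmΛ : Real.exp ((1 - δ) * x) / 4 ≤ m / Λ := by
    rw [div_le_div_iff₀ (by norm_num) hΛ0]; linarith
  have hmΛ1 : 1 ≤ m / Λ := by
    have := Real.add_one_le_exp ((1 - δ) * x)
    have h2 : 3 ≤ (1 - δ) * x := by nlinarith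
    linarith
  obtain ⟨k, hk1, hk2⟩ := exists_nat_pow_near hmΛ1 one_lt_two
  have hl2 := Real.log_two_gt_d9
  have hl2' := Real.log_two_lt_d9
  have hk3 : (1 - δ) * x ≤ (k + 3) * Real.log 2 := by
    have h1 : Real.exp ((1 - δ) * x) ≤ 2 ^ (k + 3) := by
      have : (2 : ℝ) ^ (k + 3) = 4 * 2 ^ (k + 1) := by ring
      linarith
    have h2 := Real.log_le_log (Real.exp_pos _) h1
    rw [Real.log_exp, Real.log_pow] at h2
    push_cast at h2
    exact h2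
  have hk : 1 ≤ k := by
    rcases Nat.eq_zero_or_pos k with h | h
    · rw [h] at hk3; push_cast at hk3; nlinarith
    · exact h
  have h2k : (0 : ℝ) < 2 ^ k := by positivity
  have hk4 : Λ ≤ m / 2 ^ k := by
    rw [le_div_iff₀ hΛ0] at hk1
    rw [le_div_iff₀ h2k]; linarith
  have hk5 : (2 : ℝ) ^ k ≤ δ * m := by
    rw [le_div_iff₀ hΛ0] at hk1
    have h1 : 2 ^ k * (2 / δ) ≤ m := (mul_le_mul_of_nonneg_left hΛ1 h2k.le).trans hk1
    rw [← mul_div_assoc, div_le_iff₀' hδ0] at h1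
    linarith
  have hk6 : (2 : ℝ) ^ k ≤ ℓ := by nlinarith
  -- `σ`
  have hAT : 13 * Real.log T ≤ A * Real.log T := by
    have : 0 ≤ 40 / δ := by positivity
    exact mul_le_mul_of_nonneg_right (by linarith) hlT0
  have hCq : 0 ≤ C0 * (1 / q ^ 3) := by positivity
  obtain ⟨σ, hσ, hσ1, hσ2, hσ3⟩ := numF_sigma hT100 (z := m / 2 ^ k) (by linarith)
  set S : ℕ := KK T * (136 * σ) with hS
  have hS0 : (0 : ℝ) < S := by
    have := numF_KK_pos hT100
    have : 0 < S := by rw [hS]; positivity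
    exact_mod_cast this
  have h4k : (4 : ℝ) ^ (k + 1) ≤ 4 * ℓ ^ 2 := by
    have h1 : (4 : ℝ) ^ (k + 1) = 4 * (2 ^ k) ^ 2 := by
      rw [← pow_mul, mul_comm k 2, pow_mul]; ring
    rw [h1]
    gcongr
  have hT4 : ℓ ^ 2 / 4 ≤ T / 4 ^ (k + 1) := by
    rw [div_le_div_iff₀ (by norm_num) (by positivity)]
    calc ℓ ^ 2 * 4 ^ (k + 1) ≤ ℓ ^ 2 * (4 * ℓ ^ 2) := by gcongr
      _ = ℓ ^ 4 * 4 := by ring
      _ ≤ _ := by gcongr
  have hc1 : c ≤ 1 := by
    refine hc'.le.trans ?_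
    rw [div_le_one (by positivity)]; linarith
  refine ⟨T, σ, k, hT100, hσ, hk, ?_, ?_, ?_, ?_, ?_, ?_⟩
  · have : 0 ≤ 40 / δ * Real.log T := by positivity
    have e : A * Real.log T = C0 * Real.log T + 14 * Real.log T + 40 / δ * Real.log T := by
      rw [hA]; ring
    rw [mul_add]
    linarith
  · rw [Real.rpow_def_of_pos hS0, ← Real.log_le_iff_le_exp (by positivity), Real.log_pow]
    have h1 : 40 / δ * Real.log T ≤ Real.log S := by
      have e : A * Real.log T = (C0 + 14) * Real.log T + 40 / δ * Real.log T := by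
        rw [hA]; ring
      have : 0 ≤ (C0 + 14) * Real.log T := by positivity
      linarith
    have h2 := mul_le_mul_of_nonneg_right h1 hδ0.le
    have e : 40 / δ * Real.log T * δ = 40 * Real.log T := by field_simp
    push_cast
    linarith
  · have h1 : (r : ℝ) * (S : ℝ) ^ (2 ^ k) ≤ n := by
      rw [← Real.log_le_log_iff (by positivity) hn0, Real.log_mul hr0.ne' (by positivity),
        Real.log_pow]
      rw [le_div_iff₀ h2k] at hσ2
      push_cast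
      linarith
    exact_mod_cast h1
  · nlinarith
  · have hg := gam_ge_lin hδ0.le hδ k
    have hg0 : 0 ≤ gam δ k := by linarith [gam_ge hδ k]
    have h1 : (1 - δ) ^ 2 * ℓ ≤ 2 ^ k * Real.log S := by
      have h2 := mul_le_mul_of_nonneg_left hσ1 h2k.le
      rw [mul_sub, mul_div_cancel₀ _ h2k.ne'] at h2
      have h3 := mul_le_mul_of_nonneg_left hm1 (show 0 ≤ 1 - δ by linarith)
      nlinarith
    have h2 := numF_exp hδ0 hδ hcη hk3 (by linarith) hg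
    have h3 : |B| + 4 ≤ η * x := by
      have : (|B| + 4) / η ≤ x := by linarith
      rwa [div_le_iff₀' hη] at this
    have h4 : Real.log (18 * T) ≤ ℓ := by
      have h5 : 18 * (T : ℝ) ≤ ℓ ^ 6 := by
        calc 18 * (T : ℝ) ≤ ℓ * ℓ ^ 5 := mul_le_mul (by linarith) hT2 hT0.le hℓ0.le
          _ = ℓ ^ 6 := by ring
      have := Real.log_le_log (by positivity) h5
      rw [Real.log_pow] at this
      push_cast at this
      linarith
    have h5 := mul_le_mul_of_nonneg_left h1 hg0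
    have h6 := mul_le_mul_of_nonneg_right h2 hℓ0.le
    have h7 : (c * x + B + 1) * ℓ ≤ ((c + η) * x - 3) * ℓ :=
      mul_le_mul_of_nonneg_right (by linarith [le_abs_self B]) hℓ0.le
    rw [Nat.cast_pow, Real.rpow_def_of_pos (by positivity), Real.rpow_def_of_pos hn0,
      ← Real.exp_log (show (0 : ℝ) < 18 * T by positivity), ← Real.exp_add, Real.exp_le_exp,
      Real.log_pow, ← hℓ]
    have eS : (S : ℝ) = KK T * (136 * σ) := by rw [hS]; push_cast; ring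
    rw [eS] at h5
    push_cast
    linarith
  · have h1 : ℓ ^ 2 / 8 ≤ T / (2 * 4 ^ (k + 1)) := by
      have e : (T : ℝ) / (2 * 4 ^ (k + 1)) = T / 4 ^ (k + 1) / 2 := by field_simp
      linarith
    have h2 : (6 : ℝ) ≤ Real.exp ℓ := by linarith [Real.add_one_le_exp ℓ]
    have h3 : c * x ≤ y := by nlinarith
    have h4 : (c * x + B + 1) * ℓ ≤ ℓ / 8 * ℓ :=
      mul_le_mul_of_nonneg_right (by linarith [le_abs_self B]) hℓ0.le
    rw [Real.rpow_def_of_pos hn0, ← hℓ, neg_div]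
    calc 6 * Real.exp (-(T / (2 * 4 ^ (k + 1)))) ≤ Real.exp ℓ * Real.exp (-(ℓ ^ 2 / 8)) := by
          gcongr
      _ ≤ _ := by
          rw [← Real.exp_add, Real.exp_le_exp]
          linarith

end Crest.Agent.R300.LB
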