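import Crest.Agent.R300.LBIter
import Crest.Agent.R300.LBBase
import Crest.Agent.R300.LBNumF

/-! Row 300 lower bound: the core statement. -/

set_option autoImplicit false

namespace Crest.Agent.R300.LB

open Finset

variable {M : Type*} [Monoid M]

theorem core (c : ℝ) (hc : 0 < c) (hc' : c < 1 / (4 * Real.log 2)) (r : ℕ) (hr : 1 ≤ r) (B : ℝ) :
    ∃ (N₀ : ℕ) (R : ℝ), ∀ n ≥ N₀, ∀ q : ℝ, 0 < q → q ≤ 1 / 2 → R ≤ q ^ 3 * Real.log n →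
      ∀ Y : Bool → Alg M, (∀ b, Prob (Y b)) →
      ∃ (a b : FreeMonoid Bool) (p : ℕ) (d : Alg M) (β η : ℝ), a ≠ b ∧ a.length = b.length ∧
        r * a.length ≤ n ∧ Even p ∧ 2 ≤ p ∧ mass d = 0 ∧ Bd p (chan q Y a) d β ∧
        ‖chan q Y b - chan q Y a - d‖ ≤ η ∧
        p * β ^ 2 ≤ (n : ℝ) ^ (-(c * Real.log (q ^ 3 * Real.log n) + B)) ∧
        η ≤ (n : ℝ) ^ (-(c * Real.log (q ^ 3 * Real.log n) + B)) := by
  obtain ⟨C0, hC0, Hb⟩ := base (M := M)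
  obtain ⟨δ, hδ0, hδ, N₀, R, H⟩ := num_final c hc hc' r hr B C0 hC0
  refine ⟨N₀, R, fun n hn q h0 h1 hR Y hY => ?_⟩
  obtain ⟨T, σ, k, hT, hσ, hk, hbase, hS, hlen, hθ, hβ, hη⟩ := H n hn q h0 h1 hR
  obtain ⟨a, b, d, hab, hl, hle, hslip, hd0, hd, herr⟩ := Hb q T σ h0 h1 hT hbase Y hY
  have hnb : (((KK T * (136 * σ)) ^ (2 ^ k) : ℕ) : ℝ) ≤ (n : ℝ) := by
    have : (KK T * (136 * σ)) ^ (2 ^ k) ≤ n :=
      le_trans (Nat.le_mul_of_pos_left _ hr) hlen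
    exact_mod_cast this
  obtain ⟨a', b', d', hab', hl', hle', hd0', hd', herr'⟩ :=
    iter (chan q Y) (prob_chan h0.le (by linarith) hY) hT hσ hk hδ0 hδ hS hnb hθ hab hl hle hslip
      hd0 hd herr
  refine ⟨a', b', 2 * T, d', _, _, hab', hl', ?_, even_two_mul T, by omega, hd0', hd', herr', ?_,
    hη⟩
  · exact le_trans (Nat.mul_le_mul_left r hle') hlen
  · refine le_trans (le_of_eq ?_) hβ
    rw [mul_pow, Real.sq_sqrt (Real.rpow_nonneg (Nat.cast_nonneg _) _)]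
    push_cast; ring

end Crest.Agent.R300.LB
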