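import Crest.Agent.R300.LBDefs

/-! Row 300 lower bound: the data of one inductive step and its formal objects.

Letters: `(false, y)` stands for the defect `E y`, `(true, y)` for the defect `D y`;
the reference letter stands for `R = A ^ N`.  Cells are grouped in blocks of `2u` cells. -/

set_option autoImplicit false

namespace Crest.Agent.R300.LB

open Finset

/-- the hypotheses of the inductive step in the form in which they are used -/
structure Ctx (M : Type*) [Monoid M] where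
  C : Cell M
  p : ℕ
  T : ℕ
  u : ℕ
  m0 : ℕ
  ξ : Bool × ℕ → Alg M
  ωE : ℝ
  ωD : ℝ
  φ : ℝ
  θ : ℝ
  nb : ℝ
  c : ℕ → ℝ
  hA : Prob C.A
  ha : Prob C.ca
  hb : Prob C.cb
  hp : 1 ≤ p
  hu : 1 ≤ u
  hωE : 0 ≤ ωE
  hωD : 0 ≤ ωD
  hφ : 0 ≤ φ
  hθ : 0 ≤ θ
  mass0 : ∀ a, mass (ξ a) = 0
  chaos : ∀ (n : ℕ) (F : Wd (Bool × ℕ)), Hom n F →
    Bd p (C.R ^ n) (ev C.R ξ F) (nrm (wt1 fun a => if a.1 then ωD else ωE) F)
  errE : ∀ y ≤ 2 * C.W, ‖C.E y - ξ (false, y)‖ ≤ θ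
  errD : ∀ y ≤ 2 * C.W, ‖C.D y - ξ (true, y)‖ ≤ θ
  c2 : ∑ y ∈ range (2 * C.W + 1), c y ^ 2 ≤ φ
  c1 : ∑ y ∈ range (2 * C.W + 1), |c y| ≤ nb
  smooth : ∀ Z : ℕ → Alg M, (∀ y < 2 * C.W, C.A * Z y = Z (y + 1) * C.A) →
    ‖C.R ^ u * Z C.W * C.R ^ u -
      ∑ y ∈ range (2 * C.W + 1), c y • (C.R ^ u * Z y * C.R ^ u)‖ ≤ θ * ‖Z 0‖
  hE : 2 * u * ωE ≤ 1e-4
  hwin : m0 * ωE * φ ≤ 1e-4
  hD : ωD ≤ 1 / 2
  hnb : 10 ≤ nb
  hm0 : (m0 : ℝ) ≤ nb
  hum : 2 * u ≤ m0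
  hnθ : nb ^ 20 * θ ≤ 1
  hT : (1 / 2 : ℝ) ^ T ≤ θ

/-- formal `a`-cell at position `y` -/
noncomputable def fA (y : ℕ) : Wd (Bool × ℕ) := oo + LL (false, y)
/-- formal `D` defect at position `y` -/
noncomputable def fD (y : ℕ) : Wd (Bool × ℕ) := LL (true, y)
/-- formal block defect -/
noncomputable def fG (u y : ℕ) : Wd (Bool × ℕ) := fA y ^ (2 * u) - oo ^ (2 * u)

/-- no `D` letter -/
def NoD (F : Wd (Bool × ℕ)) : Prop := Supp (fun l => ∀ y, some (true, y) ∉ l) F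

/-- the first `D` letter is at position `j` -/
def FirstD (j : ℕ) (F : Wd (Bool × ℕ)) : Prop :=
  Supp (fun l => ∃ l1 y l2, l = l1 ++ some (true, y) :: l2 ∧ l1.length = j ∧
    ∀ y', some (true, y') ∉ l1) F

/-- cell types inside a pattern -/
inductive Ty where
  | a : Ty
  | b : Ty
  | d : Ty
  deriving DecidableEq

/-- formal cell of a given type -/
noncomputable def fT : Ty → ℕ → Wd (Bool × ℕ)
  | Ty.a, y => fA y
  | Ty.b, y => fA y + fD y
  | Ty.d, y => fD y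

variable {M : Type*} [Monoid M]

/-- true cell of a given type -/
noncomputable def Cell.cT (C : Cell M) : Ty → ℕ → Alg M
  | Ty.a, y => C.Ay y
  | Ty.b, y => C.By y
  | Ty.d, y => C.D y

namespace Ctx

variable (X : Ctx M)

/-- the weights of the letters -/
def ω : Option (Bool × ℕ) → ℝ := wt1 fun a => if a.1 then X.ωD else X.ωE
/-- evaluation -/
noncomputable def ev : Wd (Bool × ℕ) →ₐ[ℝ] Alg M := LB.ev X.C.R X.ξ
/-- true block defect -/
noncomputable def G (y : ℕ) : Alg M := X.C.Ay y ^ (2 * X.u) - X.C.R ^ (2 * X.u)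
/-- true block -/
noncomputable def Q : Alg M := X.C.Ap ^ (2 * X.u)
/-- a smoothed cluster of `r` defective blocks -/
noncomputable def fGam (r : ℕ) : Wd (Bool × ℕ) :=
  if r = 0 then 1 else ∑ y ∈ range (2 * X.C.W + 1), X.c y • fG X.u y ^ r
/-- a smoothed cluster with its margins -/
noncomputable def fLam (r : ℕ) : Wd (Bool × ℕ) := oo ^ X.u * X.fGam r * oo ^ X.u
/-- formal approximant of `R^u Q^(n-1) R^u` -/
noncomputable def fY (n : ℕ) : Wd (Bool × ℕ) := ren X.fLam n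
/-- the true renewal sequence: `1`, `R^u Q^(n-1) R^u` -/
noncomputable def tY (n : ℕ) : Alg M := ren (fun r => X.C.R ^ X.u * X.G X.C.W ^ r * X.C.R ^ X.u) n
/-- formal approximant of `Q^m R^u` -/
noncomputable def fL (m : ℕ) : Wd (Bool × ℕ) :=
  ∑ k ∈ range (m + 1), fG X.u X.C.W ^ k * oo ^ X.u * X.fY (m - k)
/-- formal approximant of `R^u Q^m` -/
noncomputable def fR (m : ℕ) : Wd (Bool × ℕ) :=
  ∑ k ∈ range (m + 1), X.fY (m - k) * oo ^ X.u * fG X.u X.C.W ^ k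

end Ctx

end Crest.Agent.R300.LB
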