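import Mathlib

/-!
# Row 300, lower bound (S0454, S0455): definitions

`Alg M` is the real monoid algebra with the ℓ¹ norm (a normed algebra).  Laws of random elements
of `M` are the `Prob` elements, independent concatenation is the product.
`Bd p R f β`: `f = y • R` for a density `y` of `L^p(R)` norm at most `β`.
`Wd ι`: the formal word algebra on the letters `none` (the reference law) and `some a`
(mean zero defects); `ev R ξ` evaluates formal words.
-/

set_option autoImplicit false

namespace Crest.Agent.R300.LB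

open Finset

/-- real monoid algebra -/
abbrev Alg (M : Type*) := MonoidAlgebra ℝ M

section l1

variable {M : Type*}

/-- the ℓ¹ norm -/
noncomputable def l1 (f : Alg M) : ℝ := ∑ w ∈ f.coeff.support, |f.coeff w|

theorem l1_eq_sum (f : Alg M) {s : Finset M} (hs : f.coeff.support ⊆ s) :
    l1 f = ∑ w ∈ s, |f.coeff w| := by
  unfold l1
  refine Finset.sum_subset hs fun w _ hw => ?_
  rw [Finsupp.notMem_support_iff.1 hw, abs_zero]

theorem l1_nonneg (f : Alg M) : 0 ≤ l1 f := Finset.sum_nonneg fun _ _ => abs_nonneg _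

theorem l1_add_le (f g : Alg M) : l1 (f + g) ≤ l1 f + l1 g := by
  classical
  have h : (f + g).coeff.support ⊆ f.coeff.support ∪ g.coeff.support := by
    rw [MonoidAlgebra.coeff_add]; exact Finsupp.support_add
  rw [l1_eq_sum (f + g) h, l1_eq_sum f (Finset.subset_union_left (s₂ := g.coeff.support)),
    l1_eq_sum g (Finset.subset_union_right (s₁ := f.coeff.support)), ← Finset.sum_add_distrib]
  refine Finset.sum_le_sum fun w _ => ?_
  rw [MonoidAlgebra.coeff_add, Finsupp.add_apply]
  exact abs_add_le _ _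

theorem l1_smul (a : ℝ) (f : Alg M) : l1 (a • f) = |a| * l1 f := by
  have h : (a • f).coeff.support ⊆ f.coeff.support := by
    rw [MonoidAlgebra.coeff_smul]; exact Finsupp.support_smul
  rw [l1_eq_sum (a • f) h, l1, Finset.mul_sum]
  refine Finset.sum_congr rfl fun w _ => ?_
  rw [MonoidAlgebra.coeff_smul, Finsupp.smul_apply, smul_eq_mul, abs_mul]

theorem l1_single (w : M) (a : ℝ) : l1 (MonoidAlgebra.single w a) = |a| := by
  classical
  have h : (MonoidAlgebra.single w a : Alg M).coeff.support ⊆ {w} := by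
    rw [MonoidAlgebra.coeff_single]; exact Finsupp.support_single_subset
  rw [l1_eq_sum _ h]; simp

/-- the ℓ¹ norm as an additive group norm -/
noncomputable def l1Norm (M : Type*) : AddGroupNorm (Alg M) where
  toFun := l1
  map_zero' := by simp [l1]
  add_le' := l1_add_le
  neg' f := by
    have := l1_smul (-1 : ℝ) f
    simpa using this
  eq_zero_of_map_eq_zero' f hf := by
    have h := (Finset.sum_eq_zero_iff_of_nonneg (fun w _ => abs_nonneg (f.coeff w))).1 hf
    apply MonoidAlgebra.coeff_injective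
    ext w
    by_cases hw : w ∈ f.coeff.support
    · simpa using h w hw
    · simpa using hw

noncomputable instance instNormedAddCommGroup : NormedAddCommGroup (Alg M) :=
  (l1Norm M).toNormedAddCommGroup

theorem norm_def (f : Alg M) : ‖f‖ = ∑ w ∈ f.coeff.support, |f.coeff w| := rfl

theorem norm_eq_sum (f : Alg M) {s : Finset M} (hs : f.coeff.support ⊆ s) :
    ‖f‖ = ∑ w ∈ s, |f.coeff w| := l1_eq_sum f hs

theorem norm_single (w : M) (a : ℝ) : ‖(MonoidAlgebra.single w a : Alg M)‖ = |a| := l1_single w a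

noncomputable instance instNormedSpace : NormedSpace ℝ (Alg M) where
  norm_smul_le a f := (l1_smul a f).le

theorem norm_mul_le' [Monoid M] (f g : Alg M) : ‖f * g‖ ≤ ‖f‖ * ‖g‖ := by
  rw [MonoidAlgebra.mul_def, Finsupp.sum]
  refine (norm_sum_le _ _).trans ?_
  rw [norm_def f, Finset.sum_mul]
  refine Finset.sum_le_sum fun a _ => ?_
  rw [Finsupp.sum]
  refine (norm_sum_le _ _).trans ?_
  rw [norm_def g, Finset.mul_sum]
  refine Finset.sum_le_sum fun b _ => ?_
  rw [norm_single, abs_mul]

noncomputable instance instNormedRing [Monoid M] : NormedRing (Alg M) where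
  __ := (instNormedAddCommGroup : NormedAddCommGroup (Alg M))
  __ := (MonoidAlgebra.ring : Ring (Alg M))
  norm_mul_le := norm_mul_le'

instance instNormOneClass [Monoid M] : NormOneClass (Alg M) where
  norm_one := by rw [MonoidAlgebra.one_def, norm_single, abs_one]

noncomputable instance instNormedAlgebra [Monoid M] : NormedAlgebra ℝ (Alg M) where
  norm_smul_le a f := (l1_smul a f).le

end l1

section basic

variable {M : Type*}

/-- nonnegative coefficients -/
def Pos (f : Alg M) : Prop := ∀ w, 0 ≤ f.coeff w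

/-- total mass (an algebra homomorphism to `ℝ`) -/
noncomputable def mass [Monoid M] : Alg M →ₐ[ℝ] ℝ := MonoidAlgebra.lift ℝ ℝ M 1

/-- probability laws -/
def Prob [Monoid M] (f : Alg M) : Prop := Pos f ∧ mass f = 1

/-- the powers of `A` forget one factor at the diffusive rate `√(s/(g+1))` -/
def Slip [Monoid M] (A : Alg M) (s : ℝ) : Prop :=
  ∀ g : ℕ, ‖A ^ g * (1 - A)‖ ≤ √(s / (g + 1))

/-- `f` has a density with respect to `R` whose `L^p(R)` norm is at most `β` -/
def Bd (p : ℕ) (R f : Alg M) (β : ℝ) : Prop :=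
  0 ≤ β ∧ ∃ y : M → ℝ, (∀ w, f.coeff w = y w * R.coeff w) ∧
    ∑ w ∈ R.coeff.support, R.coeff w * |y w| ^ p ≤ β ^ p

/-- a Bessel family of mean zero defects in `L^p(R)` with squared sizes `ω` -/
def Bes [Monoid M] {ι : Type*} (p : ℕ) (R : Alg M) (ξ : ι → Alg M) (ω : ι → ℝ) : Prop :=
  (∀ a, mass (ξ a) = 0) ∧ (∀ a, 0 ≤ ω a) ∧
    ∀ (s : Finset ι) (c : ι → ℝ), Bd p R (∑ a ∈ s, c a • ξ a) √(∑ a ∈ s, c a ^ 2 * ω a)

/-- `∑_{i ≤ m} f_i A^i X A^(m-i)` -/
noncomputable def sh [Monoid M] (A X : Alg M) (m : ℕ) (f : Polynomial ℝ) : Alg M :=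
  ∑ i ∈ range (m + 1), f.coeff i • (A ^ i * X * A ^ (m - i))

/-- the law of one letter after the deletion channel: deleted with probability `q`, otherwise
it produces `Y b` -/
noncomputable def lett [Monoid M] (q : ℝ) (Y : Bool → Alg M) (b : Bool) : Alg M :=
  q • (1 : Alg M) + (1 - q) • Y b

/-- the law of the trace of a word -/
noncomputable def chan [Monoid M] (q : ℝ) (Y : Bool → Alg M) : FreeMonoid Bool →* Alg M :=
  FreeMonoid.lift (lett q Y)

/-- pairing with a test function -/
noncomputable def pr (φ : M → ℝ) : Alg M →ₗ[ℝ] ℝ :=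
  Finsupp.linearCombination ℝ φ ∘ₗ (MonoidAlgebra.coeffLinearEquiv ℝ).toLinearMap

/-- the law of the one-letter list: `(iota P) ^ m` is the law of `m` independent samples -/
noncomputable def iota : Alg M →ₗ[ℝ] Alg (FreeMonoid M) :=
  MonoidAlgebra.mapDomainLinearMap ℝ ℝ FreeMonoid.of

/-- the true output laws: the retained letter is copied -/
noncomputable def stdY (b : Bool) : Alg (FreeMonoid Bool) :=
  MonoidAlgebra.single (FreeMonoid.of b) 1

/-- the averaging polynomial `(1/w) ∑_{i<w} X^i` -/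
noncomputable def avgP (w : ℕ) : Polynomial ℝ :=
  Polynomial.C (1 / (w : ℝ)) * ∑ i ∈ range w, Polynomial.X ^ i

/-- the smoothing kernel: a spread out substitute for `X ^ W` -/
noncomputable def kern (T w W : ℕ) : Polynomial ℝ :=
  Polynomial.X ^ (W - T * (w - 1)) *
    (Polynomial.X ^ (T * (w - 1)) - (Polynomial.X ^ (w - 1) - avgP w ^ 2) ^ T)

end basic

section formal

/-- formal words in the reference letter `none` and the defect letters `some a` -/
abbrev Wd (ι : Type*) := Alg (FreeMonoid (Option ι))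

variable {ι : Type*}

/-- the reference letter -/
noncomputable def oo : Wd ι := MonoidAlgebra.single (FreeMonoid.of none) 1

/-- a defect letter -/
noncomputable def LL (a : ι) : Wd ι := MonoidAlgebra.single (FreeMonoid.of (some a)) 1

/-- weight of a word: product of the weights of its letters -/
noncomputable def wt (ω : Option ι → ℝ) : FreeMonoid (Option ι) →* ℝ := FreeMonoid.lift ω

/-- weight one on the reference letter -/
def wt1 (ω : ι → ℝ) : Option ι → ℝ := fun l => l.elim 1 ω

/-- weighted inner product of formal elements -/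
noncomputable def ip (ω : Option ι → ℝ) (F G : Wd ι) : ℝ :=
  ∑ w ∈ F.coeff.support, wt ω w * (F.coeff w * G.coeff w)

/-- weighted ℓ² norm of formal elements -/
noncomputable def nrm (ω : Option ι → ℝ) (F : Wd ι) : ℝ := √(ip ω F F)

/-- every word in the support satisfies `P` -/
def Supp (P : List (Option ι) → Prop) (F : Wd ι) : Prop :=
  ∀ w, F.coeff w ≠ 0 → P (FreeMonoid.toList w)

/-- homogeneous of degree `n` -/
def Hom (n : ℕ) (F : Wd ι) : Prop := Supp (fun l => l.length = n) F

/-- evaluation of formal words -/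
noncomputable def ev {M : Type*} [Monoid M] (R : Alg M) (ξ : ι → Alg M) : Wd ι →ₐ[ℝ] Alg M :=
  MonoidAlgebra.lift ℝ (Alg M) (FreeMonoid (Option ι))
    (FreeMonoid.lift fun l : Option ι => l.elim R ξ)

/-- renewal sequence `Y 0 = 1`, `Y (n+1) = ∑_{r ≤ n} Y (n-r) * Λ r` -/
noncomputable def ren {𝔸 : Type*} [Ring 𝔸] (Λ : ℕ → 𝔸) : ℕ → 𝔸
  | 0 => 1
  | n + 1 => ∑ r ∈ range (n + 1), ren Λ (n - r) * Λ r
decreasing_by omega

theorem ren_zero {𝔸 : Type*} [Ring 𝔸] (Λ : ℕ → 𝔸) : ren Λ 0 = 1 := by rw [ren]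

theorem ren_succ {𝔸 : Type*} [Ring 𝔸] (Λ : ℕ → 𝔸) (n : ℕ) :
    ren Λ (n + 1) = ∑ r ∈ range (n + 1), ren Λ (n - r) * Λ r := by rw [ren]

end formal

section cell

/-- One level of the hierarchy: the unit law `A`, and two cores `ca`, `cb` replacing `A ^ n`
inside `A ^ N`, `N = 2 W + n`, at a position `y ≤ 2 W` (the true position is `W`). -/
structure Cell (M : Type*) where
  A : Alg M
  W : ℕ
  n : ℕ
  ca : Alg M
  cb : Alg M

variable {M : Type*} [Monoid M]

/-- number of units in a cell -/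
def Cell.N (C : Cell M) : ℕ := 2 * C.W + C.n

/-- put `X` at position `y` -/
noncomputable def Cell.put (C : Cell M) (X : Alg M) (y : ℕ) : Alg M :=
  C.A ^ y * X * C.A ^ (2 * C.W - y)

/-- the reference law of a cell -/
noncomputable def Cell.R (C : Cell M) : Alg M := C.A ^ C.N
/-- shifted `a`-cell -/
noncomputable def Cell.Ay (C : Cell M) (y : ℕ) : Alg M := C.put C.ca y
/-- shifted `b`-cell -/
noncomputable def Cell.By (C : Cell M) (y : ℕ) : Alg M := C.put C.cb y
/-- `a`-cell minus reference -/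
noncomputable def Cell.E (C : Cell M) (y : ℕ) : Alg M := C.put (C.ca - C.A ^ C.n) y
/-- `b`-cell minus `a`-cell -/
noncomputable def Cell.D (C : Cell M) (y : ℕ) : Alg M := C.put (C.cb - C.ca) y
/-- the `a`-cell -/
noncomputable def Cell.Ap (C : Cell M) : Alg M := C.Ay C.W
/-- the `b`-cell -/
noncomputable def Cell.Bp (C : Cell M) : Alg M := C.By C.W

/-- the inductive hypothesis on a cell (`e2`, `h2` are squared sizes) -/
def Cell.OK (C : Cell M) (p : ℕ) (e2 h2 s η : ℝ) : Prop :=
  Prob C.A ∧ Prob C.ca ∧ Prob C.cb ∧ Slip C.A s ∧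
    ∃ ξE ξD : ℕ → Alg M, Bes p C.R ξE (fun _ => e2) ∧ Bes p C.R ξD (fun _ => h2) ∧
      (∀ y ≤ 2 * C.W, ‖C.E y - ξE y‖ ≤ η) ∧ (∀ y ≤ 2 * C.W, ‖C.D y - ξD y‖ ≤ η)

/-- the product `∏_{i<t} (if U i then b else a)` in a monoid -/
def pat {G : Type*} [Monoid G] (a b : G) (t : ℕ) (U : ℕ → Bool) : G :=
  ((List.range t).map fun i => if U i then b else a).prod

/-- the next level -/
noncomputable def Cell.next (C : Cell M) (P t : ℕ) (U V : ℕ → Bool) : Cell M where
  A := C.Ap
  W := P
  n := 2 * P + t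
  ca := C.Ap ^ P * pat C.Ap C.Bp t U * C.Ap ^ P
  cb := C.Ap ^ P * pat C.Ap C.Bp t V * C.Ap ^ P

/-- word level version of `Cell` -/
structure St where
  u : FreeMonoid Bool
  W : ℕ
  n : ℕ
  wa : FreeMonoid Bool
  wb : FreeMonoid Bool

/-- number of units -/
def St.N (S : St) : ℕ := 2 * S.W + S.n
/-- the `a` word -/
def St.a (S : St) : FreeMonoid Bool := S.u ^ S.W * S.wa * S.u ^ S.W
/-- the `b` word -/
def St.b (S : St) : FreeMonoid Bool := S.u ^ S.W * S.wb * S.u ^ S.W

/-- well-formed: lengths agree and the cores differ -/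
def St.WF (S : St) : Prop :=
  S.wa.length = S.n * S.u.length ∧ S.wb.length = S.n * S.u.length ∧ S.wa ≠ S.wb

/-- the next level -/
def St.next (S : St) (P t : ℕ) (U V : ℕ → Bool) : St where
  u := S.a
  W := P
  n := 2 * P + t
  wa := S.a ^ P * pat S.a S.b t U * S.a ^ P
  wb := S.a ^ P * pat S.a S.b t V * S.a ^ P

/-- the cell of laws -/
noncomputable def St.cell (S : St) (α : FreeMonoid Bool →* Alg M) : Cell M where
  A := α S.u
  W := S.W
  n := S.n
  ca := α S.wa
  cb := α S.wb

/-- the polynomial `∑_{i<t} (1_V i - 1_U i) X^i` -/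
noncomputable def patPoly (t : ℕ) (U V : ℕ → Bool) : Polynomial ℝ :=
  ∑ i ∈ range t, Polynomial.monomial i ((if V i then (1 : ℝ) else 0) - (if U i then 1 else 0))

end cell

section num

/-- pattern length -/
def tt (T : ℕ) : ℕ := 16 * T ^ 3

/-- growth constant of the slip parameters -/
def KK (T : ℕ) : ℕ := 136 * (144 * T * tt T ^ 2 + tt T)

/-- margin of a cell whose unit has slip parameter `s` -/
def PP (T s : ℕ) : ℕ := 36 * T * tt T ^ 2 * s

/-- number of units of a cell whose unit has slip parameter `s` -/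
def NN (T s : ℕ) : ℕ := 4 * PP T s + tt T

/-- the numerical conditions of one step -/
def StepNum (T w W N s s' : ℕ) (e2 h2 : ℝ) : Prop :=
  1 ≤ w ∧ T * (w - 1) ≤ W ∧ 136 * N * s ≤ s' ∧
    (72 * T * (w : ℝ) ^ 2 * s / N + 4) * (12 * T * e2) ≤ 1e-4 ∧
    (NN T s' : ℝ) * (12 * T * e2) * ((T : ℝ) ^ 2 / w) ≤ 1e-4 ∧
    (tt T : ℝ) * (12 * T * e2 + 12 * T * h2) ≤ 1 / 2

/-- squared size of the next `E` defects -/
noncomputable def eNext (T w : ℕ) (h2 : ℝ) : ℝ :=
  144 * (tt T : ℝ) ^ 2 * ((T : ℝ) ^ 2 / w) * (12 * T * h2)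

/-- squared size of the next `D` defects -/
noncomputable def hNext (T w : ℕ) (h2 : ℝ) : ℝ :=
  144 * (tt T : ℝ) ^ 4 * ((T : ℝ) ^ 2 / w) * (12 * T * h2) ^ 2

/-- the exponents: `h_i = S_i ^ (-gam δ i)` -/
noncomputable def gam (δ : ℝ) : ℕ → ℝ
  | 0 => 1.4
  | 1 => 1.39
  | i + 2 => gam δ (i + 1) + min 1 (gam δ i / 2) / 4 - δ

end num

end Crest.Agent.R300.LB
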