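import Crest.Agent.R300.LB1
import Crest.Prelude.Def_TraceTV

/-! Row 300 lower bound: the link with `traceOf`, `traceTV`, `successProb`. -/

set_option autoImplicit false

namespace Crest.Agent.R300.LB

open Finset Crest.FinProb Crest.TraceRecon

/-- the word of a vector -/
def wordOf {n : ℕ} (x : Fin n → Bool) : FreeMonoid Bool := FreeMonoid.ofList (List.ofFn x)

theorem exists_wordOf {n : ℕ} (a : FreeMonoid Bool) (ha : a.length = n) :
    ∃ x : Fin n → Bool, wordOf x = a := by
  subst ha
  refine ⟨(FreeMonoid.toList a).get, ?_⟩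
  unfold wordOf
  exact (congrArg FreeMonoid.ofList (List.ofFn_get (FreeMonoid.toList a))).trans
    (FreeMonoid.ofList_toList a)

theorem prob_stdY (b : Bool) : Prob (stdY b) := prob_single _

/-- expansion of an ordered product of finite sums of atoms -/
theorem lk_prod_expand {M κ : Type*} [Monoid M] [Fintype κ] {n : ℕ} (π : Fin n → κ → M)
    (ρ : Fin n → κ → ℝ) :
    (List.ofFn fun i => ∑ k, (MonoidAlgebra.single (π i k) (ρ i k) : Alg M)).prod =
      ∑ ks : Fin n → κ, (MonoidAlgebra.single (List.ofFn fun i => π i (ks i)).prod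
        (∏ i, ρ i (ks i)) : Alg M) := by
  induction n with
  | zero => simp [MonoidAlgebra.one_def]
  | succ n ih =>
    rw [List.ofFn_succ, List.prod_cons, ih (fun i => π i.succ) (fun i => ρ i.succ),
      ← (Fin.consEquiv fun _ : Fin (n + 1) => κ).sum_comp, Fintype.sum_prod_type,
      Finset.sum_mul_sum]
    refine Finset.sum_congr rfl fun k _ => Finset.sum_congr rfl fun ks _ => ?_
    rw [MonoidAlgebra.single_mul_single, List.ofFn_succ, List.prod_cons, Fin.prod_univ_succ]
    simp [Fin.consEquiv]

theorem lk_prod_filter {ι : Type*} (l : List ι) (keep x : ι → Bool) :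
    (l.map fun i => if keep i then FreeMonoid.of (x i) else 1).prod =
      FreeMonoid.ofList ((l.filter fun i => keep i).map x) := by
  induction l with
  | nil => rfl
  | cons a l ih =>
    rw [List.map_cons, List.prod_cons, ih]
    by_cases h : keep a = true
    · rw [if_pos h, List.filter_cons_of_pos (by simpa using h), List.map_cons,
        FreeMonoid.ofList_cons]
    · rw [if_neg h, List.filter_cons_of_neg (by simpa using h), one_mul]

theorem lk_prod_of {α : Type*} (l : List α) :
    (l.map FreeMonoid.of).prod = FreeMonoid.ofList l := by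
  induction l with
  | nil => rfl
  | cons a l ih => rw [List.map_cons, List.prod_cons, ih, FreeMonoid.ofList_cons]

/-- a larger deletion probability is a deletion with probability `min q (1/2)` followed by a
noisy output: `Y b = λ • stdY b + (1-λ) • 1`, `λ = (1-q)/(1 - min q (1/2))` -/
theorem chan_eq_hat {q : ℝ} (h0 : 0 < q) (h1 : q < 1) :
    ∃ Y : Bool → Alg (FreeMonoid Bool), (∀ b, Prob (Y b)) ∧
      chan q stdY = chan (min q (1 / 2)) Y := by
  have hm1 : min q (1 / 2) ≤ q := min_le_left _ _
  have hm2 : min q (1 / 2) ≤ 1 / 2 := min_le_right _ _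
  generalize min q (1 / 2) = q' at hm1 hm2
  have hpos : 0 < 1 - q' := by linarith
  have ha0 : 0 ≤ 1 - (1 - q) / (1 - q') := by
    rw [sub_nonneg, div_le_one hpos]
    linarith
  have ha1 : 1 - (1 - q) / (1 - q') ≤ 1 := by
    have := div_nonneg (by linarith : 0 ≤ 1 - q) hpos.le
    linarith
  refine ⟨lett (1 - (1 - q) / (1 - q')) stdY, prob_lett ha0 ha1 prob_stdY, ?_⟩
  unfold chan
  congr 1
  funext b
  unfold lett
  have e1 : q = q' + (1 - q') * (1 - (1 - q) / (1 - q')) := by
    field_simp
    ring
  have e2 : 1 - q = (1 - q') * (1 - (1 - (1 - q) / (1 - q'))) := by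
    field_simp
    ring
  rw [smul_add, smul_smul, smul_smul, ← e2, ← add_assoc, ← add_smul, ← e1]

/-- the law of the trace (induction on `n` with `Fin.cons`/`Fin.consEquiv`,
`List.finRange_succ`; or `List.prod_ofFn`-style expansion of the ordered product) -/
theorem chan_wordOf (q : ℝ) {n : ℕ} (x : Fin n → Bool) :
    chan q stdY (wordOf x) = ∑ keep : Fin n → Bool,
      MonoidAlgebra.single (FreeMonoid.ofList (traceOf x keep)) (bernoulliWeight (1 - q) keep) := by
  have h1 : ∀ b, lett q stdY b = ∑ k : Bool, (MonoidAlgebra.single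
      (if k then FreeMonoid.of b else 1) (if k then 1 - q else 1 - (1 - q)) :
        Alg (FreeMonoid Bool)) := by
    intro b
    rw [Fintype.sum_bool]
    unfold lett stdY
    simp [MonoidAlgebra.one_def, add_comm]
  have h2 := lk_prod_expand (M := FreeMonoid Bool) (κ := Bool)
    (fun i k => if k then FreeMonoid.of (x i) else 1)
    (fun (_ : Fin n) k => if k then 1 - q else 1 - (1 - q))
  unfold chan wordOf
  rw [FreeMonoid.lift_ofList, List.map_ofFn]
  refine Eq.trans ?_ (h2.trans ?_)
  · congr 2
    funext i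
    exact h1 (x i)
  · refine Finset.sum_congr rfl fun keep _ => ?_
    rw [List.ofFn_eq_map, lk_prod_filter]
    rfl

theorem chan_coeff (q : ℝ) {n : ℕ} (x : Fin n → Bool) (w : List Bool) :
    (chan q stdY (wordOf x)).coeff (FreeMonoid.ofList w) = traceLaw (1 - q) x w := by
  classical
  rw [chan_wordOf, MonoidAlgebra.coeff_sum, Finsupp.finsetSum_apply]
  unfold traceLaw bernoulliProb
  rw [Finset.sum_filter]
  refine Finset.sum_congr rfl fun keep _ => ?_
  rw [MonoidAlgebra.coeff_single, Finsupp.single_apply]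
  by_cases h : traceOf x keep = w
  · rw [if_pos (congrArg _ h), if_pos (show keep ∈ {keep | traceOf x keep = w} from h)]
  · rw [if_neg fun e => h (FreeMonoid.ofList.injective e),
      if_neg (show keep ∉ {keep | traceOf x keep = w} from h)]

/-- the strings `List.ofFn v` are pairwise distinct, so the double sum is at most the ℓ¹ norm -/
theorem traceTV_le (q : ℝ) {n : ℕ} (x y : Fin n → Bool) :
    traceTV (1 - q) x y ≤ ‖chan q stdY (wordOf x) - chan q stdY (wordOf y)‖ / 2 := by
  classical
  obtain ⟨f, hf⟩ : ∃ f, f = chan q stdY (wordOf x) - chan q stdY (wordOf y) := ⟨_, rfl⟩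
  have h1 : ∀ w : List Bool, traceLaw (1 - q) x w - traceLaw (1 - q) y w =
      f.coeff (FreeMonoid.ofList w) := by
    intro w
    rw [hf, MonoidAlgebra.coeff_sub, Finsupp.sub_apply, chan_coeff, chan_coeff]
  rw [← hf]
  unfold traceTV
  simp only [h1]
  rw [Finset.sum_sigma']
  obtain ⟨g, hg⟩ : ∃ g : (Σ k : ℕ, Fin k → Bool) → FreeMonoid Bool,
      ∀ z, g z = FreeMonoid.ofList (List.ofFn z.2) := ⟨_, fun _ => rfl⟩
  have hinj : Function.Injective g := by
    intro z z' h
    rw [hg, hg] at h
    exact List.ofFn_inj'.1 (FreeMonoid.ofList.injective h)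
  simp only [← hg]
  rw [← Finset.sum_image (f := fun w => |f.coeff w|) hinj.injOn,
    norm_eq_sum f (Finset.subset_union_left (s₂ := ((range (n + 1)).sigma fun _ => univ).image g))]
  have := Finset.sum_le_sum_of_subset_of_nonneg (f := fun w => |f.coeff w|)
    (Finset.subset_union_right (s₁ := f.coeff.support)
      (s₂ := ((range (n + 1)).sigma fun _ => univ).image g)) (fun _ _ _ => abs_nonneg _)
  linarith

/-- the tuple of traces read off a list of traces -/
def tup (m : ℕ) (w : FreeMonoid (FreeMonoid Bool)) : Fin m → List Bool :=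
  fun k => FreeMonoid.toList ((FreeMonoid.toList w).getD k 1)

/-- powers of `iota` of a finite sum of atoms -/
theorem iota_pow {M κ : Type*} [Fintype κ] (π : κ → M) (ρ : κ → ℝ) (m : ℕ) :
    iota (∑ k, (MonoidAlgebra.single (π k) (ρ k) : Alg M)) ^ m =
      ∑ ks : Fin m → κ, (MonoidAlgebra.single (FreeMonoid.ofList (List.ofFn fun i => π (ks i)))
        (∏ i, ρ (ks i)) : Alg (FreeMonoid M)) := by
  have h2 := lk_prod_expand (M := FreeMonoid M) (κ := κ)
    (fun (_ : Fin m) k => FreeMonoid.of (π k)) (fun _ k => ρ k)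
  rw [List.ofFn_const, List.prod_replicate] at h2
  rw [map_sum]
  simp only [iota_single]
  refine h2.trans (Finset.sum_congr rfl fun ks _ => ?_)
  rw [← lk_prod_of, List.map_ofFn]
  rfl

theorem successProb_eq (q : ℝ) {n m : ℕ} (K : (Fin m → List Bool) → (Fin n → Bool) → ℝ)
    (x : Fin n → Bool) :
    successProb (1 - q) K x = pr (fun w => K (tup m w) x) (iota (chan q stdY (wordOf x)) ^ m) := by
  rw [chan_wordOf, iota_pow, map_sum]
  unfold successProb
  refine Finset.sum_congr rfl fun keeps _ => ?_
  rw [pr_single]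
  congr 2
  funext k
  simp [tup]

/-- `r` distinct words whose `m`-sample laws are all `ε`-close to one law cannot all be
recognised: `∑_i successProb x_i ≤ ∑_i (pr K_i P + ε) ≤ 1 + r ε` -/
theorem exists_lt_of_close (q : ℝ) {n m r : ℕ} (x : Fin r → Fin n → Bool)
    (hx : Function.Injective x) {P : Alg (FreeMonoid (FreeMonoid Bool))} (hP : Prob P) {ε s : ℝ}
    (h : ∀ i, ‖iota (chan q stdY (wordOf (x i))) ^ m - P‖ ≤ ε) (hs : 1 + r * ε < r * s)
    (K : (Fin m → List Bool) → (Fin n → Bool) → ℝ) (hK : IsRule K) :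
    ∃ z : Fin n → Bool, successProb (1 - q) K z < s := by
  classical
  by_contra hcon
  push Not at hcon
  have hle : ∀ τ y, K τ y ≤ 1 := fun τ y => by
    rw [← (hK τ).2]
    exact Finset.single_le_sum (fun y _ => (hK τ).1 y) (Finset.mem_univ y)
  have h1 : ∀ i, s ≤ pr (fun w => K (tup m w) (x i)) P + ε := by
    intro i
    have h2 := hcon (x i)
    rw [successProb_eq] at h2
    have h3 := abs_pr_le (fun w => K (tup m w) (x i))
      (fun w => abs_le.2 ⟨by linarith [(hK (tup m w)).1 (x i)], hle _ _⟩)
      (iota (chan q stdY (wordOf (x i))) ^ m - P)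
    rw [map_sub] at h3
    have h4 := (abs_le.1 h3).2
    linarith [h i]
  have h5 : ∑ i, pr (fun w => K (tup m w) (x i)) P ≤ 1 := by
    simp only [pr_eq_sum _ P subset_rfl]
    rw [Finset.sum_comm, ← hP.sum_coeff]
    refine Finset.sum_le_sum fun w _ => ?_
    rw [← Finset.mul_sum]
    refine mul_le_of_le_one_right (hP.1 w) ?_
    rw [← (hK (tup m w)).2, ← Finset.sum_image (f := fun y => K (tup m w) y) hx.injOn]
    exact Finset.sum_le_sum_of_subset_of_nonneg (Finset.subset_univ _)
      fun y _ _ => (hK _).1 y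
  have h6 := Finset.sum_le_sum fun i (_ : i ∈ (univ : Finset (Fin r))) => h1 i
  rw [Finset.sum_add_distrib, Finset.sum_const, Finset.sum_const, Finset.card_univ,
    Fintype.card_fin, nsmul_eq_mul, nsmul_eq_mul] at h6
  linarith

end Crest.Agent.R300.LB
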