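import Crest.Agent.R300.LBCore
import Crest.Agent.R300.LBLink

/-! Row 300 lower bound: from the core statement to words of length `n`. -/

set_option autoImplicit false

namespace Crest.Agent.R300.LB

open Finset Crest.FinProb Crest.TraceRecon

theorem fm_length_pow (a : FreeMonoid Bool) (k : ℕ) : (a ^ k).length = k * a.length := by
  induction k with
  | zero => simp
  | succ k ih => rw [pow_succ, FreeMonoid.length_mul, ih]; ring

theorem fm_prefix_eq {a b x y : FreeMonoid Bool} (hl : a.length = b.length) (h : a * x = b * y) :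
    a = b := by
  have h1 : FreeMonoid.toList a ++ FreeMonoid.toList x =
      FreeMonoid.toList b ++ FreeMonoid.toList y := by
    simpa using congrArg FreeMonoid.toList h
  exact FreeMonoid.toList.injective (List.append_inj h1 hl).1

/-- the test words -/
def tw (a b : FreeMonoid Bool) (r n i : ℕ) : FreeMonoid Bool :=
  a ^ i * b * (a ^ (r - 1 - i) * FreeMonoid.of false ^ (n - r * a.length))

theorem tw_length {a b : FreeMonoid Bool} (hl : a.length = b.length) {r n i : ℕ} (hi : i < r)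
    (hn : r * a.length ≤ n) : (tw a b r n i).length = n := by
  unfold tw
  simp only [FreeMonoid.length_mul, fm_length_pow, FreeMonoid.length_of, ← hl]
  obtain ⟨j, rfl⟩ : ∃ j, r = i + 1 + j := ⟨r - 1 - i, by omega⟩
  have : i + 1 + j - 1 - i = j := by omega
  rw [this]
  have h2 : (i + 1 + j) * a.length = i * a.length + a.length + j * a.length := by ring
  omega

theorem tw_ne {a b : FreeMonoid Bool} (hab : a ≠ b) (hl : a.length = b.length) {r n i j : ℕ}
    (hij : i < j) : tw a b r n i ≠ tw a b r n j := by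
  intro h
  unfold tw at h
  obtain ⟨k, rfl⟩ : ∃ k, j = i + (k + 1) := ⟨j - i - 1, by omega⟩
  rw [pow_add, pow_succ', mul_assoc, mul_assoc, mul_assoc, mul_assoc] at h
  exact hab (fm_prefix_eq hl.symm (mul_left_cancel h)).symm

theorem tw_self (a : FreeMonoid Bool) {r n i : ℕ} (hi : i < r) :
    tw a a r n i = a ^ r * FreeMonoid.of false ^ (n - r * a.length) := by
  unfold tw
  rw [← mul_assoc, ← pow_succ, ← pow_add]
  congr 2; omega

theorem tw_bd {M : Type*} [Monoid M] (α : FreeMonoid Bool →* Alg M) (hα : ∀ x, Prob (α x))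
    {a b : FreeMonoid Bool} {p : ℕ} (hp : 1 ≤ p) {d : Alg M} {β η : ℝ} (hd0 : mass d = 0)
    (hd : Bd p (α a) d β) (herr : ‖α b - α a - d‖ ≤ η) (r n i : ℕ) :
    ∃ d' : Alg M, mass d' = 0 ∧ Bd p (α (tw a a r n i)) d' β ∧
      ‖α (tw a b r n i) - α (tw a a r n i) - d'‖ ≤ η := by
  set L := α (a ^ i)
  set Rr := α (a ^ (r - 1 - i) * FreeMonoid.of false ^ (n - r * a.length))
  have hL : Prob L := hα _
  have hR : Prob Rr := hα _
  have e1 : α (tw a a r n i) = L * α a * Rr := by simp only [tw, map_mul, L, Rr]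
  have e2 : α (tw a b r n i) = L * α b * Rr := by simp only [tw, map_mul, L, Rr]
  refine ⟨L * d * Rr, by simp [hd0], ?_, ?_⟩
  · rw [e1]
    exact (hd.prob_mul hp (hα a) hL).mul_prob hp (hL.mul (hα a)) hR
  · rw [e1, e2, show L * α b * Rr - L * α a * Rr - L * d * Rr = L * (α b - α a - d) * Rr by
      noncomm_ring]
    calc ‖L * (α b - α a - d) * Rr‖ ≤ ‖L‖ * ‖α b - α a - d‖ * ‖Rr‖ :=
          (norm_mul_le _ _).trans (by gcongr; exact norm_mul_le _ _)
      _ ≤ η := by rw [hL.norm_eq, hR.norm_eq]; linarith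

theorem cube_le_hat {q : ℝ} (h0 : 0 < q) (h1 : q < 1) : q ^ 3 ≤ 8 * (min q (1 / 2)) ^ 3 := by
  rcases le_total q (1 / 2) with h | h
  · rw [min_eq_left h]; nlinarith [pow_pos h0 3]
  · rw [min_eq_right h]
    have : q ^ 3 ≤ 1 := pow_le_one₀ h0.le h1.le
    norm_num; linarith

theorem sample_lower (s : ℝ) (hs : 0 < s) (c : ℝ) (hc : 0 < c) (hc' : c < 1 / (4 * Real.log 2)) :
    ∃ (N₀ : ℕ) (R : ℝ), ∀ n ≥ N₀, ∀ q : ℝ, 0 < q → q < 1 → R ≤ q ^ 3 * Real.log n →
      ∀ m : ℕ, (m : ℝ) < (n : ℝ) ^ (c * Real.log (q ^ 3 * Real.log n)) →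
        ∀ K : (Fin m → List Bool) → (Fin n → Bool) → ℝ, IsRule K →
          ∃ x : Fin n → Bool, successProb (1 - q) K x < s := by
  set r : ℕ := ⌈2 / s⌉₊ with hrdef
  have hr2 : 2 ≤ r * s := by
    have : 2 / s ≤ r := Nat.le_ceil _
    rwa [div_le_iff₀ hs] at this
  have hr1 : 1 ≤ r := by
    rcases Nat.eq_zero_or_pos r with h | h
    · rw [h] at hr2; norm_num at hr2
    · exact h
  obtain ⟨N₀, R, H⟩ := core (M := FreeMonoid Bool) c hc hc' r hr1 2
  refine ⟨max N₀ (36 * r ^ 2), 8 * max R 1, fun n hn q h0 h1 hR m hm K hK => ?_⟩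
  have hn0 : N₀ ≤ n := le_trans (le_max_left _ _) hn
  have hn1 : 36 * r ^ 2 ≤ n := le_trans (le_max_right _ _) hn
  have hr1' : (1 : ℝ) ≤ r := by exact_mod_cast hr1
  have hn1' : 36 * (r : ℝ) ^ 2 ≤ n := by exact_mod_cast hn1
  have hn36 : (36 : ℝ) ≤ n := by nlinarith
  have hlog : 0 ≤ Real.log n := Real.log_nonneg (by linarith)
  set qh := min q (1 / 2) with hqh
  have hq0 : 0 < qh := lt_min h0 (by norm_num)
  have hq1 : qh ≤ 1 / 2 := min_le_right _ _
  have hcube := cube_le_hat h0 h1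
  have hL : q ^ 3 * Real.log n ≤ 8 * (qh ^ 3 * Real.log n) := by
    rw [← mul_assoc]; exact mul_le_mul_of_nonneg_right hcube hlog
  have hL1 : max R 1 ≤ qh ^ 3 * Real.log n := by linarith
  obtain ⟨Y, hY, hchan⟩ := chan_eq_hat h0 h1
  obtain ⟨a, b, p, d, β, η, hab, hl, hlen, hp, hp2, hd0, hd, herr, hβ, hη⟩ :=
    H n hn0 qh hq0 hq1 (le_trans (le_max_left _ _) hL1) Y hY
  rw [← hchan] at hd herr
  have hα : ∀ x, Prob (chan q stdY x) := prob_chan h0.le h1.le prob_stdY
  set E := c * Real.log (qh ^ 3 * Real.log n) with hE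
  have hLpos : 0 < qh ^ 3 * Real.log n := by have := le_max_right R 1; linarith
  have hexp : c * Real.log (q ^ 3 * Real.log n) ≤ E + 1 := by
    have hq : 0 < q ^ 3 * Real.log n := by have := le_max_right R 1; linarith
    have h2 : Real.log (q ^ 3 * Real.log n) ≤ Real.log (8 * (qh ^ 3 * Real.log n)) :=
      Real.log_le_log hq hL
    rw [Real.log_mul (by norm_num) hLpos.ne'] at h2
    have h8 : Real.log 8 = 3 * Real.log 2 := by
      rw [show (8 : ℝ) = 2 ^ 3 by norm_num, Real.log_pow]; norm_num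
    have hl2 : 0 < Real.log 2 := Real.log_pos (by norm_num)
    have h3 : c * (4 * Real.log 2) < 1 := by rwa [lt_div_iff₀ (by positivity)] at hc'
    have h4 := mul_le_mul_of_nonneg_left h2 hc.le
    rw [h8] at h4
    nlinarith
  have hnpos : (0 : ℝ) < n := by linarith
  have hm' : (m : ℝ) ≤ (n : ℝ) ^ (E + 1) :=
    hm.le.trans (Real.rpow_le_rpow_of_exponent_le (by linarith) hexp)
  have hprod : (n : ℝ) ^ (E + 1) * (n : ℝ) ^ (-(E + 2)) = 1 / n := by
    rw [← Real.rpow_add hnpos, show E + 1 + -(E + 2) = -1 by ring, Real.rpow_neg_one, one_div]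
  have hη0 : 0 ≤ η := le_trans (norm_nonneg _) herr
  have hmη : m * η ≤ 1 / n := by
    rw [← hprod]; gcongr
  have hmβ : m * (p * β ^ 2) ≤ 1 / n := by
    rw [← hprod]; gcongr
  have hinv : 1 / (n : ℝ) ≤ 1 / (36 * (r : ℝ) ^ 2) :=
    one_div_le_one_div_of_le (by positivity) hn1'
  have hinv' : 1 / (n : ℝ) ≤ 1 / 36 := one_div_le_one_div_of_le (by norm_num) hn36
  have hx : ∀ i : Fin r, ∃ x : Fin n → Bool, wordOf x = tw a b r n i :=
    fun i => exists_wordOf _ (tw_length hl i.2 hlen)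
  choose x hx using hx
  have hinj : Function.Injective x := by
    intro i j hij
    have h : tw a b r n i = tw a b r n j := by rw [← hx, ← hx, hij]
    rcases lt_trichotomy (i : ℕ) j with h' | h' | h'
    · exact absurd h (tw_ne hab hl h')
    · exact Fin.ext h'
    · exact absurd h.symm (tw_ne hab hl h')
  refine exists_lt_of_close q x hinj
    (P := iota (chan q stdY (a ^ r * FreeMonoid.of false ^ (n - r * a.length))) ^ m)
    ((hα _).iota.pow m) (ε := 1 / (2 * r)) (fun i => ?_) ?_ K hK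
  · obtain ⟨d', h0', hd', herr'⟩ := tw_bd (chan q stdY) hα (by omega) hd0 hd herr r n i
    rw [tw_self a i.2] at hd' herr'
    rw [hx]
    refine (samp_bound hp hp2 (hα _) (hα _) h0' hd' herr' m (by linarith) (by linarith)).trans ?_
    have h5 : √(6 * p * β ^ 2 * m) ≤ 5 / (12 * r) := by
      apply Real.sqrt_le_iff.2 ⟨by positivity, ?_⟩
      have : (5 / (12 * (r : ℝ))) ^ 2 = 25 / 4 * (1 / (36 * (r : ℝ) ^ 2)) := by
        field_simp; ring
      rw [this]
      have h6 : 0 ≤ 1 / (36 * (r : ℝ) ^ 2) := by positivity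
      nlinarith
    have h7 : 1 / (36 * (r : ℝ) ^ 2) ≤ 1 / (36 * r) :=
      one_div_le_one_div_of_le (by positivity) (by nlinarith)
    have h8 : 1 / (2 * (r : ℝ)) = 5 / (12 * r) + 3 * (1 / (36 * r)) := by field_simp; ring
    have h9 : 0 ≤ 1 / (36 * (r : ℝ)) := by positivity
    rw [h8]; linarith
  · have : (r : ℝ) * (1 / (2 * r)) = 1 / 2 := by field_simp
    rw [this]; linarith

theorem tv_small (q : ℝ) (hq : 0 < q) (hq1 : q < 1) (A : ℝ) (ε : ℝ) (hε : 0 < ε) :
    ∃ N₀ : ℕ, ∀ n ≥ N₀, ∃ x y : Fin n → Bool, x ≠ y ∧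
      (n : ℝ) ^ A * traceTV (1 - q) x y < ε := by
  have hl2 : Real.log 2 < 1 := by
    have := Real.log_two_lt_d9; linarith
  have hl0 : 0 < Real.log 2 := Real.log_pos (by norm_num)
  have hc' : (1 / 8 : ℝ) < 1 / (4 * Real.log 2) :=
    one_div_lt_one_div_of_lt (by positivity) (by linarith)
  obtain ⟨N₀, R, H⟩ := core (M := FreeMonoid Bool) (1 / 8) (by norm_num) hc' 1 le_rfl
    (2 * |A| + 2)
  set qh := min q (1 / 2) with hqh
  have hq0 : 0 < qh := lt_min hq (by norm_num)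
  have hqh1 : qh ≤ 1 / 2 := min_le_right _ _
  obtain ⟨N₁, hN₁⟩ := exists_nat_ge (Real.exp (max R 1 / qh ^ 3))
  obtain ⟨N₂, hN₂⟩ := exists_nat_gt (1 / ε)
  refine ⟨max N₀ (max N₁ N₂), fun n hn => ?_⟩
  have hn0 : N₀ ≤ n := le_trans (le_max_left _ _) hn
  have hn1 : (N₁ : ℝ) ≤ n := by
    exact_mod_cast le_trans (le_trans (le_max_left _ _) (le_max_right _ _)) hn
  have hn2 : (N₂ : ℝ) ≤ n := by
    exact_mod_cast le_trans (le_trans (le_max_right _ _) (le_max_right _ _)) hn
  have hR1 : (1 : ℝ) ≤ max R 1 := le_max_right _ _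
  have hn1' : (1 : ℝ) ≤ n := by
    refine le_trans ?_ (hN₁.trans hn1)
    exact Real.one_le_exp (by positivity)
  have hnpos : (0 : ℝ) < n := by linarith
  have hL : max R 1 ≤ qh ^ 3 * Real.log n := by
    have : max R 1 / qh ^ 3 ≤ Real.log n :=
      (Real.le_log_iff_exp_le hnpos).2 (hN₁.trans hn1)
    rwa [div_le_iff₀ (by positivity), mul_comm] at this
  obtain ⟨Y, hY, hchan⟩ := chan_eq_hat hq hq1
  obtain ⟨a, b, p, d, β, η, hab, hl, hlen, hp, hp2, hd0, hd, herr, hβ, hη⟩ :=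
    H n hn0 qh hq0 hqh1 (le_trans (le_max_left _ _) hL) Y hY
  rw [← hchan] at hd herr
  have hα : ∀ x, Prob (chan q stdY x) := prob_chan hq.le hq1.le prob_stdY
  obtain ⟨x, hx⟩ := exists_wordOf _ (tw_length (a := a) (b := b) hl (r := 1) (i := 0)
    one_pos hlen)
  obtain ⟨y, hy⟩ := exists_wordOf _ (tw_length (a := a) (b := a) rfl (r := 1) (i := 0)
    one_pos hlen)
  obtain ⟨d', -, hd', herr'⟩ := tw_bd (chan q stdY) hα (by omega) hd0 hd herr 1 n 0
  refine ⟨x, y, ?_, ?_⟩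
  · intro h
    have h2 : tw a b 1 n 0 = tw a a 1 n 0 := by rw [← hx, ← hy, h]
    unfold tw at h2
    exact hab (mul_left_cancel (mul_right_cancel h2)).symm
  · have hE : 0 ≤ 1 / 8 * Real.log (qh ^ 3 * Real.log n) := by
      have := Real.log_nonneg (hR1.trans hL); positivity
    set Z : ℝ := (n : ℝ) ^ (-(|A| + 1)) with hZ
    have hZ0 : 0 < Z := Real.rpow_pos_of_pos hnpos _
    have hb : (n : ℝ) ^ (-(1 / 8 * Real.log (qh ^ 3 * Real.log n) + (2 * |A| + 2))) ≤ Z ^ 2 := by
      rw [hZ, sq, ← Real.rpow_add hnpos]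
      apply Real.rpow_le_rpow_of_exponent_le hn1'
      linarith
    have hZ1 : Z ≤ 1 := Real.rpow_le_one_of_one_le_of_nonpos hn1'
      (by have := abs_nonneg A; linarith)
    have hβ0 : 0 ≤ β := hd.nonneg
    have hp' : (2 : ℝ) ≤ p := by exact_mod_cast hp2
    have hβZ : β ≤ Z := by
      apply le_of_sq_le_sq _ hZ0.le |>.trans le_rfl
      nlinarith [sq_nonneg β]
    have hηZ : η ≤ Z := by nlinarith
    have hnorm : ‖chan q stdY (wordOf x) - chan q stdY (wordOf y)‖ ≤ 2 * Z := by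
      rw [hx, hy]
      have h1 := hd'.norm_le (by omega) (hα _)
      calc _ = ‖(chan q stdY (tw a b 1 n 0) - chan q stdY (tw a a 1 n 0) - d') + d'‖ := by
            congr 1; abel
        _ ≤ _ := norm_add_le _ _
        _ ≤ 2 * Z := by linarith
    have htv : traceTV (1 - q) x y ≤ Z := (traceTV_le q x y).trans (by linarith)
    have hA : (n : ℝ) ^ A * Z ≤ 1 / n := by
      rw [hZ, ← Real.rpow_add hnpos, one_div, ← Real.rpow_neg_one]
      apply Real.rpow_le_rpow_of_exponent_le hn1'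
      have := le_abs_self A; linarith
    have hlt : 1 / (n : ℝ) < ε := by
      rw [div_lt_iff₀ hnpos]
      rw [div_lt_iff₀ hε] at hN₂
      nlinarith
    calc (n : ℝ) ^ A * traceTV (1 - q) x y ≤ (n : ℝ) ^ A * Z :=
          mul_le_mul_of_nonneg_left htv (Real.rpow_nonneg hnpos.le _)
      _ < ε := hA.trans_lt hlt

end Crest.Agent.R300.LB
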