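import Crest.Agent.R300.LB1

/-! Row 300 lower bound: binomial slip bound and the quantitative 0-2 law. -/

set_option autoImplicit false

namespace Crest.Agent.R300.LB

open Finset

open Polynomial in
theorem fog_coeff (a : ℝ) (p : ℝ[X]) (k : ℕ) :
    (C a * p - X * derivative p).coeff k = (a - k) * p.coeff k := by
  rw [coeff_sub, coeff_C_mul]
  cases k with
  | zero => simp
  | succ k =>
    rw [coeff_X_mul, coeff_derivative]
    push_cast
    ring

open Polynomial in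
theorem fog_sum {p : ℝ[X]} {n : ℕ} (h : p.natDegree < n) :
    ∑ k ∈ range n, p.coeff k = p.eval 1 := by
  simp [eval_eq_sum_range' h]

open Polynomial in
theorem fog_deg (a b : ℝ) (g : ℕ) : ((C a + C b * X) ^ g : ℝ[X]).natDegree ≤ g := by
  refine natDegree_pow_le.trans ?_
  have : (C a + C b * X : ℝ[X]).natDegree ≤ 1 := by compute_degree
  simpa using Nat.mul_le_mul_left g this

open Polynomial in
theorem fog_deg' (a b : ℝ) (g : ℕ) :
    ((C a + C b * X) ^ g * (1 - X) : ℝ[X]).natDegree ≤ g + 1 :=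
  natDegree_mul_le.trans (add_le_add (fog_deg a b g) (by compute_degree))

open Polynomial in
theorem fog_nonneg {a b : ℝ} (ha : 0 ≤ a) (hb : 0 ≤ b) (g k : ℕ) :
    0 ≤ ((C a + C b * X) ^ g : ℝ[X]).coeff k := by
  induction g generalizing k with
  | zero =>
    rw [pow_zero, coeff_one]
    split_ifs <;> norm_num
  | succ g ih =>
    rw [pow_succ', add_mul, coeff_add, coeff_C_mul, mul_assoc, coeff_C_mul]
    refine add_nonneg (mul_nonneg ha (ih k)) (mul_nonneg hb ?_)
    cases k with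
    | zero => simp
    | succ k =>
      rw [coeff_X_mul]
      exact ih k

open Polynomial in
/-- With `b_g(k)` the binomial weights, `b_g(k) - b_g(k-1) =
b_{g+1}(k) ((g+1)(1-ρ) - k) / ((g+1)ρ(1-ρ))`, and `E|K - mean| ≤ √Var`. -/
theorem binom_l1 {ρ : ℝ} (h0 : 0 < ρ) (h1 : ρ < 1) (g : ℕ) :
    ∑ k ∈ range (g + 2), |((C ρ + C (1 - ρ) * X) ^ g * (1 - X) : ℝ[X]).coeff k| ≤
      1 / √((g + 1) * ρ * (1 - ρ)) := by
  set L : ℝ[X] := C ρ + C (1 - ρ) * X with hL
  set v : ℝ := (g + 1) * ρ * (1 - ρ) with hv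
  have hσ : 0 < 1 - ρ := by linarith
  have hv0 : 0 < v := by positivity
  have hL1 : L.eval 1 = 1 := by simp [hL]
  have hL' : derivative L = C (1 - ρ) := by simp [hL]
  have hT : C ((g + 1) * (1 - ρ)) * L ^ (g + 1) - X * derivative (L ^ (g + 1)) =
      C v * (L ^ g * (1 - X)) := by
    rw [derivative_pow_succ, hL', pow_succ]
    nth_rewrite 2 [hL]
    simp only [hv, map_mul, map_sub, map_add, map_one, map_natCast]
    ring
  have hc : ∀ k, v * (L ^ g * (1 - X)).coeff k =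
      ((g + 1) * (1 - ρ) - k) * (L ^ (g + 1)).coeff k := fun k => by
    rw [← fog_coeff, hT, coeff_C_mul]
  have hb := fog_nonneg h0.le hσ.le (g + 1)
  have hs1 : ∑ k ∈ range (g + 2), (L ^ (g + 1)).coeff k = 1 := by
    rw [fog_sum ((fog_deg ρ (1 - ρ) (g + 1)).trans_lt (by omega)), eval_pow, hL1, one_pow]
  have hs2 : ∑ k ∈ range (g + 2), ((g + 1) * (1 - ρ) - k) ^ 2 * (L ^ (g + 1)).coeff k = v := by
    have e : ∀ k : ℕ, ((g + 1) * (1 - ρ) - k) ^ 2 * (L ^ (g + 1)).coeff k =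
        v * (C ((g + 1) * (1 - ρ)) * (L ^ g * (1 - X)) -
          X * derivative (L ^ g * (1 - X))).coeff k := fun k => by
      rw [fog_coeff]
      linear_combination (-((g + 1) * (1 - ρ) - k)) * hc k
    simp only [e]
    rw [← Finset.mul_sum, fog_sum]
    · simp [hL1]
    · have h2 := fog_deg' ρ (1 - ρ) g
      refine Nat.lt_succ_of_le (natDegree_le_iff_coeff_eq_zero.2 fun N hN => ?_)
      rw [fog_coeff, coeff_eq_zero_of_natDegree_lt (h2.trans_lt hN), mul_zero]
  have hcs := Finset.sum_sq_le_sum_mul_sum_of_sq_le_mul (range (g + 2))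
    (r := fun k => v * |(L ^ g * (1 - X)).coeff k|) (f := fun k => (L ^ (g + 1)).coeff k)
    (g := fun k => ((g + 1) * (1 - ρ) - k) ^ 2 * (L ^ (g + 1)).coeff k) (fun k _ => hb k)
    (fun k _ => mul_nonneg (sq_nonneg _) (hb k)) fun k _ => by
      rw [mul_pow, sq_abs, ← mul_pow, hc]
      exact le_of_eq (by ring)
  rw [hs1, hs2, one_mul, ← Finset.mul_sum] at hcs
  have h3 := Real.le_sqrt_of_sq_le hcs
  have h4 : 0 < √v := Real.sqrt_pos.2 hv0
  rw [le_div_iff₀ h4]
  refine le_of_mul_le_mul_left ?_ h4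
  have h5 := Real.mul_self_sqrt hv0.le
  rw [mul_comm _ √v, ← mul_assoc, h5, mul_one]
  exact h3

open Polynomial in
/-- the binomial weights are at most half the total variation -/
theorem binom_coeff_le {ρ : ℝ} (h0 : 0 < ρ) (h1 : ρ < 1) (g k : ℕ) :
    ((C ρ + C (1 - ρ) * X) ^ g : ℝ[X]).coeff k ≤ 1 / (2 * √((g + 1) * ρ * (1 - ρ))) := by
  have hσ : 0 < 1 - ρ := by linarith
  have hl := binom_l1 h0 h1 g
  set p : ℝ[X] := (C ρ + C (1 - ρ) * X) ^ g with hp
  have hd : p.natDegree ≤ g := fog_deg ρ (1 - ρ) g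
  rcases lt_or_ge g k with hk | hk
  · rw [coeff_eq_zero_of_natDegree_lt (hd.trans_lt hk)]
    positivity
  have ht : ∀ j, ∑ i ∈ range (j + 1), (p * (1 - X)).coeff i = p.coeff j := by
    intro j
    induction j with
    | zero => simp [mul_sub]
    | succ j ih =>
      rw [Finset.sum_range_succ, ih, mul_sub, mul_one, coeff_sub, coeff_mul_X]
      ring
  have h2 := Finset.sum_range_add_sum_Ico (fun i => (p * (1 - X)).coeff i)
    (by omega : k + 1 ≤ g + 2)
  have h3 := Finset.sum_range_add_sum_Ico (fun i => |(p * (1 - X)).coeff i|)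
    (by omega : k + 1 ≤ g + 2)
  rw [ht, ht, coeff_eq_zero_of_natDegree_lt (hd.trans_lt (Nat.lt_succ_self g))] at h2
  have h4 := Finset.abs_sum_le_sum_abs (fun i => (p * (1 - X)).coeff i) (range (k + 1))
  have h5 := Finset.abs_sum_le_sum_abs (fun i => (p * (1 - X)).coeff i) (Ico (k + 1) (g + 2))
  rw [ht] at h4
  have h6 := le_abs_self (p.coeff k)
  have h7 := neg_abs_le (∑ i ∈ Ico (k + 1) (g + 2), (p * (1 - X)).coeff i)
  rw [← one_div_mul_one_div]
  linarith

variable {M : Type*} [Monoid M]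

theorem binom_slip {ρ : ℝ} (h0 : 0 < ρ) (h1 : ρ < 1) {X : Alg M} (hX : ‖X‖ ≤ 1) (g : ℕ) :
    ‖(ρ • (1 : Alg M) + (1 - ρ) • X) ^ g * (1 - X)‖ ≤ 1 / √((g + 1) * ρ * (1 - ρ)) := by
  refine le_trans (le_of_eq ?_) ((norm_aeval_le hX _
    (Nat.lt_succ_of_le (fog_deg' ρ (1 - ρ) g))).trans (binom_l1 h0 h1 g))
  simp only [map_mul, map_pow, map_add, map_sub (Polynomial.aeval (R := ℝ) X), map_one,
    Polynomial.aeval_C, Polynomial.aeval_X, Algebra.algebraMap_eq_smul_one, smul_mul_assoc, one_mul]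

/-- a lazy law slips -/
theorem slip_lazy {ρ : ℝ} (h0 : 0 < ρ) (h1 : ρ < 1) {X : Alg M} (hX : ‖X‖ ≤ 1) :
    Slip (ρ • (1 : Alg M) + (1 - ρ) • X) (1 / ρ) := by
  intro g
  have hσ : 0 < 1 - ρ := by linarith
  have e : (1 : Alg M) - (ρ • (1 : Alg M) + (1 - ρ) • X) = (1 - ρ) • (1 - X) := by module
  rw [e, mul_smul_comm, norm_smul, Real.norm_of_nonneg hσ.le]
  refine (mul_le_mul_of_nonneg_left (binom_slip h0 h1 hX g) hσ.le).trans (Real.le_sqrt_of_sq_le ?_)
  rw [mul_pow, div_pow, Real.sq_sqrt (by positivity), one_pow, mul_one_div, div_div,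
    div_le_div_iff₀ (by positivity) (by positivity)]
  have : 0 ≤ ρ * ρ * (1 - ρ) * (g + 1) := by positivity
  nlinarith

/-- Quantitative 0-2 law.  `B = A^(m+1) = μ H + ν` with `H = (1+A)/2`, `ν ≥ 0` of mass
`1 - mass μ` (because `B ≥ μ` and `B = A^m A ≥ μ A`).  For `e R h = ‖B^R H^h (1-A)‖`:
`e (R+1) h ≤ ρ e R (h+1) + (1-ρ) e R h` (`ρ = mass μ`), `e 0 h ^ 2 ≤ 4/(h+1)` (`binom_slip`), so
`e R h ^ 2 ≤ 4 ∫_0^1 x^h (1-ρ+ρx)^R dx` by induction (convexity of the square), which is at most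
`4/((R+1)ρ)` for `h = 0`; take `R = g / (m+1)`. -/
theorem foguel {A μ : Alg M} (hA : Prob A) (hμ : Pos μ) {m : ℕ} (h1 : Pos (A ^ m - μ))
    (h2 : Pos (A ^ (m + 1) - μ)) {ρ : ℝ} (hρ : 0 < ρ) (hρμ : ρ ≤ mass μ) :
    Slip A (4 * (m + 1) / ρ) := by
  set p := mass μ with hp
  have hp0 : 0 < p := hρ.trans_le hρμ
  set H : Alg M := (1 / 2 : ℝ) • (1 : Alg M) + (1 - 1 / 2 : ℝ) • A with hH
  have hν : Pos (A ^ (m + 1) - μ * H) := by
    have e : A ^ (m + 1) - μ * H =
        (1 / 2 : ℝ) • (A ^ (m + 1) - μ) + (1 / 2 : ℝ) • ((A ^ m - μ) * A) := by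
      rw [hH, mul_add, mul_smul_comm, mul_smul_comm, mul_one, sub_mul, ← pow_succ]
      module
    rw [e]
    exact (h2.smul (by norm_num)).add ((h1.mul hA.1).smul (by norm_num))
  have hνm : mass (A ^ (m + 1) - μ * H) = 1 - p := by
    simp only [hH, map_sub, map_mul, map_pow, map_add, map_smul, map_one, hA.2, smul_eq_mul, ← hp]
    ring
  have hp1 : 0 ≤ 1 - p := hνm ▸ hν.mass_nonneg
  have hc : Commute H A :=
    ((Commute.one_left A).smul_left _).add_left ((Commute.refl A).smul_left _)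
  have hrec : ∀ R h : ℕ, ‖(A ^ (m + 1)) ^ (R + 1) * H ^ h * (1 - A)‖ ≤
      p * ‖(A ^ (m + 1)) ^ R * H ^ (h + 1) * (1 - A)‖ +
        (1 - p) * ‖(A ^ (m + 1)) ^ R * H ^ h * (1 - A)‖ := by
    intro R h
    have e : (A ^ (m + 1)) ^ (R + 1) * H ^ h * (1 - A) =
        μ * ((A ^ (m + 1)) ^ R * H ^ (h + 1) * (1 - A)) +
          (A ^ (m + 1) - μ * H) * ((A ^ (m + 1)) ^ R * H ^ h * (1 - A)) := by
      rw [pow_succ' H, ← mul_assoc _ H, ← ((hc.pow_right (m + 1)).pow_right R).eq,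
        pow_succ' (A ^ (m + 1))]
      noncomm_ring
    rw [e]
    refine (norm_add_le _ _).trans (add_le_add ((norm_mul_le _ _).trans ?_)
      ((norm_mul_le _ _).trans ?_))
    · rw [hμ.norm_eq]
    · rw [hν.norm_eq, hνm]
  have hint : ∀ R h : ℕ, IntervalIntegrable (fun x : ℝ => x ^ h * (1 - p + p * x) ^ R)
      MeasureTheory.volume 0 1 := fun R h => Continuous.intervalIntegrable (by fun_prop) _ _
  have key : ∀ R h : ℕ, ‖(A ^ (m + 1)) ^ R * H ^ h * (1 - A)‖ ^ 2 ≤
      4 * ∫ x in (0 : ℝ)..1, x ^ h * (1 - p + p * x) ^ R := by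
    intro R
    induction R with
    | zero =>
      intro h
      have := binom_slip (ρ := 1 / 2) (by norm_num) (by norm_num) hA.norm_eq.le h
      simp only [pow_zero, one_mul, mul_one, integral_pow, one_pow]
      refine (pow_le_pow_left₀ (norm_nonneg _) this 2).trans (le_of_eq ?_)
      rw [div_pow, Real.sq_sqrt (by positivity), zero_pow (Nat.succ_ne_zero h)]
      field_simp
      norm_num
    | succ R ih =>
      intro h
      have e : ∫ x in (0 : ℝ)..1, x ^ h * (1 - p + p * x) ^ (R + 1) =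
          p * (∫ x in (0 : ℝ)..1, x ^ (h + 1) * (1 - p + p * x) ^ R) +
            (1 - p) * ∫ x in (0 : ℝ)..1, x ^ h * (1 - p + p * x) ^ R := by
        rw [← intervalIntegral.integral_const_mul, ← intervalIntegral.integral_const_mul,
          ← intervalIntegral.integral_add ((hint _ _).const_mul _) ((hint _ _).const_mul _)]
        congr 1
        funext x
        ring
      have a1 := mul_le_mul_of_nonneg_left (ih (h + 1)) hp0.le
      have a2 := mul_le_mul_of_nonneg_left (ih h) hp1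
      refine (pow_le_pow_left₀ (norm_nonneg _) (hrec R h) 2).trans ?_
      rw [e]
      nlinarith [mul_nonneg (mul_nonneg hp0.le hp1) (sq_nonneg
        (‖(A ^ (m + 1)) ^ R * H ^ (h + 1) * (1 - A)‖ - ‖(A ^ (m + 1)) ^ R * H ^ h * (1 - A)‖))]
  have hI : ∀ R : ℕ, ∫ x in (0 : ℝ)..1, x ^ 0 * (1 - p + p * x) ^ R ≤ 1 / ((R + 1) * p) := by
    intro R
    rw [intervalIntegral.integral_eq_sub_of_hasDerivAt
      (f := fun x => (1 - p + p * x) ^ (R + 1) / ((R + 1) * p)) (fun x _ => ?_) (hint R 0)]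
    · have : 0 ≤ (1 - p + p * 0) ^ (R + 1) / ((R + 1) * p) := by
        rw [mul_zero, add_zero]
        positivity
      rw [mul_one, sub_add_cancel, one_pow]
      linarith
    · refine (((((hasDerivAt_id x).const_mul p).const_add (1 - p)).pow (R + 1)).div_const
        ((R + 1) * p)).congr_deriv ?_
      simp only [id, Nat.add_sub_cancel, Nat.cast_add, Nat.cast_one]
      field_simp
  intro g
  have e : A ^ g * (1 - A) =
      A ^ (g % (m + 1)) * ((A ^ (m + 1)) ^ (g / (m + 1)) * H ^ 0 * (1 - A)) := by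
    rw [pow_zero, mul_one, ← pow_mul, ← mul_assoc, ← pow_add, Nat.mod_add_div]
  rw [e]
  refine (norm_mul_le _ _).trans ?_
  rw [(hA.pow _).norm_eq, one_mul]
  refine Real.le_sqrt_of_sq_le ((key _ 0).trans ((mul_le_mul_of_nonneg_left (hI _)
    (by norm_num)).trans ?_))
  have h3 : (g : ℝ) + 1 ≤ (m + 1) * ((g / (m + 1) : ℕ) + 1) := by
    exact_mod_cast Nat.succ_le_of_lt (Nat.lt_mul_div_succ g (Nat.succ_pos m))
  rw [mul_one_div, div_div, div_le_div_iff₀ (by positivity) (by positivity)]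
  have h4 := mul_le_mul hρμ h3 (by positivity) hp0.le
  linarith

end Crest.Agent.R300.LB
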