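import Crest.Agent.R300.LBDefs

/-! Row 300 lower bound: the numerical recursion.  For `T ≥ 100`: `KK T ≤ T^11`,
`eNext T w h2 ≤ T^12 h2`, `hNext T w h2 ≤ T^21 h2² / w`. -/

set_option autoImplicit false

namespace Crest.Agent.R300.LB

open Finset

theorem gam_step_ge {δ : ℝ} (hδ : δ ≤ 0.02) (i : ℕ) :
    1.39 + 0.15 * i ≤ gam δ (i + 1) ∧ 1.39 ≤ gam δ i := by
  induction i with
  | zero => simp only [gam]; norm_num
  | succ i ih =>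
    obtain ⟨h1, h2⟩ := ih
    have h0 : (0 : ℝ) ≤ i := Nat.cast_nonneg i
    have h3 : (0.695 : ℝ) ≤ min 1 (gam δ i / 2) := le_min (by norm_num) (by linarith)
    refine ⟨?_, by linarith⟩
    rw [show i + 1 + 1 = i + 2 from rfl, gam]
    push_cast
    linarith

theorem gam_ge {δ : ℝ} (hδ : δ ≤ 0.02) (i : ℕ) : 1.39 ≤ gam δ i := (gam_step_ge hδ i).2

theorem gam_ge_lin {δ : ℝ} (hδ0 : 0 ≤ δ) (hδ : δ ≤ 0.02) (i : ℕ) :
    (1 / 4 - δ) * ((i : ℝ) - 7) ≤ gam δ i := by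
  have hq : 0 ≤ 1 / 4 - δ := by linarith
  have key : ∀ k : ℕ, (1 / 4 - δ) * (k : ℝ) ≤ gam δ (k + 7) := by
    intro k
    induction k with
    | zero =>
      have := gam_ge hδ (0 + 7)
      simp only [Nat.cast_zero, mul_zero]
      linarith
    | succ k ih =>
      have h1 := (gam_step_ge hδ (k + 5)).1
      have h0 : (0 : ℝ) ≤ k := Nat.cast_nonneg k
      have h2 : min 1 (gam δ (k + 6) / 2) = 1 := by
        refine min_eq_left ?_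
        push_cast at h1
        rw [show k + 5 + 1 = k + 6 from rfl] at h1
        linarith
      rw [show k + 1 + 7 = (k + 6) + 2 by ring, gam, h2, show k + 6 + 1 = k + 7 from rfl]
      push_cast
      linarith
  rcases le_total i 7 with hi | hi
  · have h1 : (i : ℝ) ≤ 7 := by exact_mod_cast hi
    have h2 := gam_ge hδ i
    have h3 : (1 / 4 - δ) * ((i : ℝ) - 7) ≤ 0 := mul_nonpos_of_nonneg_of_nonpos hq (by linarith)
    linarith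
  · obtain ⟨k, rfl⟩ := Nat.exists_eq_add_of_le' hi
    have := key k
    push_cast
    rw [add_sub_cancel_right]
    exact this

theorem KK_le {T : ℕ} (hT : 100 ≤ T) : KK T ≤ T ^ 11 := by
  unfold KK tt
  have h1 : 100 ^ 4 ≤ T ^ 4 := Nat.pow_le_pow_left hT 4
  have h2 : T ^ 3 ≤ T ^ 7 := Nat.pow_le_pow_right (by omega) (by norm_num)
  calc 136 * (144 * T * (16 * T ^ 3) ^ 2 + 16 * T ^ 3) = 5013504 * T ^ 7 + 2176 * T ^ 3 := by ring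
    _ ≤ 100 ^ 4 * T ^ 7 := by omega
    _ ≤ T ^ 4 * T ^ 7 := Nat.mul_le_mul_right _ h1
    _ = T ^ 11 := by ring

theorem NN_le (T s : ℕ) (hs : 1 ≤ s) : 136 * NN T s ≤ KK T * s := by
  unfold NN KK PP
  have h : tt T ≤ tt T * s := Nat.le_mul_of_pos_right _ hs
  calc 136 * (4 * (36 * T * tt T ^ 2 * s) + tt T)
      ≤ 136 * (4 * (36 * T * tt T ^ 2 * s) + tt T * s) := by omega
    _ = 136 * (144 * T * tt T ^ 2 + tt T) * s := by ring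

theorem eNext_le {T w : ℕ} (hT : 100 ≤ T) (hw : 1 ≤ w) {h2 : ℝ} (hh : 0 ≤ h2) :
    eNext T w h2 ≤ (T : ℝ) ^ 12 * h2 := by
  unfold eNext tt
  have hT' : (100 : ℝ) ≤ T := by exact_mod_cast hT
  have hw' : (1 : ℝ) ≤ w := by exact_mod_cast hw
  have h1 : (T : ℝ) ^ 2 / w ≤ (T : ℝ) ^ 2 := div_le_self (by positivity) hw'
  have h3 : (100 : ℝ) ^ 3 ≤ (T : ℝ) ^ 3 := pow_le_pow_left₀ (by norm_num) hT' 3
  push_cast
  calc 144 * (16 * (T : ℝ) ^ 3) ^ 2 * ((T : ℝ) ^ 2 / w) * (12 * T * h2)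
      ≤ 144 * (16 * (T : ℝ) ^ 3) ^ 2 * (T : ℝ) ^ 2 * (12 * T * h2) := by gcongr
    _ = 442368 * ((T : ℝ) ^ 9 * h2) := by ring
    _ ≤ (T : ℝ) ^ 3 * ((T : ℝ) ^ 9 * h2) := by
      refine mul_le_mul_of_nonneg_right (by linarith) (by positivity)
    _ = (T : ℝ) ^ 12 * h2 := by ring

theorem hNext_le {T w : ℕ} (hT : 100 ≤ T) (hw : 1 ≤ w) (h2 : ℝ) :
    hNext T w h2 ≤ (T : ℝ) ^ 21 * h2 ^ 2 / w := by
  unfold hNext tt
  have hT' : (100 : ℝ) ≤ T := by exact_mod_cast hT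
  have hw' : (1 : ℝ) ≤ w := by exact_mod_cast hw
  have h3 : (100 : ℝ) ^ 5 ≤ (T : ℝ) ^ 5 := pow_le_pow_left₀ (by norm_num) hT' 5
  push_cast
  calc 144 * (16 * (T : ℝ) ^ 3) ^ 4 * ((T : ℝ) ^ 2 / w) * (12 * T * h2) ^ 2
      = 1358954496 * ((T : ℝ) ^ 16 * h2 ^ 2 / w) := by ring
    _ ≤ (T : ℝ) ^ 5 * ((T : ℝ) ^ 16 * h2 ^ 2 / w) := by
      refine mul_le_mul_of_nonneg_right (by linarith) (by positivity)
    _ = (T : ℝ) ^ 21 * h2 ^ 2 / w := by ring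

theorem lbn_KK_pos {T : ℕ} (hT : 100 ≤ T) : 1 ≤ KK T := by
  unfold KK tt
  have : 0 < T := by omega
  exact Nat.succ_le_of_lt (by positivity)

theorem lbn_pow_le {T S δ : ℝ} (hT : 1 ≤ T) (hS1 : 1 ≤ S) (hδ : δ ≤ 0.02) (h : T ^ 40 ≤ S ^ δ)
    (n : ℕ) {c : ℝ} (hc0 : 0 ≤ c) (hc : (n : ℝ) ≤ 2000 * c) : T ^ n ≤ S ^ c := by
  have hT0 : 0 < T := by linarith
  have hS0 : 0 < S := by linarith
  have hL : 0 ≤ Real.log T := Real.log_nonneg hT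
  have hb : 0 ≤ Real.log S := Real.log_nonneg hS1
  have h1 := Real.log_le_log (by positivity) h
  rw [Real.log_pow, Real.log_rpow hS0] at h1
  rw [← Real.log_le_log_iff (by positivity) (Real.rpow_pos_of_pos hS0 _), Real.log_pow,
    Real.log_rpow hS0]
  have h2 : δ * Real.log S ≤ 0.02 * Real.log S := mul_le_mul_of_nonneg_right hδ hb
  have h3 : (n : ℝ) * Real.log T ≤ 2000 * c * Real.log T := mul_le_mul_of_nonneg_right hc hL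
  have h4 : c * (2000 * Real.log T) ≤ c * Real.log S :=
    mul_le_mul_of_nonneg_left (by push_cast at h1; linarith) hc0
  linarith

/-- the degenerate first step (`N = 1`, `W = 0`, `w = 1`, `e2 = 0`); `S = KK T * (136 σ) ≤ T^13 σ` -/
theorem num_first {T σ : ℕ} {δ : ℝ} (hT : 100 ≤ T) (hσ : 1 ≤ σ) (hδ0 : 0 < δ) (hδ : δ ≤ 0.02)
    (hS : (T : ℝ) ^ 40 ≤ ((KK T * (136 * σ) : ℕ) : ℝ) ^ δ) :
    StepNum T 1 0 1 σ (136 * σ) 0 (((σ : ℝ) ^ (-0.725 : ℝ)) ^ 2) ∧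
      eNext T 1 (((σ : ℝ) ^ (-0.725 : ℝ)) ^ 2) ≤
        (T : ℝ) ^ 12 * ((KK T * (136 * σ) : ℕ) : ℝ) ^ (-(1.4 : ℝ)) ∧
      hNext T 1 (((σ : ℝ) ^ (-0.725 : ℝ)) ^ 2) ≤
        ((KK T * (136 * σ) : ℕ) : ℝ) ^ (-2 * (1.39 : ℝ)) := by
  have hT' : (100 : ℝ) ≤ T := by exact_mod_cast hT
  have hσ' : (1 : ℝ) ≤ σ := by exact_mod_cast hσ
  have hK1 := lbn_KK_pos hT
  have hS1n : 1 ≤ KK T * (136 * σ) := Nat.mul_pos hK1 (by omega)
  have hSle : KK T * (136 * σ) ≤ T ^ 13 * σ := by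
    have h1 := KK_le hT
    have h2 : 136 ≤ T ^ 2 := le_trans (by norm_num) (Nat.pow_le_pow_left hT 2)
    calc KK T * (136 * σ) ≤ T ^ 11 * (T ^ 2 * σ) :=
          Nat.mul_le_mul h1 (Nat.mul_le_mul_right _ h2)
      _ = T ^ 13 * σ := by ring
  have hSle' : ((KK T * (136 * σ) : ℕ) : ℝ) ≤ (T : ℝ) ^ 13 * σ := by exact_mod_cast hSle
  have hS1 : (1 : ℝ) ≤ ((KK T * (136 * σ) : ℕ) : ℝ) := by exact_mod_cast hS1n
  generalize ((KK T * (136 * σ) : ℕ) : ℝ) = S at hS hSle' hS1 ⊢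
  have hS0 : 0 < S := by linarith
  have hp := fun (n : ℕ) (c : ℝ) => lbn_pow_le (T := (T : ℝ)) (by linarith) hS1 hδ hS n (c := c)
  have h13 := hp 13 0.01 (by norm_num) (by norm_num)
  have hσS : S ^ (0.99 : ℝ) ≤ σ := by
    have h1 : S ^ (0.01 : ℝ) * S ^ (0.99 : ℝ) = S := by
      rw [← Real.rpow_add hS0]; norm_num
    have h2 : S ^ (0.01 : ℝ) * S ^ (0.99 : ℝ) ≤ S ^ (0.01 : ℝ) * σ := by
      rw [h1]
      exact hSle'.trans (mul_le_mul_of_nonneg_right h13 (by linarith))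
    exact le_of_mul_le_mul_left h2 (Real.rpow_pos_of_pos hS0 _)
  have hh : ((σ : ℝ) ^ (-0.725 : ℝ)) ^ 2 ≤ S ^ (-1.4355 : ℝ) := by
    have h1 : (σ : ℝ) ^ (-0.725 : ℝ) ≤ (S ^ (0.99 : ℝ)) ^ (-0.725 : ℝ) :=
      Real.rpow_le_rpow_of_nonpos (Real.rpow_pos_of_pos hS0 _) hσS (by norm_num)
    refine (pow_le_pow_left₀ (Real.rpow_nonneg (by linarith) _) h1 2).trans (le_of_eq ?_)
    rw [← Real.rpow_mul hS0.le, ← Real.rpow_natCast, ← Real.rpow_mul hS0.le]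
    norm_num
  have hh0 : 0 ≤ ((σ : ℝ) ^ (-0.725 : ℝ)) ^ 2 := sq_nonneg _
  generalize ((σ : ℝ) ^ (-0.725 : ℝ)) ^ 2 = h2 at hh hh0 ⊢
  refine ⟨⟨le_rfl, by simp, by omega, by norm_num, by norm_num, ?_⟩, ?_, ?_⟩
  · have h6 := hp 6 1.4355 (by norm_num) (by norm_num)
    have h7 : (T : ℝ) ^ 6 * h2 ≤ 1 := by
      calc (T : ℝ) ^ 6 * h2 ≤ S ^ (1.4355 : ℝ) * S ^ (-1.4355 : ℝ) :=
            mul_le_mul h6 hh hh0 (Real.rpow_nonneg hS0.le _)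
        _ = 1 := by rw [← Real.rpow_add hS0]; norm_num
    have h8 : (100 : ℝ) ^ 2 ≤ (T : ℝ) ^ 2 := pow_le_pow_left₀ (by norm_num) hT' 2
    have h9 : 384 * ((T : ℝ) ^ 4 * h2) ≤ (T : ℝ) ^ 2 * ((T : ℝ) ^ 4 * h2) :=
      mul_le_mul_of_nonneg_right (by linarith) (by positivity)
    unfold tt
    push_cast
    nlinarith
  · refine (eNext_le hT le_rfl hh0).trans (mul_le_mul_of_nonneg_left (hh.trans ?_) (by positivity))
    exact Real.rpow_le_rpow_of_exponent_le hS1 (by norm_num)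
  · refine (hNext_le hT le_rfl h2).trans ?_
    have h21 := hp 21 0.05 (by norm_num) (by norm_num)
    have h1 : h2 ^ 2 ≤ (S ^ (-1.4355 : ℝ)) ^ 2 := pow_le_pow_left₀ hh0 hh 2
    rw [Nat.cast_one, div_one]
    calc (T : ℝ) ^ 21 * h2 ^ 2 ≤ S ^ (0.05 : ℝ) * (S ^ (-1.4355 : ℝ)) ^ 2 :=
          mul_le_mul h21 h1 (sq_nonneg _) (Real.rpow_nonneg hS0.le _)
      _ = S ^ (0.05 + (-1.4355) * 2 : ℝ) := by
          rw [← Real.rpow_natCast, ← Real.rpow_mul hS0.le, ← Real.rpow_add hS0]; norm_num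
      _ ≤ S ^ (-2 * (1.39 : ℝ)) := Real.rpow_le_rpow_of_exponent_le hS1 (by norm_num)

/-- The generic step, `S = KK T * s`, `s' = KK T * s²`, `KK T * s' = S²`.  Take
`w = min (36 t² s) ⌊S^(γp/2) / (600 √(2T) T^6)⌋`, so `w ≥ S^μ / T^11` with `μ = min 1 (γp/2)`,
`w² · 12 T e2 ≤ 12/(720000)`, `72 T s / NN T s ≤ 1`, `NN T s' ≤ S²`, `γp + μ ≥ 2.085`,
`T^40 ≤ S^δ ≤ S^0.02`. -/
theorem num_step {T s : ℕ} {δ γp γ : ℝ} (hT : 100 ≤ T) (hs : 1 ≤ s) (hδ0 : 0 < δ) (hδ : δ ≤ 0.02)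
    (hγp : 1.39 ≤ γp) (hγ : 1.39 ≤ γ) (hS : (T : ℝ) ^ 40 ≤ ((KK T * s : ℕ) : ℝ) ^ δ) :
    ∃ w : ℕ, StepNum T w (PP T s) (NN T s) s (KK T * s ^ 2)
        ((T : ℝ) ^ 12 * ((KK T * s : ℕ) : ℝ) ^ (-γp)) (((KK T * s : ℕ) : ℝ) ^ (-2 * γ)) ∧
      eNext T w (((KK T * s : ℕ) : ℝ) ^ (-2 * γ)) ≤
        (T : ℝ) ^ 12 * ((KK T * (KK T * s ^ 2) : ℕ) : ℝ) ^ (-γ) ∧
      hNext T w (((KK T * s : ℕ) : ℝ) ^ (-2 * γ)) ≤
        ((KK T * (KK T * s ^ 2) : ℕ) : ℝ) ^ (-2 * (γ + min 1 (γp / 2) / 4 - δ)) := by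
  have hT' : (100 : ℝ) ≤ T := by exact_mod_cast hT
  have hT0 : (0 : ℝ) < T := by linarith
  have hs' : (1 : ℝ) ≤ s := by exact_mod_cast hs
  have hK1 := lbn_KK_pos hT
  have hS1n : 1 ≤ KK T * s := Nat.mul_pos hK1 hs
  have hSle' : ((KK T * s : ℕ) : ℝ) ≤ (T : ℝ) ^ 11 * s := by
    exact_mod_cast Nat.mul_le_mul_right s (KK_le hT)
  have hS1 : (1 : ℝ) ≤ ((KK T * s : ℕ) : ℝ) := by exact_mod_cast hS1n
  have hS2 : ((KK T * (KK T * s ^ 2) : ℕ) : ℝ) = ((KK T * s : ℕ) : ℝ) ^ 2 := by push_cast; ring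
  have hNN : (NN T (KK T * s ^ 2) : ℝ) ≤ ((KK T * s : ℕ) : ℝ) ^ 2 := by
    rw [← hS2]
    have h1 := NN_le T (KK T * s ^ 2) (Nat.mul_pos hK1 (by positivity))
    have h2 : NN T (KK T * s ^ 2) ≤ KK T * (KK T * s ^ 2) := by omega
    exact_mod_cast h2
  rw [hS2]
  generalize ((KK T * s : ℕ) : ℝ) = S at hS hSle' hS1 hNN ⊢
  have hS0 : 0 < S := by linarith
  have hp := fun (n : ℕ) (c : ℝ) => lbn_pow_le (T := (T : ℝ)) (by linarith) hS1 hδ hS n (c := c)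
  have htt : 1 ≤ tt T := by
    unfold tt
    have : 0 < T := by omega
    exact Nat.succ_le_of_lt (by positivity)
  set μ : ℝ := min 1 (γp / 2) with hμ
  have hμ1 : μ ≤ 1 := min_le_left _ _
  have hμ2 : μ ≤ γp / 2 := min_le_right _ _
  have hμ3 : (0.695 : ℝ) ≤ μ := le_min (by norm_num) (by linarith)
  set x : ℝ := S ^ (γp / 2) / (T : ℝ) ^ 9 with hx
  have hx1 : 1 ≤ x := by
    rw [hx, one_le_div (by positivity)]
    exact hp 9 _ (by linarith) (by push_cast; linarith)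
  have hT2 : (100 : ℝ) ^ 2 ≤ (T : ℝ) ^ 2 := pow_le_pow_left₀ (by norm_num) hT' 2
  obtain ⟨w, hw1, hwa, hwb, hwc⟩ : ∃ w : ℕ, 1 ≤ w ∧ w ≤ 36 * tt T ^ 2 * s ∧ (w : ℝ) ≤ x ∧
      S ^ μ ≤ (T : ℝ) ^ 11 * w := by
    have ha : s ≤ 36 * tt T ^ 2 * s := Nat.le_mul_of_pos_left _ (by positivity)
    have hf1 : 1 ≤ ⌊x⌋₊ := Nat.le_floor (by simpa using hx1)
    refine ⟨min (36 * tt T ^ 2 * s) ⌊x⌋₊, le_min (hs.trans ha) hf1, min_le_left _ _, ?_, ?_⟩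
    · refine le_trans ?_ (Nat.floor_le (by linarith))
      exact_mod_cast min_le_right _ _
    · rcases le_total (36 * tt T ^ 2 * s) ⌊x⌋₊ with h | h
      · rw [min_eq_left h]
        have h1 : S ^ μ ≤ S := by
          have := Real.rpow_le_rpow_of_exponent_le hS1 hμ1
          rwa [Real.rpow_one] at this
        refine h1.trans (hSle'.trans (mul_le_mul_of_nonneg_left ?_ (by positivity)))
        exact_mod_cast ha
      · rw [min_eq_right h]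
        have h1 : S ^ μ ≤ S ^ (γp / 2) := Real.rpow_le_rpow_of_exponent_le hS1 hμ2
        have h2 : S ^ (γp / 2) = (T : ℝ) ^ 9 * x := by rw [hx]; field_simp
        have h3 : x < ⌊x⌋₊ + 1 := Nat.lt_floor_add_one x
        have h4 : (1 : ℝ) ≤ ⌊x⌋₊ := by exact_mod_cast hf1
        have h5 : x ≤ (T : ℝ) ^ 2 * ⌊x⌋₊ := by nlinarith
        calc S ^ μ ≤ (T : ℝ) ^ 9 * x := h2 ▸ h1
          _ ≤ (T : ℝ) ^ 9 * ((T : ℝ) ^ 2 * ⌊x⌋₊) := by gcongr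
          _ = (T : ℝ) ^ 11 * ⌊x⌋₊ := by ring
  have hw' : (1 : ℝ) ≤ w := by exact_mod_cast hw1
  have hw0 : (0 : ℝ) < w := by linarith
  have hinv : 1 / (w : ℝ) ≤ (T : ℝ) ^ 11 * S ^ (-μ) := by
    rw [Real.rpow_neg hS0.le, div_le_iff₀ hw0, mul_assoc, mul_comm (S ^ μ)⁻¹, ← mul_assoc,
      ← div_eq_mul_inv, one_le_div (Real.rpow_pos_of_pos hS0 _)]
    exact hwc
  have he0 : 0 < S ^ (-γp) := Real.rpow_pos_of_pos hS0 _
  have hh0 : 0 < S ^ (-2 * γ) := Real.rpow_pos_of_pos hS0 _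
  refine ⟨w, ⟨hw1, ?_, ?_, ?_, ?_, ?_⟩, ?_, ?_⟩
  · unfold PP
    calc T * (w - 1) ≤ T * (36 * tt T ^ 2 * s) := Nat.mul_le_mul_left _ (by omega)
      _ = 36 * T * tt T ^ 2 * s := by ring
  · calc 136 * NN T s * s ≤ KK T * s * s := Nat.mul_le_mul_right _ (NN_le T s hs)
      _ = KK T * s ^ 2 := by ring
  · have h1 : 72 * T * s ≤ NN T s := by
      unfold NN PP
      have : 1 ≤ tt T ^ 2 := Nat.one_le_pow _ _ htt
      have h2 : 72 * T * s * 1 ≤ 72 * T * s * tt T ^ 2 := Nat.mul_le_mul_left _ this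
      nlinarith
    have h1' : 72 * (T : ℝ) * s ≤ NN T s := by exact_mod_cast h1
    have hN0 : (0 : ℝ) < NN T s := lt_of_lt_of_le (by positivity) h1'
    have h2 : 72 * (T : ℝ) * (w : ℝ) ^ 2 * s / NN T s ≤ (w : ℝ) ^ 2 := by
      rw [div_le_iff₀ hN0]
      nlinarith [sq_nonneg (w : ℝ)]
    have h3 : (1 : ℝ) ≤ (w : ℝ) ^ 2 := one_le_pow₀ hw'
    have h4 : (w : ℝ) ^ 2 ≤ x ^ 2 := pow_le_pow_left₀ hw0.le hwb 2
    have h5 : x ^ 2 * S ^ (-γp) = 1 / (T : ℝ) ^ 18 := by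
      have : (S ^ (γp / 2)) ^ 2 * S ^ (-γp) = 1 := by
        rw [← Real.rpow_natCast, ← Real.rpow_mul hS0.le, ← Real.rpow_add hS0]
        norm_num
      rw [hx, div_pow, div_mul_eq_mul_div, this, ← pow_mul]
    have hT5 : (100 : ℝ) ^ 5 ≤ (T : ℝ) ^ 5 := pow_le_pow_left₀ (by norm_num) hT' 5
    calc (72 * (T : ℝ) * (w : ℝ) ^ 2 * s / NN T s + 4) * (12 * T * ((T : ℝ) ^ 12 * S ^ (-γp)))
        ≤ (5 * x ^ 2) * (12 * T * ((T : ℝ) ^ 12 * S ^ (-γp))) :=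
          mul_le_mul_of_nonneg_right (by linarith) (by positivity)
      _ = 60 * (T : ℝ) ^ 13 * (x ^ 2 * S ^ (-γp)) := by ring
      _ = 60 / (T : ℝ) ^ 5 := by rw [h5]; field_simp
      _ ≤ 1e-4 := by rw [div_le_iff₀ (by positivity)]; linarith
  · have h1 : S ^ 2 * S ^ (-γp) * S ^ (-μ) ≤ S ^ (-0.085 : ℝ) := by
      rw [← Real.rpow_natCast, ← Real.rpow_add hS0, ← Real.rpow_add hS0]
      exact Real.rpow_le_rpow_of_exponent_le hS1 (by push_cast; linarith)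
    have h2 : (T : ℝ) ^ 30 * S ^ (-0.085 : ℝ) ≤ 1 := by
      calc (T : ℝ) ^ 30 * S ^ (-0.085 : ℝ) ≤ S ^ (0.085 : ℝ) * S ^ (-0.085 : ℝ) :=
            mul_le_mul_of_nonneg_right (hp 30 0.085 (by norm_num) (by norm_num))
              (Real.rpow_nonneg hS0.le _)
        _ = 1 := by rw [← Real.rpow_add hS0]; norm_num
    have hT4 : (100 : ℝ) ^ 4 ≤ (T : ℝ) ^ 4 := pow_le_pow_left₀ (by norm_num) hT' 4
    have h3 : 0 < S ^ (-0.085 : ℝ) := Real.rpow_pos_of_pos hS0 _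
    have h4 : (100 : ℝ) ^ 4 * ((T : ℝ) ^ 26 * S ^ (-0.085 : ℝ))
        ≤ (T : ℝ) ^ 4 * ((T : ℝ) ^ 26 * S ^ (-0.085 : ℝ)) :=
      mul_le_mul_of_nonneg_right hT4 (by positivity)
    calc (NN T (KK T * s ^ 2) : ℝ) * (12 * T * ((T : ℝ) ^ 12 * S ^ (-γp))) * ((T : ℝ) ^ 2 / w)
        = (NN T (KK T * s ^ 2) : ℝ) * (12 * (T : ℝ) ^ 15 * S ^ (-γp)) * (1 / w) := by ring
      _ ≤ S ^ 2 * (12 * (T : ℝ) ^ 15 * S ^ (-γp)) * ((T : ℝ) ^ 11 * S ^ (-μ)) := by gcongr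
      _ = 12 * (T : ℝ) ^ 26 * (S ^ 2 * S ^ (-γp) * S ^ (-μ)) := by ring
      _ ≤ 12 * (T : ℝ) ^ 26 * S ^ (-0.085 : ℝ) := by gcongr
      _ ≤ 1e-4 := by nlinarith
  · have h1 : (T : ℝ) ^ 18 * S ^ (-γp) ≤ 1 := by
      calc (T : ℝ) ^ 18 * S ^ (-γp) ≤ S ^ γp * S ^ (-γp) :=
            mul_le_mul_of_nonneg_right (hp 18 γp (by linarith) (by push_cast; linarith)) he0.le
        _ = 1 := by rw [← Real.rpow_add hS0]; norm_num
    have h2 : (T : ℝ) ^ 6 * S ^ (-2 * γ) ≤ 1 := by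
      calc (T : ℝ) ^ 6 * S ^ (-2 * γ) ≤ S ^ (2 * γ) * S ^ (-2 * γ) :=
            mul_le_mul_of_nonneg_right (hp 6 (2 * γ) (by linarith) (by push_cast; linarith)) hh0.le
        _ = 1 := by rw [← Real.rpow_add hS0]; norm_num
    have h3 : (100 : ℝ) ^ 2 * ((T : ℝ) ^ 16 * S ^ (-γp)) ≤ (T : ℝ) ^ 2 * ((T : ℝ) ^ 16 * S ^ (-γp)) :=
      mul_le_mul_of_nonneg_right hT2 (by positivity)
    have h4 : (100 : ℝ) ^ 2 * ((T : ℝ) ^ 4 * S ^ (-2 * γ))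
        ≤ (T : ℝ) ^ 2 * ((T : ℝ) ^ 4 * S ^ (-2 * γ)) :=
      mul_le_mul_of_nonneg_right hT2 (by positivity)
    unfold tt
    push_cast
    nlinarith
  · refine (eNext_le hT hw1 hh0.le).trans (le_of_eq ?_)
    rw [← Real.rpow_natCast S 2, ← Real.rpow_mul hS0.le]
    congr 2
    push_cast
    ring
  · refine (hNext_le hT hw1 _).trans ?_
    have h1 : (T : ℝ) ^ 32 ≤ S ^ (4 * δ) := by
      refine le_trans (pow_le_pow_right₀ (by linarith) (by norm_num)) (hS.trans ?_)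
      exact Real.rpow_le_rpow_of_exponent_le hS1 (by linarith)
    calc (T : ℝ) ^ 21 * (S ^ (-2 * γ)) ^ 2 / w = (T : ℝ) ^ 21 * (S ^ (-2 * γ)) ^ 2 * (1 / w) := by
          ring
      _ ≤ (T : ℝ) ^ 21 * (S ^ (-2 * γ)) ^ 2 * ((T : ℝ) ^ 11 * S ^ (-μ)) := by gcongr
      _ = (T : ℝ) ^ 32 * ((S ^ (-2 * γ)) ^ 2 * S ^ (-μ)) := by ring
      _ ≤ S ^ (4 * δ) * ((S ^ (-2 * γ)) ^ 2 * S ^ (-μ)) := by gcongr
      _ = (S ^ 2) ^ (-2 * (γ + μ / 4 - δ)) := by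
          rw [← Real.rpow_natCast S 2, ← Real.rpow_natCast _ 2, ← Real.rpow_mul hS0.le,
            ← Real.rpow_mul hS0.le, ← Real.rpow_add hS0, ← Real.rpow_add hS0]
          congr 1
          push_cast
          ring

end Crest.Agent.R300.LB
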