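import Crest.Agent.R300.LBStep
import Crest.Agent.R300.LBNum

/-! Row 300 lower bound: iterating the step. -/

set_option autoImplicit false

namespace Crest.Agent.R300.LB

open Finset

variable {M : Type*} [Monoid M]

/-- the invariant at level `i + 1` -/
def Inv (α : FreeMonoid Bool →* Alg M) (T S1 : ℕ) (δ : ℝ) (i : ℕ) (S : St) (s : ℕ) : Prop :=
  1 ≤ s ∧ KK T * s = S1 ^ (2 ^ i) ∧ S.WF ∧ S.W = PP T s ∧ S.N = NN T s ∧
    S.u.length ≤ KK T * s ∧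
    (S.cell α).OK (2 * T) ((T : ℝ) ^ 12 * ((KK T * s : ℕ) : ℝ) ^ (-gam δ i))
      (((KK T * s : ℕ) : ℝ) ^ (-2 * gam δ (i + 1))) s (Real.exp (-(T : ℝ) / 4 ^ (i + 2)))

theorem theta_facts {T i k : ℕ} {nb : ℝ} (hnb : 0 < nb) (hik : i + 1 ≤ k)
    (hθ : 20 * Real.log nb ≤ T / 4 ^ (k + 1)) :
    nb ^ 20 * Real.exp (-(T : ℝ) / 4 ^ (i + 1)) ≤ 1 ∧
      (1 / 2 : ℝ) ^ T ≤ Real.exp (-(T : ℝ) / 4 ^ (i + 1)) ∧
      nb ^ 20 * √(Real.exp (-(T : ℝ) / 4 ^ (i + 1))) ≤ Real.exp (-(T : ℝ) / 4 ^ (i + 2)) := by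
  have hT : (0 : ℝ) ≤ T := Nat.cast_nonneg T
  have h4 : (0 : ℝ) < 4 ^ (i + 2) := by positivity
  have hx : (T : ℝ) / 4 ^ (k + 1) ≤ T / 4 ^ (i + 2) := by
    apply div_le_div_of_nonneg_left hT h4
    exact pow_le_pow_right₀ (by norm_num) (by omega)
  set x : ℝ := (T : ℝ) / 4 ^ (i + 2) with hxdef
  have hx0 : 0 ≤ x := by positivity
  have e1 : -(T : ℝ) / 4 ^ (i + 1) = -(4 * x) := by
    rw [hxdef, pow_succ (4 : ℝ) (i + 1)]; field_simp
  have e2 : -(T : ℝ) / 4 ^ (i + 2) = -x := by rw [hxdef]; ring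
  have hn : nb ^ 20 ≤ Real.exp x := by
    have : nb ^ 20 = Real.exp (20 * Real.log nb) := by
      rw [show (20 : ℝ) * Real.log nb = ((20 : ℕ) : ℝ) * Real.log nb by norm_num,
        Real.exp_nat_mul, Real.exp_log hnb]
    rw [this]; exact Real.exp_le_exp.2 (by linarith)
  have hsq : √(Real.exp (-(4 * x))) = Real.exp (-(2 * x)) := by
    rw [show -(4 * x) = -(2 * x) + -(2 * x) by ring, Real.exp_add, Real.sqrt_mul_self
      (Real.exp_pos _).le]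
  refine ⟨?_, ?_, ?_⟩
  · rw [e1]
    calc nb ^ 20 * Real.exp (-(4 * x)) ≤ Real.exp x * Real.exp (-(4 * x)) := by gcongr
      _ = Real.exp (-(3 * x)) := by rw [← Real.exp_add]; ring_nf
      _ ≤ 1 := Real.exp_le_one_iff.2 (by linarith)
  · have h1 : (1 / 2 : ℝ) ≤ Real.exp (-(1 / 4 : ℝ)) := by
      have := Real.add_one_le_exp (-(1 / 4 : ℝ)); linarith
    calc (1 / 2 : ℝ) ^ T ≤ Real.exp (-(1 / 4 : ℝ)) ^ T := by gcongr
      _ = Real.exp (-(T : ℝ) / 4) := by rw [← Real.exp_nat_mul]; ring_nf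
      _ ≤ Real.exp (-(T : ℝ) / 4 ^ (i + 1)) := by
        apply Real.exp_le_exp.2
        rw [neg_div, neg_div, neg_le_neg_iff]
        apply div_le_div_of_nonneg_left hT (by norm_num)
        calc (4 : ℝ) = 4 ^ 1 := by norm_num
          _ ≤ 4 ^ (i + 1) := pow_le_pow_right₀ (by norm_num) (by omega)
  · rw [e1, e2, hsq]
    calc nb ^ 20 * Real.exp (-(2 * x)) ≤ Real.exp x * Real.exp (-(2 * x)) := by gcongr
      _ = Real.exp (-x) := by rw [← Real.exp_add]; ring_nf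

theorem KK_ge {T : ℕ} (hT : 1 ≤ T) : 136 ≤ KK T := by
  unfold KK tt
  have : 1 ≤ T ^ 3 := Nat.one_le_pow _ _ hT
  nlinarith [Nat.zero_le (144 * T * (16 * T ^ 3) ^ 2)]

theorem inv_first (α : FreeMonoid Bool →* Alg M) (hα : ∀ x, Prob (α x)) {T σ k : ℕ} {δ nb : ℝ}
    (hT : 100 ≤ T) (hσ : 1 ≤ σ) (hk : 1 ≤ k) (hδ0 : 0 < δ) (hδ : δ ≤ 0.02)
    (hS : (T : ℝ) ^ 40 ≤ ((KK T * (136 * σ) : ℕ) : ℝ) ^ δ)
    (hnb : (((KK T * (136 * σ)) ^ (2 ^ k) : ℕ) : ℝ) ≤ nb)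
    (hθ : 20 * Real.log nb ≤ T / 4 ^ (k + 1))
    {a b : FreeMonoid Bool} {d : Alg M} (hab : a ≠ b) (hlen : a.length = b.length)
    (hle : a.length ≤ σ) (hslip : Slip (α a) σ) (hd0 : mass d = 0)
    (hd : Bd (2 * T) (α a) d ((σ : ℝ) ^ (-0.725 : ℝ)))
    (herr : ‖α b - α a - d‖ ≤ Real.exp (-(T : ℝ) / 4)) :
    ∃ S : St, Inv α T (KK T * (136 * σ)) δ 0 S (136 * σ) := by
  obtain ⟨U, V, hUV, hdvd⟩ := exists_pattern (T := T) (by omega)
  have hK := KK_ge (T := T) (by omega)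
  set S1 := KK T * (136 * σ) with hS1
  have hS1pos : 136 * 136 ≤ S1 := by rw [hS1]; exact Nat.mul_le_mul hK (by omega)
  have hS1nb : (S1 : ℝ) ≤ nb := by
    refine le_trans ?_ hnb
    exact_mod_cast Nat.le_self_pow (by positivity) S1
  have hnb10 : (10 : ℝ) ≤ nb := le_trans (by exact_mod_cast (by omega : 10 ≤ S1)) hS1nb
  let S0 : St := ⟨a, 0, 1, a, b⟩
  have hWF : S0.WF := ⟨by simp [S0], by simp [S0, hlen], hab⟩
  have hR : (S0.cell α).R = α a := by simp [Cell.R, Cell.N, St.cell, S0]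
  have hOK : (S0.cell α).OK (2 * T) 0 (((σ : ℝ) ^ (-0.725 : ℝ)) ^ 2) σ
      (Real.exp (-(T : ℝ) / 4 ^ (0 + 1))) := by
    refine ⟨hα _, hα _, hα _, hslip, fun _ => 0, fun y => if y = 0 then d else 0, ?_, ?_, ?_, ?_⟩
    · exact bes_zero (by omega) _
    · rw [hR]; exact bes_ite (by omega) hd0 hd
    · intro y _
      have : (S0.cell α).E y = 0 := by simp [Cell.E, Cell.put, St.cell, S0]
      rw [this]; simp; positivity
    · intro y hy
      have hy0 : y = 0 := by simpa [St.cell, S0] using hy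
      subst hy0
      have : (S0.cell α).D 0 = α b - α a := by simp [Cell.D, Cell.put, St.cell, S0]
      rw [this]; simpa using herr
  obtain ⟨hnum, he, hh⟩ := num_first hT hσ hδ0 hδ hS
  obtain ⟨t1, t2, t3⟩ := theta_facts (T := T) (i := 0) (k := k) (by linarith) (by omega) hθ
  have hNN : NN T (136 * σ) ≤ S1 := by
    have := NN_le T (136 * σ) (by omega); omega
  have hstep := step (w := 1) (s' := 136 * σ) hOK (by omega) hσ
    (by simp [Cell.N, St.cell, S0]) (by simpa [Cell.N, St.cell, S0] using hnum) hnb10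
    (le_trans (by exact_mod_cast hNN) hS1nb) t1 t2 hdvd
  refine ⟨S0.next (PP T (136 * σ)) (tt T) U V, by omega, by simp [hS1], hWF.next _ _ hUV, rfl,
    ?_, ?_, ?_⟩
  · simp only [St.N, St.next, NN]; ring
  · have : (S0.next (PP T (136 * σ)) (tt T) U V).u = a := by simp [St.next, St.a, S0]
    rw [this]
    calc a.length ≤ σ := hle
      _ ≤ 136 * σ := by omega
      _ ≤ KK T * (136 * σ) := Nat.le_mul_of_pos_left _ (by omega)
  · rw [St.cell_next]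
    exact hstep.mono he hh le_rfl t3

theorem inv_step (α : FreeMonoid Bool →* Alg M) {T S1 k i : ℕ} {δ nb : ℝ}
    (hT : 100 ≤ T) (hδ0 : 0 < δ) (hδ : δ ≤ 0.02) (hS1 : 10 ≤ S1)
    (hS : (T : ℝ) ^ 40 ≤ (S1 : ℝ) ^ δ) (hnb : ((S1 ^ (2 ^ k) : ℕ) : ℝ) ≤ nb)
    (hθ : 20 * Real.log nb ≤ T / 4 ^ (k + 1)) (hik : i + 2 ≤ k) {S : St} {s : ℕ}
    (h : Inv α T S1 δ i S s) : ∃ S' : St, Inv α T S1 δ (i + 1) S' (KK T * s ^ 2) := by
  obtain ⟨U, V, hUV, hdvd⟩ := exists_pattern (T := T) (by omega)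
  obtain ⟨hs, hKs, hWF, hW, hN, hu, hOK⟩ := h
  have hK := KK_ge (T := T) (by omega)
  have hS1le : S1 ≤ KK T * s := by
    rw [hKs]; exact Nat.le_self_pow (by positivity) S1
  have hS' : (T : ℝ) ^ 40 ≤ ((KK T * s : ℕ) : ℝ) ^ δ :=
    hS.trans (Real.rpow_le_rpow (Nat.cast_nonneg _) (by exact_mod_cast hS1le) hδ0.le)
  obtain ⟨w, hnum, he, hh⟩ := num_step (γp := gam δ i) (γ := gam δ (i + 1)) hT hs hδ0 hδ
    (gam_ge hδ i) (gam_ge hδ (i + 1)) hS'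
  have hsq : KK T * (KK T * s ^ 2) = S1 ^ (2 ^ (i + 1)) := by
    rw [pow_succ 2 i, pow_mul, ← hKs]; ring
  have hle : S1 ^ (2 ^ (i + 1)) ≤ S1 ^ (2 ^ k) :=
    Nat.pow_le_pow_right (by omega) (Nat.pow_le_pow_right (by omega) (by omega))
  have hs' : 1 ≤ KK T * s ^ 2 := Nat.mul_pos (by omega) (by positivity)
  have hNN : NN T (KK T * s ^ 2) ≤ S1 ^ (2 ^ k) := by
    have := NN_le T (KK T * s ^ 2) hs'; omega
  have hnb10 : (10 : ℝ) ≤ nb := by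
    refine le_trans ?_ hnb
    have : S1 ≤ S1 ^ (2 ^ k) := Nat.le_self_pow (by positivity) S1
    exact_mod_cast (by omega : 10 ≤ S1 ^ (2 ^ k))
  obtain ⟨t1, t2, t3⟩ := theta_facts (T := T) (i := i + 1) (k := k) (by linarith) (by omega) hθ
  have hCN : (S.cell α).N = NN T s := hN
  have hCW : (S.cell α).W = PP T s := hW
  have hN1 : 1 ≤ NN T s := by
    unfold NN tt
    have : 1 ≤ T ^ 3 := Nat.one_le_pow _ _ (by omega)
    omega
  have hstep := step (w := w) (s' := KK T * s ^ 2) hOK (by omega) hs (by rw [hCN]; exact hN1)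
    (by rw [hCN, hCW]; exact hnum) hnb10 (le_trans (by exact_mod_cast hNN) hnb) t1 t2 hdvd
  refine ⟨S.next (PP T (KK T * s ^ 2)) (tt T) U V, hs', hsq, hWF.next _ _ hUV, rfl, ?_, ?_, ?_⟩
  · simp only [St.N, St.next, NN]; ring
  · have h1 : (S.next (PP T (KK T * s ^ 2)) (tt T) U V).u = S.a := rfl
    rw [h1, hWF.ab.2.1, hN]
    have h2 := NN_le T s hs
    calc NN T s * S.u.length ≤ (KK T * s) * (KK T * s) := Nat.mul_le_mul (by omega) hu
      _ = KK T * (KK T * s ^ 2) := by ring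
  · rw [St.cell_next]
    exact hstep.mono he hh le_rfl t3

theorem iter (α : FreeMonoid Bool →* Alg M) (hα : ∀ x, Prob (α x)) {T σ k : ℕ} {δ nb : ℝ}
    (hT : 100 ≤ T) (hσ : 1 ≤ σ) (hk : 1 ≤ k) (hδ0 : 0 < δ) (hδ : δ ≤ 0.02)
    (hS : (T : ℝ) ^ 40 ≤ ((KK T * (136 * σ) : ℕ) : ℝ) ^ δ)
    (hnb : (((KK T * (136 * σ)) ^ (2 ^ k) : ℕ) : ℝ) ≤ nb)
    (hθ : 20 * Real.log nb ≤ T / 4 ^ (k + 1))
    {a b : FreeMonoid Bool} {d : Alg M} (hab : a ≠ b) (hlen : a.length = b.length)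
    (hle : a.length ≤ σ) (hslip : Slip (α a) σ) (hd0 : mass d = 0)
    (hd : Bd (2 * T) (α a) d ((σ : ℝ) ^ (-0.725 : ℝ)))
    (herr : ‖α b - α a - d‖ ≤ Real.exp (-(T : ℝ) / 4)) :
    ∃ (a' b' : FreeMonoid Bool) (d' : Alg M), a' ≠ b' ∧ a'.length = b'.length ∧
      a'.length ≤ (KK T * (136 * σ)) ^ (2 ^ k) ∧ mass d' = 0 ∧
      Bd (2 * T) (α a') d' (3 * √((((KK T * (136 * σ)) ^ (2 ^ k) : ℕ) : ℝ) ^ (-gam δ k))) ∧
      ‖α b' - α a' - d'‖ ≤ 6 * Real.exp (-(T : ℝ) / (2 * 4 ^ (k + 1))) := by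
  have hK := KK_ge (T := T) (by omega)
  set S1 := KK T * (136 * σ) with hS1
  have hS1pos : 136 * 136 ≤ S1 := by rw [hS1]; exact Nat.mul_le_mul hK (by omega)
  have main : ∀ i, i + 1 ≤ k → ∃ (S : St) (s : ℕ), Inv α T S1 δ i S s := by
    intro i
    induction i with
    | zero =>
      intro _
      obtain ⟨S, h⟩ := inv_first α hα hT hσ hk hδ0 hδ hS hnb hθ hab hlen hle hslip hd0 hd herr
      exact ⟨S, _, h⟩
    | succ i ih =>
      intro hi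
      obtain ⟨S, s, h⟩ := ih (by omega)
      obtain ⟨S', h'⟩ := inv_step α hT hδ0 hδ (by omega) hS hnb hθ (by omega) h
      exact ⟨S', _, h'⟩
  obtain ⟨i, rfl⟩ : ∃ i, k = i + 1 := ⟨k - 1, by omega⟩
  obtain ⟨S, s, hs, hKs, hWF, hW, hN, hu, hOK⟩ := main i le_rfl
  have hS1le : S1 ≤ KK T * s := by
    rw [hKs]; exact Nat.le_self_pow (by positivity) S1
  set Z : ℝ := ((KK T * s : ℕ) : ℝ) with hZ
  have hZ1 : (1 : ℝ) ≤ Z := by rw [hZ]; exact_mod_cast (by omega : 1 ≤ KK T * s)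
  have hT1 : (100 : ℝ) ≤ T := by exact_mod_cast hT
  have hTZ : (T : ℝ) ^ 40 ≤ Z := by
    calc (T : ℝ) ^ 40 ≤ (S1 : ℝ) ^ δ := hS
      _ ≤ Z ^ δ := Real.rpow_le_rpow (Nat.cast_nonneg _) (by rw [hZ]; exact_mod_cast hS1le) hδ0.le
      _ ≤ Z ^ (1 : ℝ) := Real.rpow_le_rpow_of_exponent_le hZ1 (by linarith)
      _ = Z := Real.rpow_one Z
  have he : (T : ℝ) ^ 12 * Z ^ (-gam δ i) ≤ 1 / 64 := by
    have h1 : Z ^ (-gam δ i) ≤ Z ^ (-1 : ℝ) :=
      Real.rpow_le_rpow_of_exponent_le hZ1 (by have := gam_ge hδ i; linarith)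
    rw [Real.rpow_neg_one] at h1
    have h2 : Z⁻¹ ≤ ((T : ℝ) ^ 40)⁻¹ := inv_anti₀ (by positivity) hTZ
    have h3 : (64 : ℝ) ≤ (T : ℝ) ^ 28 :=
      le_trans (by linarith) (le_self_pow₀ (by linarith) (by norm_num))
    calc (T : ℝ) ^ 12 * Z ^ (-gam δ i) ≤ (T : ℝ) ^ 12 * ((T : ℝ) ^ 40)⁻¹ := by
          gcongr; exact h1.trans h2
      _ = ((T : ℝ) ^ 28)⁻¹ := by field_simp
      _ ≤ (64 : ℝ)⁻¹ := inv_anti₀ (by norm_num) h3
      _ = 1 / 64 := by norm_num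
  obtain ⟨d', hd0', hd', herr'⟩ := fin_obj (by omega) hOK he
  have hsq : S1 ^ (2 ^ (i + 1)) = (KK T * s) ^ 2 := by
    rw [pow_succ 2 i, pow_mul, ← hKs]
  have hh2 : Z ^ (-2 * gam δ (i + 1)) = ((S1 ^ (2 ^ (i + 1)) : ℕ) : ℝ) ^ (-gam δ (i + 1)) := by
    rw [hsq, Nat.cast_pow, ← hZ, ← Real.rpow_natCast, ← Real.rpow_mul (by linarith)]
    congr 1; push_cast; ring
  rw [(S.cell_Ap α).1] at hd' herr'
  rw [(S.cell_Ap α).2] at herr'
  refine ⟨S.a, S.b, d', hWF.ab.1, by rw [hWF.ab.2.1, hWF.ab.2.2], ?_, hd0', ?_, ?_⟩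
  · rw [hWF.ab.2.1, hN, hsq]
    have h2 := NN_le T s hs
    calc NN T s * S.u.length ≤ (KK T * s) * (KK T * s) := Nat.mul_le_mul (by omega) hu
      _ = (KK T * s) ^ 2 := by ring
  · rw [← hh2]; exact hd'
  · refine herr'.trans ?_
    set θ := Real.exp (-(T : ℝ) / 4 ^ (i + 2)) with hθdef
    have hθ0 : 0 < θ := Real.exp_pos _
    have hθ1 : θ ≤ 1 := Real.exp_le_one_iff.2 (by
      rw [neg_div]; exact neg_nonpos.2 (by positivity))
    have hsqrt : Real.exp (-(T : ℝ) / (2 * 4 ^ (i + 1 + 1))) = √θ := by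
      rw [hθdef, eq_comm, Real.sqrt_eq_iff_mul_self_eq (Real.exp_pos _).le (Real.exp_pos _).le,
        ← Real.exp_add]
      congr 1; field_simp; ring
    rw [hsqrt]
    have hh1 : √(Z ^ (-2 * gam δ (i + 1))) ≤ 1 := by
      rw [Real.sqrt_le_one]
      exact Real.rpow_le_one_of_one_le_of_nonpos hZ1 (by have := gam_ge hδ (i + 1); linarith)
    have hnb0 : (0 : ℝ) < nb := by
      refine lt_of_lt_of_le ?_ hnb
      exact_mod_cast (by positivity : 0 < S1 ^ (2 ^ (i + 1)))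
    have t2 := (theta_facts (T := T) (i := i + 1) (k := i + 2) (nb := 1) one_pos le_rfl
      (by simp; positivity)).2.1
    have h2T : (1 / 2 : ℝ) ^ (2 * T) ≤ θ :=
      le_trans (pow_le_pow_of_le_one (by norm_num) (by norm_num) (by omega)) t2
    have h5 : √((1 / 2 : ℝ) ^ (2 * T) + 4 * θ) ≤ 5 / 2 * √θ := by
      rw [show (5 / 2 : ℝ) * √θ = √((5 / 2) ^ 2 * θ) by
        rw [Real.sqrt_mul (by positivity), Real.sqrt_sq (by norm_num)]]
      exact Real.sqrt_le_sqrt (by nlinarith)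
    have h6 : θ ≤ √θ := by
      have := Real.sqrt_le_one.2 hθ1
      calc θ = √θ * √θ := (Real.mul_self_sqrt hθ0.le).symm
        _ ≤ √θ * 1 := by gcongr
        _ = √θ := mul_one _
    have h7 : 2 * √(Z ^ (-2 * gam δ (i + 1))) * √((1 / 2 : ℝ) ^ (2 * T) + 4 * θ) ≤
        2 * 1 * (5 / 2 * √θ) := by gcongr
    linarith

end Crest.Agent.R300.LB
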