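import Crest.Agent.R300.LBLatDefs
import Crest.Agent.R300.LBFog

/-! Row 300 lower bound: tilted inner products of gap polynomials. -/

set_option autoImplicit false

namespace Crest.Agent.R300.LB

open Finset

open Polynomial

theorem ipx_eq_sum (x : ℝ) (P Q : ℝ[X]) {s : Finset ℕ} (hs : P.support ⊆ s) :
    ipx x P Q = ∑ n ∈ s, x ^ (2 * n) * (P.coeff n * Q.coeff n) := by
  unfold ipx
  refine Finset.sum_subset hs fun n _ hn => ?_
  rw [notMem_support_iff.1 hn, zero_mul, mul_zero]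

theorem ipx_comm (x : ℝ) (P Q : ℝ[X]) : ipx x P Q = ipx x Q P := by
  rw [ipx_eq_sum x P Q (Finset.subset_union_left (s₂ := Q.support)),
    ipx_eq_sum x Q P (Finset.subset_union_right (s₁ := P.support))]
  exact Finset.sum_congr rfl fun n _ => by ring

theorem latA_mul_nonneg {P Q : ℝ[X]} (hP : ∀ n, 0 ≤ P.coeff n) (hQ : ∀ n, 0 ≤ Q.coeff n) (n : ℕ) :
    0 ≤ (P * Q).coeff n := by
  rw [coeff_mul]
  exact Finset.sum_nonneg fun k _ => mul_nonneg (hP _) (hQ _)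

theorem gp_coeff_nonneg {q : ℝ} (h0 : 0 ≤ q) (h1 : q ≤ 1) (N g d n : ℕ) :
    0 ≤ (gp q N g d).coeff n :=
  latA_mul_nonneg (fog_nonneg (sq_nonneg q) (by nlinarith) _) (fog_nonneg h0 (by linarith) _) n

theorem ipx_gp_nonneg {q : ℝ} (h0 : 0 ≤ q) (h1 : q ≤ 1) (x : ℝ) (N g d g' d' : ℕ) :
    0 ≤ ipx x (gp q N g d) (gp q N g' d') :=
  Finset.sum_nonneg fun n _ => mul_nonneg (by rw [pow_mul]; positivity)
    (mul_nonneg (gp_coeff_nonneg h0 h1 _ _ _ _) (gp_coeff_nonneg h0 h1 _ _ _ _))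

theorem latA_conv_le {P Q : ℝ[X]} {B : ℝ} (hB : 0 ≤ B) (hP : ∀ n, P.coeff n ≤ B)
    (hQ : ∀ n, 0 ≤ Q.coeff n) (n : ℕ) : (P * Q).coeff n ≤ B * Q.eval 1 := by
  rw [mul_comm P Q, coeff_mul,
    Finset.Nat.sum_antidiagonal_eq_sum_range_succ (fun i j => Q.coeff i * P.coeff j) n,
    ← fog_sum (n := n + 1 + (Q.natDegree + 1)) (by omega), Finset.mul_sum]
  calc ∑ k ∈ range n.succ, Q.coeff k * P.coeff (n - k) ≤ ∑ k ∈ range n.succ, B * Q.coeff k :=
        Finset.sum_le_sum fun k _ => by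
          rw [mul_comm B]; exact mul_le_mul_of_nonneg_left (hP _) (hQ _)
    _ ≤ _ := Finset.sum_le_sum_of_subset_of_nonneg (Finset.range_mono (by omega))
        fun k _ _ => mul_nonneg hB (hQ _)

theorem latA_self_le {P : ℝ[X]} {x B : ℝ} (hx : 0 ≤ x) (hP : ∀ n, 0 ≤ P.coeff n)
    (hB : ∀ n, P.coeff n * x ^ n ≤ B) : ipx x P P ≤ B * P.eval x := by
  rw [ipx, eval_eq_sum, Polynomial.sum, Finset.mul_sum]
  refine Finset.sum_le_sum fun n _ => ?_
  have h := mul_le_mul_of_nonneg_right (hB n) (mul_nonneg (hP n) (pow_nonneg hx n))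
  calc x ^ (2 * n) * (P.coeff n * P.coeff n) = P.coeff n * x ^ n * (P.coeff n * x ^ n) := by ring
    _ ≤ _ := h

theorem latA_piP_eval (q x : ℝ) : (piP q).eval x = q ^ 2 + (1 - q ^ 2) * x := by simp [piP]

theorem latA_apP_eval (q x : ℝ) : (apP q).eval x = q + (1 - q) * x := by simp [apP]

theorem latA_gp_eval (q x : ℝ) (N g d : ℕ) : (gp q N g d).eval x =
    (q ^ 2 + (1 - q ^ 2) * x) ^ (g + d * (N - 1)) * (q + (1 - q) * x) ^ d := by
  rw [gp, eval_mul, eval_pow, eval_pow, latA_piP_eval, latA_apP_eval]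

theorem latA_phi_pos {q : ℝ} (h0 : 0 < q) {N : ℕ} (hN : 1 ≤ N) (d : ℕ) : 0 < phi q N d := by
  unfold phi
  have : (0 : ℝ) < N := by exact_mod_cast hN
  positivity

/-- Diagonal bound.  `x^n (piP^G).coeff n = piP(x)^G * ((C ρ + C (1-ρ) X)^G).coeff n` with
`ρ = q²/piP(x)`, `ρ ≥ q²/3`, `1 - ρ ≥ 1/2`; `binom_coeff_le`; convolution with the nonnegative
coefficients of `apP^d` gives `x^n (gp).coeff n ≤ gp(x) √6 / (2 q √(G+1))`,
`G + 1 ≥ (d+1) N / 4`, and `∑ x^n coeff n = gp(x)`. -/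
theorem ipx_gp_self {q x : ℝ} (h0 : 0 < q) (h1 : q ≤ 1 / 2) (hx : 1 / 3 ≤ x) (hx' : x ≤ 3)
    {N g : ℕ} (hN : 6 ≤ N) (hg : N ≤ 4 * (g + 1)) (d : ℕ) :
    ipx x (gp q N g d) (gp q N g d) ≤ 2.45 * phi q N d * (gp q N g d).eval x ^ 2 := by
  have hx0 : 0 < x := by linarith
  have hq2 : q ^ 2 ≤ 1 / 4 := by nlinarith
  have hq0 : 0 < q ^ 2 := by positivity
  obtain ⟨π, hπ⟩ : ∃ π, π = q ^ 2 + (1 - q ^ 2) * x := ⟨_, rfl⟩
  have hπ1 : q ^ 2 ≤ (1 - q ^ 2) * x := by nlinarith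
  have hπ0 : 0 < π := by rw [hπ]; linarith
  have hπ3 : π ≤ 3 := by rw [hπ]; nlinarith
  obtain ⟨ρ, hρ⟩ : ∃ ρ, ρ = q ^ 2 / π := ⟨_, rfl⟩
  have hρ0 : q ^ 2 / 3 ≤ ρ := by rw [hρ]; gcongr
  have hρ1 : ρ ≤ 1 / 2 := by rw [hρ, div_le_iff₀ hπ0, hπ]; linarith
  have hρπ : π * ρ = q ^ 2 := by rw [hρ]; field_simp
  have hρπ' : π * (1 - ρ) = (1 - q ^ 2) * x := by rw [mul_sub, hρπ, hπ]; ring
  obtain ⟨G, hG⟩ : ∃ G, G = g + d * (N - 1) := ⟨_, rfl⟩
  have hcomp : (gp q N g d).comp (C x * X) =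
      C (π ^ G) * ((C ρ + C (1 - ρ) * X) ^ G * (C q + C ((1 - q) * x) * X) ^ d) := by
    have e1 : (piP q).comp (C x * X) = C π * (C ρ + C (1 - ρ) * X) := by
      rw [mul_add, ← mul_assoc, ← C_mul, ← C_mul, hρπ, hρπ', piP, add_comp, mul_comp, C_comp,
        C_comp, X_comp, ← mul_assoc, ← C_mul]
    have e2 : (apP q).comp (C x * X) = C q + C ((1 - q) * x) * X := by
      rw [apP, add_comp, mul_comp, C_comp, C_comp, X_comp, ← mul_assoc, ← C_mul]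
    rw [gp, mul_comp, pow_comp, pow_comp, e1, e2, ← hG, mul_pow, C_pow, mul_assoc]
  have hN0 : (0 : ℝ) < N := by exact_mod_cast (by omega : 0 < N)
  have hbin : ∀ k, ((C ρ + C (1 - ρ) * X) ^ G : ℝ[X]).coeff k ≤ 2.45 * phi q N d := by
    intro k
    refine (binom_coeff_le (by linarith) (by linarith) G k).trans ?_
    have hG4 : (d + 1) * N ≤ 4 * (G + 1) := by
      obtain ⟨n, rfl⟩ : ∃ n, N = n + 1 := ⟨N - 1, by omega⟩
      rw [hG, Nat.add_sub_cancel]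
      nlinarith
    have hG4' : ((d : ℝ) + 1) * N ≤ 4 * (G + 1) := by exact_mod_cast hG4
    have hs : q * √((d + 1) * N) ≤ 2.45 * (2 * √((G + 1) * ρ * (1 - ρ))) := by
      have hρρ : q ^ 2 / 6 ≤ ρ * (1 - ρ) := by nlinarith
      have hv : 0 ≤ ((G : ℝ) + 1) * ρ * (1 - ρ) := by
        have : 0 ≤ 1 - ρ := by linarith
        have : 0 ≤ ρ := by linarith
        positivity
      refine (abs_le_of_sq_le_sq' ?_ (by positivity)).2
      rw [mul_pow, mul_pow, mul_pow, Real.sq_sqrt (by positivity), Real.sq_sqrt hv]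
      have a1 : q ^ 2 * ((d + 1) * N) ≤ q ^ 2 * (4 * (G + 1)) := by gcongr
      have a2 : ((G : ℝ) + 1) * (q ^ 2 / 6) ≤ (G + 1) * (ρ * (1 - ρ)) := by gcongr
      nlinarith
    have hv : 0 < ((G : ℝ) + 1) * ρ * (1 - ρ) := by
      have : 0 < 1 - ρ := by linarith
      have : 0 < ρ := by linarith
      positivity
    rw [phi, mul_one_div, div_le_div_iff₀ (by positivity) (by positivity), one_mul]
    exact hs
  have hφ := latA_phi_pos h0 (by omega : 1 ≤ N) d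
  have hB : ∀ n, (gp q N g d).coeff n * x ^ n ≤ 2.45 * phi q N d * (gp q N g d).eval x := by
    intro n
    rw [← comp_C_mul_X_coeff, hcomp, coeff_C_mul, latA_gp_eval, ← hπ, ← hG]
    have h := latA_conv_le (Q := (C q + C ((1 - q) * x) * X) ^ d) (by positivity) hbin
      (fog_nonneg h0.le (mul_nonneg (by linarith) hx0.le) d) n
    have e : ((C q + C ((1 - q) * x) * X) ^ d : ℝ[X]).eval 1 = (q + (1 - q) * x) ^ d := by simp
    rw [e] at h
    calc _ ≤ π ^ G * (2.45 * phi q N d * (q + (1 - q) * x) ^ d) :=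
          mul_le_mul_of_nonneg_left h (by positivity)
      _ = _ := by ring
  refine (latA_self_le hx0.le (gp_coeff_nonneg h0.le (by linarith) N g d) hB).trans (le_of_eq ?_)
  ring

theorem latA_cs (x κ : ℝ) (hκ : κ ≠ 0) (P Q : ℝ[X]) :
    ipx x P Q ^ 2 ≤ ipx (x * κ) P P * ipx (x / κ) Q Q := by
  rw [ipx_eq_sum x P Q (Finset.subset_union_left (s₂ := Q.support)),
    ipx_eq_sum (x * κ) P P (Finset.subset_union_left (s₂ := Q.support)),
    ipx_eq_sum (x / κ) Q Q (Finset.subset_union_right (s₁ := P.support))]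
  have h := Finset.sum_mul_sq_le_sq_mul_sq (P.support ∪ Q.support)
    (fun n => (x * κ) ^ n * P.coeff n) (fun n => (x / κ) ^ n * Q.coeff n)
  refine le_trans (le_of_eq ?_) (h.trans (le_of_eq ?_))
  · congr 1
    refine Finset.sum_congr rfl fun n _ => ?_
    have : (x * κ) ^ n * (x / κ) ^ n = x ^ (2 * n) := by
      rw [← mul_pow, pow_mul]; congr 1; field_simp
    rw [← this]
    generalize (x * κ) ^ n = u
    generalize (x / κ) ^ n = v
    ring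
  · congr 1
    · exact Finset.sum_congr rfl fun n _ => by ring
    · exact Finset.sum_congr rfl fun n _ => by ring

/-- the two tilts of a linear factor -/
theorem latA_lin {a b κ ε : ℝ} (ha : 0 ≤ a) (hb : 0 ≤ b) (hκ : κ = 1 + ε) (hε : 0 ≤ ε) :
    (a + b * κ) * (a + b / κ) ≤ (a + b) ^ 2 + a * b * ε ^ 2 := by
  have hκ0 : 0 < κ := by linarith
  have e : (a + b * κ) * (a + b / κ) = (a + b) ^ 2 + a * b * (ε ^ 2 / κ) := by
    rw [hκ] at hκ0 ⊢
    field_simp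
    ring
  rw [e]
  have : ε ^ 2 / κ ≤ ε ^ 2 := div_le_self (sq_nonneg _) (by linarith)
  gcongr

theorem latA_lin' {a b κ : ℝ} {N : ℕ} (hN : 1 ≤ N) (ha : 0 ≤ a) (hb : 0 ≤ b)
    (hκ : κ = 1 + 2 / N) :
    (a + b * κ) * (a + b / κ) ≤ Real.exp (1 / (N : ℝ) ^ 2) * (a + b) ^ 2 := by
  have hN0 : (0 : ℝ) < N := by exact_mod_cast hN
  refine (latA_lin ha hb hκ (by positivity)).trans ?_
  have h1 : a * b * (2 / (N : ℝ)) ^ 2 ≤ 1 / (N : ℝ) ^ 2 * (a + b) ^ 2 := by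
    have : a * b * (2 / (N : ℝ)) ^ 2 = 1 / (N : ℝ) ^ 2 * (4 * (a * b)) := by ring
    rw [this]
    exact mul_le_mul_of_nonneg_left (by nlinarith [sq_nonneg (a - b)]) (by positivity)
  have h2 := mul_le_mul_of_nonneg_right (Real.add_one_le_exp (1 / (N : ℝ) ^ 2)) (sq_nonneg (a + b))
  linarith

theorem latA_half {q x κ : ℝ} (h0 : 0 < q) (h1 : q ≤ 1 / 2) (hx : 1 / 2 ≤ x) {N : ℕ}
    (hN : 6 ≤ N) (hκ : κ = 1 + 2 / N) :
    (q ^ 2 + (1 - q ^ 2) * (x / κ)) ^ (N - 1) ≤ 1 / 2 * (q ^ 2 + (1 - q ^ 2) * x) ^ (N - 1) := by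
  have hN6 : (6 : ℝ) ≤ N := by exact_mod_cast hN
  have hN0 : (0 : ℝ) < N := by linarith
  have hq2 : q ^ 2 ≤ 1 / 4 := by nlinarith
  have hq0 : 0 < q ^ 2 := by positivity
  have hκ0 : 0 < κ := by rw [hκ]; positivity
  obtain ⟨t, ht⟩ : ∃ t : ℝ, t = 1.2 / (N + 2) := ⟨_, rfl⟩
  have ht0 : 0 ≤ t := by rw [ht]; positivity
  have hb : 3 / 8 ≤ (1 - q ^ 2) * x := by nlinarith
  have e1 : (1 - q ^ 2) * (x / κ) = (1 - q ^ 2) * x - (1 - q ^ 2) * x * (t / 0.6) := by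
    rw [ht, hκ]; field_simp; ring
  have h2 : q ^ 2 + (1 - q ^ 2) * (x / κ) ≤ Real.exp (-t) * (q ^ 2 + (1 - q ^ 2) * x) := by
    have h3 := mul_le_mul_of_nonneg_right (Real.add_one_le_exp (-t))
      (by linarith : 0 ≤ q ^ 2 + (1 - q ^ 2) * x)
    refine le_trans ?_ h3
    rw [e1]
    have : t * (q ^ 2 + (1 - q ^ 2) * x) ≤ t * ((1 - q ^ 2) * x / 0.6) := by
      gcongr
      rw [le_div_iff₀ (by norm_num)]
      generalize (1 - q ^ 2) * x = y at hb ⊢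
      norm_num
      linarith
    have e2 : t * ((1 - q ^ 2) * x / 0.6) = (1 - q ^ 2) * x * (t / 0.6) := by ring
    linarith
  have h4 : Real.exp (-t) ^ (N - 1) ≤ 1 / 2 := by
    rw [← Real.exp_nat_mul]
    have h5 : ((N - 1 : ℕ) : ℝ) * -t ≤ -(3 / 4) := by
      rw [Nat.cast_sub (by omega), Nat.cast_one, mul_neg, neg_le_neg_iff, ht, ← mul_div_assoc,
        le_div_iff₀ (by linarith)]
      linarith
    refine (Real.exp_le_exp.2 h5).trans ?_
    rw [Real.exp_neg, one_div]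
    refine inv_anti₀ (by norm_num) ?_
    have := Real.quadratic_le_exp_of_nonneg (x := 3 / 4) (by norm_num)
    linarith
  have h6 : 0 ≤ q ^ 2 + (1 - q ^ 2) * (x / κ) := by
    have : 0 ≤ 1 - q ^ 2 := by linarith
    have : 0 ≤ x := by linarith
    positivity
  calc _ ≤ (Real.exp (-t) * (q ^ 2 + (1 - q ^ 2) * x)) ^ (N - 1) := by gcongr
    _ = Real.exp (-t) ^ (N - 1) * (q ^ 2 + (1 - q ^ 2) * x) ^ (N - 1) := mul_pow _ _ _
    _ ≤ _ := mul_le_mul_of_nonneg_right h4 (pow_nonneg (by linarith) _)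

theorem latA_eval_tilt {q x κ : ℝ} (h0 : 0 < q) (h1 : q ≤ 1 / 2) (hx : 1 / 2 ≤ x)
    {N g : ℕ} (hN : 6 ≤ N) (hg' : g ≤ N) {d : ℕ} (hd : d + 1 ≤ N) (k : ℕ)
    (hκ : κ = 1 + 2 / N) :
    (gp q N g d).eval (x * κ) * (gp q N g (d + k)).eval (x / κ) ≤
      2.72 * (1 / 2) ^ k * ((gp q N g d).eval x * (gp q N g (d + k)).eval x) := by
  have hN6 : (6 : ℝ) ≤ N := by exact_mod_cast hN
  have hN0 : (0 : ℝ) < N := by linarith
  have hq2 : q ^ 2 ≤ 1 / 4 := by nlinarith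
  have hκ1 : 1 ≤ κ := by
    have : (0 : ℝ) ≤ 2 / N := by positivity
    linarith
  have hx0 : 0 < x := by linarith
  have ha : 0 ≤ 1 - q ^ 2 := by linarith
  have hb : 0 ≤ 1 - q := by linarith
  simp only [latA_gp_eval]
  obtain ⟨G, hG⟩ : ∃ G, G = g + d * (N - 1) := ⟨_, rfl⟩
  have hG' : g + (d + k) * (N - 1) = G + (N - 1) * k := by rw [hG]; ring
  rw [hG', ← hG]
  have p1 := latA_lin' (a := q ^ 2) (b := (1 - q ^ 2) * x) (by omega : 1 ≤ N) (by positivity)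
    (by positivity) hκ
  have p2 := latA_lin' (a := q) (b := (1 - q) * x) (by omega : 1 ≤ N) (by positivity)
    (by positivity) hκ
  rw [mul_assoc, mul_div_assoc] at p1 p2
  have p3 := latA_half h0 h1 hx hN hκ
  have p4 : q + (1 - q) * (x / κ) ≤ q + (1 - q) * x := by
    have : x / κ ≤ x := div_le_self hx0.le hκ1
    gcongr
  have p5 : Real.exp (1 / (N : ℝ) ^ 2) ^ (G + d) ≤ 2.72 := by
    rw [← Real.exp_nat_mul]
    have hGd : G + d ≤ N ^ 2 := by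
      obtain ⟨n, rfl⟩ : ∃ n, N = n + 1 := ⟨N - 1, by omega⟩
      rw [hG, Nat.add_sub_cancel]
      have : d ≤ n := by omega
      nlinarith
    have hGd' : ((G + d : ℕ) : ℝ) ≤ (N : ℝ) ^ 2 := by exact_mod_cast hGd
    have : ((G + d : ℕ) : ℝ) * (1 / (N : ℝ) ^ 2) ≤ 1 := by
      rw [mul_one_div, div_le_one (by positivity)]; exact hGd'
    refine (Real.exp_le_exp.2 this).trans ?_
    linarith [Real.exp_one_lt_d9]
  have hκ0 : 0 < κ := by linarith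
  have n1 : 0 ≤ q ^ 2 + (1 - q ^ 2) * (x * κ) := by positivity
  have n2 : 0 ≤ q ^ 2 + (1 - q ^ 2) * (x / κ) := by positivity
  have n3 : 0 ≤ q ^ 2 + (1 - q ^ 2) * x := by positivity
  have n4 : 0 ≤ q + (1 - q) * (x * κ) := by positivity
  have n5 : 0 ≤ q + (1 - q) * (x / κ) := by positivity
  have n6 : 0 ≤ q + (1 - q) * x := by positivity
  generalize q ^ 2 + (1 - q ^ 2) * (x * κ) = u1 at *
  generalize q ^ 2 + (1 - q ^ 2) * (x / κ) = u2 at *
  generalize q ^ 2 + (1 - q ^ 2) * x = u at *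
  generalize q + (1 - q) * (x * κ) = v1 at *
  generalize q + (1 - q) * (x / κ) = v2 at *
  generalize q + (1 - q) * x = v at *
  have hE : 0 < Real.exp (1 / (N : ℝ) ^ 2) := Real.exp_pos _
  generalize Real.exp (1 / (N : ℝ) ^ 2) = E at *
  calc u1 ^ G * v1 ^ d * (u2 ^ (G + (N - 1) * k) * v2 ^ (d + k))
      = (u1 * u2) ^ G * (v1 * v2) ^ d * ((u2 ^ (N - 1)) ^ k * v2 ^ k) := by
        rw [← pow_mul]; ring
    _ ≤ (E * u ^ 2) ^ G * (E * v ^ 2) ^ d * ((1 / 2 * u ^ (N - 1)) ^ k * v ^ k) := by gcongr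
    _ = E ^ (G + d) * (1 / 2) ^ k * (u ^ G * v ^ d * (u ^ (G + (N - 1) * k) * v ^ (d + k))) := by
        rw [mul_pow (1 / 2 : ℝ), ← pow_mul]; ring
    _ ≤ _ := by gcongr

theorem latA_gp_le {q x : ℝ} (h0 : 0 < q) (h1 : q ≤ 1 / 2) (hx : 1 / 2 ≤ x) (hx' : x ≤ 2)
    {N g : ℕ} (hN : 6 ≤ N) (hg : N ≤ 4 * (g + 1)) (hg' : g ≤ N) {d : ℕ} (hd : d + 1 ≤ N) (k : ℕ) :
    ipx x (gp q N g d) (gp q N g (d + k)) ≤
      7 * (√(phi q N d) * √(phi q N (d + k))) * (1 / 2) ^ k *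
        ((gp q N g d).eval x * (gp q N g (d + k)).eval x) := by
  have hN6 : (6 : ℝ) ≤ N := by exact_mod_cast hN
  have hN0 : (0 : ℝ) < N := by linarith
  obtain ⟨κ, hκ⟩ : ∃ κ : ℝ, κ = 1 + 2 / N := ⟨_, rfl⟩
  have hκ1 : 1 ≤ κ := by
    have : (0 : ℝ) ≤ 2 / N := by positivity
    linarith
  have hκ2 : κ ≤ 4 / 3 := by
    have : (2 : ℝ) / N ≤ 1 / 3 := by rw [div_le_iff₀ hN0]; linarith
    linarith
  have hκ0 : 0 < κ := by linarith
  have hx0 : 0 < x := by linarith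
  have c1 := ipx_gp_self (x := x * κ) h0 h1 (by nlinarith) (by nlinarith) hN hg d
  have c2 := ipx_gp_self (x := x / κ) h0 h1 (by rw [le_div_iff₀ hκ0]; linarith)
    (by rw [div_le_iff₀ hκ0]; linarith) hN hg (d + k)
  have c3 := latA_cs x κ hκ0.ne' (gp q N g d) (gp q N g (d + k))
  have c4 := latA_eval_tilt h0 h1 hx hN hg' hd k hκ
  have φ1 := latA_phi_pos h0 (by omega : 1 ≤ N) d
  have φ2 := latA_phi_pos h0 (by omega : 1 ≤ N) (d + k)
  have hev : ∀ (y : ℝ) (e : ℕ), 0 < y → 0 ≤ (gp q N g e).eval y := by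
    intro y e hy
    have ha : 0 ≤ 1 - q ^ 2 := by nlinarith
    have hb : 0 ≤ 1 - q := by linarith
    rw [latA_gp_eval]; positivity
  have e1 := hev (x * κ) d (by positivity)
  have e2 := hev (x / κ) (d + k) (by positivity)
  have e3 := hev x d hx0
  have e4 := hev x (d + k) hx0
  have c5 : ipx x (gp q N g d) (gp q N g (d + k)) ≤
      2.45 * (√(phi q N d) * √(phi q N (d + k))) *
        ((gp q N g d).eval (x * κ) * (gp q N g (d + k)).eval (x / κ)) := by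
    refine (abs_le_of_sq_le_sq' (c3.trans ?_) (by positivity)).2
    calc _ ≤ (2.45 * phi q N d * (gp q N g d).eval (x * κ) ^ 2) *
          (2.45 * phi q N (d + k) * (gp q N g (d + k)).eval (x / κ) ^ 2) :=
          mul_le_mul c1 c2 (ipx_gp_nonneg h0.le (by linarith) _ _ _ _ _ _) (by positivity)
      _ = _ := by
          rw [mul_pow, mul_pow, mul_pow, Real.sq_sqrt φ1.le, Real.sq_sqrt φ2.le]; ring
  refine c5.trans ?_
  calc _ ≤ 2.45 * (√(phi q N d) * √(phi q N (d + k))) *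
        (2.72 * (1 / 2) ^ k * ((gp q N g d).eval x * (gp q N g (d + k)).eval x)) := by gcongr
    _ = (2.45 * 2.72) * ((√(phi q N d) * √(phi q N (d + k))) * (1 / 2) ^ k *
        ((gp q N g d).eval x * (gp q N g (d + k)).eval x)) := by ring
    _ ≤ 7 * ((√(phi q N d) * √(phi q N (d + k))) * (1 / 2) ^ k *
        ((gp q N g d).eval x * (gp q N g (d + k)).eval x)) := by gcongr; norm_num
    _ = _ := by ring

/-- Off diagonal bound.  For `d ≤ d'` and `κ = 1 + 2/N`, Cauchy-Schwarz gives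
`ipx x P P' ≤ √(ipx (xκ) P P) √(ipx (x/κ) P' P')`; for a linear factor `a + b X` (`a, b ≥ 0`):
`(a + b xκ)(a + b x/κ) ≤ (1 + 1/N²)(a + b x)²`, there are `g + d N ≤ N²` factors, so this costs `e`;
`piP(x/κ)^(N-1) ≤ exp (-1.2 (N-1)/(N+2)) piP(x)^(N-1) ≤ piP(x)^(N-1) / 2` and `apP(x/κ) ≤ apP(x)`. -/
theorem ipx_gp_le {q x : ℝ} (h0 : 0 < q) (h1 : q ≤ 1 / 2) (hx : 1 / 2 ≤ x) (hx' : x ≤ 2)
    {N g : ℕ} (hN : 6 ≤ N) (hg : N ≤ 4 * (g + 1)) (hg' : g ≤ N) {d d' : ℕ} (hd : d + 1 ≤ N)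
    (hd' : d' + 1 ≤ N) :
    ipx x (gp q N g d) (gp q N g d') ≤
      7 * (√(phi q N d) * √(phi q N d')) * (1 / 2) ^ (d - d' + (d' - d)) *
        ((gp q N g d).eval x * (gp q N g d').eval x) := by
  rcases le_total d d' with h | h
  · obtain ⟨k, rfl⟩ := Nat.exists_eq_add_of_le h
    rw [show d - (d + k) + (d + k - d) = k by omega]
    exact latA_gp_le h0 h1 hx hx' hN hg hg' hd k
  · obtain ⟨k, rfl⟩ := Nat.exists_eq_add_of_le h
    rw [show d' + k - d' + (d' - (d' + k)) = k by omega, ipx_comm]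
    refine (latA_gp_le h0 h1 hx hx' hN hg hg' hd' k).trans (le_of_eq ?_)
    ring

theorem latA_row (n d : ℕ) : ∑ d' ∈ range n, (1 / 2 : ℝ) ^ (d - d' + (d' - d)) ≤ 3 := by
  calc ∑ d' ∈ range n, (1 / 2 : ℝ) ^ (d - d' + (d' - d))
      ≤ ∑ d' ∈ range (d + 1 + n), (1 / 2 : ℝ) ^ (d - d' + (d' - d)) :=
        Finset.sum_le_sum_of_subset_of_nonneg (Finset.range_mono (by omega))
          fun _ _ _ => by positivity
    _ = ∑ j ∈ range (d + 1), (1 / 2 : ℝ) ^ j + 1 / 2 * ∑ j ∈ range n, (1 / 2 : ℝ) ^ j := by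
        rw [Finset.sum_range_add, ← Finset.sum_range_reflect (fun j => (1 / 2 : ℝ) ^ j) (d + 1),
          Finset.mul_sum]
        congr 1
        · refine Finset.sum_congr rfl fun j hj => ?_
          have := Finset.mem_range.1 hj
          congr 1; omega
        · refine Finset.sum_congr rfl fun j _ => ?_
          rw [← pow_succ']
          congr 1; omega
    _ ≤ 3 := by linarith [sum_geometric_two_le (d + 1), sum_geometric_two_le n]

/-- Schur test -/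
theorem schur_half (n : ℕ) (a : ℕ → ℝ) :
    ∑ d ∈ range n, ∑ d' ∈ range n, (1 / 2 : ℝ) ^ (d - d' + (d' - d)) * (a d * a d') ≤
      3 * ∑ d ∈ range n, a d ^ 2 := by
  have h1 : ∑ d ∈ range n, ∑ d' ∈ range n, (1 / 2 : ℝ) ^ (d - d' + (d' - d)) * a d ^ 2 ≤
      3 * ∑ d ∈ range n, a d ^ 2 := by
    rw [Finset.mul_sum]
    refine Finset.sum_le_sum fun d _ => ?_
    rw [← Finset.sum_mul]
    exact mul_le_mul_of_nonneg_right (latA_row n d) (sq_nonneg _)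
  have h2 : ∑ d ∈ range n, ∑ d' ∈ range n, (1 / 2 : ℝ) ^ (d - d' + (d' - d)) * a d' ^ 2 =
      ∑ d ∈ range n, ∑ d' ∈ range n, (1 / 2 : ℝ) ^ (d - d' + (d' - d)) * a d ^ 2 := by
    rw [Finset.sum_comm]
    refine Finset.sum_congr rfl fun d _ => Finset.sum_congr rfl fun d' _ => ?_
    rw [add_comm]
  have h3 : 2 * ∑ d ∈ range n, ∑ d' ∈ range n, (1 / 2 : ℝ) ^ (d - d' + (d' - d)) * (a d * a d') ≤
      ∑ d ∈ range n, ∑ d' ∈ range n, (1 / 2 : ℝ) ^ (d - d' + (d' - d)) * a d ^ 2 +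
      ∑ d ∈ range n, ∑ d' ∈ range n, (1 / 2 : ℝ) ^ (d - d' + (d' - d)) * a d' ^ 2 := by
    rw [Finset.mul_sum, ← Finset.sum_add_distrib]
    refine Finset.sum_le_sum fun d _ => ?_
    rw [Finset.mul_sum, ← Finset.sum_add_distrib]
    refine Finset.sum_le_sum fun d' _ => ?_
    have := mul_nonneg (by positivity : (0 : ℝ) ≤ (1 / 2 : ℝ) ^ (d - d' + (d' - d)))
      (sq_nonneg (a d - a d'))
    nlinarith
  linarith

theorem latA_inv_sqrt (i : ℕ) : ∑ d ∈ range i, 1 / √((d : ℝ) + 1) ≤ 2 * √(i : ℝ) := by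
  induction i with
  | zero => simp
  | succ i ih =>
    rw [Finset.sum_range_succ]
    push_cast
    have h0 : 0 < √((i : ℝ) + 1) := Real.sqrt_pos.2 (by positivity)
    have h1 : √((i : ℝ) + 1) ^ 2 = i + 1 := Real.sq_sqrt (by positivity)
    have h2 : √(i : ℝ) ^ 2 = i := Real.sq_sqrt (by positivity)
    have h3 : 1 / √((i : ℝ) + 1) ≤ 2 * √((i : ℝ) + 1) - 2 * √(i : ℝ) := by
      rw [div_le_iff₀ h0]
      nlinarith [sq_nonneg (√((i : ℝ) + 1) - √(i : ℝ))]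
    linarith

theorem latA_pair {a b : ℝ} (ha : 0 < a) (hb : 0 < b) :
    1 / √a * (1 / √b) ≤ 1 / √(a + b) * (1 / √a + 1 / √b) := by
  have h1 : 0 < √a := Real.sqrt_pos.2 ha
  have h2 : 0 < √b := Real.sqrt_pos.2 hb
  have h3 : 0 < √(a + b) := Real.sqrt_pos.2 (by linarith)
  have h4 : √(a + b) ≤ √a + √b := by
    refine Real.sqrt_le_iff.2 ⟨by positivity, ?_⟩
    nlinarith [Real.sq_sqrt ha.le, Real.sq_sqrt hb.le, mul_pos h1 h2]
  have e : 1 / √(a + b) * (1 / √a + 1 / √b) = 1 / √a * (1 / √b) * ((√a + √b) / √(a + b)) := by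
    field_simp; ring
  rw [e]
  exact le_mul_of_one_le_right (by positivity) ((one_le_div h3).2 h4)

/-- `∑_{d<i} 1/√((d+1)(i-d)) ≤ 4` -/
theorem phi_conv {q : ℝ} (h0 : 0 < q) {N : ℕ} (hN : 1 ≤ N) (i : ℕ) :
    ∑ d ∈ range i, phi q N d * phi q N (i - 1 - d) ≤ 4 / (q ^ 2 * N) := by
  have hN0 : (0 : ℝ) < N := by exact_mod_cast hN
  have hs : 0 < √(N : ℝ) := Real.sqrt_pos.2 hN0
  have hi : 0 < √((i : ℝ) + 1) := Real.sqrt_pos.2 (by positivity)
  have h1 : ∀ d ∈ range i, phi q N d * phi q N (i - 1 - d) ≤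
      1 / (q ^ 2 * N) * (1 / √((i : ℝ) + 1)) *
        (1 / √((d : ℝ) + 1) + 1 / √(((i - 1 - d : ℕ) : ℝ) + 1)) := by
    intro d hd
    have hd' := Finset.mem_range.1 hd
    have h := latA_pair (a := (d : ℝ) + 1) (b := ((i - 1 - d : ℕ) : ℝ) + 1) (by positivity)
      (by positivity)
    have e : (d : ℝ) + 1 + (((i - 1 - d : ℕ) : ℝ) + 1) = i + 1 := by
      have : d + 1 + (i - 1 - d + 1) = i + 1 := by omega
      exact_mod_cast this
    rw [e] at h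
    have e2 : phi q N d * phi q N (i - 1 - d) =
        1 / (q ^ 2 * N) * (1 / √((d : ℝ) + 1) * (1 / √(((i - 1 - d : ℕ) : ℝ) + 1))) := by
      have a1 : 0 < √((d : ℝ) + 1) := Real.sqrt_pos.2 (by positivity)
      have a2 : 0 < √(((i - 1 - d : ℕ) : ℝ) + 1) := Real.sqrt_pos.2 (by positivity)
      rw [phi, phi, Real.sqrt_mul (by positivity), Real.sqrt_mul (by positivity)]
      conv_rhs => rw [← Real.sq_sqrt hN0.le]
      field_simp
    rw [e2, mul_assoc]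
    exact mul_le_mul_of_nonneg_left h (by positivity)
  refine (Finset.sum_le_sum h1).trans ?_
  rw [← Finset.mul_sum, Finset.sum_add_distrib,
    Finset.sum_range_reflect (fun d => 1 / √((d : ℝ) + 1)) i]
  have h2 := latA_inv_sqrt i
  have h3 : √(i : ℝ) ≤ √((i : ℝ) + 1) := Real.sqrt_le_sqrt (by linarith)
  calc _ ≤ 1 / (q ^ 2 * N) * (1 / √((i : ℝ) + 1)) * (4 * √((i : ℝ) + 1)) := by
        gcongr; linarith
    _ = _ := by field_simp

/-- the two tilts nearly cancel -/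
theorem pure_tilt {q σ : ℝ} (h0 : 0 < q) (h1 : q ≤ 1 / 2) (hσ : 1 ≤ σ) (a b : ℕ)
    (h : q ^ 2 * a + q * b ≤ 2 * σ ^ 2) :
    (piP q ^ a * apP q ^ b).eval (1 + 1 / σ) * (piP q ^ a * apP q ^ b).eval (1 + 1 / σ)⁻¹ ≤
      Real.exp 2 := by
  have hσ0 : 0 < σ := by linarith
  have hq2 : q ^ 2 ≤ 1 / 4 := by nlinarith
  have ha : 0 ≤ 1 - q ^ 2 := by linarith
  have hb : 0 ≤ 1 - q := by linarith
  have key : ∀ c : ℝ, 0 ≤ c → 0 ≤ 1 - c →
      (c + (1 - c) * (1 + 1 / σ)) * (c + (1 - c) * (1 + 1 / σ)⁻¹) ≤ Real.exp (c / σ ^ 2) := by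
    intro c hc hc'
    have h := latA_lin (κ := 1 + 1 / σ) (ε := 1 / σ) hc hc' rfl (by positivity)
    rw [div_eq_mul_inv (1 - c)] at h
    refine h.trans (le_trans ?_ (Real.add_one_le_exp _))
    have : c * (1 - c) * (1 / σ) ^ 2 ≤ c * 1 * (1 / σ) ^ 2 := by gcongr; linarith
    have e : c * 1 * (1 / σ) ^ 2 = c / σ ^ 2 := by ring
    nlinarith
  have k1 := key (q ^ 2) (by positivity) ha
  have k2 := key q h0.le hb
  simp only [eval_mul, eval_pow, latA_piP_eval, latA_apP_eval]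
  calc _ = ((q ^ 2 + (1 - q ^ 2) * (1 + 1 / σ)) * (q ^ 2 + (1 - q ^ 2) * (1 + 1 / σ)⁻¹)) ^ a *
        ((q + (1 - q) * (1 + 1 / σ)) * (q + (1 - q) * (1 + 1 / σ)⁻¹)) ^ b := by
        rw [mul_pow, mul_pow]; ring
    _ ≤ Real.exp (q ^ 2 / σ ^ 2) ^ a * Real.exp (q / σ ^ 2) ^ b := by gcongr
    _ = Real.exp ((q ^ 2 * a + q * b) / σ ^ 2) := by
        rw [← Real.exp_nat_mul, ← Real.exp_nat_mul, ← Real.exp_add]; congr 1; ring
    _ ≤ _ := Real.exp_le_exp.2 (by rw [div_le_iff₀ (by positivity)]; exact h)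

end Crest.Agent.R300.LB
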