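import Crest.Agent.R300.LBLatA
import Crest.Agent.R300.LBForm

/-! Row 300 lower bound: the Volterra estimate for the first lattice (formal part). -/

set_option autoImplicit false

namespace Crest.Agent.R300.LB

open Finset

open Polynomial

theorem wx_nonneg (x : ℝ) {ω : ℝ} (hω : 0 ≤ ω) (l : Option Unit) : 0 ≤ wx x ω l := by
  unfold wx
  exact mul_nonneg (sq_nonneg x) (wt1_nonneg (fun _ => hω) l)

theorem LatB_po_eq (P : ℝ[X]) {s : Finset ℕ} (hs : P.support ⊆ s) :
    po P = ∑ n ∈ s, P.coeff n • (oo : Wd Unit) ^ n := by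
  unfold po
  rw [aeval_def, eval₂_eq_sum, Polynomial.sum_def]
  simp only [← Algebra.smul_def]
  refine Finset.sum_subset hs fun n _ hn => ?_
  rw [Polynomial.notMem_support_iff.1 hn, zero_smul]

theorem LatB_po_mul (P Q : ℝ[X]) : po (P * Q) = po P * po Q := by
  unfold po
  exact map_mul _ _ _

theorem LatB_po_pow (P : ℝ[X]) (n : ℕ) : po (P ^ n) = po P ^ n := by
  unfold po
  exact map_pow _ _ _

theorem LatB_wt_rep (x ω : ℝ) (n : ℕ) :
    wt (wx x ω) (FreeMonoid.ofList (List.replicate n none)) = x ^ (2 * n) := by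
  induction n with
  | zero => simp
  | succ n ih =>
    rw [List.replicate_succ, FreeMonoid.ofList_cons, map_mul, ih, wt_of]
    simp only [wx, wt1, Option.elim]
    ring

theorem LatB_ip_oo (x ω : ℝ) (m n : ℕ) :
    ip (wx x ω) ((oo : Wd Unit) ^ m) (oo ^ n) = if m = n then x ^ (2 * m) else 0 := by
  classical
  rw [oo_pow, oo_pow, ip_single]
  by_cases h : m = n
  · subst h
    simp [LatB_wt_rep]
  · rw [if_neg h, if_neg]
    intro h'
    apply h
    have := congrArg (fun w => (FreeMonoid.toList w).length) h'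
    simpa using this

theorem LatB_supp_po (P : ℝ[X]) : Supp (fun l => ∃ n, l = List.replicate n none) (po P) := by
  rw [LatB_po_eq P (Finset.Subset.refl _)]
  refine Supp.sum _ _ fun n _ => Supp.smul ?_ _
  rw [oo_pow]
  exact LBF_supp_single _ ⟨n, by simp⟩

theorem LatB_supp_poL (P : ℝ[X]) :
    Supp (fun l => ∃ n, l = List.replicate n none ++ [some ()]) (po P * LL ()) := by
  refine Supp.mul (LatB_supp_po P) (supp_LL (P := fun l => l = [some ()]) rfl) ?_
  rintro l l' ⟨n, rfl⟩ rfl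
  exact ⟨n, rfl⟩

theorem LatB_pf : ∀ (m n : ℕ) (x x' : List (Option Unit)),
    List.replicate m none ++ [some ()] ++ x = List.replicate n none ++ [some ()] ++ x' → m = n
  | 0, 0, _, _, _ => rfl
  | 0, n + 1, x, x', h => by simp [List.replicate_succ] at h
  | m + 1, 0, x, x', h => by simp [List.replicate_succ] at h
  | m + 1, n + 1, x, x', h => by
    simp only [List.replicate_succ, List.cons_append, List.cons.injEq, true_and] at h
    rw [LatB_pf m n x x' h]

theorem ip_po_po (x ω : ℝ) (P Q : ℝ[X]) : ip (wx x ω) (po P) (po Q) = ipx x P Q := by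
  classical
  rw [LatB_po_eq P (s := P.support ∪ Q.support) Finset.subset_union_left,
    LatB_po_eq Q (s := P.support ∪ Q.support) Finset.subset_union_right,
    ipx_eq_sum x P Q (s := P.support ∪ Q.support) Finset.subset_union_left, ip_sum_left]
  refine Finset.sum_congr rfl fun m hm => ?_
  rw [ip_smul_left, ip_sum_right]
  simp only [ip_smul_right, LatB_ip_oo, mul_ite, mul_zero]
  rw [Finset.sum_ite_eq, if_pos hm]
  ring

/-- words without the letter `L` against words with it -/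
theorem ip_po_L (x ω : ℝ) (P Q : ℝ[X]) (H : Wd Unit) :
    ip (wx x ω) (po P) (po Q * LL () * H) = 0 := by
  refine ip_eq_zero_of_disjoint _ (LatB_supp_po P)
    (Supp.mul (S := fun l => some () ∈ l) (LatB_supp_poL Q) (supp_true H) ?_) ?_
  · rintro l l' ⟨n, rfl⟩ -
    simp
  · rintro l ⟨n, rfl⟩ h
    simp [List.mem_replicate] at h

/-- the words `o^n L` are prefix free -/
theorem ip_L_L (x ω : ℝ) (P Q : ℝ[X]) (H H' : Wd Unit) :
    ip (wx x ω) (po P * LL () * H) (po Q * LL () * H') =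
      ipx x P Q * (x ^ 2 * ω) * ip (wx x ω) H H' := by
  rw [ip_mul_of_prefixFree _ ?_ (LatB_supp_poL P) (LatB_supp_poL Q),
    ip_mul_hom_right _ _ _ (hom_LL ()) (hom_LL ()), ip_po_po, ip_LL_LL]
  · simp [wx, wt1]
  · rintro l l' y y' ⟨m, rfl⟩ ⟨n, rfl⟩ h
    rw [LatB_pf m n y y' h]

theorem LatB_tel {R : Type*} [Ring R] (u v : R) (i : ℕ) :
    (u + v) ^ i = u ^ i + ∑ d ∈ range i, u ^ d * v * (u + v) ^ (i - 1 - d) := by
  induction i with
  | zero => simp
  | succ i ih =>
    have h : ∑ d ∈ range i, u ^ d * v * (u + v) ^ (i + 1 - 1 - d) =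
        (∑ d ∈ range i, u ^ d * v * (u + v) ^ (i - 1 - d)) * (u + v) := by
      rw [Finset.sum_mul]
      refine Finset.sum_congr rfl fun d hd => ?_
      have hd' := Finset.mem_range.1 hd
      rw [show i + 1 - 1 - d = (i - 1 - d) + 1 by omega, pow_succ]
      simp only [mul_assoc]
    rw [Finset.sum_range_succ, h, pow_succ (u + v) i, show i + 1 - 1 - i = 0 by omega]
    nth_rewrite 1 [ih]
    rw [pow_zero, mul_one, pow_succ u i, add_mul, mul_add]
    abel

/-- decomposition by the first active defect -/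
theorem fH_eq (q : ℝ) (N g' i : ℕ) :
    fH q N g' i = po (gp q N g' i) +
      ∑ d ∈ range i, (1 - q) • (po (gp q N (N - 1) d) * LL () * fH q N g' (i - 1 - d)) := by
  have hu : po (piP q) ^ (N - 1) * fB q =
      po (piP q ^ (N - 1) * apP q) + (1 - q) • (po (piP q ^ (N - 1)) * LL ()) := by
    rw [fB, mul_add, LatB_po_mul, LatB_po_pow, mul_smul_comm]
  have h1 : po (gp q N g' i) = po (piP q ^ (N - 1) * apP q) ^ i * po (piP q) ^ g' := by
    rw [← LatB_po_pow, ← LatB_po_pow, ← LatB_po_mul, gp]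
    congr 1
    ring
  have h2 : ∀ d, po (gp q N (N - 1) d) =
      po (piP q ^ (N - 1) * apP q) ^ d * po (piP q ^ (N - 1)) := by
    intro d
    rw [← LatB_po_pow, ← LatB_po_mul, gp]
    congr 1
    ring
  simp only [fH, h1, h2, hu]
  nth_rewrite 1 [LatB_tel]
  rw [add_mul, Finset.sum_mul]
  congr 1
  refine Finset.sum_congr rfl fun d _ => ?_
  simp only [mul_smul_comm, smul_mul_assoc, mul_assoc]

theorem fV_sub (q : ℝ) (N g r g' : ℕ) :
    fV q N g r g' - po (pureP q N g r g') =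
      ∑ v ∈ range (r + 1), (1 - q) • (po (gp q N g v) * LL () * fH q N g' (r - v)) := by
  have hc : ∀ n : ℕ, (fB q * po (piP q) ^ (N - 1)) ^ n * fB q =
      fB q * (po (piP q) ^ (N - 1) * fB q) ^ n := by
    intro n
    induction n with
    | zero => simp
    | succ n ih =>
      rw [pow_succ', mul_assoc, ih, pow_succ']
      simp only [mul_assoc]
  have hV : fV q N g r g' = po (piP q ^ g * apP q) * fH q N g' r +
      (1 - q) • (po (piP q ^ g) * LL () * fH q N g' r) := by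
    have : fV q N g r g' = po (piP q) ^ g * fB q * fH q N g' r := by
      rw [fV, fH, mul_assoc (po (piP q) ^ g), hc]
      simp only [mul_assoc]
    rw [this, fB, mul_add, add_mul, LatB_po_mul, LatB_po_pow]
    simp only [mul_smul_comm, smul_mul_assoc]
  have h1 : po (piP q ^ g * apP q) * po (gp q N g' r) = po (pureP q N g r g') := by
    rw [← LatB_po_mul, gp, pureP]
    congr 1
    ring
  have h2 : ∀ d, po (piP q ^ g * apP q) * po (gp q N (N - 1) d) = po (gp q N g (d + 1)) := by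
    intro d
    rw [← LatB_po_mul, gp, gp]
    congr 1
    ring
  have h3 : gp q N g 0 = piP q ^ g := by simp [gp]
  rw [hV, Finset.sum_range_succ', h3, Nat.sub_zero]
  nth_rewrite 1 [fH_eq]
  rw [mul_add, h1, Finset.mul_sum]
  have h4 : ∑ d ∈ range r, po (piP q ^ g * apP q) *
        (1 - q) • (po (gp q N (N - 1) d) * LL () * fH q N g' (r - 1 - d)) =
      ∑ d ∈ range r, (1 - q) • (po (gp q N g (d + 1)) * LL () * fH q N g' (r - (d + 1))) := by
    refine Finset.sum_congr rfl fun d _ => ?_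
    rw [mul_smul_comm, ← h2, show r - (d + 1) = r - 1 - d by omega]
    simp only [mul_assoc]
  rw [h4]
  abel

theorem LatB_pi_eval (q x : ℝ) : (piP q).eval x = q ^ 2 + (1 - q ^ 2) * x := by simp [piP]

theorem LatB_ap_eval (q x : ℝ) : (apP q).eval x = q + (1 - q) * x := by simp [apP]

theorem LatB_gp_eval_nonneg {q x : ℝ} (h0 : 0 < q) (h1 : q ≤ 1 / 2) (hx : 1 / 2 ≤ x)
    (N g d : ℕ) : 0 ≤ (gp q N g d).eval x := by
  rw [gp, eval_mul, eval_pow, eval_pow, LatB_pi_eval, LatB_ap_eval]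
  have h2 : 0 ≤ 1 - q ^ 2 := by nlinarith
  have h3 : 0 ≤ 1 - q := by linarith
  have h4 : 0 ≤ x := by linarith
  positivity

theorem LatB_phi_nonneg {q : ℝ} (h0 : 0 < q) (N d : ℕ) : 0 ≤ phi q N d := by
  unfold phi
  positivity

/-- One Volterra step.  With `Λ_j = (gp q N g' j).eval x` and `nrm (fH j) ^ 2 ≤ 14 φ_j Λ_j²` for
`j < i`: expand the square with `ip_L_L`, `abs_ip_le`, `ipx_gp_le`, use
`(1-q)² x² ≤ apP(x)²`, `gp g d (x) * apP(x) * Λ_(i-1-d) = piP(x)^(g + g' + (i-1)(N-1)) apP(x)^i`,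
`schur_half` with `a d = √(φ_d) √(14 φ_(i-1-d))` and `phi_conv`: `7 · 3 · 14 · 4 · ω = 7056 / q`. -/
theorem volterra_step {q x : ℝ} (h0 : 0 < q) (h1 : q ≤ 1 / 2) (hx : 1 / 2 ≤ x) (hx' : x ≤ 2)
    {N g g' i : ℕ} (hN : 6 ≤ N) (hg : N ≤ 4 * (g + 1)) (hgN : g ≤ N) (hi : i ≤ N)
    (hH : ∀ j < i, nrm (wx x (6 / q)) (fH q N g' j) ^ 2 ≤
      14 * phi q N j * (gp q N g' j).eval x ^ 2) :
    nrm (wx x (6 / q))
      (∑ d ∈ range i, (1 - q) • (po (gp q N g d) * LL () * fH q N g' (i - 1 - d))) ^ 2 ≤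
      7056 / (q ^ 3 * N) * (piP q ^ (g + g' + (i - 1) * (N - 1)) * apP q ^ i).eval x ^ 2 := by
  have hω : (0 : ℝ) ≤ 6 / q := by positivity
  have hw := wx_nonneg x hω
  set T := (piP q ^ (g + g' + (i - 1) * (N - 1)) * apP q ^ i).eval x with hT
  set a : ℕ → ℝ := fun d => √(phi q N d) * √(14 * phi q N (i - 1 - d)) with ha
  have hx0 : 0 ≤ x := by linarith
  have hq1 : 0 ≤ 1 - q := by linarith
  have hA : (1 - q) * x ≤ (apP q).eval x := by rw [LatB_ap_eval]; linarith
  have hA0 : 0 ≤ (1 - q) * x := mul_nonneg hq1 hx0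
  have hn : ∀ d < i, nrm (wx x (6 / q)) (fH q N g' (i - 1 - d)) ≤
      √(14 * phi q N (i - 1 - d)) * (gp q N g' (i - 1 - d)).eval x := by
    intro d hd
    have hp := LatB_phi_nonneg h0 N (i - 1 - d)
    have hg0 := LatB_gp_eval_nonneg h0 h1 hx N g' (i - 1 - d)
    refine abs_le_of_sq_le_sq' ?_ (by positivity) |>.2
    rw [mul_pow, Real.sq_sqrt (by positivity)]
    exact hH _ (by omega)
  have hTd : ∀ d < i, (gp q N g d).eval x * (apP q).eval x * (gp q N g' (i - 1 - d)).eval x = T := by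
    intro d hd
    rw [hT, ← eval_mul, ← eval_mul]
    congr 1
    obtain ⟨e, rfl⟩ : ∃ e, i = d + e + 1 := ⟨i - 1 - d, by omega⟩
    rw [show d + e + 1 - 1 - d = e by omega, show d + e + 1 - 1 = d + e by omega, gp, gp]
    ring
  rw [nrm_sq hw, ip_sum_left]
  simp only [ip_sum_right, ip_smul_left, ip_smul_right, ip_L_L]
  have hterm : ∀ d ∈ range i, ∀ d' ∈ range i,
      (1 - q) * ((1 - q) * (ipx x (gp q N g d) (gp q N g d') * (x ^ 2 * (6 / q)) *
        ip (wx x (6 / q)) (fH q N g' (i - 1 - d)) (fH q N g' (i - 1 - d')))) ≤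
      (6 / q * 7 * T ^ 2) * ((1 / 2 : ℝ) ^ (d - d' + (d' - d)) * (a d * a d')) := by
    intro d hd d' hd'
    have hd1 := Finset.mem_range.1 hd
    have hd2 := Finset.mem_range.1 hd'
    have e1 := ipx_gp_le h0 h1 hx hx' hN hg hgN (d := d) (d' := d') (by omega) (by omega)
    have e0 := ipx_gp_nonneg h0.le (by linarith) x N g d g d'
    have e2 : ip (wx x (6 / q)) (fH q N g' (i - 1 - d)) (fH q N g' (i - 1 - d')) ≤
        (√(14 * phi q N (i - 1 - d)) * (gp q N g' (i - 1 - d)).eval x) *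
          (√(14 * phi q N (i - 1 - d')) * (gp q N g' (i - 1 - d')).eval x) :=
      (le_abs_self _).trans ((abs_ip_le hw _ _).trans
        (mul_le_mul (hn d hd1) (hn d' hd2) (nrm_nonneg _ _)
          ((nrm_nonneg _ _).trans (hn d hd1))))
    have g1 := LatB_gp_eval_nonneg h0 h1 hx N g d
    have g2 := LatB_gp_eval_nonneg h0 h1 hx N g d'
    have g3 := LatB_gp_eval_nonneg h0 h1 hx N g' (i - 1 - d)
    have g4 := LatB_gp_eval_nonneg h0 h1 hx N g' (i - 1 - d')
    have e3 : ((1 - q) * x) ^ 2 ≤ (apP q).eval x ^ 2 := pow_le_pow_left₀ hA0 hA 2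
    calc _ = ((1 - q) * x) ^ 2 * (6 / q) * ipx x (gp q N g d) (gp q N g d') *
          ip (wx x (6 / q)) (fH q N g' (i - 1 - d)) (fH q N g' (i - 1 - d')) := by ring
      _ ≤ ((1 - q) * x) ^ 2 * (6 / q) * ipx x (gp q N g d) (gp q N g d') *
          ((√(14 * phi q N (i - 1 - d)) * (gp q N g' (i - 1 - d)).eval x) *
          (√(14 * phi q N (i - 1 - d')) * (gp q N g' (i - 1 - d')).eval x)) :=
        mul_le_mul_of_nonneg_left e2 (by positivity)
      _ ≤ (apP q).eval x ^ 2 * (6 / q) *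
          (7 * (√(phi q N d) * √(phi q N d')) * (1 / 2) ^ (d - d' + (d' - d)) *
            ((gp q N g d).eval x * (gp q N g d').eval x)) *
          ((√(14 * phi q N (i - 1 - d)) * (gp q N g' (i - 1 - d)).eval x) *
          (√(14 * phi q N (i - 1 - d')) * (gp q N g' (i - 1 - d')).eval x)) := by
        gcongr
      _ = 6 / q * 7 *
          (((gp q N g d).eval x * (apP q).eval x * (gp q N g' (i - 1 - d)).eval x) *
          ((gp q N g d').eval x * (apP q).eval x * (gp q N g' (i - 1 - d')).eval x)) *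
          ((1 / 2 : ℝ) ^ (d - d' + (d' - d)) * (a d * a d')) := by
        simp only [ha]
        ring
      _ = _ := by rw [hTd d hd1, hTd d' hd2, sq]
  have hsq : ∑ d ∈ range i, a d ^ 2 = 14 * ∑ d ∈ range i, phi q N d * phi q N (i - 1 - d) := by
    rw [Finset.mul_sum]
    refine Finset.sum_congr rfl fun d _ => ?_
    have p1 := LatB_phi_nonneg h0 N d
    have p2 := LatB_phi_nonneg h0 N (i - 1 - d)
    simp only [ha]
    rw [mul_pow, Real.sq_sqrt p1, Real.sq_sqrt (by positivity)]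
    ring
  have hN0 : (0 : ℝ) < N := by exact_mod_cast (by omega : 0 < N)
  calc _ ≤ ∑ d ∈ range i, ∑ d' ∈ range i,
        (6 / q * 7 * T ^ 2) * ((1 / 2 : ℝ) ^ (d - d' + (d' - d)) * (a d * a d')) :=
      Finset.sum_le_sum fun d hd => Finset.sum_le_sum fun d' hd' => hterm d hd d' hd'
    _ = (6 / q * 7 * T ^ 2) * ∑ d ∈ range i, ∑ d' ∈ range i,
        ((1 / 2 : ℝ) ^ (d - d' + (d' - d)) * (a d * a d')) := by
      simp only [Finset.mul_sum]
    _ ≤ (6 / q * 7 * T ^ 2) * (3 * (14 * (4 / (q ^ 2 * N)))) := by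
      refine mul_le_mul_of_nonneg_left ((schur_half i a).trans ?_) (by positivity)
      rw [hsq]
      have := phi_conv h0 (N := N) (by omega) i
      gcongr
    _ = _ := by
      field_simp
      ring

/-- strong induction with `fH_eq`, `ip_po_L`, `ipx_gp_le` (diagonal), `volterra_step`;
`7056/(q³N) ≤ 7 φ_i` because `i + 1 ≤ 1e-16 q⁴ N` -/
theorem nrm_fH_le {q x : ℝ} (h0 : 0 < q) (h1 : q ≤ 1 / 2) (hx : 1 / 2 ≤ x) (hx' : x ≤ 2)
    {N g' : ℕ} (hN : 6 ≤ N) (hg : N ≤ 4 * (g' + 1)) (hgN : g' ≤ N) (i : ℕ)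
    (hi : (i : ℝ) + 1 ≤ 1e-16 * q ^ 4 * N) :
    nrm (wx x (6 / q)) (fH q N g' i) ^ 2 ≤ 14 * phi q N i * (gp q N g' i).eval x ^ 2 := by
  have hω : (0 : ℝ) ≤ 6 / q := by positivity
  have hw := wx_nonneg x hω
  have hN0 : (0 : ℝ) < N := by exact_mod_cast (by omega : 0 < N)
  have hq4 : q ^ 4 ≤ 1 := pow_le_one₀ h0.le (by linarith)
  induction i using Nat.strong_induction_on with
  | _ i ih =>
  have hiN : i ≤ N := by
    have : (i : ℝ) ≤ N := by
      have : q ^ 4 * N ≤ 1 * N := by gcongr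
      linarith
    exact_mod_cast this
  have hstep := volterra_step h0 h1 hx hx' (N := N) (g := N - 1) (g' := g') (i := i) hN
    (by omega) (by omega) hiN fun j hj => ih j hj (by
      have : (j : ℝ) ≤ i := by exact_mod_cast hj.le
      linarith)
  set S := ∑ d ∈ range i, (1 - q) • (po (gp q N (N - 1) d) * LL () * fH q N g' (i - 1 - d))
    with hS
  have hz : ip (wx x (6 / q)) (po (gp q N g' i)) S = 0 := by
    rw [hS, ip_sum_right]
    simp only [ip_smul_right, ip_po_L, mul_zero, Finset.sum_const_zero]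
  have hdiag := ipx_gp_self h0 h1 (x := x) (by linarith) (by linarith) hN hg i
  have hp := LatB_phi_nonneg h0 N i
  have hS2 : nrm (wx x (6 / q)) S ^ 2 ≤ 7 * phi q N i * (gp q N g' i).eval x ^ 2 := by
    rcases Nat.eq_zero_or_pos i with hi0 | hi0
    · have : S = 0 := by rw [hS, hi0]; simp
      rw [this, nrm_zero]
      have := sq_nonneg ((gp q N g' i).eval x)
      nlinarith [mul_nonneg hp this]
    · have he : piP q ^ (N - 1 + g' + (i - 1) * (N - 1)) * apP q ^ i = gp q N g' i := by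
        obtain ⟨e, rfl⟩ : ∃ e, i = e + 1 := ⟨i - 1, by omega⟩
        rw [gp, Nat.add_sub_cancel]
        ring
      rw [he] at hstep
      refine hstep.trans (mul_le_mul_of_nonneg_right ?_ (sq_nonneg _))
      have hs0 : 0 < √(((i : ℝ) + 1) * N) := Real.sqrt_pos.2 (by positivity)
      have hs : √(((i : ℝ) + 1) * N) ≤ 1e-8 * q ^ 2 * N := by
        refine Real.sqrt_le_iff.2 ⟨by positivity, ?_⟩
        calc ((i : ℝ) + 1) * N ≤ (1e-16 * q ^ 4 * N) * N := by gcongr
          _ = _ := by ring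
      unfold phi
      rw [mul_one_div, div_le_div_iff₀ (by positivity) (by positivity)]
      have h5 : 0 < q ^ 3 * N := by positivity
      calc 7056 * (q * √(((i : ℝ) + 1) * N)) ≤ 7056 * (q * (1e-8 * q ^ 2 * N)) := by gcongr
        _ = 7056e-8 * (q ^ 3 * N) := by ring
        _ ≤ _ := by nlinarith
  have hsplit : nrm (wx x (6 / q)) (fH q N g' i) ^ 2 =
      ipx x (gp q N g' i) (gp q N g' i) + nrm (wx x (6 / q)) S ^ 2 := by
    rw [fH_eq, ← hS, nrm_sq hw, nrm_sq hw, ip_add_left, ip_add_right, ip_add_right, hz,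
      ip_comm _ S (po _), hz, ip_po_po]
    ring
  have := mul_nonneg hp (sq_nonneg ((gp q N g' i).eval x))
  rw [hsplit]
  nlinarith

theorem volterra {q x : ℝ} (h0 : 0 < q) (h1 : q ≤ 1 / 2) (hx : 1 / 2 ≤ x) (hx' : x ≤ 2)
    {N g r g' : ℕ} (hg : N ≤ 4 * (g + 1)) (hgN : g ≤ N) (hg' : N ≤ 4 * (g' + 1)) (hgN' : g' ≤ N)
    (hr : (r : ℝ) + 2 ≤ 1e-16 * q ^ 4 * N) :
    nrm (wx x (6 / q)) (fV q N g r g' - po (pureP q N g r g')) ^ 2 ≤
      7056 / (q ^ 3 * N) * (pureP q N g r g').eval x ^ 2 := by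
  have hq4 : q ^ 4 ≤ 1 := pow_le_one₀ h0.le (by linarith)
  have hN0 : (0 : ℝ) ≤ N := Nat.cast_nonneg N
  have hr0 : (0 : ℝ) ≤ r := Nat.cast_nonneg r
  have hqN : q ^ 4 * N ≤ 1 * N := by gcongr
  have hN : 6 ≤ N := by
    have : (6 : ℝ) ≤ N := by linarith
    exact_mod_cast this
  have hrN : r + 1 ≤ N := by
    have : (r : ℝ) + 1 ≤ N := by linarith
    exact_mod_cast this
  have hstep := volterra_step h0 h1 hx hx' (N := N) (g := g) (g' := g') (i := r + 1) hN hg hgN hrN
    fun j hj => nrm_fH_le h0 h1 hx hx' hN hg' hgN' j (by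
      have : (j : ℝ) ≤ r := by exact_mod_cast Nat.lt_succ_iff.1 hj
      linarith)
  rw [fV_sub]
  simpa only [Nat.add_sub_cancel, pureP] using hstep

end Crest.Agent.R300.LB
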