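import Crest.Agent.R300.LB1

/-! Row 300 lower bound: `L^p` densities (`Bd`) and Bessel families (`Bes`). -/

set_option autoImplicit false

namespace Crest.Agent.R300.LB

open Finset

variable {M : Type*}

theorem LBLp_eq_zero {p : ℕ} (hp : 1 ≤ p) {R f : Alg M} (hR : Pos R) (h : Bd p R f 0) : f = 0 := by
  obtain ⟨-, y, h1, h2⟩ := h
  rw [zero_pow (by omega)] at h2
  have h3 := (sum_eq_zero_iff_of_nonneg fun w _ => mul_nonneg (hR w) (pow_nonneg (abs_nonneg (y w)) p)).1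
    (le_antisymm h2 (sum_nonneg fun w _ => mul_nonneg (hR w) (pow_nonneg (abs_nonneg (y w)) p)))
  apply MonoidAlgebra.coeff_injective
  ext w
  rw [h1]
  by_cases hw : w ∈ R.coeff.support
  · rcases mul_eq_zero.1 (h3 w hw) with h4 | h4
    · simp [h4]
    · simp [abs_eq_zero.1 (pow_eq_zero_iff (by omega) |>.1 h4)]
  · simp [Finsupp.notMem_support_iff.1 hw]

theorem LBLp_jensen (p : ℕ) {κ : Type*} (t : Finset κ) (ρ z : κ → ℝ) (hρ : ∀ k ∈ t, 0 ≤ ρ k) :
    (∑ k ∈ t, ρ k) * |(∑ k ∈ t, ρ k * z k) / ∑ k ∈ t, ρ k| ^ p ≤ ∑ k ∈ t, ρ k * |z k| ^ p := by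
  rcases (sum_nonneg hρ).eq_or_lt with h0 | h0
  · rw [← h0, zero_mul]
    exact sum_nonneg fun k hk => mul_nonneg (hρ k hk) (by positivity)
  obtain ⟨S, hS⟩ : ∃ S, S = ∑ k ∈ t, ρ k := ⟨_, rfl⟩
  rw [← hS] at h0 ⊢
  have h1 := Real.pow_arith_mean_le_arith_mean_pow t (fun k => ρ k / S) (fun k => |z k|)
    (fun k hk => div_nonneg (hρ k hk) h0.le) (by rw [← sum_div, ← hS, div_self h0.ne'])
    (fun k _ => abs_nonneg _) p
  have h2 : |(∑ k ∈ t, ρ k * z k) / S| ≤ ∑ k ∈ t, ρ k / S * |z k| := by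
    rw [sum_div]
    refine (abs_sum_le_sum_abs _ _).trans (sum_le_sum fun k hk => le_of_eq ?_)
    rw [abs_div, abs_mul, abs_of_nonneg (hρ k hk), abs_of_pos h0]
    ring
  refine (mul_le_mul_of_nonneg_left ((pow_le_pow_left₀ (abs_nonneg _) h2 p).trans h1) h0.le).trans
    (le_of_eq ?_)
  rw [mul_sum]
  exact sum_congr rfl fun k _ => by field_simp

theorem LBLp_rep (R : Alg M) :
    R = ∑ w ∈ R.coeff.support, (MonoidAlgebra.single w (R.coeff w) : Alg M) :=
  (MonoidAlgebra.sum_coeff_single R).symm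

theorem LBLp_dens {R f : Alg M} {y : M → ℝ} (h : ∀ w, f.coeff w = y w * R.coeff w) :
    f = ∑ w ∈ R.coeff.support, (MonoidAlgebra.single w (R.coeff w * y w) : Alg M) := by
  refine (LBLp_rep f).trans ?_
  rw [sum_subset (s₂ := R.coeff.support) (fun w hw => ?_) fun w _ hw => ?_]
  · exact sum_congr rfl fun w _ => by rw [h, mul_comm]
  · rw [Finsupp.mem_support_iff] at hw ⊢
    exact fun h0 => hw (by rw [h, h0, mul_zero])
  · rw [Finsupp.notMem_support_iff.1 hw, MonoidAlgebra.single_zero]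

theorem LBLp_split {A : Type*} [AddCommMonoid A] (s : Finset (Bool × ℕ)) (u : Bool × ℕ → A) :
    ∑ a ∈ s, u a = ∑ y ∈ (s.filter fun a => a.1 = true).image Prod.snd, u (true, y) +
      ∑ y ∈ (s.filter fun a => ¬a.1 = true).image Prod.snd, u (false, y) := by
  rw [← sum_filter_add_sum_filter_not s fun a => a.1 = true, sum_image, sum_image]
  · congr 1
    · exact sum_congr rfl fun a ha => by rw [← (mem_filter.1 ha).2]
    · exact sum_congr rfl fun a ha => by rw [← Bool.eq_false_iff.2 (mem_filter.1 ha).2]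
  · intro a ha b hb hab
    exact Prod.ext ((Bool.eq_false_iff.2 (mem_filter.1 ha).2).trans
      (Bool.eq_false_iff.2 (mem_filter.1 hb).2).symm) hab
  · intro a ha b hb hab
    exact Prod.ext ((mem_filter.1 ha).2.trans (mem_filter.1 hb).2.symm) hab

theorem Bd.nonneg {p : ℕ} {R f : Alg M} {β : ℝ} (h : Bd p R f β) : 0 ≤ β := h.1

theorem Bd.mono {p : ℕ} {R f : Alg M} {β β' : ℝ} (h : Bd p R f β) (hβ : β ≤ β') :
    Bd p R f β' := by
  obtain ⟨h0, y, h1, h2⟩ := h
  exact ⟨h0.trans hβ, y, h1, h2.trans (pow_le_pow_left₀ h0 hβ p)⟩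

theorem bd_zero {p : ℕ} (hp : 1 ≤ p) (R : Alg M) {β : ℝ} (hβ : 0 ≤ β) : Bd p R 0 β := by
  refine ⟨hβ, fun _ => 0, fun w => by simp, ?_⟩
  simp only [abs_zero, zero_pow (show p ≠ 0 by omega), mul_zero, sum_const_zero]
  positivity

theorem Bd.smul {p : ℕ} {R f : Alg M} {β : ℝ} (h : Bd p R f β) (c : ℝ) :
    Bd p R (c • f) (|c| * β) := by
  obtain ⟨h0, y, h1, h2⟩ := h
  refine ⟨mul_nonneg (abs_nonneg c) h0, fun w => c * y w, fun w => ?_, ?_⟩
  · rw [MonoidAlgebra.coeff_smul_apply, h1, smul_eq_mul, mul_assoc]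
  · rw [mul_pow]
    refine le_trans (le_of_eq ?_) (mul_le_mul_of_nonneg_left h2 (pow_nonneg (abs_nonneg c) p))
    rw [mul_sum]
    refine sum_congr rfl fun w _ => ?_
    rw [abs_mul, mul_pow]
    ring

theorem Bd.neg {p : ℕ} {R f : Alg M} {β : ℝ} (h : Bd p R f β) : Bd p R (-f) β := by
  simpa using h.smul (-1)

/-- Minkowski (e.g. `Real.Lp_add_le` with the weights absorbed, or convexity of `|x|^p`) -/
theorem Bd.add {p : ℕ} (hp : 1 ≤ p) {R f g : Alg M} (hR : Pos R) {β γ : ℝ} (hf : Bd p R f β)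
    (hg : Bd p R g γ) : Bd p R (f + g) (β + γ) := by
  rcases hf.1.eq_or_lt with rfl | hβ
  · rw [LBLp_eq_zero hp hR hf, zero_add, zero_add]
    exact hg
  rcases hg.1.eq_or_lt with rfl | hγ
  · rw [LBLp_eq_zero hp hR hg, add_zero, add_zero]
    exact hf
  obtain ⟨-, y, h1, h2⟩ := hf
  obtain ⟨-, z, h3, h4⟩ := hg
  have hs : 0 < β + γ := by linarith
  refine ⟨hs.le, fun w => y w + z w, fun w => ?_, ?_⟩
  · rw [MonoidAlgebra.coeff_add, Finsupp.add_apply, h1, h3, add_mul]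
  have key : ∀ w, |y w + z w| ^ p ≤
      (β + γ) ^ p * (β / (β + γ) / β ^ p * |y w| ^ p + γ / (β + γ) / γ ^ p * |z w| ^ p) := by
    intro w
    have h5 := (convexOn_pow (𝕜 := ℝ) p).2 (show |y w| / β ∈ Set.Ici (0 : ℝ) from by
      simp only [Set.mem_Ici]; positivity) (show |z w| / γ ∈ Set.Ici (0 : ℝ) from by
      simp only [Set.mem_Ici]; positivity) (show 0 ≤ β / (β + γ) by positivity)
      (show 0 ≤ γ / (β + γ) by positivity) (by field_simp)
    simp only [smul_eq_mul] at h5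
    have h6 : |y w + z w| ≤ (β + γ) * (β / (β + γ) * (|y w| / β) + γ / (β + γ) * (|z w| / γ)) :=
      (abs_add_le _ _).trans (le_of_eq (by field_simp))
    refine (pow_le_pow_left₀ (abs_nonneg _) h6 p).trans ?_
    rw [mul_pow]
    refine mul_le_mul_of_nonneg_left (h5.trans (le_of_eq ?_)) (by positivity)
    rw [div_pow, div_pow]
    ring
  calc ∑ w ∈ R.coeff.support, R.coeff w * |y w + z w| ^ p
      ≤ ∑ w ∈ R.coeff.support, R.coeff w * ((β + γ) ^ p *
          (β / (β + γ) / β ^ p * |y w| ^ p + γ / (β + γ) / γ ^ p * |z w| ^ p)) :=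
        sum_le_sum fun w _ => mul_le_mul_of_nonneg_left (key w) (hR w)
    _ = (β + γ) ^ p * (β / (β + γ) / β ^ p * ∑ w ∈ R.coeff.support, R.coeff w * |y w| ^ p +
          γ / (β + γ) / γ ^ p * ∑ w ∈ R.coeff.support, R.coeff w * |z w| ^ p) := by
        rw [mul_sum, mul_sum, ← sum_add_distrib, mul_sum]
        exact sum_congr rfl fun w _ => by ring
    _ ≤ (β + γ) ^ p * (β / (β + γ) / β ^ p * β ^ p + γ / (β + γ) / γ ^ p * γ ^ p) := by gcongr
    _ = (β + γ) ^ p := by field_simp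

theorem Bd.sum {p : ℕ} (hp : 1 ≤ p) {R : Alg M} (hR : Pos R) {κ : Type*} (s : Finset κ)
    (f : κ → Alg M) (β : κ → ℝ) (h : ∀ i ∈ s, Bd p R (f i) (β i)) :
    Bd p R (∑ i ∈ s, f i) (∑ i ∈ s, β i) := by
  classical
  induction s using Finset.induction_on with
  | empty => simpa using bd_zero hp R le_rfl
  | insert a s ha ih =>
    rw [sum_insert ha, sum_insert ha]
    exact (h a (mem_insert_self _ _)).add hp hR (ih fun i hi => h i (mem_insert_of_mem hi))

/-- Push-forward (Jensen on each fibre): atoms `k ∈ s` of weight `ρ k` placed at `π k`, with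
density `z k`.  The density of the image at `w` is the `ρ`-average of `z` over the fibre. -/
theorem bd_push {p : ℕ} (hp : 1 ≤ p) {κ : Type*} (s : Finset κ) (π : κ → M) (ρ z : κ → ℝ)
    (hρ : ∀ k ∈ s, 0 ≤ ρ k) {β : ℝ} (hβ : 0 ≤ β) (h : ∑ k ∈ s, ρ k * |z k| ^ p ≤ β ^ p) :
    Bd p (∑ k ∈ s, (MonoidAlgebra.single (π k) (ρ k) : Alg M))
      (∑ k ∈ s, (MonoidAlgebra.single (π k) (ρ k * z k) : Alg M)) β := by
  classical
  have hc : ∀ (u : κ → ℝ) (w : M), (∑ k ∈ s, (MonoidAlgebra.single (π k) (u k) : Alg M)).coeff w =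
      ∑ k ∈ s.filter (fun k => π k = w), u k := by
    intro u w
    rw [MonoidAlgebra.coeff_sum, Finsupp.finsetSum_apply, sum_filter]
    exact sum_congr rfl fun k _ => by rw [MonoidAlgebra.coeff_single, Finsupp.single_apply]
  have hρ' : ∀ w, ∀ k ∈ s.filter (fun k => π k = w), 0 ≤ ρ k := fun w k hk =>
    hρ k (mem_filter.1 hk).1
  refine ⟨hβ, fun w => (∑ k ∈ s.filter (fun k => π k = w), ρ k * z k) /
    ∑ k ∈ s.filter (fun k => π k = w), ρ k, fun w => ?_, ?_⟩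
  · rw [hc, hc]
    by_cases h0 : ∑ k ∈ s.filter (fun k => π k = w), ρ k = 0
    · rw [h0, mul_zero]
      exact sum_eq_zero fun k hk => by rw [(sum_eq_zero_iff_of_nonneg (hρ' w)).1 h0 k hk, zero_mul]
    · rw [div_mul_cancel₀ _ h0]
  · refine le_trans ?_ h
    rw [← sum_fiberwise_of_maps_to (g := π) (t := s.image π) (fun k hk => mem_image_of_mem π hk)
      fun k => ρ k * |z k| ^ p]
    refine (sum_le_sum fun w _ => ?_).trans (sum_le_sum_of_subset_of_nonneg (fun w hw => ?_)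
      fun w _ _ => sum_nonneg fun k hk => mul_nonneg (hρ' w k hk) (pow_nonneg (abs_nonneg _) p))
    · rw [hc]
      exact LBLp_jensen p _ ρ z (hρ' w)
    · rw [Finsupp.mem_support_iff, hc] at hw
      obtain ⟨k, hk, -⟩ := exists_ne_zero_of_sum_ne_zero hw
      exact mem_image.2 ⟨k, (mem_filter.1 hk).1, (mem_filter.1 hk).2⟩

theorem Bd.iota {p : ℕ} (hp : 1 ≤ p) {R f : Alg M} (hR : Pos R) {β : ℝ} (h : Bd p R f β) :
    Bd p (iota R) (iota f) β := by
  obtain ⟨h0, y, h1, h2⟩ := h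
  have h3 := bd_push hp R.coeff.support FreeMonoid.of (fun w => R.coeff w) y (fun w _ => hR w) h0 h2
  rw [LBLp_rep R, LBLp_dens h1, map_sum, map_sum]
  simpa only [iota_single] using h3

variable [Monoid M]

theorem bd_self {p : ℕ} {R : Alg M} (hR : Prob R) : Bd p R R 1 := by
  refine ⟨zero_le_one, fun _ => 1, fun w => by simp, ?_⟩
  simp [hR.sum_coeff]

/-- bounded densities -/
theorem bd_of_le {p : ℕ} {R f : Alg M} (hR : Prob R) {β : ℝ} (hβ : 0 ≤ β)
    (h : ∀ w, |f.coeff w| ≤ β * R.coeff w) : Bd p R f β := by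
  have h1 : ∀ w, |f.coeff w / R.coeff w| ≤ β := fun w => by
    rw [abs_div, abs_of_nonneg (hR.1 w)]
    exact div_le_of_le_mul₀ (hR.1 w) hβ (h w)
  refine ⟨hβ, fun w => f.coeff w / R.coeff w, fun w => ?_, ?_⟩
  · by_cases h0 : R.coeff w = 0
    · have := h w
      rw [h0, mul_zero] at this
      rw [h0, mul_zero]
      exact abs_nonpos_iff.1 this
    · rw [div_mul_cancel₀ _ h0]
  · refine (sum_le_sum fun w _ => mul_le_mul_of_nonneg_left
      (pow_le_pow_left₀ (abs_nonneg _) (h1 w) p) (hR.1 w)).trans ?_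
    rw [← sum_mul, hR.sum_coeff, one_mul]

/-- `L^1 ≤ L^p` on a probability space -/
theorem Bd.norm_le {p : ℕ} (hp : 1 ≤ p) {R f : Alg M} (hR : Prob R) {β : ℝ} (h : Bd p R f β) :
    ‖f‖ ≤ β := by
  obtain ⟨h0, y, h1, h2⟩ := h
  have h3 : ‖f‖ = ∑ w ∈ R.coeff.support, R.coeff w * |y w| := by
    rw [norm_eq_sum f (s := R.coeff.support) fun w hw => ?_]
    · exact sum_congr rfl fun w _ => by rw [h1, abs_mul, abs_of_nonneg (hR.1 w), mul_comm]
    · rw [Finsupp.mem_support_iff] at hw ⊢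
      exact fun h => hw (by rw [h1, h, mul_zero])
  have h4 := Real.pow_arith_mean_le_arith_mean_pow R.coeff.support (fun w => R.coeff w)
    (fun w => |y w|) (fun w _ => hR.1 w) hR.sum_coeff (fun w _ => abs_nonneg _) p
  rw [← h3] at h4
  exact (pow_le_pow_iff_left₀ (norm_nonneg _) h0 (by omega)).1 (h4.trans h2)

theorem Bd.mul_prob {p : ℕ} (hp : 1 ≤ p) {R Q f : Alg M} (hR : Prob R) (hQ : Prob Q) {β : ℝ}
    (h : Bd p R f β) : Bd p (R * Q) (f * Q) β := by
  obtain ⟨h0, y, h1, h2⟩ := h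
  have h3 := bd_push hp (R.coeff.support ×ˢ Q.coeff.support) (fun k => k.1 * k.2)
    (fun k => R.coeff k.1 * Q.coeff k.2) (fun k => y k.1)
    (fun k _ => mul_nonneg (hR.1 _) (hQ.1 _)) h0 (by
      refine le_trans (le_of_eq ?_) h2
      rw [sum_product]
      refine sum_congr rfl fun a _ => ?_
      simp only [← sum_mul, ← mul_sum, hQ.sum_coeff, mul_one])
  rw [sum_product, sum_product] at h3
  convert h3 using 1
  · conv_lhs => rw [LBLp_rep R, LBLp_rep Q, sum_mul_sum]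
    simp only [MonoidAlgebra.single_mul_single]
  · conv_lhs => rw [LBLp_dens h1, LBLp_rep Q, sum_mul_sum]
    simp only [MonoidAlgebra.single_mul_single, mul_right_comm]

theorem Bd.prob_mul {p : ℕ} (hp : 1 ≤ p) {R Q f : Alg M} (hR : Prob R) (hQ : Prob Q) {β : ℝ}
    (h : Bd p R f β) : Bd p (Q * R) (Q * f) β := by
  obtain ⟨h0, y, h1, h2⟩ := h
  have h3 := bd_push hp (Q.coeff.support ×ˢ R.coeff.support) (fun k => k.1 * k.2)
    (fun k => Q.coeff k.1 * R.coeff k.2) (fun k => y k.2)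
    (fun k _ => mul_nonneg (hQ.1 _) (hR.1 _)) h0 (by
      refine le_trans (le_of_eq ?_) h2
      rw [sum_product_right]
      refine sum_congr rfl fun a _ => ?_
      simp only [← sum_mul, hQ.sum_coeff, one_mul])
  rw [sum_product, sum_product] at h3
  convert h3 using 1
  · conv_lhs => rw [LBLp_rep R, LBLp_rep Q, sum_mul_sum]
    simp only [MonoidAlgebra.single_mul_single]
  · conv_lhs => rw [LBLp_dens h1, LBLp_rep Q, sum_mul_sum]
    simp only [MonoidAlgebra.single_mul_single, mul_assoc]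

theorem bes_single {p : ℕ} (hp : 1 ≤ p) {R ξ : Alg M} {β : ℝ} (h0 : mass ξ = 0)
    (h : Bd p R ξ β) : Bes p R (fun _ : Unit => ξ) (fun _ => β ^ 2) := by
  refine ⟨fun _ => h0, fun _ => sq_nonneg _, fun s c => ?_⟩
  rcases s.eq_empty_or_nonempty with rfl | ⟨a, ha⟩
  · simpa using bd_zero hp R le_rfl
  · have hs : s = {a} := eq_singleton_iff_unique_mem.2 ⟨ha, fun _ _ => rfl⟩
    rw [hs, sum_singleton, sum_singleton, ← mul_pow, Real.sqrt_sq_eq_abs, abs_mul,
      abs_of_nonneg h.1]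
    exact h.smul _

/-- a family with a single nonzero member -/
theorem bes_ite {p : ℕ} (hp : 1 ≤ p) {R ξ : Alg M} {β : ℝ} (h0 : mass ξ = 0)
    (h : Bd p R ξ β) : Bes p R (fun y : ℕ => if y = 0 then ξ else 0) (fun _ => β ^ 2) := by
  refine ⟨fun y => ?_, fun _ => sq_nonneg _, fun s c => ?_⟩
  · beta_reduce
    split_ifs
    · exact h0
    · exact map_zero _
  · simp only [smul_ite, smul_zero, sum_ite_eq']
    split_ifs with hs
    · refine (h.smul (c 0)).mono (Real.le_sqrt_of_sq_le ?_)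
      rw [mul_pow, sq_abs]
      exact single_le_sum (f := fun a => c a ^ 2 * β ^ 2) (fun a _ => by positivity) hs
    · exact bd_zero hp R (Real.sqrt_nonneg _)

theorem bes_zero {ι : Type*} {p : ℕ} (hp : 1 ≤ p) (R : Alg M) :
    Bes p R (fun _ : ι => 0) (fun _ => 0) := by
  refine ⟨fun _ => map_zero _, fun _ => le_rfl, fun s c => ?_⟩
  simpa using bd_zero hp R le_rfl

theorem Bes.bd {ι : Type*} {p : ℕ} {R : Alg M} {ξ : ι → Alg M} {ω : ι → ℝ} (h : Bes p R ξ ω)
    (a : ι) : Bd p R (ξ a) √(ω a) := by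
  simpa using h.2.2 {a} fun _ => 1

theorem Bes.mono {ι : Type*} {p : ℕ} {R : Alg M} {ξ : ι → Alg M} {ω ω' : ι → ℝ}
    (h : Bes p R ξ ω) (hω : ∀ a, ω a ≤ ω' a) : Bes p R ξ ω' := by
  refine ⟨h.1, fun a => (h.2.1 a).trans (hω a), fun s c => (h.2.2 s c).mono ?_⟩
  exact Real.sqrt_le_sqrt (sum_le_sum fun a _ => mul_le_mul_of_nonneg_left (hω a) (sq_nonneg _))

/-- union of two families: `√x + √y ≤ √(2x + 2y)` -/
theorem Bes.union {p : ℕ} (hp : 1 ≤ p) {R : Alg M} (hR : Pos R) {ξE ξD : ℕ → Alg M} {e2 h2 : ℝ}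
    (hE : Bes p R ξE fun _ => e2) (hD : Bes p R ξD fun _ => h2) :
    Bes p R (fun a : Bool × ℕ => if a.1 then ξD a.2 else ξE a.2)
      (fun a => if a.1 then 2 * h2 else 2 * e2) := by
  have he := hE.2.1 0
  have hd := hD.2.1 0
  refine ⟨fun a => ?_, fun a => ?_, fun s c => ?_⟩
  · simp only
    split_ifs
    · exact hD.1 _
    · exact hE.1 _
  · simp only at he hd ⊢
    split_ifs <;> linarith
  · rw [LBLp_split s fun a => c a • (if a.1 then ξD a.2 else ξE a.2),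
      LBLp_split s fun a => c a ^ 2 * (if a.1 then 2 * h2 else 2 * e2)]
    simp only [if_true, Bool.false_eq_true, if_false]
    refine ((hD.2.2 _ fun y => c (true, y)).add hp hR (hE.2.2 _ fun y => c (false, y))).mono
      (Real.le_sqrt_of_sq_le ?_)
    have h1 : ∀ (t : Finset ℕ) (u : ℕ → ℝ) (e : ℝ), ∑ y ∈ t, u y ^ 2 * (2 * e) =
        2 * ∑ y ∈ t, u y ^ 2 * e := fun t u e => by
      rw [mul_sum]
      exact sum_congr rfl fun _ _ => by ring
    rw [h1 _ fun y => c (true, y), h1 _ fun y => c (false, y)]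
    have h3 : ∀ x y : ℝ, 0 ≤ x → 0 ≤ y → (√x + √y) ^ 2 ≤ 2 * x + 2 * y := fun x y hx hy => by
      nlinarith [Real.sq_sqrt hx, Real.sq_sqrt hy, sq_nonneg (√x - √y)]
    exact h3 _ _ (sum_nonneg fun _ _ => mul_nonneg (sq_nonneg _) hd)
      (sum_nonneg fun _ _ => mul_nonneg (sq_nonneg _) he)

theorem Cell.OK.mono {C : Cell M} {p : ℕ} {e2 h2 s η e2' h2' s' η' : ℝ} (h : C.OK p e2 h2 s η)
    (he : e2 ≤ e2') (hh : h2 ≤ h2') (hs : s ≤ s') (hη : η ≤ η') : C.OK p e2' h2' s' η' := by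
  obtain ⟨h1, h2, h3, h4, ξE, ξD, h5, h6, h7, h8⟩ := h
  exact ⟨h1, h2, h3, h4.mono hs, ξE, ξD, h5.mono fun _ => he, h6.mono fun _ => hh,
    fun y hy => (h7 y hy).trans hη, fun y hy => (h8 y hy).trans hη⟩

end Crest.Agent.R300.LB
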