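import Crest.Agent.R300.LBLatDefs
import Crest.Agent.R300.LBLp
import Crest.Agent.R300.LBFog

/-! Row 300 lower bound: the unit and the defect of the first lattice. -/

set_option autoImplicit false

namespace Crest.Agent.R300.LB

open Finset

variable {M : Type*} [Monoid M] {q : ℝ} {Y : Bool → Alg M}

theorem latU_A (q : ℝ) (Y : Bool → Alg M) :
    uA q Y - q ^ 2 • (1 : Alg M) = (q * (1 - q)) • Y false + (q * (1 - q)) • Y true +
      (1 - q) ^ 2 • (Y false * Y true) := by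
  simp only [uA, lett, add_mul, mul_add, smul_mul_assoc, mul_smul_comm, one_mul, mul_one]
  module

theorem latU_pos (h0 : 0 < q) (h1 : q ≤ 1 / 2) : 0 < 1 - q ^ 2 := by nlinarith

theorem latU_coeff (hY : ∀ b, Prob (Y b)) (h0 : 0 < q) (h1 : q ≤ 1 / 2) (w : M) :
    q * (1 - q) * (Y true).coeff w ≤ (1 - q ^ 2) * (uP q Y).coeff w := by
  have h2 := latU_pos h0 h1
  have h3 : (1 - q ^ 2) • uP q Y = uA q Y - q ^ 2 • (1 : Alg M) := by
    rw [uP, smul_smul, mul_one_div_cancel h2.ne', one_smul]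
  have h4 := congrArg (fun f : Alg M => f.coeff w) (h3.trans (latU_A q Y))
  simp only [MonoidAlgebra.coeff_add, MonoidAlgebra.coeff_smul, Finsupp.add_apply,
    Finsupp.smul_apply, smul_eq_mul] at h4
  have h5 := (hY false).1 w
  have h6 := ((hY false).mul (hY true)).1 w
  have h7 : 0 ≤ q * (1 - q) := mul_nonneg h0.le (by linarith)
  rw [h4]
  have := mul_nonneg h7 h5
  have := mul_nonneg (sq_nonneg (1 - q)) h6
  linarith

theorem prob_uA (h0 : 0 < q) (h1 : q ≤ 1 / 2) (hY : ∀ b, Prob (Y b)) : Prob (uA q Y) := by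
  exact (prob_lett h0.le (by linarith) hY false).mul (prob_lett h0.le (by linarith) hY true)

theorem prob_uB (h0 : 0 < q) (h1 : q ≤ 1 / 2) (hY : ∀ b, Prob (Y b)) : Prob (uB q Y) := by
  exact prob_lett h0.le (by linarith) hY true

/-- `A - q² = q p Y0 + q p Y1 + p² Y0 Y1` -/
theorem prob_uP (h0 : 0 < q) (h1 : q ≤ 1 / 2) (hY : ∀ b, Prob (Y b)) : Prob (uP q Y) := by
  have h2 := latU_pos h0 h1
  have h7 : 0 ≤ q * (1 - q) := mul_nonneg h0.le (by linarith)
  refine ⟨?_, ?_⟩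
  · rw [uP, latU_A]
    exact Pos.smul (by positivity) ((((hY false).1.smul h7).add ((hY true).1.smul h7)).add
      (((hY false).mul (hY true)).1.smul (sq_nonneg _)))
  · rw [uP, map_smul, map_sub, map_smul, map_one, (prob_uA h0 h1 hY).2, smul_eq_mul, smul_eq_mul,
      mul_one, one_div_mul_cancel h2.ne']

theorem uA_eq (h0 : 0 < q) (h1 : q ≤ 1 / 2) (Y : Bool → Alg M) :
    uA q Y = q ^ 2 • (1 : Alg M) + (1 - q ^ 2) • uP q Y := by
  have h2 := latU_pos h0 h1
  rw [uP, smul_smul, mul_one_div_cancel h2.ne', one_smul]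
  abel

theorem aeval_piP (h0 : 0 < q) (h1 : q ≤ 1 / 2) (Y : Bool → Alg M) :
    Polynomial.aeval (uP q Y) (piP q) = uA q Y := by
  rw [uA_eq h0 h1 Y]
  simp only [piP, map_add, map_mul, Polynomial.aeval_C, Polynomial.aeval_X,
    Algebra.algebraMap_eq_smul_one, smul_mul_assoc, one_mul]

theorem aeval_apP (h0 : 0 < q) (h1 : q ≤ 1 / 2) (Y : Bool → Alg M) :
    Polynomial.aeval (uP q Y) (apP q) = uA q Y + (q / (1 + q)) • (1 - uA q Y) := by
  have h3 : q / (1 + q) * (1 - q ^ 2) = q * (1 - q) := by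
    field_simp
    ring
  have h4 : (1 : Alg M) - uA q Y = (1 - q ^ 2) • (1 - uP q Y) := by
    rw [uA_eq h0 h1 Y]; module
  rw [h4, smul_smul, h3, uA_eq h0 h1 Y]
  simp only [apP, map_add, map_mul, Polynomial.aeval_C, Polynomial.aeval_X,
    Algebra.algebraMap_eq_smul_one, smul_mul_assoc, one_mul]
  module

theorem uB_eq (h0 : 0 < q) (h1 : q ≤ 1 / 2) (Y : Bool → Alg M) :
    uB q Y = uA q Y + (q / (1 + q)) • (1 - uA q Y) + (1 - q) • uZ q Y := by
  rw [← aeval_apP h0 h1 Y]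
  simp only [apP, map_add, map_mul, Polynomial.aeval_C, Polynomial.aeval_X,
    Algebra.algebraMap_eq_smul_one, smul_mul_assoc, one_mul, uB, uZ, lett]
  module

theorem slip_uA (h0 : 0 < q) (h1 : q ≤ 1 / 2) (hY : ∀ b, Prob (Y b)) :
    Slip (uA q Y) (1 / q ^ 2) := by
  rw [uA_eq h0 h1 Y]
  exact slip_lazy (by positivity) (by nlinarith) (prob_uP h0 h1 hY).norm_eq.le

theorem mass_uZ (h0 : 0 < q) (h1 : q ≤ 1 / 2) (hY : ∀ b, Prob (Y b)) : mass (uZ q Y) = 0 := by
  rw [uZ, map_sub, (hY true).2, (prob_uP h0 h1 hY).2, sub_self]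

theorem norm_uZ (h0 : 0 < q) (h1 : q ≤ 1 / 2) (hY : ∀ b, Prob (Y b)) : ‖uZ q Y‖ ≤ 2 := by
  refine (norm_sub_le _ _).trans ?_
  rw [(hY true).norm_eq, (prob_uP h0 h1 hY).norm_eq]
  norm_num

/-- `Y1 ≤ ((1+q)/q) A⁺`, so the density `z` of `Y1` has `E z² ≤ (1+q)/q` and
`E (z-1)² = E z² - 1 ≤ 1/q` -/
theorem bd_uZ_two (h0 : 0 < q) (h1 : q ≤ 1 / 2) (hY : ∀ b, Prob (Y b)) :
    Bd 2 (uP q Y) (uZ q Y) √(1 / q) := by
  have hP := prob_uP h0 h1 hY
  have hc : ∀ w, (Y true).coeff w ≤ (1 + 1 / q) * (uP q Y).coeff w := fun w => by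
    have h2 := latU_coeff hY h0 h1 w
    have h3 : (1 + 1 / q) * (uP q Y).coeff w =
        (1 - q ^ 2) * (uP q Y).coeff w / (q * (1 - q)) := by
      have : 1 - q ≠ 0 := by linarith
      field_simp
      ring
    rw [h3, le_div_iff₀ (mul_pos h0 (by linarith))]
    linarith
  have hz : ∀ w, (uP q Y).coeff w = 0 → (Y true).coeff w = 0 := fun w h => by
    have := hc w
    rw [h, mul_zero] at this
    exact le_antisymm this ((hY true).1 w)
  have hs : (Y true).coeff.support ⊆ (uP q Y).coeff.support := fun w hw => by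
    rw [Finsupp.mem_support_iff] at hw ⊢
    exact fun h => hw (hz w h)
  refine ⟨Real.sqrt_nonneg _, fun w => (Y true).coeff w / (uP q Y).coeff w - 1, fun w => ?_, ?_⟩
  · rw [uZ, MonoidAlgebra.coeff_sub, Finsupp.sub_apply]
    by_cases h : (uP q Y).coeff w = 0
    · rw [h, hz w h]; simp
    · field_simp
  · rw [Real.sq_sqrt (by positivity)]
    have hY1 : ∑ w ∈ (uP q Y).coeff.support, (Y true).coeff w = 1 := by
      rw [← mass_eq_sum _ hs, (hY true).2]
    calc _ ≤ ∑ w ∈ (uP q Y).coeff.support,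
          ((1 / q - 1) * (Y true).coeff w + (uP q Y).coeff w) := by
          refine sum_le_sum fun w hw => ?_
          beta_reduce
          have h2 : 0 < (uP q Y).coeff w :=
            lt_of_le_of_ne (hP.1 w) (Ne.symm (Finsupp.mem_support_iff.1 hw))
          have h3 := hc w
          have h4 := (hY true).1 w
          generalize (uP q Y).coeff w = a at h2 h3
          generalize (Y true).coeff w = b at h3 h4
          have h5 : a * |b / a - 1| ^ 2 = b * (b / a) - 2 * b + a := by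
            rw [sq_abs]; field_simp; ring
          have h6 : b / a ≤ 1 + 1 / q := by rwa [div_le_iff₀ h2]
          have h7 := mul_le_mul_of_nonneg_left h6 h4
          rw [h5]; linarith
      _ = 1 / q := by
          rw [sum_add_distrib, ← mul_sum, hY1, hP.sum_coeff]; ring

/-- `Y1 ≤ A/(q(1-q))`, `A⁺ ≤ A/(1-q²)` -/
theorem bd_uZ (h0 : 0 < q) (h1 : q ≤ 1 / 2) (hY : ∀ b, Prob (Y b)) (p : ℕ) :
    Bd p (uA q Y) (uZ q Y) (3 / q) := by
  refine bd_of_le (prob_uA h0 h1 hY) (by positivity) fun w => ?_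
  have h2 := latU_coeff hY h0 h1 w
  have h3 := congrArg (fun f : Alg M => f.coeff w) (uA_eq h0 h1 Y)
  simp only [MonoidAlgebra.coeff_add, MonoidAlgebra.coeff_smul, Finsupp.add_apply,
    Finsupp.smul_apply, smul_eq_mul] at h3
  have h4 := (pos_one (M := M)) w
  have h5 := (prob_uP h0 h1 hY).1 w
  have h6 := (hY true).1 w
  rw [uZ, MonoidAlgebra.coeff_sub, Finsupp.sub_apply, h3]
  generalize (uP q Y).coeff w = a at h2 h5
  generalize (Y true).coeff w = b at h2 h6
  generalize (1 : Alg M).coeff w = c at h4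
  have h7 : 0 ≤ q ^ 2 * c := by positivity
  have h8 : q * b ≤ 2 * ((1 - q ^ 2) * a) := by nlinarith [mul_nonneg h0.le h6]
  have h9 : q * a ≤ (1 - q ^ 2) * a := mul_le_mul_of_nonneg_right (by nlinarith) h5
  have h10 := mul_nonneg h0.le h5
  have h11 := mul_nonneg h0.le h6
  rw [div_mul_eq_mul_div, le_div_iff₀ h0, ← abs_of_pos h0, ← abs_mul, abs_of_pos h0, abs_le]
  constructor <;> nlinarith

/-- `1 ≤ A / q²` -/
theorem bd_one_sub (h0 : 0 < q) (h1 : q ≤ 1 / 2) (hY : ∀ b, Prob (Y b)) (p : ℕ) :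
    Bd p (uA q Y) (1 - uA q Y) (1 / q ^ 2) := by
  refine bd_of_le (prob_uA h0 h1 hY) (by positivity) fun w => ?_
  have h3 := congrArg (fun f : Alg M => f.coeff w) (uA_eq h0 h1 Y)
  simp only [MonoidAlgebra.coeff_add, MonoidAlgebra.coeff_smul, Finsupp.add_apply,
    Finsupp.smul_apply, smul_eq_mul] at h3
  have h4 := (pos_one (M := M)) w
  have h5 := mul_nonneg (latU_pos h0 h1).le ((prob_uP h0 h1 hY).1 w)
  have h6 := (prob_uA h0 h1 hY).1 w
  rw [MonoidAlgebra.coeff_sub, Finsupp.sub_apply]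
  generalize (1 - q ^ 2) * (uP q Y).coeff w = a at h3 h5
  generalize (uA q Y).coeff w = b at h3 h6
  generalize (1 : Alg M).coeff w = c at h3 h4
  have hq : 0 < q ^ 2 := by positivity
  have hq1 : q ^ 2 ≤ 1 := by nlinarith
  have h7 := mul_nonneg hq.le h4
  have h8 := mul_nonneg hq.le h6
  have h9 : q ^ 2 * b ≤ b := mul_le_of_le_one_left h6 hq1
  rw [div_mul_eq_mul_div, one_mul, le_div_iff₀ hq, ← abs_of_pos hq, ← abs_mul, abs_le]
  constructor <;> nlinarith

theorem chan_pair (q : ℝ) (Y : Bool → Alg M) (y y' : ℕ) :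
    chan q Y ((FreeMonoid.of false * FreeMonoid.of true) ^ y * FreeMonoid.of true *
      (FreeMonoid.of false * FreeMonoid.of true) ^ y') = uA q Y ^ y * uB q Y * uA q Y ^ y' := by
  simp only [map_mul, map_pow, chan_of, uA, uB]

end Crest.Agent.R300.LB
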