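import Crest.Agent.R300.LBLatB
import Crest.Agent.R300.LBLatU
import Crest.Agent.R300.LBChaos

/-! Row 300 lower bound: windows of the first lattice are close to pure powers. -/

set_option autoImplicit false

namespace Crest.Agent.R300.LB

open Finset

variable {M : Type*} [Monoid M] {q : ℝ} {Y : Bool → Alg M}

private theorem le_of_sq_le_sq' {a b : ℝ} (h : a ^ 2 ≤ b ^ 2) (hb : 0 ≤ b) : a ≤ b :=
  (le_abs_self a).trans (abs_le_of_sq_le_sq h hb)

theorem ev_po (R ξ : Alg M) (f : Polynomial ℝ) :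
    ev R (fun _ : Unit => ξ) (po f) = Polynomial.aeval R f := by
  rw [po, ← Polynomial.aeval_algHom_apply, ev_oo]

theorem ev_fV (h0 : 0 < q) (h1 : q ≤ 1 / 2) (Y : Bool → Alg M) (N g r g' : ℕ) :
    ev (uP q Y) (fun _ : Unit => uZ q Y) (fV q N g r g') = tV q Y N g r g' := by
  have hB : ev (uP q Y) (fun _ : Unit => uZ q Y) (fB q) = uB q Y := by
    rw [fB, map_add, map_smul, ev_po, ev_LL, aeval_apP h0 h1, uB_eq h0 h1]
  simp only [fV, tV, map_mul, map_pow, hB, ev_po, aeval_piP h0 h1]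

/-- `length_sum` with `p = 2`, `ω = 1/q` (`bes_single`, `bd_uZ_two`), `σ = q √((r+2) N)`,
`a = Λ(1/τ)/Λ(τ)` (`Λ = pureP.eval`, positive), `volterra` at `x = τ` and `x = τ⁻¹`, `pure_tilt`:
the square is at most `4σ · 2e² · 7056/(q³N) ≤ 56448 e² · 1e-8 ≤ 1/64`. -/
theorem window_pure (h0 : 0 < q) (h1 : q ≤ 1 / 2) (hY : ∀ b, Prob (Y b)) {N g r g' : ℕ}
    (hg : N ≤ 4 * (g + 1)) (hgN : g ≤ N) (hg' : N ≤ 4 * (g' + 1)) (hgN' : g' ≤ N)
    (hr : (r : ℝ) + 2 ≤ 1e-16 * q ^ 4 * N) :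
    ‖tV q Y N g r g' - Polynomial.aeval (uP q Y) (pureP q N g r g')‖ ≤ 1 / 8 := by
  have hr0 : (0 : ℝ) ≤ r := Nat.cast_nonneg r
  have hN0 : (0 : ℝ) ≤ N := Nat.cast_nonneg N
  have hq1 : q ≤ 1 := by linarith
  have hq2 : q ^ 4 * N ≤ q ^ 2 * N :=
    mul_le_mul_of_nonneg_right (pow_le_pow_of_le_one h0.le hq1 (by norm_num)) hN0
  have hq3 : q ^ 2 * N ≤ q * N :=
    mul_le_mul_of_nonneg_right (pow_le_of_le_one h0.le hq1 (by norm_num)) hN0
  have hq4 : 1 ≤ q ^ 4 * N := by nlinarith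
  have hN : (0 : ℝ) < N := by
    by_contra h
    rw [le_antisymm (not_lt.1 h) hN0] at hq4
    norm_num at hq4
  set σ : ℝ := q * √((r + 2) * N) with hσd
  have hσ2 : σ ^ 2 = q ^ 2 * ((r + 2) * N) := by
    rw [hσd, mul_pow, Real.sq_sqrt (by positivity)]
  have hσ0 : 0 ≤ σ := by positivity
  have hσ : 1 ≤ σ := by
    refine le_of_sq_le_sq' ?_ hσ0
    rw [hσ2]
    nlinarith
  have hσ3 : σ ≤ 1e-8 * (q ^ 3 * N) := by
    refine le_of_sq_le_sq' ?_ (by positivity)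
    rw [hσ2]
    have := mul_le_mul_of_nonneg_left hr (by positivity : 0 ≤ q ^ 2 * N)
    nlinarith
  have hτ1 : 1 ≤ 1 + 1 / σ := le_add_of_nonneg_right (by positivity)
  have hτ2 : 1 + 1 / σ ≤ 2 := by
    have := (div_le_one (by linarith)).2 hσ
    linarith
  have hΛ : ∀ x : ℝ, 0 < x → 0 < (pureP q N g r g').eval x := fun x hx => by
    have a1 : 0 < 1 - q := by linarith
    have a2 : 0 < 1 - q ^ 2 := by nlinarith
    simp only [pureP, piP, apP, Polynomial.eval_mul, Polynomial.eval_pow, Polynomial.eval_add,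
      Polynomial.eval_C, Polynomial.eval_X]
    positivity
  have hp1 := hΛ (1 + 1 / σ) (by linarith)
  have hp2 := hΛ (1 + 1 / σ)⁻¹ (by positivity)
  have v1 := volterra h0 h1 (x := 1 + 1 / σ) (by linarith) hτ2 hg hgN hg' hgN' hr
  have v2 := volterra h0 h1 (x := (1 + 1 / σ)⁻¹)
    (by rw [one_div]; exact inv_anti₀ (by linarith) hτ2)
    ((inv_le_one_of_one_le₀ hτ1).trans one_le_two) hg hgN hg' hgN' hr
  have ht : (pureP q N g r g').eval (1 + 1 / σ) * (pureP q N g r g').eval (1 + 1 / σ)⁻¹ ≤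
      Real.exp 2 := by
    refine pure_tilt h0 h1 hσ _ _ ?_
    have a1 : g + g' + r * (N - 1) ≤ (r + 2) * N := by
      have := Nat.mul_le_mul_left r (Nat.sub_le N 1)
      nlinarith
    have a2 : ((g + g' + r * (N - 1) : ℕ) : ℝ) ≤ (r + 2) * N := by exact_mod_cast a1
    have a3 := mul_le_mul_of_nonneg_left a2 (sq_nonneg q)
    have a4 : q * (r + 2) * 1 ≤ q * (r + 2) * (q * N) :=
      mul_le_mul_of_nonneg_left (by linarith) (by positivity)
    rw [hσ2]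
    push_cast [Nat.cast_add r 1] at a3 ⊢
    nlinarith
  have hL := length_sum (p := 2) even_two le_rfl (prob_uP h0 h1 hY)
    (bes_single one_le_two (mass_uZ h0 h1 hY) (bd_uZ_two h0 h1 hY)) hσ (div_pos hp2 hp1)
    (fV q N g r g' - po (pureP q N g r g'))
  have hω : (3 : ℝ) * (2 : ℕ) * √(1 / q) ^ 2 = 6 / q := by
    rw [Real.sq_sqrt (by positivity)]
    push_cast
    ring
  simp only [hω] at hL
  rw [map_sub, ev_fV h0 h1, ev_po] at hL
  change _ ≤ 4 * σ * (_ * nrm (wx (1 + 1 / σ) (6 / q)) _ ^ 2 +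
    _ * nrm (wx (1 + 1 / σ)⁻¹ (6 / q)) _ ^ 2) at hL
  set a := (pureP q N g r g').eval (1 + 1 / σ)
  set b := (pureP q N g r g').eval (1 + 1 / σ)⁻¹
  have he : Real.exp 2 ≤ 8 := by
    have := Real.exp_one_lt_d9
    have h2 := Real.exp_pos 1
    rw [show (2 : ℝ) = 1 + 1 by norm_num, Real.exp_add]
    nlinarith
  refine le_of_sq_le_sq' (hL.trans ?_) (by norm_num)
  have w1 := mul_le_mul_of_nonneg_left v1 (div_pos hp2 hp1).le
  have w2 := mul_le_mul_of_nonneg_left v2 (inv_pos.2 (div_pos hp2 hp1)).le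
  refine (mul_le_mul_of_nonneg_left (add_le_add w1 w2) (by positivity)).trans ?_
  have e : 4 * σ * (b / a * (7056 / (q ^ 3 * N) * a ^ 2) + (b / a)⁻¹ * (7056 / (q ^ 3 * N) * b ^ 2))
      = 56448 * (σ / (q ^ 3 * N)) * (a * b) := by
    field_simp
    ring
  have hs : σ / (q ^ 3 * N) ≤ 1e-8 := (div_le_iff₀ (by positivity)).2 hσ3
  rw [e]
  calc 56448 * (σ / (q ^ 3 * N)) * (a * b) ≤ 56448 * 1e-8 * 8 :=
        mul_le_mul (by linarith) (ht.trans he) (by positivity) (by norm_num)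
    _ ≤ (1 / 8) ^ 2 := by norm_num

/-- telescoping `A' → A`: with `M0 = g + g' + r (N-1)` each of the `r + 1` steps costs
`q/(1+q) ‖A^M0 (1-A)‖ ≤ 1/√(M0+1)`, and `M0 + 1 ≥ (r+1) N / 4` -/
theorem pure_pow (h0 : 0 < q) (h1 : q ≤ 1 / 2) (hY : ∀ b, Prob (Y b)) {N g r g' : ℕ}
    (hg : N ≤ 4 * (g + 1)) (hg' : N ≤ 4 * (g' + 1)) (hr : (r : ℝ) + 2 ≤ 1e-16 * q ^ 4 * N) :
    ‖Polynomial.aeval (uP q Y) (pureP q N g r g') - uA q Y ^ (g + g' + r * N + 1)‖ ≤ 1 / 8 := by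
  have hr0 : (0 : ℝ) ≤ r := Nat.cast_nonneg r
  have hN0 : (0 : ℝ) ≤ N := Nat.cast_nonneg N
  have hq1 : q ≤ 1 := by linarith
  have hq2 : q ^ 4 * N ≤ N := mul_le_of_le_one_left hN0 (pow_le_one₀ h0.le hq1)
  have hNr : 256 * ((r : ℝ) + 2) ≤ N := by linarith
  have hNr' : 256 * (r + 2) ≤ N := by exact_mod_cast hNr
  obtain ⟨n, rfl⟩ : ∃ n, N = n + 1 := ⟨N - 1, by omega⟩
  have hA := prob_uA h0 h1 hY
  have hA' : ‖Polynomial.aeval (uP q Y) (apP q)‖ ≤ 1 := by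
    simp only [apP, map_add, map_mul, Polynomial.aeval_C, Polynomial.aeval_X,
      Algebra.algebraMap_eq_smul_one, smul_mul_assoc, one_mul]
    refine (norm_add_le _ _).trans (le_of_eq ?_)
    rw [norm_smul, norm_smul, norm_one, (prob_uP h0 h1 hY).norm_eq, Real.norm_of_nonneg h0.le,
      Real.norm_of_nonneg (by linarith)]
    ring
  set m := g + g' + r * n with hm
  have hstep : ∀ k : ℕ, ‖uA q Y ^ m * Polynomial.aeval (uP q Y) (apP q) ^ k - uA q Y ^ (m + k)‖ ≤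
      k * (q * √(1 / q ^ 2 / (m + 1))) := by
    intro k
    induction k with
    | zero => simp
    | succ k ih =>
      have e : uA q Y ^ m * Polynomial.aeval (uP q Y) (apP q) ^ (k + 1) - uA q Y ^ (m + (k + 1)) =
          (uA q Y ^ m * Polynomial.aeval (uP q Y) (apP q) ^ k - uA q Y ^ (m + k)) *
            Polynomial.aeval (uP q Y) (apP q) +
            (q / (1 + q)) • (uA q Y ^ k * (uA q Y ^ m * (1 - uA q Y))) := by
        rw [sub_mul, pow_succ, mul_assoc, ← mul_assoc (uA q Y ^ k), ← pow_add, add_comm k m,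
          ← add_assoc m, pow_succ]
        nth_rewrite 5 [aeval_apP h0 h1]
        rw [mul_add, mul_smul_comm]
        abel
      rw [e]
      refine (norm_add_le _ _).trans ?_
      have a1 := (norm_mul_le _ _).trans (mul_le_mul ih hA' (norm_nonneg _) (by positivity))
      have a2 : ‖(q / (1 + q)) • (uA q Y ^ k * (uA q Y ^ m * (1 - uA q Y)))‖ ≤
          q * √(1 / q ^ 2 / (m + 1)) := by
        rw [norm_smul, Real.norm_of_nonneg (by positivity)]
        refine mul_le_mul (div_le_self h0.le (by linarith)) ((norm_mul_le _ _).trans ?_)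
          (norm_nonneg _) h0.le
        rw [(hA.pow k).norm_eq, one_mul]
        exact slip_uA h0 h1 hY m
      push_cast
      linarith
  have e : g + g' + r * (n + 1) + 1 = m + (r + 1) := by rw [hm]; ring
  rw [e, pureP, map_mul, map_pow, map_pow, aeval_piP h0 h1, Nat.add_sub_cancel]
  refine (hstep (r + 1)).trans (le_of_sq_le_sq' ?_ (by norm_num))
  have h3 : (64 : ℝ) * (r + 1) ^ 2 ≤ m + 1 := by
    have a1 : ((n + 1 : ℕ) : ℝ) ≤ ((4 * (g + 1) : ℕ) : ℝ) := Nat.cast_le.2 hg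
    have a2 : (0 : ℝ) ≤ g' := Nat.cast_nonneg g'
    rw [hm]
    push_cast at a1 hNr ⊢
    have a3 : (r : ℝ) * (64 * (r + 1)) ≤ r * n := mul_le_mul_of_nonneg_left (by linarith) hr0
    linarith
  rw [mul_pow, mul_pow, Real.sq_sqrt (by positivity)]
  have e2 : q ^ 2 * (1 / q ^ 2 / ((m : ℝ) + 1)) = 1 / (m + 1) := by field_simp
  rw [e2, mul_one_div, div_le_iff₀ (by positivity)]
  push_cast
  linarith

theorem lat_window (h0 : 0 < q) (h1 : q ≤ 1 / 2) (hY : ∀ b, Prob (Y b)) {N g r g' : ℕ}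
    (hg : N ≤ 4 * (g + 1)) (hgN : g ≤ N) (hg' : N ≤ 4 * (g' + 1)) (hgN' : g' ≤ N)
    (hr : (r : ℝ) + 2 ≤ 1e-16 * q ^ 4 * N) :
    ‖tV q Y N g r g' - uA q Y ^ (g + g' + r * N + 1)‖ ≤ 1 / 4 := by
  refine (norm_sub_le_norm_sub_add_norm_sub _ _ _).trans ((add_le_add
    (window_pure h0 h1 hY hg hgN hg' hgN' hr) (pure_pow h0 h1 hY hg hg' hr)).trans ?_)
  norm_num

end Crest.Agent.R300.LB
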