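import Crest.Agent.R300.LBDefs

/-! Row 300 lower bound: definitions for the first (critical) lattice.
The unit is `A = lett false * lett true = q² + (1-q²) A⁺`, the defect is
`B = lett true = A' + (1-q) ζ` with `A' = q + (1-q) A⁺`, `ζ = Y true - A⁺`. -/

set_option autoImplicit false

namespace Crest.Agent.R300.LB

open Finset

open Polynomial

/-- the unit as a polynomial in `A⁺` -/
noncomputable def piP (q : ℝ) : ℝ[X] := C (q ^ 2) + C (1 - q ^ 2) * X
/-- the pure part of the defect as a polynomial in `A⁺` -/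
noncomputable def apP (q : ℝ) : ℝ[X] := C q + C (1 - q) * X
/-- a gap with margin `g` and `d` skipped defects -/
noncomputable def gp (q : ℝ) (N g d : ℕ) : ℝ[X] := piP q ^ (g + d * (N - 1)) * apP q ^ d
/-- tilted inner product of polynomials -/
noncomputable def ipx (x : ℝ) (P Q : ℝ[X]) : ℝ :=
  ∑ n ∈ P.support, x ^ (2 * n) * (P.coeff n * Q.coeff n)
/-- local limit size of a gap -/
noncomputable def phi (q : ℝ) (N d : ℕ) : ℝ := 1 / (q * √((d + 1) * N))

/-- a polynomial in the reference letter -/
noncomputable def po (f : ℝ[X]) : Wd Unit := aeval (oo : Wd Unit) f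
/-- the formal defect -/
noncomputable def fB (q : ℝ) : Wd Unit := po (apP q) + (1 - q) • LL ()
/-- the formal window -/
noncomputable def fV (q : ℝ) (N g r g' : ℕ) : Wd Unit :=
  po (piP q) ^ g * (fB q * po (piP q) ^ (N - 1)) ^ r * fB q * po (piP q) ^ g'
/-- its pure part -/
noncomputable def pureP (q : ℝ) (N g r g' : ℕ) : ℝ[X] :=
  piP q ^ (g + g' + r * (N - 1)) * apP q ^ (r + 1)
/-- what follows a defect when `i` defects remain -/
noncomputable def fH (q : ℝ) (N g' i : ℕ) : Wd Unit :=
  (po (piP q) ^ (N - 1) * fB q) ^ i * po (piP q) ^ g'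
/-- tilted weights -/
noncomputable def wx (x ω : ℝ) : Option Unit → ℝ := fun l => x ^ 2 * wt1 (fun _ => ω) l

variable {M : Type*} [Monoid M]

/-- the unit law -/
noncomputable def uA (q : ℝ) (Y : Bool → Alg M) : Alg M := lett q Y false * lett q Y true
/-- the defect law -/
noncomputable def uB (q : ℝ) (Y : Bool → Alg M) : Alg M := lett q Y true
/-- the unit conditioned on a nonempty output -/
noncomputable def uP (q : ℝ) (Y : Bool → Alg M) : Alg M :=
  (1 / (1 - q ^ 2)) • (uA q Y - q ^ 2 • (1 : Alg M))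
/-- the mean zero part of the defect -/
noncomputable def uZ (q : ℝ) (Y : Bool → Alg M) : Alg M := Y true - uP q Y
/-- the true window -/
noncomputable def tV (q : ℝ) (Y : Bool → Alg M) (N g r g' : ℕ) : Alg M :=
  uA q Y ^ g * (uB q Y * uA q Y ^ (N - 1)) ^ r * uB q Y * uA q Y ^ g'

end Crest.Agent.R300.LB
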