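import Crest.Agent.R300.LBLp

/-! Row 300 lower bound: the one step martingale inequality in `L^p`, `p` even. -/

set_option autoImplicit false

namespace Crest.Agent.R300.LB

open Finset

theorem mart_moment {κ : Type*} (s : Finset κ) (ρ Z : κ → ℝ) (hρ : ∀ k ∈ s, 0 ≤ ρ k)
    (h1 : ∑ k ∈ s, ρ k = 1) {p : ℕ} {b : ℝ} (hb : 0 ≤ b) (hp : 1 ≤ p)
    (hZ : ∑ k ∈ s, ρ k * |Z k| ^ p ≤ b ^ p) {m : ℕ} (hm : m ≤ p) :
    ∑ k ∈ s, ρ k * |Z k| ^ m ≤ b ^ m := by
  rcases Nat.eq_zero_or_pos m with rfl | hm0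
  · simp [h1]
  have hm0' : (0 : ℝ) < m := by exact_mod_cast hm0
  have hq : (1 : ℝ) ≤ p / m := by
    rw [le_div_iff₀ hm0', one_mul]; exact_mod_cast hm
  have e : ∀ u : ℝ, 0 ≤ u → (u ^ m) ^ ((p : ℝ) / m) = u ^ p := fun u hu => by
    rw [← Real.rpow_natCast, ← Real.rpow_mul hu, mul_div_cancel₀ _ hm0'.ne', Real.rpow_natCast]
  have h2 := Real.rpow_arith_mean_le_arith_mean_rpow s ρ (fun k => |Z k| ^ m) hρ h1
    (fun k _ => by positivity) hq
  simp only [e _ (abs_nonneg _)] at h2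
  have h3 := h2.trans hZ
  rw [← e b hb] at h3
  exact (Real.rpow_le_rpow_iff
    (Finset.sum_nonneg fun k hk => mul_nonneg (hρ k hk) (by positivity)) (by positivity)
    (by linarith)).1 h3

theorem mart_taylor {A b : ℝ} (hA : 0 ≤ A) (hb : 0 ≤ b) (n : ℕ) :
    (A + b) ^ (n + 2) ≤ A ^ (n + 2) + (n + 2) * A ^ (n + 1) * b +
      (n + 2) * (n + 1) / 2 * b ^ 2 * (A + b) ^ n := by
  induction n with
  | zero => simp; nlinarith
  | succ n ih =>
    have h1 := mul_le_mul_of_nonneg_right ih (add_nonneg hA hb)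
    have h2 : A ^ (n + 1) ≤ (A + b) ^ (n + 1) := pow_le_pow_left₀ hA (by linarith) _
    have h3 : (n + 2 : ℝ) * b ^ 2 * A ^ (n + 1) ≤ (n + 2) * b ^ 2 * (A + b) ^ (n + 1) :=
      mul_le_mul_of_nonneg_left h2 (by positivity)
    push_cast
    calc (A + b) ^ (n + 1 + 2) = (A + b) ^ (n + 2) * (A + b) := by ring
      _ ≤ _ := h1
      _ = A ^ (n + 1 + 2) + (n + 1 + 2) * A ^ (n + 1 + 1) * b + ((n + 2) * b ^ 2 * A ^ (n + 1) +
          (n + 2) * (n + 1) / 2 * b ^ 2 * (A + b) ^ (n + 1)) := by ring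
      _ ≤ A ^ (n + 1 + 2) + (n + 1 + 2) * A ^ (n + 1 + 1) * b +
          ((n + 2) * b ^ 2 * (A + b) ^ (n + 1) +
          (n + 2) * (n + 1) / 2 * b ^ 2 * (A + b) ^ (n + 1)) := by linarith
      _ = _ := by ring

theorem mart_num {T : ℕ} (hT : 1 ≤ T) {A b : ℝ} (hA : 0 ≤ A) (hb : 0 ≤ b) :
    (b + A) ^ (2 * T) - b * A ^ (2 * T - 1) * (2 * T : ℕ) ≤
      (A ^ 2 + 3 * (2 * T : ℕ) * b ^ 2) ^ T := by
  obtain ⟨n, rfl⟩ : ∃ n, T = n + 1 := ⟨T - 1, by omega⟩
  have hp : (((2 * (n + 1) : ℕ) : ℝ)) = 2 * n + 2 := by push_cast; ring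
  rw [hp, add_comm b A]
  have hn : (0 : ℝ) ≤ n := Nat.cast_nonneg n
  rcases le_total ((2 * n + 2) * b) A with h | h
  · have h1 := mart_taylor hA hb (2 * n)
    have h2 := pow_add_mul_le_add_pow (a := A ^ 2) (b := 3 * (2 * n + 2) * b ^ 2) (sq_nonneg A)
      (by positivity) (n + 1)
    have h3 : (A + b) ^ (2 * n) ≤ 3 * A ^ (2 * n) := by
      have hp0 : (0 : ℝ) < 2 * n + 2 := by positivity
      have h4 : A + b ≤ A * Real.exp (1 / (2 * n + 2)) := by
        have h5 := Real.add_one_le_exp (1 / (2 * n + 2) : ℝ)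
        have h6 : b ≤ A * (1 / (2 * n + 2)) := by
          rw [mul_one_div, le_div_iff₀ hp0]; linarith
        nlinarith
      have h7 : Real.exp (1 / (2 * n + 2)) ^ (2 * n) ≤ 3 := by
        rw [← Real.exp_nat_mul]
        refine le_trans (Real.exp_le_exp.2 (show _ ≤ (1 : ℝ) from ?_))
          (Real.exp_one_lt_d9.le.trans (by norm_num))
        rw [mul_one_div, div_le_one hp0]; push_cast; linarith
      calc (A + b) ^ (2 * n) ≤ (A * Real.exp (1 / (2 * n + 2))) ^ (2 * n) :=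
            pow_le_pow_left₀ (by positivity) h4 _
        _ = A ^ (2 * n) * Real.exp (1 / (2 * n + 2)) ^ (2 * n) := mul_pow _ _ _
        _ ≤ A ^ (2 * n) * 3 := mul_le_mul_of_nonneg_left h7 (by positivity)
        _ = _ := mul_comm _ _
    have h8 : ((2 * n : ℕ) + 2 : ℝ) * ((2 * n : ℕ) + 1) / 2 * b ^ 2 * (A + b) ^ (2 * n) ≤
        ((2 * n : ℕ) + 2 : ℝ) * ((2 * n : ℕ) + 1) / 2 * b ^ 2 * (3 * A ^ (2 * n)) :=
      mul_le_mul_of_nonneg_left h3 (by positivity)
    refine le_trans ?_ h2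
    have e1 : 2 * (n + 1) = 2 * n + 2 := by ring
    have e2 : 2 * n + 2 - 1 = 2 * n + 1 := by omega
    rw [e1, e2, Nat.add_sub_cancel, ← pow_mul, ← pow_mul, e1]
    push_cast at h1 h8 ⊢
    have h9 : 0 ≤ (n + 1 : ℝ) * b ^ 2 * A ^ (2 * n) := by positivity
    nlinarith
  · have h1 : (A + b) ^ 2 ≤ A ^ 2 + 3 * (2 * n + 2) * b ^ 2 := by nlinarith
    have h2 := pow_le_pow_left₀ (sq_nonneg _) h1 (n + 1)
    rw [← pow_mul] at h2
    have h3 : 0 ≤ b * A ^ (2 * (n + 1) - 1) * (2 * n + 2) := by positivity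
    linarith

/-- `‖a + Z‖_p² ≤ a² + 3p ‖Z‖_p²` for mean zero `Z`.  Plan (`p = 2T`): binomial expansion,
`|E Z^k| ≤ b^k` (Jensen), the `k = 1` term vanishes, so the left side is at most
`(|a|+b)^p - p|a|^(p-1) b ≤ |a|^p + C(p,2) b² (|a|+b)^(p-2)`.  If `p b ≤ |a|` use
`(1+1/p)^(p-2) ≤ e < 3` and Bernoulli `(a²+x)^T ≥ a^(2T) + T a^(2T-2) x`; if `|a| ≤ p b` use
`(|a|+b)² ≤ a² + (2p+1) b²`. -/
theorem two_point {κ : Type*} (s : Finset κ) (ρ Z : κ → ℝ) (hρ : ∀ k ∈ s, 0 ≤ ρ k)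
    (h1 : ∑ k ∈ s, ρ k = 1) (h0 : ∑ k ∈ s, ρ k * Z k = 0) (T : ℕ) (hT : 1 ≤ T) (a b : ℝ)
    (hb : 0 ≤ b) (hZ : ∑ k ∈ s, ρ k * |Z k| ^ (2 * T) ≤ b ^ (2 * T)) :
    ∑ k ∈ s, ρ k * |a + Z k| ^ (2 * T) ≤ (a ^ 2 + 3 * (2 * T : ℕ) * b ^ 2) ^ T := by
  have hev : Even (2 * T) := even_two_mul T
  have e1 : ∑ k ∈ s, ρ k * |a + Z k| ^ (2 * T) =
      ∑ m ∈ range (2 * T + 1), (∑ k ∈ s, ρ k * Z k ^ m) * a ^ (2 * T - m) * (2 * T).choose m := by
    simp only [hev.pow_abs, Finset.sum_mul]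
    rw [Finset.sum_comm]
    refine Finset.sum_congr rfl fun k _ => ?_
    rw [add_comm a, add_pow, Finset.mul_sum]
    exact Finset.sum_congr rfl fun m _ => by ring
  have e2 : ∀ m ∈ range (2 * T + 1),
      (∑ k ∈ s, ρ k * Z k ^ m) * a ^ (2 * T - m) * ((2 * T).choose m : ℝ) ≤
        b ^ m * |a| ^ (2 * T - m) * (2 * T).choose m -
          if m = 1 then b * |a| ^ (2 * T - 1) * (2 * T : ℕ) else 0 := by
    intro m hm
    split_ifs with h
    · subst h
      simp only [pow_one, h0, zero_mul, Nat.choose_one_right, sub_self, le_refl]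
    · rw [sub_zero]
      refine mul_le_mul_of_nonneg_right ?_ (Nat.cast_nonneg _)
      refine (le_abs_self _).trans ?_
      rw [abs_mul, abs_pow]
      refine mul_le_mul_of_nonneg_right ?_ (by positivity)
      refine (Finset.abs_sum_le_sum_abs _ _).trans ?_
      refine le_trans (le_of_eq ?_) (mart_moment s ρ Z hρ h1 hb (by omega) hZ
        (m := m) (by have := Finset.mem_range.1 hm; omega))
      exact Finset.sum_congr rfl fun k hk => by rw [abs_mul, abs_pow, abs_of_nonneg (hρ k hk)]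
  rw [e1]
  refine (Finset.sum_le_sum e2).trans ?_
  rw [Finset.sum_sub_distrib, ← add_pow, Finset.sum_ite_eq', if_pos (Finset.mem_range.2 (by omega)),
    ← sq_abs a]
  exact mart_num hT (abs_nonneg a) hb

theorem mart_supp {M : Type*} {R F : Alg M} {g : M → ℝ} (h : ∀ w, F.coeff w = g w * R.coeff w) :
    F.coeff.support ⊆ R.coeff.support := fun w hw => by
  rw [Finsupp.mem_support_iff] at hw ⊢
  intro h0
  exact hw (by rw [h, h0, mul_zero])

theorem mart_dens {M : Type*} (R : Alg M) (g : M → ℝ) :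
    ∃ F : Alg M, ∀ w, F.coeff w = g w * R.coeff w :=
  ⟨MonoidAlgebra.ofCoeff (Finsupp.onFinset R.coeff.support (fun w => g w * R.coeff w)
    fun _ hw => Finsupp.mem_support_iff.2 (right_ne_zero_of_mul hw)), fun _ => rfl⟩

theorem mart_extract {M : Type*} {p : ℕ} {R F : Alg M} {g : M → ℝ} {β : ℝ}
    (h : ∀ w, F.coeff w = g w * R.coeff w) (hF : Bd p R F β) :
    ∑ w ∈ R.coeff.support, R.coeff w * |g w| ^ p ≤ β ^ p := by
  obtain ⟨-, y, hy, hy'⟩ := hF
  refine le_trans (le_of_eq (Finset.sum_congr rfl fun w hw => ?_)) hy'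
  rw [mul_right_cancel₀ (Finsupp.mem_support_iff.1 hw) ((h w).symm.trans (hy w))]

theorem mart_single_sum {M κ : Type*} (m : M) (s : Finset κ) (c : κ → ℝ) :
    (MonoidAlgebra.single m (∑ a ∈ s, c a) : Alg M) = ∑ a ∈ s, MonoidAlgebra.single m (c a) :=
  map_sum (MonoidAlgebra.singleAddHom m : ℝ →+ Alg M) c s

theorem mart_eq_sum {M : Type*} (F : Alg M) {S : Finset M} (h : F.coeff.support ⊆ S) :
    F = ∑ w ∈ S, MonoidAlgebra.single w (F.coeff w) := by
  conv_lhs => rw [← MonoidAlgebra.sum_coeff_single F]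
  exact Finsupp.sum_of_support_subset _ h _ fun w _ => MonoidAlgebra.single_zero w

variable {M : Type*} [Monoid M]

theorem mart_mul (F G : Alg M) {S' S : Finset M} (hF : F.coeff.support ⊆ S')
    (hG : G.coeff.support ⊆ S) :
    F * G = ∑ k ∈ S' ×ˢ S, MonoidAlgebra.single (k.1 * k.2) (F.coeff k.1 * G.coeff k.2) := by
  conv_lhs => rw [mart_eq_sum F hF, mart_eq_sum G hG]
  rw [Finset.sum_mul_sum, Finset.sum_product]
  simp only [MonoidAlgebra.single_mul_single]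

/-- One step.  Work on the product of the supports of `R'` and `R` with the density
`y0 w + ∑_a x_a w' * y_a w` (on the support of `R'` the density of `∑ c_a ξ_a` is
`∑ c_a x_a`, `x_a` the density of `ξ a`); apply `two_point` in `w'` for fixed `w` with
`b² = ∑ y_a(w)² ω_a`, then Minkowski in `L^T` (`p = 2T`) in `w`, then `bd_push` along the
multiplication. -/
theorem bd_step {ι : Type*} {p : ℕ} (hp : Even p) (hp2 : 2 ≤ p) {R' R : Alg M} (hR' : Prob R')
    (hR : Prob R) {ξ : ι → Alg M} {ω : ι → ℝ} (hξ : Bes p R' ξ ω) {f0 : Alg M} {β0 : ℝ}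
    (h0 : Bd p R f0 β0) (s : Finset ι) (f : ι → Alg M) (β : ι → ℝ)
    (h : ∀ a ∈ s, Bd p R (f a) (β a)) :
    Bd p (R' * R) (R' * f0 + ∑ a ∈ s, ξ a * f a)
      √(β0 ^ 2 + ∑ a ∈ s, 3 * p * ω a * β a ^ 2) := by
  classical
  obtain ⟨T, rfl⟩ : ∃ T, p = 2 * T := ⟨p / 2, by obtain ⟨r, hr⟩ := hp; omega⟩
  have hT : 1 ≤ T := by omega
  obtain ⟨hβ0, y0, hy0, hy0'⟩ := h0
  choose! y hy hy' using fun a ha => (h a ha).2
  choose x hx _ using fun a => (hξ.bd a).2
  set S' := R'.coeff.support with hS'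
  set S := R.coeff.support with hS
  have hω := hξ.2.1
  have hB0 : 0 ≤ β0 ^ 2 + ∑ a ∈ s, 3 * ((2 * T : ℕ) : ℝ) * ω a * β a ^ 2 :=
    add_nonneg (sq_nonneg _) (Finset.sum_nonneg fun a _ => by have := hω a; positivity)
  have key := bd_push (p := 2 * T) (by omega) (S' ×ˢ S) (fun k : M × M => k.1 * k.2)
    (fun k => R'.coeff k.1 * R.coeff k.2) (fun k => y0 k.2 + ∑ a ∈ s, x a k.1 * y a k.2)
    (fun k _ => mul_nonneg (hR'.1 _) (hR.1 _)) (Real.sqrt_nonneg _)
    (β := √(β0 ^ 2 + ∑ a ∈ s, 3 * ((2 * T : ℕ) : ℝ) * ω a * β a ^ 2)) ?_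
  · convert key using 1
    · exact mart_mul _ _ subset_rfl subset_rfl
    · rw [mart_mul R' f0 subset_rfl (mart_supp hy0),
        Finset.sum_congr rfl fun a ha => mart_mul (ξ a) (f a) (mart_supp (hx a)) (mart_supp (hy a ha)),
        Finset.sum_comm, ← Finset.sum_add_distrib]
      refine Finset.sum_congr rfl fun k _ => ?_
      rw [mul_add, MonoidAlgebra.single_add, Finset.mul_sum, mart_single_sum, hy0]
      congr 1
      · congr 1; ring
      · refine Finset.sum_congr rfl fun a ha => ?_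
        rw [hx, hy a ha]
        congr 1; ring
  · have step : ∀ w, ∑ w' ∈ S', R'.coeff w' * |y0 w + ∑ a ∈ s, x a w' * y a w| ^ (2 * T) ≤
        (y0 w ^ 2 + ∑ a ∈ s, 3 * ((2 * T : ℕ) : ℝ) * ω a * y a w ^ 2) ^ T := by
      intro w
      have hb0 : 0 ≤ ∑ a ∈ s, y a w ^ 2 * ω a :=
        Finset.sum_nonneg fun a _ => mul_nonneg (sq_nonneg _) (hω a)
      have h1 := two_point S' (fun w' => R'.coeff w') (fun w' => ∑ a ∈ s, x a w' * y a w)
        (fun k _ => hR'.1 k) hR'.sum_coeff ?_ T hT (y0 w) √(∑ a ∈ s, y a w ^ 2 * ω a)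
        (Real.sqrt_nonneg _) ?_
      · refine h1.trans (le_of_eq ?_)
        rw [Real.sq_sqrt hb0, Finset.mul_sum]
        congr 2
        exact Finset.sum_congr rfl fun a _ => by ring
      · simp only [Finset.mul_sum]
        rw [Finset.sum_comm]
        refine Finset.sum_eq_zero fun a _ => ?_
        have h2 := hξ.1 a
        rw [mass_eq_sum _ (mart_supp (hx a))] at h2
        calc ∑ w' ∈ S', R'.coeff w' * (x a w' * y a w)
            = (∑ w' ∈ S', (ξ a).coeff w') * y a w := by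
              rw [Finset.sum_mul]
              exact Finset.sum_congr rfl fun w' _ => by rw [hx]; ring
          _ = 0 := by rw [h2, zero_mul]
      · refine mart_extract (fun w' => ?_) (hξ.2.2 s fun a => y a w)
        rw [MonoidAlgebra.coeff_sum, Finsupp.finset_sum_apply, Finset.sum_mul]
        refine Finset.sum_congr rfl fun a _ => ?_
        rw [MonoidAlgebra.coeff_smul_apply, hx, smul_eq_mul]
        ring
    obtain ⟨F0, hF0⟩ := mart_dens R fun w => y0 w ^ 2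
    choose G hG using fun a => mart_dens R fun w => y a w ^ 2
    have sq : ∀ {F : Alg M} {u : M → ℝ} {γ : ℝ}, (∀ w, F.coeff w = u w ^ 2 * R.coeff w) →
        ∑ w ∈ S, R.coeff w * |u w| ^ (2 * T) ≤ γ ^ (2 * T) → Bd T R F (γ ^ 2) := by
      intro F u γ h1 h2
      refine ⟨sq_nonneg _, fun w => u w ^ 2, h1, ?_⟩
      simpa only [abs_pow, ← pow_mul] using h2
    have hc : ∀ a, 0 ≤ 3 * ((2 * T : ℕ) : ℝ) * ω a := fun a => by have := hω a; positivity
    have h1 := (sq hF0 hy0').add hT hR.1 (Bd.sum hT hR.1 s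
      (fun a => (3 * ((2 * T : ℕ) : ℝ) * ω a) • G a) _
      fun a ha => (sq (hG a) (hy' a ha)).smul _)
    have h2 := mart_extract (g := fun w => y0 w ^ 2 + ∑ a ∈ s, 3 * ((2 * T : ℕ) : ℝ) * ω a * y a w ^ 2)
      (fun w => by
        rw [MonoidAlgebra.coeff_add, Finsupp.add_apply, MonoidAlgebra.coeff_sum,
          Finsupp.finset_sum_apply, add_mul, Finset.sum_mul, hF0]
        congr 1
        refine Finset.sum_congr rfl fun a _ => ?_
        rw [MonoidAlgebra.coeff_smul_apply, hG, smul_eq_mul]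
        ring) h1
    rw [pow_mul √_, Real.sq_sqrt hB0, Finset.sum_product_right]
    simp only [abs_of_nonneg (hc _)] at h2
    refine le_trans (Finset.sum_le_sum fun w _ => ?_) h2
    calc ∑ w' ∈ S', R'.coeff w' * R.coeff w * |y0 w + ∑ a ∈ s, x a w' * y a w| ^ (2 * T)
        = R.coeff w * ∑ w' ∈ S', R'.coeff w' * |y0 w + ∑ a ∈ s, x a w' * y a w| ^ (2 * T) := by
          rw [Finset.mul_sum]
          exact Finset.sum_congr rfl fun w' _ => by ring
      _ ≤ _ := mul_le_mul_of_nonneg_left ((step w).trans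
          (by rw [← abs_pow]; exact le_abs_self _)) (hR.1 w)

end Crest.Agent.R300.LB
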