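import Crest.Agent.R300.LBDefs

/-! Row 300 lower bound: two patterns with equal moments (pigeonhole). -/

set_option autoImplicit false

namespace Crest.Agent.R300.LB

open Finset

open Polynomial

theorem patPoly_coeff (t : ℕ) (U V : ℕ → Bool) (i : ℕ) :
    (patPoly t U V).coeff i =
      if i < t then (if V i then (1 : ℝ) else 0) - (if U i then 1 else 0) else 0 := by
  simp only [patPoly, finsetSum_coeff, coeff_monomial]
  rw [Finset.sum_ite_eq' (range t) i]
  simp only [Finset.mem_range]

theorem patPoly_natDegree (t : ℕ) (U V : ℕ → Bool) : (patPoly t U V).natDegree ≤ t - 1 := by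
  rw [natDegree_le_iff_coeff_eq_zero]
  intro N hN
  rw [patPoly_coeff, if_neg (by omega)]

theorem patPoly_abs_le (t : ℕ) (U V : ℕ → Bool) (i : ℕ) : |(patPoly t U V).coeff i| ≤ 1 := by
  rw [patPoly_coeff]
  split_ifs <;> norm_num

/-- Pigeonhole: the map from subsets `U` of `range t` to `(∑_{i ∈ U} C(i,j))_{j<T}` takes at most
`(t^T + 1)^T < 2^t` values (`t = 16 T³`); equal values mean that the first `T` Taylor
coefficients at `1` of the difference vanish (`Polynomial.taylor_coeff`, `hasseDeriv`,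
`X_pow_dvd_iff`). -/
theorem exists_pattern {T : ℕ} (hT : 1 ≤ T) :
    ∃ U V : ℕ → Bool, (∃ i < tt T, U i ≠ V i) ∧ (X - 1 : ℝ[X]) ^ T ∣ patPoly (tt T) U V := by
  classical
  set t := tt T with ht
  set m := (4 + 3 * T) * T + 1 with hm
  have ht1 : 1 ≤ t := by
    have : 1 ≤ T ^ 3 := Nat.one_le_pow _ _ hT
    rw [ht, tt]; omega
  have ht2 : t ≤ 2 ^ (4 + 3 * T) := by
    have h1 : T ^ 3 ≤ (2 ^ T) ^ 3 := Nat.pow_le_pow_left Nat.lt_two_pow_self.le 3
    rw [ht, tt, pow_add, mul_comm 3 T, pow_mul]
    omega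
  have ht3 : t ^ T < 2 ^ m := by
    calc t ^ T ≤ (2 ^ (4 + 3 * T)) ^ T := Nat.pow_le_pow_left ht2 T
      _ = 2 ^ ((4 + 3 * T) * T) := by rw [← pow_mul]
      _ < 2 ^ m := Nat.pow_lt_pow_right (by norm_num) (by omega)
  have hcard : (Fintype.piFinset fun _ : Fin T => range (2 ^ m)).card <
      (range t).powerset.card := by
    rw [Fintype.card_piFinset, Finset.card_powerset]
    simp only [card_range, prod_const, card_univ, Fintype.card_fin]
    rw [← pow_mul]
    refine Nat.pow_lt_pow_right (by norm_num) ?_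
    rw [hm, ht, tt]
    have h1 : T ≤ T * T := Nat.le_mul_self T
    have h2 : T * T ≤ T * T * T := Nat.le_mul_of_pos_right _ hT
    nlinarith
  obtain ⟨A, hA, B, hB, hne, heq⟩ := Finset.exists_ne_map_eq_of_card_lt_of_maps_to hcard
    (f := fun A (j : Fin T) => ∑ i ∈ A, i.choose j) (by
      intro A hA
      have hA' : A ⊆ range t := Finset.mem_powerset.1 hA
      simp only [Finset.mem_coe, Fintype.mem_piFinset, mem_range]
      intro j
      refine lt_of_le_of_lt ?_ ht3
      calc ∑ i ∈ A, i.choose j ≤ ∑ i ∈ range t, i.choose j :=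
            Finset.sum_le_sum_of_subset hA'
        _ ≤ ∑ _i ∈ range t, t ^ (j : ℕ) := Finset.sum_le_sum fun i hi =>
            (Nat.choose_le_pow i j).trans (Nat.pow_le_pow_left (mem_range.1 hi).le _)
        _ = t ^ ((j : ℕ) + 1) := by rw [sum_const, card_range, smul_eq_mul, pow_succ']
        _ ≤ t ^ T := Nat.pow_le_pow_right ht1 j.2)
  have hA' : A ⊆ range t := Finset.mem_powerset.1 hA
  have hB' : B ⊆ range t := Finset.mem_powerset.1 hB
  refine ⟨fun i => decide (i ∈ A), fun i => decide (i ∈ B), ?_, ?_⟩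
  · by_contra hcon
    push Not at hcon
    refine hne (Finset.ext fun i => ?_)
    by_cases hi : i < t
    · simpa using hcon i hi
    · exact ⟨fun h => absurd (mem_range.1 (hA' h)) hi, fun h => absurd (mem_range.1 (hB' h)) hi⟩
  · set p := patPoly t (fun i => decide (i ∈ A)) (fun i => decide (i ∈ B)) with hp
    have h1 : (X : ℝ[X]) ^ T ∣ taylor 1 p := by
      rw [X_pow_dvd_iff]
      intro j hj
      have h2 : ∀ C : Finset ℕ, C ⊆ range t →
          ∑ i ∈ range t, (if i ∈ C then (1 : ℝ) else 0) * (i.choose j : ℝ) =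
            ((∑ i ∈ C, i.choose j : ℕ) : ℝ) := by
        intro C hC
        simp only [ite_mul, one_mul, zero_mul]
        rw [Finset.sum_ite_mem, Finset.inter_eq_right.2 hC, Nat.cast_sum]
      have h3 := congrFun heq ⟨j, hj⟩
      simp only at h3
      simp only [hp, patPoly, map_sum, taylor_monomial, finsetSum_coeff, coeff_C_mul, map_one,
        coeff_X_add_one_pow, decide_eq_true_eq, sub_mul]
      rw [Finset.sum_sub_distrib, h2 A hA', h2 B hB', h3, sub_self]
    obtain ⟨q, hq⟩ := h1
    refine ⟨taylor (-1) q, ?_⟩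
    have h4 : p = taylor (-1) (taylor 1 p) := by
      rw [taylor_taylor, neg_add_cancel, taylor_zero]
    rw [h4, hq, taylor_mul, taylor_pow, taylor_X, map_neg, map_one, sub_eq_add_neg]

end Crest.Agent.R300.LB
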