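import Crest.Agent.R300.LB1

/-! Row 300 lower bound: renewal sequences in a (normed) ring. -/

set_option autoImplicit false

namespace Crest.Agent.R300.LB

open Finset

section ring
variable {𝔸 𝔹 : Type*} [Ring 𝔸] [Ring 𝔹]

open PowerSeries in
theorem lbres_conv1 (A B : PowerSeries 𝔸) (n : ℕ) :
    coeff n (A * B) = ∑ r ∈ range (n + 1), coeff r A * coeff (n - r) B := by
  rw [coeff_mul, Finset.Nat.sum_antidiagonal_eq_sum_range_succ_mk]

open PowerSeries in
theorem lbres_conv2 (A B : PowerSeries 𝔸) (n : ℕ) :
    coeff n (A * B) = ∑ r ∈ range (n + 1), coeff (n - r) A * coeff r B := by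
  rw [coeff_mul, ← Finset.Nat.sum_antidiagonal_swap,
    Finset.Nat.sum_antidiagonal_eq_sum_range_succ_mk]
  rfl

open PowerSeries in
theorem lbres_right (Λ : ℕ → 𝔸) : PowerSeries.mk (ren Λ) * (1 - X * PowerSeries.mk Λ) = 1 := by
  have h : PowerSeries.mk (ren Λ) = 1 + X * (PowerSeries.mk (ren Λ) * PowerSeries.mk Λ) := by
    ext n
    cases n with
    | zero => simp [ren_zero]
    | succ n =>
      rw [map_add, coeff_succ_X_mul, lbres_conv2, coeff_one, if_neg (Nat.succ_ne_zero n), zero_add]
      simp only [coeff_mk]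
      exact ren_succ Λ n
  rw [mul_sub, mul_one, ← mul_assoc, (commute_X (PowerSeries.mk (ren Λ))).eq, mul_assoc]
  exact sub_eq_iff_eq_add.2 h

open PowerSeries in
theorem lbres_left (Λ : ℕ → 𝔸) : (1 - X * PowerSeries.mk Λ) * PowerSeries.mk (ren Λ) = 1 := by
  set Z : PowerSeries 𝔸 := PowerSeries.mk fun n => (ren (fun r => MulOpposite.op (Λ r)) n).unop with hZ
  have h : Z = 1 + X * (PowerSeries.mk Λ * Z) := by
    ext n
    cases n with
    | zero => simp [hZ, ren_zero]
    | succ n =>
      rw [map_add, coeff_succ_X_mul, lbres_conv1, coeff_one, if_neg (Nat.succ_ne_zero n), zero_add]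
      simp only [hZ, coeff_mk]
      rw [ren_succ, Finset.unop_sum]
      simp
  have h2 : (1 - X * PowerSeries.mk Λ) * Z = 1 := by
    rw [sub_mul, one_mul, mul_assoc]
    exact sub_eq_iff_eq_add.2 h
  have h3 : PowerSeries.mk (ren Λ) = Z := by
    rw [← mul_one (PowerSeries.mk (ren Λ)), ← h2, ← mul_assoc, lbres_right, one_mul]
  rw [h3, h2]

theorem ren_map {F : Type*} [FunLike F 𝔸 𝔹] [RingHomClass F 𝔸 𝔹] (f : F) (Λ : ℕ → 𝔸) (n : ℕ) :
    f (ren Λ n) = ren (fun r => f (Λ r)) n := by
  induction n using Nat.strong_induction_on with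
  | _ n ih =>
    cases n with
    | zero => rw [ren_zero, ren_zero, map_one]
    | succ n =>
      rw [ren_succ, ren_succ, map_sum]
      refine Finset.sum_congr rfl fun r _ => ?_
      rw [map_mul, ih (n - r) (by omega)]

/-- the recursion also holds on the left (one sided inverses of power series with constant
term one agree; or strong induction with `Finset.sum_sigma'`/`sum_comm` on antidiagonals) -/
theorem ren_succ' (Λ : ℕ → 𝔸) (n : ℕ) :
    ren Λ (n + 1) = ∑ r ∈ range (n + 1), Λ r * ren Λ (n - r) := by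
  have h := congrArg (PowerSeries.coeff (n + 1)) (lbres_left Λ)
  rw [sub_mul, one_mul, mul_assoc, map_sub, PowerSeries.coeff_succ_X_mul, lbres_conv1,
    PowerSeries.coeff_one, if_neg (Nat.succ_ne_zero n), sub_eq_zero] at h
  simpa only [PowerSeries.coeff_mk] using h

/-- decomposition by the last factor `P` -/
theorem pow_add_left_decomp (P G : 𝔸) (n : ℕ) :
    (P + G) ^ n = G ^ n + ∑ i ∈ range n, (P + G) ^ (n - 1 - i) * P * G ^ i := by
  induction n with
  | zero => simp
  | succ n ih =>
    have e : ∑ i ∈ range n, (P + G) ^ (n + 1 - 1 - (i + 1)) * P * G ^ (i + 1) =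
        (∑ i ∈ range n, (P + G) ^ (n - 1 - i) * P * G ^ i) * G := by
      rw [Finset.sum_mul]
      refine Finset.sum_congr rfl fun i _ => ?_
      rw [show n + 1 - 1 - (i + 1) = n - 1 - i by omega, pow_succ, mul_assoc _ (G ^ i)]
    rw [Finset.sum_range_succ', e, ← add_assoc, pow_succ G, ← add_mul, ← ih, pow_succ, mul_add,
      add_comm]
    simp

/-- decomposition by the first factor `P` -/
theorem pow_add_right_decomp (P G : 𝔸) (n : ℕ) :
    (P + G) ^ n = G ^ n + ∑ i ∈ range n, G ^ i * P * (P + G) ^ (n - 1 - i) := by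
  induction n with
  | zero => simp
  | succ n ih =>
    have e : ∑ i ∈ range n, G ^ (i + 1) * P * (P + G) ^ (n + 1 - 1 - (i + 1)) =
        G * ∑ i ∈ range n, G ^ i * P * (P + G) ^ (n - 1 - i) := by
      rw [Finset.mul_sum]
      refine Finset.sum_congr rfl fun i _ => ?_
      rw [show n + 1 - 1 - (i + 1) = n - 1 - i by omega, pow_succ', mul_assoc G, mul_assoc G]
    rw [Finset.sum_range_succ', e, ← add_assoc, pow_succ' G, ← mul_add, ← ih, pow_succ', add_mul,
      add_comm]
    simp

theorem ren_exact (H G : 𝔸) (n : ℕ) :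
    ren (fun r => H * G ^ r * H) (n + 1) = H * (H * H + G) ^ n * H := by
  induction n using Nat.strong_induction_on with
  | _ n ih =>
    rw [ren_succ, Finset.sum_range_succ, Nat.sub_self, ren_zero, one_mul, pow_add_left_decomp,
      mul_add, add_mul, add_comm, Finset.mul_sum, Finset.sum_mul]
    congr 1
    refine Finset.sum_congr rfl fun i hi => ?_
    have hi' := Finset.mem_range.1 hi
    rw [show n - i = (n - 1 - i) + 1 by omega, ih _ (by omega)]
    simp only [mul_assoc]

theorem left_exact (H G : 𝔸) (m : ℕ) :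
    (H * H + G) ^ m * H =
      ∑ k ∈ range (m + 1), G ^ k * H * ren (fun r => H * G ^ r * H) (m - k) := by
  rw [Finset.sum_range_succ, Nat.sub_self, ren_zero, mul_one, pow_add_right_decomp, add_mul,
    add_comm, Finset.sum_mul]
  congr 1
  refine Finset.sum_congr rfl fun i hi => ?_
  have hi' := Finset.mem_range.1 hi
  rw [show m - i = (m - 1 - i) + 1 by omega, ren_exact]
  simp only [mul_assoc]

theorem right_exact (H G : 𝔸) (m : ℕ) :
    H * (H * H + G) ^ m =
      ∑ k ∈ range (m + 1), ren (fun r => H * G ^ r * H) (m - k) * H * G ^ k := by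
  rw [Finset.sum_range_succ, Nat.sub_self, ren_zero, one_mul, pow_add_left_decomp, mul_add,
    add_comm, Finset.mul_sum]
  congr 1
  refine Finset.sum_congr rfl fun i hi => ?_
  have hi' := Finset.mem_range.1 hi
  rw [show m - i = (m - 1 - i) + 1 by omega, ren_exact]
  simp only [mul_assoc]

/-- resolvent identity `Ỹ - Y = Y (Λ̃ - Λ) Ỹ` -/
theorem ren_sub (Λ Λ' : ℕ → 𝔸) (n : ℕ) :
    ren Λ (n + 1) - ren Λ' (n + 1) =
      ∑ j ∈ range (n + 1), ∑ r ∈ range (j + 1),
        ren Λ' (j - r) * (Λ r - Λ' r) * ren Λ (n - j) := by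
  have h : PowerSeries.mk (ren Λ) - PowerSeries.mk (ren Λ') = PowerSeries.X *
      (PowerSeries.mk (ren Λ') * (PowerSeries.mk Λ - PowerSeries.mk Λ') *
        PowerSeries.mk (ren Λ)) := by
    have h1 := lbres_left Λ
    have h2 := lbres_right Λ'
    have h3 := (PowerSeries.commute_X (PowerSeries.mk (ren Λ'))).eq
    set Y := PowerSeries.mk (ren Λ)
    set Y' := PowerSeries.mk (ren Λ')
    set L := PowerSeries.mk Λ
    set L' := PowerSeries.mk Λ'
    calc Y - Y' = Y' * (1 - PowerSeries.X * L') * Y - Y' * ((1 - PowerSeries.X * L) * Y) := by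
          rw [h1, h2, one_mul, mul_one]
      _ = Y' * PowerSeries.X * (L - L') * Y := by noncomm_ring
      _ = _ := by rw [h3]; simp only [mul_assoc]
  have h4 := congrArg (PowerSeries.coeff (n + 1)) h
  rw [map_sub, PowerSeries.coeff_succ_X_mul, lbres_conv1] at h4
  simp only [lbres_conv2, PowerSeries.coeff_mk, map_sub, Finset.sum_mul] at h4
  exact h4

end ring

theorem ren_perturb {𝔸 : Type*} [NormedRing 𝔸] (Λ Λ' : ℕ → 𝔸) (n : ℕ) {ε : ℝ} (hε : 0 ≤ ε)
    (h1 : ∀ i < n, ‖ren Λ i‖ ≤ 1) (h2 : ∀ i < n, ‖ren Λ' i‖ ≤ 2)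
    (h : ∀ r < n, ‖Λ r - Λ' r‖ ≤ ε) : ‖ren Λ n - ren Λ' n‖ ≤ 2 * n ^ 2 * ε := by
  cases n with
  | zero => simp [ren_zero]
  | succ n =>
    rw [ren_sub]
    calc _ ≤ ∑ j ∈ range (n + 1), ∑ r ∈ range (j + 1),
          ‖ren Λ' (j - r) * (Λ r - Λ' r) * ren Λ (n - j)‖ :=
          (norm_sum_le _ _).trans (Finset.sum_le_sum fun j _ => norm_sum_le _ _)
      _ ≤ ∑ _j ∈ range (n + 1), ((n + 1 : ℕ) : ℝ) * (2 * ε) := by
          refine Finset.sum_le_sum fun j hj => ?_
          have hj' := Finset.mem_range.1 hj
          calc _ ≤ ∑ _r ∈ range (j + 1), 2 * ε := by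
                refine Finset.sum_le_sum fun r hr => ?_
                have hr' := Finset.mem_range.1 hr
                have a1 := h2 (j - r) (by omega)
                have a2 := h r (by omega)
                have a3 := h1 (n - j) (by omega)
                calc _ ≤ ‖ren Λ' (j - r)‖ * ‖Λ r - Λ' r‖ * ‖ren Λ (n - j)‖ :=
                      (norm_mul_le _ _).trans
                        (mul_le_mul_of_nonneg_right (norm_mul_le _ _) (norm_nonneg _))
                  _ ≤ 2 * ε * 1 := by gcongr
                  _ = 2 * ε := mul_one _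
            _ = ((j + 1 : ℕ) : ℝ) * (2 * ε) := by simp
            _ ≤ _ := by gcongr; omega
      _ = _ := by simp; ring

section tele
variable {𝔸 : Type*} [Ring 𝔸]

theorem lbres_tele (a d : 𝔸) (U : ℕ → Bool) (t : ℕ) : ∀ s : ℕ,
    ((List.range' s t).map fun j => if U j then a + d else a).prod = a ^ t +
      ∑ i ∈ range t, if U (s + i) then
        a ^ i * d * ((List.range' (s + i + 1) (t - 1 - i)).map
          fun j => if U j then a + d else a).prod else 0 := by
  induction t with
  | zero => intro s; simp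
  | succ t ih =>
    intro s
    rw [List.range'_succ, List.map_cons, List.prod_cons, Finset.sum_range_succ']
    have e : ∑ i ∈ range t, (if U (s + (i + 1)) then
        a ^ (i + 1) * d * ((List.range' (s + (i + 1) + 1) (t + 1 - 1 - (i + 1))).map
          fun j => if U j then a + d else a).prod else 0) =
        a * ∑ i ∈ range t, if U (s + 1 + i) then
        a ^ i * d * ((List.range' (s + 1 + i + 1) (t - 1 - i)).map
          fun j => if U j then a + d else a).prod else 0 := by
      rw [Finset.mul_sum]
      refine Finset.sum_congr rfl fun i _ => ?_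
      rw [show s + (i + 1) = s + 1 + i by omega, show t + 1 - 1 - (i + 1) = t - 1 - i by omega]
      split_ifs
      · rw [pow_succ', mul_assoc a, mul_assoc a]
      · rw [mul_zero]
    rw [e, ← add_assoc, pow_succ', ← mul_add, ← ih (s + 1)]
    simp only [add_zero, pow_zero, one_mul, Nat.add_sub_cancel, Nat.sub_zero]
    split_ifs
    · rw [add_mul]
    · rw [add_zero]

/-- first order telescoping of a pattern, `b = a + d` -/
theorem pat_sub_pow (a d : 𝔸) (t : ℕ) (U : ℕ → Bool) :
    pat a (a + d) t U - a ^ t =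
      ∑ i ∈ range t, if U i then
        a ^ i * d * ((List.range' (i + 1) (t - 1 - i)).map
          fun j => if U j then a + d else a).prod else 0 := by
  rw [pat, List.range_eq_range', lbres_tele, add_sub_cancel_left]
  simp only [zero_add]

/-- second order telescoping of a pattern -/
theorem pat_sub_pow_two (a d : 𝔸) (t : ℕ) (U : ℕ → Bool) :
    pat a (a + d) t U - a ^ t =
      (∑ i ∈ range t, if U i then a ^ i * d * a ^ (t - 1 - i) else 0) +
      ∑ i ∈ range t, ∑ j ∈ range t, if U i = true ∧ U j = true ∧ i < j then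
        a ^ i * d * (a ^ (j - i - 1) * d * ((List.range' (j + 1) (t - 1 - j)).map
          fun l => if U l then a + d else a).prod) else 0 := by
  rw [pat_sub_pow, ← Finset.sum_add_distrib]
  refine Finset.sum_congr rfl fun i hi => ?_
  have hi' := Finset.mem_range.1 hi
  by_cases hU : U i = true
  · simp only [hU, if_true, true_and]
    rw [lbres_tele, mul_add, Finset.mul_sum]
    congr 1
    have e : range t = range (i + 1) ∪ Finset.Ico (i + 1) t := by
      ext j
      simp only [Finset.mem_union, Finset.mem_range, Finset.mem_Ico]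
      omega
    have hd : Disjoint (range (i + 1)) (Finset.Ico (i + 1) t) := by
      rw [Finset.disjoint_left]
      intro j h1 h2
      simp only [Finset.mem_range, Finset.mem_Ico] at h1 h2
      omega
    rw [e, Finset.sum_union hd, Finset.sum_eq_zero (s := range (i + 1)), zero_add,
      Finset.sum_Ico_eq_sum_range, show t - (i + 1) = t - 1 - i by omega]
    · refine Finset.sum_congr rfl fun m _ => ?_
      rw [show i + 1 + m - i - 1 = m by omega,
        show t - 1 - (i + 1 + m) = t - 1 - i - 1 - m by omega]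
      have : i < i + 1 + m := by omega
      simp only [this, and_true]
      split_ifs
      · rfl
      · rw [mul_zero]
    · intro j hj
      have := Finset.mem_range.1 hj
      rw [if_neg]
      omega
  · simp [hU]

end tele

end Crest.Agent.R300.LB
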