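import Crest.Agent.R300.LBRunF
import Crest.Agent.R300.LBRes
import Crest.Agent.R300.LBLp

/-! Row 300 lower bound: the formal runs approximate the true runs.
All counts (`2u`, `n`, `m`, …) are at most `nb`, `nb ≥ 10` and `nb^20 θ ≤ 1`. -/

set_option autoImplicit false

namespace Crest.Agent.R300.LB

open Finset

variable {M : Type*} [Monoid M] (X : Ctx M)

namespace Ctx

theorem ra_mono {j k : ℕ} (h : j ≤ k) : X.nb ^ j * X.θ ≤ X.nb ^ k * X.θ :=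
  mul_le_mul_of_nonneg_right (pow_le_pow_right₀ (by linarith [X.hnb]) h) X.hθ

theorem ra_nonneg (k : ℕ) : 0 ≤ X.nb ^ k * X.θ :=
  mul_nonneg (pow_nonneg (by linarith [X.hnb]) k) X.hθ

theorem ra_step {c : ℝ} (hc : c ≤ X.nb) (k l : ℕ) (hl : l = k + 1 := by rfl) :
    c * (X.nb ^ k * X.θ) ≤ X.nb ^ l * X.θ := by
  rw [hl, pow_succ', mul_assoc]
  exact mul_le_mul_of_nonneg_right hc (X.ra_nonneg k)

theorem ra_cast {r : ℕ} (hr : r ≤ X.m0) : (r : ℝ) ≤ X.nb :=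
  le_trans (by exact_mod_cast hr) X.hm0

theorem ra_le {n : ℕ} (hn : 2 * X.u * n ≤ X.m0) : 2 * n ≤ X.m0 :=
  le_trans (Nat.mul_le_mul_right n (by linarith [X.hu])) hn

theorem ra_R (k : ℕ) : Prob (X.C.R ^ k) := (Cell.prob_R X.hA).pow k

theorem θ_le : X.θ ≤ 1e-20 := by
  have h1 : (10 : ℝ) ^ 20 ≤ X.nb ^ 20 := pow_le_pow_left₀ (by norm_num) X.hnb 20
  have h2 := (mul_le_mul_of_nonneg_right h1 X.hθ).trans X.hnθ
  norm_num at h2 ⊢
  linarith

theorem pow_θ_le {k : ℕ} (hk : k ≤ 19) : X.nb ^ k * X.θ ≤ 1 / 10 := by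
  have h1 := X.ra_mono hk
  have h2 := X.ra_step X.hnb 19 20
  linarith [X.hnθ]

theorem norm_ev_le {n : ℕ} {F : Wd (Bool × ℕ)} (hF : Hom n F) : ‖X.ev F‖ ≤ nrm X.ω F := by
  exact (X.chaos n F hF).norm_le X.hp (X.ra_R n)

theorem ev_oo' : X.ev oo = X.C.R := by
  exact ev_oo _ _

theorem prob_Ay (y : ℕ) : Prob (X.C.Ay y) := by
  exact Cell.prob_put X.hA X.ha y

theorem prob_By (y : ℕ) : Prob (X.C.By y) := by
  exact Cell.prob_put X.hA X.hb y

theorem norm_cT_le (τ : Ty) {y : ℕ} (hy : y ≤ 2 * X.C.W) : ‖X.C.cT τ y‖ ≤ 1 := by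
  cases τ with
  | a => exact (X.prob_Ay y).norm_eq.le
  | b => exact (X.prob_By y).norm_eq.le
  | d =>
    have h1 := X.norm_ev_le (hom_fD y)
    have h2 := X.nrm_fD_sq y
    have h3 : nrm X.ω (fD y) ≤ 3 / 4 := by nlinarith [X.hD]
    have h4 : X.ev (fD y) = X.ξ (true, y) := ev_LL _ _ _
    have h5 := norm_le_insert' (X.C.D y) (X.ξ (true, y))
    have h6 := X.pow_θ_le (k := 0) (by norm_num)
    rw [h4] at h1
    rw [pow_zero, one_mul] at h6
    change ‖X.C.D y‖ ≤ 1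
    linarith [X.errD y hy]

theorem cT_err (τ : Ty) {y : ℕ} (hy : y ≤ 2 * X.C.W) :
    ‖X.C.cT τ y - X.ev (fT τ y)‖ ≤ 2 * X.θ := by
  have h1 : X.ev (fD y) = X.ξ (true, y) := ev_LL _ _ _
  have h2 : X.C.Ay y - X.ev (fA y) = X.C.E y - X.ξ (false, y) := by
    rw [fA, map_add, ev_oo', Cell.Ay_eq _ hy, show X.ev (LL (false, y)) = X.ξ (false, y) from
      ev_LL _ _ _, add_sub_add_left_eq_sub]
  have h3 := X.errE y hy
  have h4 := X.errD y hy
  cases τ with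
  | a =>
    change ‖X.C.Ay y - X.ev (fA y)‖ ≤ _
    rw [h2]
    linarith [X.hθ]
  | b =>
    change ‖X.C.By y - X.ev (fA y + fD y)‖ ≤ _
    rw [Cell.By_eq, map_add, add_sub_add_comm, h1, h2, two_mul]
    exact norm_add_le_of_le h3 h4
  | d =>
    change ‖X.C.D y - X.ev (fD y)‖ ≤ _
    rw [h1]
    linarith [X.hθ]

theorem cT_shift (τ : Ty) {y : ℕ} (hy : y < 2 * X.C.W) :
    X.C.A * X.C.cT τ y = X.C.cT τ (y + 1) * X.C.A := by
  cases τ <;> exact Cell.put_shift _ _ hy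

theorem ra_Q (k : ℕ) : Prob (X.Q ^ k) := ((X.prob_Ay _).pow _).pow k

theorem ra_ev_pow (k : ℕ) : X.ev (oo ^ k) = X.C.R ^ k := by rw [map_pow, ev_oo']

theorem ra_A_pow {y : ℕ} (hy : y ≤ 2 * X.C.W) {k : ℕ} (hk : k ≤ X.m0) :
    ‖X.C.Ay y ^ k - X.ev (fA y ^ k)‖ ≤ X.nb ^ 2 * X.θ := by
  have h1 := X.ra_cast hk
  have h2 := X.pow_θ_le (k := 1) (by norm_num)
  have h3 := X.ra_step (c := 4) (by linarith [X.hnb]) 1 2
  have h4 := mul_le_mul_of_nonneg_right h1 X.hθ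
  rw [pow_one] at h2 h3
  have := pow_perturb (X.norm_cT_le Ty.a hy) (X.cT_err Ty.a hy) k (by linarith)
  rw [map_pow]
  exact this.trans (by linarith)

theorem G_shift {y : ℕ} (hy : y < 2 * X.C.W) : X.C.A * X.G y = X.G (y + 1) * X.C.A := by
  have h1 : SemiconjBy X.C.A (X.C.Ay y) (X.C.Ay (y + 1)) := X.cT_shift Ty.a hy
  have h2 : SemiconjBy X.C.A X.C.R X.C.R := (Commute.refl X.C.A).pow_right _
  exact (h1.pow_right _).sub_right (h2.pow_right _)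

theorem Q_eq : X.Q = X.C.R ^ X.u * X.C.R ^ X.u + X.G X.C.W := by
  rw [G, ← pow_add, ← two_mul, add_sub_cancel]
  rfl

theorem G_err {y : ℕ} (hy : y ≤ 2 * X.C.W) :
    ‖X.G y - X.ev (fG X.u y)‖ ≤ X.nb ^ 2 * X.θ := by
  rw [G, fG, map_sub, ra_ev_pow, sub_sub_sub_cancel_right]
  exact X.ra_A_pow hy X.hum

theorem norm_G_le {y : ℕ} (hy : y ≤ 2 * X.C.W) : ‖X.G y‖ ≤ 1 / 2 := by
  have h1 := norm_le_insert' (X.G y) (X.ev (fG X.u y))
  have h2 := (X.norm_ev_le (hom_fG X.u y)).trans (X.nrm_fG_le y)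
  have h3 := (X.G_err hy).trans (X.pow_θ_le (by norm_num))
  norm_num at h2
  linarith

theorem ra_G_pow {y : ℕ} (hy : y ≤ 2 * X.C.W) (r : ℕ) : ‖X.G y ^ r‖ ≤ 1 :=
  (norm_pow_le _ _).trans (pow_le_one₀ (norm_nonneg _) ((X.norm_G_le hy).trans (by norm_num)))

theorem G_pow_err {y : ℕ} (hy : y ≤ 2 * X.C.W) {r : ℕ} (hr : r ≤ X.m0) :
    ‖X.G y ^ r - X.ev (fG X.u y ^ r)‖ ≤ X.nb ^ 4 * X.θ := by
  have h1 := X.ra_step (X.ra_cast hr) 2 3
  have h2 := X.pow_θ_le (k := 3) (by norm_num)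
  have h3 := X.ra_step (c := 2) (by linarith [X.hnb]) 3 4
  have := pow_perturb ((X.norm_G_le hy).trans (by norm_num)) (X.G_err hy) r (by linarith)
  rw [map_pow]
  exact this.trans (by linarith)

/-- smoothing of a shiftable family that has a formal approximant -/
theorem smooth_apx (Z : ℕ → Alg M) (F : ℕ → Wd (Bool × ℕ))
    (hZ : ∀ y < 2 * X.C.W, X.C.A * Z y = Z (y + 1) * X.C.A) (h0 : ‖Z 0‖ ≤ 1) {ε : ℝ}
    (hε : ∀ y ≤ 2 * X.C.W, ‖Z y - X.ev (F y)‖ ≤ ε) :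
    ‖X.C.R ^ X.u * Z X.C.W * X.C.R ^ X.u -
      X.ev (oo ^ X.u * (∑ y ∈ range (2 * X.C.W + 1), X.c y • F y) * oo ^ X.u)‖ ≤
      X.θ + X.nb * ε := by
  have h1 := (X.smooth Z hZ).trans (mul_le_of_le_one_right X.hθ h0)
  have hε0 : 0 ≤ ε := (norm_nonneg _).trans (hε 0 (Nat.zero_le _))
  refine (norm_sub_le_norm_sub_add_norm_sub _ _ _).trans (add_le_add h1 ?_)
  rw [map_mul, map_mul, ra_ev_pow, map_sum, mul_sum, sum_mul, ← sum_sub_distrib]
  refine (norm_sum_le_of_le (n := fun y => |X.c y| * ε) _ fun y hy => ?_).trans ?_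
  · rw [map_smul, mul_smul_comm, smul_mul_assoc, ← smul_sub, ← sub_mul, ← mul_sub, norm_smul,
      Real.norm_eq_abs]
    refine mul_le_mul_of_nonneg_left ((norm_mul₃_le).trans ?_) (abs_nonneg _)
    rw [(X.ra_R _).norm_eq, one_mul, mul_one]
    exact hε y (Nat.lt_succ_iff.1 (mem_range.1 hy))
  · rw [← sum_mul]
    exact mul_le_mul_of_nonneg_right X.c1 hε0

theorem Lam_err {r : ℕ} (hr : r ≤ X.m0) :
    ‖X.C.R ^ X.u * X.G X.C.W ^ r * X.C.R ^ X.u - X.ev (X.fLam r)‖ ≤ X.nb ^ 7 * X.θ := by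
  rw [fLam, fGam]
  split_ifs with h
  · subst h
    rw [map_mul, map_mul, ra_ev_pow, map_one, pow_zero, sub_self, norm_zero]
    exact X.ra_nonneg _
  · have h1 := X.smooth_apx (fun y => X.G y ^ r) (fun y => fG X.u y ^ r)
      (fun y hy => SemiconjBy.pow_right (X.G_shift hy) r) (X.ra_G_pow (Nat.zero_le _) r)
      fun y hy => X.G_pow_err hy hr
    have h2 := X.ra_mono (j := 0) (k := 5) (by norm_num)
    rw [pow_zero, one_mul] at h2
    linarith [X.ra_step le_rfl 4 5, X.ra_step (c := 2) (by linarith [X.hnb]) 5 6,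
      X.ra_mono (j := 6) (k := 7) (by norm_num)]

theorem norm_tY (n : ℕ) : ‖X.tY n‖ ≤ 1 := by
  cases n with
  | zero => rw [tY, ren_zero, norm_one]
  | succ n =>
    rw [tY, ren_exact, ← Q_eq]
    exact (((X.ra_R _).mul (X.ra_Q n)).mul (X.ra_R _)).norm_eq.le

theorem norm_ev_fY {n : ℕ} (hn : 2 * X.u * n ≤ X.m0) : ‖X.ev (X.fY n)‖ ≤ 2 := by
  have h1 := nrm_add_le X.ω_nonneg (X.fY n - oo ^ (2 * X.u * n)) (oo ^ (2 * X.u * n))
  have h2 := X.nrm_fY_sub hn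
  rw [sub_add_cancel, nrm_oo_pow'] at h1
  norm_num at h2
  linarith [X.norm_ev_le (X.hom_fY n)]

/-- `ren_perturb`, `ren_map` -/
theorem fY_err {n : ℕ} (hn : 2 * X.u * n ≤ X.m0) :
    ‖X.tY n - X.ev (X.fY n)‖ ≤ X.nb ^ 10 * X.θ := by
  have h0 := X.ra_le hn
  have h1 := ren_perturb (fun r => X.C.R ^ X.u * X.G X.C.W ^ r * X.C.R ^ X.u)
    (fun r => X.ev (X.fLam r)) n (X.ra_nonneg 7) (fun i _ => X.norm_tY i)
    (fun i hi => by
      rw [← ren_map]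
      exact X.norm_ev_fY (le_trans (Nat.mul_le_mul_left _ hi.le) hn))
    fun r hr => X.Lam_err (by omega)
  rw [fY, ren_map]
  refine h1.trans ?_
  have h2 : (n : ℝ) ≤ X.nb := X.ra_cast (by omega)
  have h3 := mul_le_mul_of_nonneg_left (X.ra_step h2 7 8) (Nat.cast_nonneg (α := ℝ) n)
  linarith [X.ra_step h2 8 9, X.ra_step (c := 2) (by linarith [X.hnb]) 9 10]

theorem ra_sum {m k l : ℕ} (hl : l = k + 1) (hm : (m : ℝ) ≤ X.nb) (f g : ℕ → Alg M)
    (h : ∀ i < m, ‖f i - g i‖ ≤ 6 * (X.nb ^ k * X.θ)) :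
    ‖∑ i ∈ range m, f i - ∑ i ∈ range m, g i‖ ≤ 6 * (X.nb ^ l * X.θ) := by
  rw [← sum_sub_distrib]
  refine (norm_sum_le_of_le _ fun i hi => h i (mem_range.1 hi)).trans ?_
  rw [sum_const, card_range, nsmul_eq_mul]
  linarith [X.ra_step hm k l hl]

/-- `left_exact` -/
theorem fL_err {m : ℕ} (hm : 2 * X.u * m ≤ X.m0) :
    ‖X.Q ^ m * X.C.R ^ X.u - X.ev (X.fL m)‖ ≤ X.nb ^ 12 * X.θ := by
  have hW : X.C.W ≤ 2 * X.C.W := by omega
  have h0 := X.ra_le hm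
  have h1 := X.hum
  have h2 := X.hu
  rw [Q_eq, left_exact, fL, map_sum]
  refine (X.ra_sum (k := 10) (l := 11) rfl (X.ra_cast (by omega)) _ _ fun i hi => ?_).trans
    (X.ra_step (by linarith [X.hnb]) 11 12)
  rw [map_mul, map_mul, ra_ev_pow]
  exact mul3_perturb (X.ra_G_pow hW i) (X.ra_R _).norm_eq.le (X.norm_tY _)
    ((X.G_pow_err hW (by omega)).trans (X.ra_mono (by norm_num)))
    (by rw [sub_self, norm_zero]; exact X.ra_nonneg _)
    (X.fY_err (le_trans (Nat.mul_le_mul_left _ (by omega)) hm))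
    ((X.pow_θ_le (by norm_num)).trans (by norm_num))

theorem fR_err {m : ℕ} (hm : 2 * X.u * m ≤ X.m0) :
    ‖X.C.R ^ X.u * X.Q ^ m - X.ev (X.fR m)‖ ≤ X.nb ^ 12 * X.θ := by
  have hW : X.C.W ≤ 2 * X.C.W := by omega
  have h0 := X.ra_le hm
  have h1 := X.hum
  have h2 := X.hu
  rw [Q_eq, right_exact, fR, map_sum]
  refine (X.ra_sum (k := 10) (l := 11) rfl (X.ra_cast (by omega)) _ _ fun i hi => ?_).trans
    (X.ra_step (by linarith [X.hnb]) 11 12)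
  rw [map_mul, map_mul, ra_ev_pow]
  exact mul3_perturb (X.norm_tY _) (X.ra_R _).norm_eq.le (X.ra_G_pow hW i)
    (X.fY_err (le_trans (Nat.mul_le_mul_left _ (by omega)) hm))
    (by rw [sub_self, norm_zero]; exact X.ra_nonneg _)
    ((X.G_pow_err hW (by omega)).trans (X.ra_mono (by norm_num)))
    ((X.pow_θ_le (by norm_num)).trans (by norm_num))

/-- formal approximant of `Q ^ n` -/
noncomputable def raB (n : ℕ) : Wd (Bool × ℕ) :=
  fG X.u X.C.W ^ n + ∑ i ∈ range n, X.fL (n - 1 - i) * oo ^ X.u * fG X.u X.C.W ^ i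

theorem ra_hom (n : ℕ) : Hom (2 * X.u * n) (X.raB n) := by
  refine ((hom_fG _ _).pow n).add (Hom.sum _ _ fun i hi => ?_)
  obtain ⟨j, rfl⟩ := Nat.exists_eq_add_of_lt (mem_range.1 hi)
  have := ((X.hom_fL (i + j + 1 - 1 - i)).mul (hom_oo_pow X.u)).mul ((hom_fG X.u X.C.W).pow i)
  convert this using 1
  rw [show i + j + 1 - 1 - i = j by omega]
  ring

theorem ra_nrm {n : ℕ} (hn : 2 * X.u * n ≤ X.m0) :
    nrm X.ω (X.raB n - oo ^ (2 * X.u * n)) ≤ 0.09 := by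
  have hω := X.ω_nonneg
  have hg := X.nrm_fG_le X.C.W
  have hg0 := nrm_nonneg X.ω (fG X.u X.C.W)
  have hp : ∀ j : ℕ, nrm X.ω (fG X.u X.C.W ^ (j + 1)) ≤ 0.0101 * (1 / 2) ^ j := fun j => by
    rw [nrm_pow_hom hω (hom_fG _ _), pow_succ']
    exact mul_le_mul hg (pow_le_pow_left₀ hg0 (hg.trans (by norm_num)) j) (by positivity)
      (by norm_num)
  cases n with
  | zero => simp only [raB, pow_zero, range_zero, sum_empty, add_zero, mul_zero, sub_self, nrm_zero]; norm_num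
  | succ k =>
    have e : X.raB (k + 1) - oo ^ (2 * X.u * (k + 1)) = fG X.u X.C.W ^ (k + 1) +
        ∑ i ∈ range k, X.fL (k + 1 - 1 - (i + 1)) * oo ^ X.u * fG X.u X.C.W ^ (i + 1) +
        (X.fL k - oo ^ (2 * X.u * k + X.u)) * oo ^ X.u := by
      rw [raB, sum_range_succ', sub_mul, ← pow_add, show 2 * X.u * k + X.u + X.u = 2 * X.u * (k + 1) by ring,
        pow_zero, mul_one, add_tsub_cancel_right, tsub_zero]
      abel
    have a1 : nrm X.ω (fG X.u X.C.W ^ (k + 1)) ≤ 0.0101 :=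
      (hp k).trans (mul_le_of_le_one_right (by norm_num) (pow_le_one₀ (by norm_num) (by norm_num)))
    have a2 : nrm X.ω (∑ i ∈ range k, X.fL (k + 1 - 1 - (i + 1)) * oo ^ X.u * fG X.u X.C.W ^ (i + 1)) ≤
        1.05 * (0.0101 * 2) := by
      refine (nrm_sum_le hω _ _).trans ((sum_le_sum
        (g := fun i => 1.05 * (0.0101 * (1 / 2 : ℝ) ^ i)) fun i _ => ?_).trans ?_)
      · rw [nrm_mul_hom_right hω _ ((hom_fG _ _).pow _), nrm_mul_hom_right hω _ (hom_oo_pow _),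
          nrm_oo_pow', mul_one]
        exact mul_le_mul (X.nrm_fL_le (le_trans (Nat.mul_le_mul_left _ (by omega)) hn)) (hp i)
          (nrm_nonneg _ _) (by norm_num)
      · rw [← mul_sum, ← mul_sum]
        have := sum_geometric_two_le k
        gcongr
    have a3 : nrm X.ω ((X.fL k - oo ^ (2 * X.u * k + X.u)) * oo ^ X.u) ≤ 1 / 20 := by
      rw [nrm_mul_hom_right hω _ (hom_oo_pow _), nrm_oo_pow', mul_one]
      exact X.nrm_fL_sub (le_trans (Nat.mul_le_mul_left _ (by omega)) hn)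
    rw [e]
    refine (nrm_add_le hω _ _).trans ((add_le_add ((nrm_add_le hω _ _).trans (add_le_add a1 a2)) a3).trans ?_)
    norm_num

theorem ra_err {n : ℕ} (hn : 2 * X.u * n ≤ X.m0) :
    ‖X.Q ^ n - X.ev (X.raB n)‖ ≤ X.nb ^ 14 * X.θ := by
  have hW : X.C.W ≤ 2 * X.C.W := by omega
  have h1 := X.ra_le hn
  have a1 := X.G_pow_err hW (r := n) (by omega)
  have a2 := X.ra_sum (m := n) (k := 12) (l := 13) rfl (X.ra_cast (by omega))
    (fun i => X.Q ^ (n - 1 - i) * X.C.R ^ X.u * X.C.R ^ X.u * X.G X.C.W ^ i)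
    (fun i => X.ev (X.fL (n - 1 - i) * oo ^ X.u * fG X.u X.C.W ^ i)) fun i hi => by
      rw [map_mul, map_mul, ra_ev_pow]
      exact mul3_perturb ((X.ra_Q _).mul (X.ra_R _)).norm_eq.le (X.ra_R _).norm_eq.le
        (X.ra_G_pow hW i) (X.fL_err (le_trans (Nat.mul_le_mul_left _ (by omega)) hn))
        (by rw [sub_self, norm_zero]; exact X.ra_nonneg _)
        ((X.G_pow_err hW (by omega)).trans (X.ra_mono (by norm_num)))
        ((X.pow_θ_le (by norm_num)).trans (by norm_num))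
  have e := pow_add_left_decomp (X.C.R ^ X.u * X.C.R ^ X.u) (X.G X.C.W) n
  simp only [← Q_eq, ← mul_assoc] at e
  rw [e, raB, map_add, map_sum, add_sub_add_comm]
  refine (norm_add_le_of_le a1 a2).trans ?_
  linarith [X.ra_mono (j := 4) (k := 13) (by norm_num), X.ra_step (c := 7) (by linarith [X.hnb]) 13 14]

/-- A long run of `a`-cells is `L^p` close to the reference.  Write `m = l + 2un`, `l < 2u`,
`Ap^m = Ap^l Q^n`, `Q^n = G^n + ∑_{i<n} (Q^(n-1-i) R^u) R^u G^i` (`pow_add_left_decomp`), and take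
`f = ev (F - o^m)` with `F = fA W ^ l * (fG W ^ n + ∑_{i<n} fL (n-1-i) * o^u * fG W ^ i)`;
`nrm (F - o^m) ≤ 1.0001 * (0.0101 + 0.05 + 1.05 * 0.0103) + 0.0101 ≤ 1/8` (for `n = 0` the
bracket is `1`). -/
theorem window {m : ℕ} (hm : m ≤ X.m0) :
    ∃ f : Alg M, Bd X.p (X.C.R ^ m) f (1 / 8) ∧
      ‖X.C.Ap ^ m - X.C.R ^ m - f‖ ≤ X.nb ^ 16 * X.θ := by
  have hW : X.C.W ≤ 2 * X.C.W := by omega
  have hω := X.ω_nonneg
  have hu := X.hu
  obtain ⟨l, n, hl, rfl⟩ : ∃ l n, l < 2 * X.u ∧ m = l + 2 * X.u * n :=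
    ⟨m % (2 * X.u), m / (2 * X.u), Nat.mod_lt _ (by omega), (Nat.mod_add_div _ _).symm⟩
  have hn : 2 * X.u * n ≤ X.m0 := by omega
  have hA : Hom l (fA X.C.W ^ l) := by simpa using (hom_fA X.C.W).pow l
  refine ⟨X.ev (fA X.C.W ^ l * X.raB n - oo ^ (l + 2 * X.u * n)),
    (X.chaos _ _ ((hA.mul (X.ra_hom n)).sub (hom_oo_pow _))).mono ?_, ?_⟩
  · have e : fA X.C.W ^ l * X.raB n - oo ^ (l + 2 * X.u * n) =
        fA X.C.W ^ l * (X.raB n - oo ^ (2 * X.u * n)) + (fA X.C.W ^ l - oo ^ l) * oo ^ (2 * X.u * n) := by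
      rw [pow_add, mul_sub, sub_mul, sub_add_sub_cancel]
    change nrm X.ω _ ≤ _
    rw [e]
    refine (nrm_add_le hω _ _).trans ?_
    rw [nrm_mul_hom_left hω hA, nrm_mul_hom_right hω _ (hom_oo_pow _), nrm_oo_pow', mul_one]
    refine (add_le_add (mul_le_mul (X.nrm_fA_pow_le _ hl.le) (X.ra_nrm hn) (nrm_nonneg _ _)
      (by norm_num)) (X.nrm_fA_pow_sub_le _ hl.le)).trans ?_
    norm_num
  · rw [map_sub, ra_ev_pow, sub_sub_sub_cancel_right, map_mul, pow_add, pow_mul]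
    have a1 := X.ra_err hn
    have a2 := X.ra_A_pow hW (k := l) (by omega)
    have a3 : ‖X.ev (X.raB n)‖ ≤ 2 := by
      have := norm_le_insert (X.Q ^ n) (X.ev (X.raB n))
      rw [(X.ra_Q n).norm_eq] at this
      linarith [X.pow_θ_le (k := 14) (by norm_num)]
    refine (mul_perturb (X.C.Ay X.C.W ^ l) _ (X.Q ^ n) _).trans ?_
    rw [((X.prob_Ay _).pow l).norm_eq, one_mul]
    have a4 := mul_le_mul a2 a3 (norm_nonneg _) (X.ra_nonneg _)
    linarith [X.ra_mono (j := 2) (k := 14) (by norm_num), X.ra_step (c := 3) (by linarith [X.hnb]) 14 15,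
      X.ra_mono (j := 15) (k := 16) (by norm_num)]

end Ctx

end Crest.Agent.R300.LB
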