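import Crest.Agent.R300.LBCtx
import Crest.Agent.R300.LBForm

/-! Row 300 lower bound: formal norms of long runs of `a`-cells. -/

set_option autoImplicit false

namespace Crest.Agent.R300.LB

open Finset

theorem hom_fA (y : ℕ) : Hom 1 (fA y) := by
  exact hom_oo.add (hom_LL _)

theorem hom_fD (y : ℕ) : Hom 1 (fD y) := by
  exact hom_LL _

theorem hom_fT (τ : Ty) (y : ℕ) : Hom 1 (fT τ y) := by
  cases τ with
  | a => exact hom_fA y
  | b => exact (hom_fA y).add (hom_fD y)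
  | d => exact hom_fD y

theorem hom_fG (u y : ℕ) : Hom (2 * u) (fG u y) := by
  refine Hom.sub ?_ (hom_oo_pow _)
  simpa using (hom_fA y).pow (2 * u)

theorem NoD.mul {F G : Wd (Bool × ℕ)} (hF : NoD F) (hG : NoD G) : NoD (F * G) := by
  refine Supp.mul hF hG fun l l' h h' y hy => ?_
  rcases List.mem_append.1 hy with hy | hy
  · exact h y hy
  · exact h' y hy

theorem NoD.pow {F : Wd (Bool × ℕ)} (hF : NoD F) (n : ℕ) : NoD (F ^ n) := by
  induction n with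
  | zero => rw [pow_zero]; exact supp_one (by simp)
  | succ n ih => rw [pow_succ]; exact ih.mul hF

theorem noD_oo : NoD oo := by
  exact supp_oo (by simp)

theorem noD_fA (y : ℕ) : NoD (fA y) := by
  exact Supp.add noD_oo (supp_LL (by simp))

theorem noD_fG (u y : ℕ) : NoD (fG u y) := by
  exact Supp.sub ((noD_fA y).pow _) (noD_oo.pow _)

theorem firstD_mul {j : ℕ} {F : Wd (Bool × ℕ)} (hF : Hom j F) (hF' : NoD F) (y : ℕ)
    (G : Wd (Bool × ℕ)) : FirstD j (F * fD y * G) := by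
  have h1 : Supp (fun l => ∃ l1, l = l1 ++ [some (true, y)] ∧ l1.length = j ∧
      ∀ y', some (true, y') ∉ l1) (F * fD y) := by
    refine Supp.mul (Supp.and hF hF') (supp_LL (P := fun l => l = [some (true, y)]) rfl) ?_
    rintro l l' ⟨h, h'⟩ rfl
    exact ⟨l, rfl, h, h'⟩
  refine Supp.mul h1 (supp_true G) ?_
  rintro l l' ⟨l1, rfl, h, h'⟩ -
  exact ⟨l1, y, l', by simp, h, h'⟩

theorem FirstD.noD_mul {i j : ℕ} {F G : Wd (Bool × ℕ)} (hF : Hom i F) (hF' : NoD F)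
    (hG : FirstD j G) : FirstD (i + j) (F * G) := by
  refine Supp.mul (Supp.and hF hF') hG ?_
  rintro l l' ⟨h, h'⟩ ⟨l1, y, l2, rfl, h1, h2⟩
  refine ⟨l ++ l1, y, l2, by simp, by rw [List.length_append, h, h1], fun y' hy => ?_⟩
  rcases List.mem_append.1 hy with hy | hy
  · exact h' y' hy
  · exact h2 y' hy

theorem FirstD.mul {j : ℕ} {F : Wd (Bool × ℕ)} (hF : FirstD j F) (G : Wd (Bool × ℕ)) :
    FirstD j (F * G) := by
  refine Supp.mul hF (supp_true G) ?_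
  rintro l l' ⟨l1, y, l2, rfl, h1, h2⟩ -
  exact ⟨l1, y, l2 ++ l', by simp, h1, h2⟩

theorem FirstD.orth (ω : Option (Bool × ℕ) → ℝ) {i j : ℕ} {F G : Wd (Bool × ℕ)}
    (hF : FirstD i F) (hG : FirstD j G) (hij : i ≠ j) : ip ω F G = 0 := by
  refine ip_eq_zero_of_disjoint ω hF hG ?_
  rintro l ⟨l1, y, l2, rfl, h1, h2⟩ ⟨l1', y', l2', e, h1', h2'⟩
  rcases List.append_eq_append_iff.1 e with ⟨a, ha, hb⟩ | ⟨a, ha, hb⟩
  · cases a with
    | nil => exact hij (by rw [← h1, ← h1', ha, List.append_nil])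
    | cons x a =>
      have : x = some (true, y) := by simpa using (List.cons.inj hb).1.symm
      exact h2' y (by rw [ha, ← this]; simp)
  · cases a with
    | nil => exact hij (by rw [← h1, ← h1', ha, List.append_nil])
    | cons x a =>
      have : x = some (true, y') := by simpa using (List.cons.inj hb).1.symm
      exact h2 y' (by rw [ha, ← this]; simp)

theorem FirstD.has_letter {j : ℕ} {F : Wd (Bool × ℕ)} (hF : FirstD j F) :
    Supp (fun l => ∃ a, some a ∈ l) F := by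
  refine Supp.mono hF ?_
  rintro l ⟨l1, y, l2, rfl, -, -⟩
  exact ⟨(true, y), by simp⟩

variable {M : Type*} [Monoid M] (X : Ctx M)

namespace Ctx

theorem ω_nonneg (l : Option (Bool × ℕ)) : 0 ≤ X.ω l := by
  refine wt1_nonneg (fun a => ?_) l
  split_ifs
  · exact X.hωD
  · exact X.hωE

theorem nrm_oo_pow' (n : ℕ) : nrm X.ω (oo ^ n) = 1 := by
  exact nrm_oo_pow _ n

theorem lbrunf_ω_none : X.ω none = 1 := rfl

theorem lbrunf_ω_E (y : ℕ) : X.ω (some (false, y)) = X.ωE := rfl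

theorem lbrunf_ω_D (y : ℕ) : X.ω (some (true, y)) = X.ωD := rfl

theorem lbrunf_ip_pow {n : ℕ} {F G : Wd (Bool × ℕ)} (hF : Hom n F) (hG : Hom n G) (k : ℕ) :
    ip X.ω (F ^ k) (G ^ k) = ip X.ω F G ^ k := by
  induction k with
  | zero =>
    rw [pow_zero, pow_zero, pow_zero, ← nrm_sq X.ω_nonneg, nrm_one, one_pow]
  | succ k ih => rw [pow_succ, pow_succ, pow_succ, ip_mul_hom_right _ _ _ hF hG, ih]

theorem lbrunf_ip_oo_pow (n : ℕ) : ip X.ω (oo ^ n) (oo ^ n) = 1 := by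
  rw [← nrm_sq X.ω_nonneg, nrm_oo_pow', one_pow]

theorem lbrunf_ip_fA_oo (y : ℕ) : ip X.ω (fA y) oo = 1 := by
  rw [fA, ip_add_left, ip_oo_oo, ip_comm, ip_oo_LL, lbrunf_ω_none, add_zero]

theorem lbrunf_ip_fA_pow_oo (y k : ℕ) : ip X.ω (fA y ^ k) (oo ^ k) = 1 := by
  rw [X.lbrunf_ip_pow (hom_fA y) hom_oo, lbrunf_ip_fA_oo, one_pow]

theorem lbrunf_pow_le {x : ℝ} (hx : 0 ≤ x) (k : ℕ) (h : k * x ≤ 1 / 100) :
    (1 + x) ^ k - 1 ≤ 1.01 * (k * x) := by
  have h0 : 0 ≤ (k : ℝ) * x := by positivity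
  have h1 : (1 + x) ^ k ≤ Real.exp (k * x) := by
    rw [Real.exp_nat_mul]
    exact pow_le_pow_left₀ (by positivity) (by linarith [Real.add_one_le_exp x]) k
  have h2 := Real.abs_exp_sub_one_sub_id_le (x := k * x) (by rw [abs_of_nonneg h0]; linarith)
  have h3 := (abs_le.1 h2).2
  nlinarith

theorem nrm_fA_sq (y : ℕ) : nrm X.ω (fA y) ^ 2 = 1 + X.ωE := by
  rw [nrm_sq X.ω_nonneg, fA, ip_add_left, ip_add_right, ip_add_right, ip_oo_oo, ip_oo_LL,
    ip_comm _ (LL _) oo, ip_oo_LL, ip_LL_LL, lbrunf_ω_none, lbrunf_ω_E]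
  ring

theorem nrm_fD_sq (y : ℕ) : nrm X.ω (fD y) ^ 2 = X.ωD := by
  rw [nrm_sq X.ω_nonneg, fD, ip_LL_LL, lbrunf_ω_D]

theorem nrm_fB_sq (y : ℕ) : nrm X.ω (fA y + fD y) ^ 2 = 1 + X.ωE + X.ωD := by
  have h : ip X.ω (fA y) (fD y) = 0 := by
    rw [fA, fD, ip_add_left, ip_oo_LL, ip_LL_LL_ne _ (by simp), add_zero]
  rw [nrm_sq X.ω_nonneg, ip_add_left, ip_add_right, ip_add_right, ip_comm _ (fD y) (fA y), h,
    ← nrm_sq X.ω_nonneg, ← nrm_sq X.ω_nonneg, nrm_fA_sq, nrm_fD_sq]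
  ring

/-- `ip (fA^k) (o^k) = 1` by multiplicativity -/
theorem nrm_fA_pow_sub_sq (y k : ℕ) :
    nrm X.ω (fA y ^ k - oo ^ k) ^ 2 = (1 + X.ωE) ^ k - 1 := by
  rw [nrm_sq X.ω_nonneg, ip_sub_left, ip_sub_right, ip_sub_right, ip_comm _ (oo ^ k) (fA y ^ k),
    lbrunf_ip_fA_pow_oo, lbrunf_ip_oo_pow, X.lbrunf_ip_pow (hom_fA y) (hom_fA y),
    ← nrm_sq X.ω_nonneg, nrm_fA_sq]
  ring

theorem lbrunf_k_le {k : ℕ} (hk : k ≤ 2 * X.u) : k * X.ωE ≤ 1e-4 := by
  have h : (k : ℝ) ≤ 2 * X.u := by exact_mod_cast hk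
  exact (mul_le_mul_of_nonneg_right h X.hωE).trans X.hE

theorem nrm_fA_pow_sub_le (y : ℕ) {k : ℕ} (hk : k ≤ 2 * X.u) :
    nrm X.ω (fA y ^ k - oo ^ k) ≤ 0.0101 := by
  have h1 := X.lbrunf_k_le hk
  have h2 := lbrunf_pow_le X.hωE k (by linarith)
  refine abs_le_of_sq_le_sq' ?_ (by norm_num) |>.2
  rw [nrm_fA_pow_sub_sq]
  linarith

theorem nrm_fA_pow_le (y : ℕ) {k : ℕ} (hk : k ≤ 2 * X.u) : nrm X.ω (fA y ^ k) ≤ 1.0001 := by
  have h1 := X.lbrunf_k_le hk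
  have h2 := lbrunf_pow_le X.hωE k (by linarith)
  refine abs_le_of_sq_le_sq' ?_ (by norm_num) |>.2
  rw [nrm_pow_hom X.ω_nonneg (hom_fA y), ← pow_mul, mul_comm k 2, pow_mul, nrm_fA_sq]
  linarith

theorem nrm_fG_le (y : ℕ) : nrm X.ω (fG X.u y) ≤ 0.0101 := by
  exact X.nrm_fA_pow_sub_le y le_rfl

theorem nrm_fG_sq_le (y : ℕ) : nrm X.ω (fG X.u y) ^ 2 ≤ 1.01 * (2 * X.u * X.ωE) := by
  have h1 := X.lbrunf_k_le le_rfl
  have h2 := lbrunf_pow_le X.hωE (2 * X.u) (by linarith)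
  rw [fG, nrm_fA_pow_sub_sq]
  push_cast at h2
  exact h2

theorem ip_fG_oo (y : ℕ) : ip X.ω (fG X.u y) (oo ^ (2 * X.u)) = 0 := by
  rw [fG, ip_sub_left, lbrunf_ip_fA_pow_oo, lbrunf_ip_oo_pow, sub_self]

/-- `ip (fA y) (fA y') = 1` for `y ≠ y'` -/
theorem ip_fG_ne {y y' : ℕ} (h : y ≠ y') : ip X.ω (fG X.u y) (fG X.u y') = 0 := by
  have h1 : ip X.ω (fA y) (fA y') = 1 := by
    rw [fA, fA, ip_add_left, ip_add_right, ip_add_right, ip_oo_oo, ip_oo_LL,
      ip_comm _ (LL _) oo, ip_oo_LL, ip_LL_LL_ne _ (by simpa using h), lbrunf_ω_none]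
    ring
  rw [fG, fG, ip_sub_left, ip_sub_right, ip_sub_right, ip_comm _ (oo ^ _) (fA y' ^ _),
    lbrunf_ip_fA_pow_oo, lbrunf_ip_fA_pow_oo, lbrunf_ip_oo_pow,
    X.lbrunf_ip_pow (hom_fA y) (hom_fA y'), h1]
  ring

theorem lbrunf_fY_zero : X.fY 0 = 1 := by rw [fY, ren_zero]

theorem lbrunf_fY_succ (n : ℕ) :
    X.fY (n + 1) = ∑ r ∈ range (n + 1), X.fY (n - r) * X.fLam r := by
  rw [fY, ren_succ]; rfl

theorem lbrunf_hom_fGam (r : ℕ) : Hom (2 * X.u * r) (X.fGam r) := by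
  unfold fGam
  split_ifs with h
  · subst h; exact hom_one
  · exact Hom.sum _ _ fun y _ => ((hom_fG X.u y).pow r).smul _

theorem lbrunf_hom_fLam (r : ℕ) : Hom (2 * X.u * (r + 1)) (X.fLam r) := by
  have h := ((hom_oo_pow X.u).mul (X.lbrunf_hom_fGam r)).mul (hom_oo_pow X.u)
  have e : X.u + 2 * X.u * r + X.u = 2 * X.u * (r + 1) := by ring
  rwa [e] at h

theorem lbrunf_noD_fGam (r : ℕ) : NoD (X.fGam r) := by
  unfold fGam
  split_ifs with h
  · exact supp_one (by simp)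
  · exact Supp.sum _ _ fun y _ => Supp.smul ((noD_fG X.u y).pow r) _

theorem lbrunf_noD_fLam (r : ℕ) : NoD (X.fLam r) :=
  ((noD_oo.pow _).mul (X.lbrunf_noD_fGam r)).mul (noD_oo.pow _)

theorem hom_fY (n : ℕ) : Hom (2 * X.u * n) (X.fY n) := by
  induction n using Nat.strong_induction_on with
  | _ n ih =>
    cases n with
    | zero => rw [fY, ren_zero]; exact hom_one
    | succ n =>
      rw [lbrunf_fY_succ]
      refine Hom.sum _ _ fun r hr => ?_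
      have hr' : r ≤ n := Nat.lt_succ_iff.1 (mem_range.1 hr)
      have h := (ih (n - r) (by omega)).mul (X.lbrunf_hom_fLam r)
      have e : 2 * X.u * (n - r) + 2 * X.u * (r + 1) = 2 * X.u * (n + 1) := by
        rw [← mul_add]; congr 1; omega
      rwa [e] at h

theorem noD_fY (n : ℕ) : NoD (X.fY n) := by
  induction n using Nat.strong_induction_on with
  | _ n ih =>
    cases n with
    | zero => rw [fY, ren_zero]; exact supp_one (by simp)
    | succ n =>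
      rw [lbrunf_fY_succ]
      exact Supp.sum _ _ fun r _ => (ih (n - r) (by omega)).mul (X.lbrunf_noD_fLam r)

theorem lbrunf_ip_fLam_oo (r : ℕ) :
    ip X.ω (X.fLam r) (oo ^ (2 * X.u * (r + 1))) = if r = 0 then 1 else 0 := by
  have e : (oo : Wd (Bool × ℕ)) ^ (2 * X.u * (r + 1)) =
      oo ^ X.u * (oo ^ (2 * X.u)) ^ r * oo ^ X.u := by
    rw [← pow_mul, ← pow_add, ← pow_add]; congr 1; ring
  rw [e, fLam, ip_mul_hom_right _ _ _ (hom_oo_pow _) (hom_oo_pow _),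
    ip_mul_hom_left _ (hom_oo_pow _) (hom_oo_pow _), lbrunf_ip_oo_pow, one_mul, mul_one, fGam]
  split_ifs with h
  · subst h
    simpa using X.lbrunf_ip_oo_pow 0
  · rw [ip_sum_left]
    refine Finset.sum_eq_zero fun y _ => ?_
    rw [ip_smul_left, X.lbrunf_ip_pow (hom_fG _ y) (hom_oo_pow _), ip_fG_oo, zero_pow h, mul_zero]

theorem lbrunf_ip_fY_oo (n : ℕ) : ip X.ω (X.fY n) (oo ^ (2 * X.u * n)) = 1 := by
  induction n with
  | zero => rw [lbrunf_fY_zero]; simpa using X.lbrunf_ip_oo_pow 0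
  | succ n ih =>
    rw [lbrunf_fY_succ, ip_sum_left, Finset.sum_eq_single_of_mem 0 (by simp)]
    · have e : (oo : Wd (Bool × ℕ)) ^ (2 * X.u * (n + 1)) =
          oo ^ (2 * X.u * n) * oo ^ (2 * X.u * (0 + 1)) := by
        rw [← pow_add]; congr 1; ring
      rw [e, ip_mul_hom_right _ _ _ (X.lbrunf_hom_fLam 0) (hom_oo_pow _), lbrunf_ip_fLam_oo,
        Nat.sub_zero, ih]
      simp
    · intro r hr hr0
      have hr' : r ≤ n := Nat.lt_succ_iff.1 (mem_range.1 hr)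
      have e : (oo : Wd (Bool × ℕ)) ^ (2 * X.u * (n + 1)) =
          oo ^ (2 * X.u * (n - r)) * oo ^ (2 * X.u * (r + 1)) := by
        rw [← pow_add, ← mul_add]; congr 2; omega
      rw [e, ip_mul_hom_right _ _ _ (X.lbrunf_hom_fLam r) (hom_oo_pow _), lbrunf_ip_fLam_oo,
        if_neg hr0, mul_zero]

theorem lbrunf_fY_ends (k : ℕ) : ∃ Z, X.fY (k + 1) = Z * oo ^ X.u := by
  refine ⟨∑ r ∈ range (k + 1), X.fY (k - r) * (oo ^ X.u * X.fGam r), ?_⟩
  rw [lbrunf_fY_succ, Finset.sum_mul]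
  refine Finset.sum_congr rfl fun r _ => ?_
  rw [fLam]; simp only [mul_assoc]

theorem lbrunf_orth {n r r' : ℕ} (h : r < r') (h' : r' ≤ n) :
    ip X.ω (X.fY (n - r) * X.fLam r) (X.fY (n - r') * X.fLam r') = 0 := by
  obtain ⟨Z, hZ⟩ := X.lbrunf_fY_ends (n - r - 1)
  rw [show n - r - 1 + 1 = n - r by omega] at hZ
  obtain ⟨d, rfl⟩ : ∃ d, r' = d + 1 + r := ⟨r' - r - 1, by omega⟩
  have e1 : X.fY (n - r) * X.fLam r = Z * oo ^ (2 * X.u) * X.fGam r * oo ^ X.u := by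
    rw [hZ, fLam, two_mul, pow_add]; simp only [mul_assoc]
  have e2 : X.fY (n - (d + 1 + r)) * X.fLam (d + 1 + r) =
      (∑ y ∈ range (2 * X.C.W + 1), X.c y • (X.fY (n - (d + 1 + r)) * oo ^ X.u * fG X.u y ^ d *
        fG X.u y * fG X.u y ^ r)) * oo ^ X.u := by
    rw [fLam, fGam, if_neg (by omega), ← mul_assoc, ← mul_assoc, Finset.mul_sum]
    congr 1
    refine Finset.sum_congr rfl fun y _ => ?_
    rw [mul_smul_comm, pow_add, pow_succ]; simp only [mul_assoc]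
  rw [e1, e2, ip_mul_hom_right _ _ _ (hom_oo_pow _) (hom_oo_pow _), ip_sum_right,
    Finset.sum_eq_zero, zero_mul]
  intro y _
  rw [ip_smul_right, ip_mul_hom_right _ _ _ (X.lbrunf_hom_fGam r) ((hom_fG _ y).pow r),
    ip_mul_hom_right _ _ _ (hom_oo_pow _) (hom_fG _ y), ip_comm _ (oo ^ _), ip_fG_oo]
  simp

theorem lbrunf_nrm_fLam (r : ℕ) : nrm X.ω (X.fLam r) = nrm X.ω (X.fGam r) := by
  rw [fLam, nrm_mul_hom_right X.ω_nonneg _ (hom_oo_pow _),
    nrm_mul_hom_left X.ω_nonneg (hom_oo_pow _), nrm_oo_pow', one_mul, mul_one]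

theorem lbrunf_nrm_fGam_sq {r : ℕ} (hr : r ≠ 0) :
    nrm X.ω (X.fGam r) ^ 2 ≤ X.φ * (1.01 * (2 * X.u * X.ωE)) ^ r := by
  rw [fGam, if_neg hr, nrm_sum_orth X.ω_nonneg]
  · calc ∑ y ∈ range (2 * X.C.W + 1), X.c y ^ 2 * nrm X.ω (fG X.u y ^ r) ^ 2
        ≤ ∑ y ∈ range (2 * X.C.W + 1), X.c y ^ 2 * (1.01 * (2 * X.u * X.ωE)) ^ r := by
          refine Finset.sum_le_sum fun y _ => mul_le_mul_of_nonneg_left ?_ (sq_nonneg _)
          rw [nrm_pow_hom X.ω_nonneg (hom_fG _ y), ← pow_mul, mul_comm r 2, pow_mul]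
          exact pow_le_pow_left₀ (sq_nonneg _) (X.nrm_fG_sq_le y) r
      _ ≤ _ := by
          rw [← Finset.sum_mul]
          have := X.hωE
          exact mul_le_mul_of_nonneg_right X.c2 (by positivity)
  · intro y _ y' _ hy
    rw [X.lbrunf_ip_pow (hom_fG _ y) (hom_fG _ y'), X.ip_fG_ne hy, zero_pow hr]

theorem lbrunf_geom {g : ℝ} (hg : 0 ≤ g) (hg' : g ≤ 1 / 2) (n : ℕ) :
    ∑ r ∈ range n, g ^ (r + 1) ≤ 2 * g - 2 * g ^ (n + 1) := by
  induction n with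
  | zero => simp
  | succ n ih =>
    rw [Finset.sum_range_succ, pow_succ g (n + 1)]
    have : 0 ≤ g ^ (n + 1) := by positivity
    nlinarith

theorem lbrunf_nrm_fY_sq (n : ℕ) :
    nrm X.ω (X.fY n) ^ 2 ≤ (1 + 2 * X.φ * (1.01 * (2 * X.u * X.ωE))) ^ n := by
  set g : ℝ := 1.01 * (2 * X.u * X.ωE) with hg
  have hω := X.hωE
  have hφ := X.hφ
  have hg0 : 0 ≤ g := by positivity
  have hg1 : g ≤ 1 / 2 := by have := X.hE; linarith
  have hq : 1 ≤ 1 + 2 * X.φ * g := le_add_of_nonneg_right (by positivity)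
  induction n using Nat.strong_induction_on with
  | _ n ih =>
    cases n with
    | zero => rw [lbrunf_fY_zero, nrm_one]; simp
    | succ n =>
      have h := nrm_sum_orth X.ω_nonneg (range (n + 1)) (fun _ => (1 : ℝ))
        (fun r => X.fY (n - r) * X.fLam r) (fun r hr r' hr' hne => by
          rcases lt_or_gt_of_ne hne with h | h
          · exact X.lbrunf_orth h (Nat.lt_succ_iff.1 (mem_range.1 hr'))
          · rw [ip_comm]; exact X.lbrunf_orth h (Nat.lt_succ_iff.1 (mem_range.1 hr)))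
      simp only [one_smul, one_pow, one_mul] at h
      rw [lbrunf_fY_succ, h, Finset.sum_range_succ']
      have h0 : nrm X.ω (X.fY (n - 0) * X.fLam 0) ^ 2 ≤ (1 + 2 * X.φ * g) ^ n := by
        rw [nrm_mul_hom_right X.ω_nonneg _ (X.lbrunf_hom_fLam 0), lbrunf_nrm_fLam, fGam, if_pos rfl,
          nrm_one, mul_one, Nat.sub_zero]
        exact ih n (by omega)
      have h1 : ∀ r ∈ range n, nrm X.ω (X.fY (n - (r + 1)) * X.fLam (r + 1)) ^ 2 ≤
          (1 + 2 * X.φ * g) ^ n * X.φ * g ^ (r + 1) := by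
        intro r _
        rw [nrm_mul_hom_right X.ω_nonneg _ (X.lbrunf_hom_fLam _), lbrunf_nrm_fLam, mul_pow,
          mul_assoc]
        refine mul_le_mul ((ih _ (by omega)).trans (pow_le_pow_right₀ hq (by omega)))
          (X.lbrunf_nrm_fGam_sq (by omega)) (sq_nonneg _) (by positivity)
      have h2 := Finset.sum_le_sum h1
      rw [← Finset.mul_sum] at h2
      have h3 : ∑ r ∈ range n, g ^ (r + 1) ≤ 2 * g := by
        have := lbrunf_geom hg0 hg1 n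
        have : 0 ≤ g ^ (n + 1) := by positivity
        linarith
      have h4 := mul_le_mul_of_nonneg_left h3
        (show 0 ≤ (1 + 2 * X.φ * g) ^ n * X.φ by positivity)
      rw [pow_succ _ n]
      linarith

/-- The gain of the smoothing: with `a_n = nrm (fY n) ^ 2` and `g² = nrm (fG y) ^ 2`,
`a_{n+1} = ∑_r a_{n-r} nrm (fGam r) ^ 2`, `nrm (fGam r) ^ 2 ≤ φ g^(2r)` for `r ≥ 1`, so
`a_n ≤ (1 + 2 φ g²)^n ≤ 1 + 4 n φ g²`, and `ip (fY n) (o^(2un)) = 1`.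
Orthogonality of the terms `r < r'` of the recursion: expand `fGam` into the sums over `y, y'`,
strip `o^u` and `r` blocks on the right with `ip_mul_hom_right`; what remains is
`fY (n-r) * o^u` against `… * fG y'`, and `fY (n-r) * o^u = Z * o^(2u)` because `n - r ≥ 1`
(every `fY (k+1)` ends with `o^u`), so `ip_fG_oo` kills it.
Finally `4 n φ g² ≤ 4.04 (2 u n) ωE φ ≤ 4.04e-4`. -/
theorem nrm_fY_sub {n : ℕ} (hn : 2 * X.u * n ≤ X.m0) :
    nrm X.ω (X.fY n - oo ^ (2 * X.u * n)) ≤ 0.021 := by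
  have hω := X.hωE
  have hφ := X.hφ
  have h1 := X.lbrunf_nrm_fY_sq n
  have hn' : (2 * X.u * n : ℝ) ≤ X.m0 := by exact_mod_cast hn
  have h2 : n * (2 * X.φ * (1.01 * (2 * X.u * X.ωE))) ≤ 2.02e-4 := by
    have := mul_le_mul_of_nonneg_right hn' (mul_nonneg hω hφ)
    have := X.hwin
    nlinarith
  have h3 := lbrunf_pow_le (x := 2 * X.φ * (1.01 * (2 * X.u * X.ωE))) (by positivity) n
    (by linarith)
  refine abs_le_of_sq_le_sq' ?_ (by norm_num) |>.2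
  rw [nrm_sq X.ω_nonneg, ip_sub_left, ip_sub_right, ip_sub_right, ip_comm _ (oo ^ _) (X.fY n),
    lbrunf_ip_fY_oo, lbrunf_ip_oo_pow, ← nrm_sq X.ω_nonneg]
  linarith

theorem hom_fL (m : ℕ) : Hom (2 * X.u * m + X.u) (X.fL m) := by
  refine Hom.sum _ _ fun k hk => ?_
  have hk' : k ≤ m := Nat.lt_succ_iff.1 (mem_range.1 hk)
  have h := (((hom_fG X.u X.C.W).pow k).mul (hom_oo_pow X.u)).mul (X.hom_fY (m - k))
  have e : 2 * X.u * k + X.u + 2 * X.u * (m - k) = 2 * X.u * m + X.u := by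
    obtain ⟨d, rfl⟩ := Nat.exists_eq_add_of_le hk'
    rw [Nat.add_sub_cancel_left]; ring
  rwa [e] at h

theorem hom_fR (m : ℕ) : Hom (2 * X.u * m + X.u) (X.fR m) := by
  refine Hom.sum _ _ fun k hk => ?_
  have hk' : k ≤ m := Nat.lt_succ_iff.1 (mem_range.1 hk)
  have h := ((X.hom_fY (m - k)).mul (hom_oo_pow X.u)).mul ((hom_fG X.u X.C.W).pow k)
  have e : 2 * X.u * (m - k) + X.u + 2 * X.u * k = 2 * X.u * m + X.u := by
    obtain ⟨d, rfl⟩ := Nat.exists_eq_add_of_le hk'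
    rw [Nat.add_sub_cancel_left]; ring
  rwa [e] at h

theorem noD_fL (m : ℕ) : NoD (X.fL m) := by
  exact Supp.sum _ _ fun k _ => (((noD_fG _ _).pow k).mul (noD_oo.pow _)).mul (X.noD_fY _)

theorem noD_fR (m : ℕ) : NoD (X.fR m) := by
  exact Supp.sum _ _ fun k _ => ((X.noD_fY _).mul (noD_oo.pow _)).mul ((noD_fG _ _).pow k)

theorem lbrunf_nrm_fY_le {n : ℕ} (hn : 2 * X.u * n ≤ X.m0) : nrm X.ω (X.fY n) ≤ 1.021 := by
  have h := nrm_add_le X.ω_nonneg (X.fY n - oo ^ (2 * X.u * n)) (oo ^ (2 * X.u * n))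
  rw [sub_add_cancel, nrm_oo_pow'] at h
  linarith [X.nrm_fY_sub hn]

theorem lbrunf_tail {m : ℕ} (hm : 2 * X.u * m ≤ X.m0) :
    ∑ k ∈ range m, nrm X.ω (fG X.u X.C.W) ^ (k + 1) * nrm X.ω (X.fY (m - (k + 1))) ≤ 0.021 := by
  have hg := X.nrm_fG_le X.C.W
  have hg0 := nrm_nonneg X.ω (fG X.u X.C.W)
  have h1 : ∀ k ∈ range m, nrm X.ω (fG X.u X.C.W) ^ (k + 1) * nrm X.ω (X.fY (m - (k + 1))) ≤
      nrm X.ω (fG X.u X.C.W) ^ (k + 1) * 1.021 := fun k _ =>
    mul_le_mul_of_nonneg_left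
      (X.lbrunf_nrm_fY_le ((Nat.mul_le_mul_left _ (Nat.sub_le _ _)).trans hm)) (by positivity)
  have h2 := Finset.sum_le_sum h1
  rw [← Finset.sum_mul] at h2
  have h3 := lbrunf_geom hg0 (by linarith) m
  have h4 : 0 ≤ nrm X.ω (fG X.u X.C.W) ^ (m + 1) := by positivity
  linarith

/-- the term `k = 0` gives `0.021`, the others `∑_{k ≥ 1} 0.0101^k * 1.021` -/
theorem nrm_fL_sub {m : ℕ} (hm : 2 * X.u * m ≤ X.m0) :
    nrm X.ω (X.fL m - oo ^ (2 * X.u * m + X.u)) ≤ 1 / 20 := by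
  have e : X.fL m - oo ^ (2 * X.u * m + X.u) =
      ∑ k ∈ range m, fG X.u X.C.W ^ (k + 1) * oo ^ X.u * X.fY (m - (k + 1)) +
        oo ^ X.u * (X.fY m - oo ^ (2 * X.u * m)) := by
    rw [fL, Finset.sum_range_succ', pow_zero, one_mul, Nat.sub_zero, mul_sub, ← pow_add,
      add_comm X.u, add_sub_assoc]
  rw [e]
  refine (nrm_add_le X.ω_nonneg _ _).trans ?_
  rw [nrm_mul_hom_left X.ω_nonneg (hom_oo_pow _), nrm_oo_pow', one_mul]
  have h1 := nrm_sum_le X.ω_nonneg (range m)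
    (fun k => fG X.u X.C.W ^ (k + 1) * oo ^ X.u * X.fY (m - (k + 1)))
  have h2 : ∀ k ∈ range m, nrm X.ω (fG X.u X.C.W ^ (k + 1) * oo ^ X.u * X.fY (m - (k + 1))) =
      nrm X.ω (fG X.u X.C.W) ^ (k + 1) * nrm X.ω (X.fY (m - (k + 1))) := fun k _ => by
    rw [nrm_mul_hom_right X.ω_nonneg _ (X.hom_fY _), nrm_mul_hom_right X.ω_nonneg _ (hom_oo_pow _),
      nrm_oo_pow', mul_one, nrm_pow_hom X.ω_nonneg (hom_fG _ _)]
  rw [Finset.sum_congr rfl h2] at h1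
  linarith [X.lbrunf_tail hm, X.nrm_fY_sub hm]

theorem nrm_fR_sub {m : ℕ} (hm : 2 * X.u * m ≤ X.m0) :
    nrm X.ω (X.fR m - oo ^ (2 * X.u * m + X.u)) ≤ 1 / 20 := by
  have e : X.fR m - oo ^ (2 * X.u * m + X.u) =
      ∑ k ∈ range m, X.fY (m - (k + 1)) * oo ^ X.u * fG X.u X.C.W ^ (k + 1) +
        (X.fY m - oo ^ (2 * X.u * m)) * oo ^ X.u := by
    rw [fR, Finset.sum_range_succ', pow_zero, mul_one, Nat.sub_zero, sub_mul, ← pow_add,
      add_sub_assoc]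
  rw [e]
  refine (nrm_add_le X.ω_nonneg _ _).trans ?_
  rw [nrm_mul_hom_right X.ω_nonneg _ (hom_oo_pow _), nrm_oo_pow', mul_one]
  have h1 := nrm_sum_le X.ω_nonneg (range m)
    (fun k => X.fY (m - (k + 1)) * oo ^ X.u * fG X.u X.C.W ^ (k + 1))
  have h2 : ∀ k ∈ range m, nrm X.ω (X.fY (m - (k + 1)) * oo ^ X.u * fG X.u X.C.W ^ (k + 1)) =
      nrm X.ω (fG X.u X.C.W) ^ (k + 1) * nrm X.ω (X.fY (m - (k + 1))) := fun k _ => by
    rw [nrm_mul_hom_right X.ω_nonneg _ ((hom_fG _ _).pow _),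
      nrm_mul_hom_right X.ω_nonneg _ (hom_oo_pow _),
      nrm_oo_pow', mul_one, nrm_pow_hom X.ω_nonneg (hom_fG _ _), mul_comm]
  rw [Finset.sum_congr rfl h2] at h1
  linarith [X.lbrunf_tail hm, X.nrm_fY_sub hm]

theorem nrm_fL_le {m : ℕ} (hm : 2 * X.u * m ≤ X.m0) : nrm X.ω (X.fL m) ≤ 1.05 := by
  have h := nrm_add_le X.ω_nonneg (X.fL m - oo ^ (2 * X.u * m + X.u)) (oo ^ (2 * X.u * m + X.u))
  rw [sub_add_cancel, nrm_oo_pow'] at h
  linarith [X.nrm_fL_sub hm]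

theorem nrm_fR_le {m : ℕ} (hm : 2 * X.u * m ≤ X.m0) : nrm X.ω (X.fR m) ≤ 1.05 := by
  have h := nrm_add_le X.ω_nonneg (X.fR m - oo ^ (2 * X.u * m + X.u)) (oo ^ (2 * X.u * m + X.u))
  rw [sub_add_cancel, nrm_oo_pow'] at h
  linarith [X.nrm_fR_sub hm]

theorem lbrunf_nrm_list_sq (l : List Ty) (y : ℕ) :
    nrm X.ω (l.map fun τ => fT τ y).prod ^ 2 ≤
      (1 + (X.ωE + X.ωD)) ^ l.length * X.ωD ^ l.count Ty.d := by
  have hE := X.hωE
  have hD := X.hωD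
  induction l with
  | nil => simp [nrm_one]
  | cons τ l ih =>
    rw [List.map_cons, List.prod_cons, nrm_mul_hom_left X.ω_nonneg (hom_fT τ y), mul_pow,
      List.length_cons, pow_succ _ l.length]
    have h0 : 0 ≤ (1 + (X.ωE + X.ωD)) ^ l.length * X.ωD ^ l.count Ty.d := by positivity
    have h1 := sq_nonneg (nrm X.ω (l.map fun τ => fT τ y).prod)
    cases τ with
    | a =>
      rw [List.count_cons_of_ne (by decide), fT, nrm_fA_sq]
      nlinarith [mul_le_mul_of_nonneg_left ih (show 0 ≤ 1 + X.ωE by positivity),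
        mul_nonneg hD h0]
    | b =>
      rw [List.count_cons_of_ne (by decide), fT, nrm_fB_sq]
      nlinarith [mul_le_mul_of_nonneg_left ih (show 0 ≤ 1 + X.ωE + X.ωD by positivity)]
    | d =>
      rw [List.count_cons_self, fT, nrm_fD_sq, pow_succ _ (l.count Ty.d)]
      nlinarith [mul_le_mul_of_nonneg_left ih hD,
        mul_nonneg (mul_nonneg hD h0) (add_nonneg hE hD)]

/-- a list of cells -/
theorem nrm_list (l : List Ty) (hl : l.length * (X.ωE + X.ωD) ≤ 1 / 2) (y : ℕ) :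
    nrm X.ω (l.map fun τ => fT τ y).prod ≤ 1.3 * √X.ωD ^ l.count Ty.d := by
  have hE := X.hωE
  have hD := X.hωD
  have h1 := X.lbrunf_nrm_list_sq l y
  have h2 : (1 + (X.ωE + X.ωD)) ^ l.length ≤ Real.exp (l.length * (X.ωE + X.ωD)) := by
    rw [Real.exp_nat_mul]
    exact pow_le_pow_left₀ (by positivity) (by linarith [Real.add_one_le_exp (X.ωE + X.ωD)]) _
  have h3 : Real.exp (1 / 2) ≤ 1.69 := by
    refine abs_le_of_sq_le_sq' ?_ (by norm_num) |>.2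
    rw [← Real.exp_nat_mul]
    norm_num
    linarith [Real.exp_one_lt_d9]
  have h4 := h2.trans ((Real.exp_le_exp.2 hl).trans h3)
  refine abs_le_of_sq_le_sq' ?_ (by positivity) |>.2
  rw [mul_pow, ← pow_mul, mul_comm (l.count Ty.d) 2, pow_mul, Real.sq_sqrt hD]
  refine h1.trans (mul_le_mul_of_nonneg_right (by linarith) (by positivity))

theorem hom_list (l : List Ty) (y : ℕ) : Hom l.length (l.map fun τ => fT τ y).prod := by
  induction l with
  | nil => exact hom_one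
  | cons τ l ih =>
    rw [List.map_cons, List.prod_cons, List.length_cons, add_comm]
    exact (hom_fT τ y).mul ih

end Ctx

end Crest.Agent.R300.LB
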