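import Crest.Agent.R300.LBStepA
import Crest.Agent.R300.LBChaos
import Crest.Agent.R300.LBRC
import Crest.Agent.R300.LBFog

/-! Row 300 lower bound: the inductive step. -/

set_option autoImplicit false

namespace Crest.Agent.R300.LB

open Finset

open Polynomial

variable {M : Type*} [Monoid M]

theorem LBStep_tt {T : ℕ} (hT : 1 ≤ T) : T ^ 2 ≤ tt T ∧ 16 ≤ tt T := by
  unfold tt
  have h1 : T ^ 2 ≤ T ^ 3 := Nat.pow_le_pow_right hT (by norm_num)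
  have h2 : 1 ≤ T ^ 3 := Nat.one_le_pow _ _ hT
  omega

theorem LBStep_PP {T : ℕ} (hT : 1 ≤ T) (s' : ℕ) : 36 * T * s' ≤ PP T s' := by
  unfold PP
  have h : 1 ≤ tt T ^ 2 := Nat.one_le_pow _ _ (by have := (LBStep_tt hT).2; omega)
  calc 36 * T * s' = 36 * T * 1 * s' := by ring
    _ ≤ 36 * T * tt T ^ 2 * s' := by gcongr

theorem LBStep_NN {T : ℕ} (hT : 1 ≤ T) (s' : ℕ) : s' ≤ NN T s' := by
  unfold NN
  have h := LBStep_PP hT s'
  have h2 : 36 * 1 * s' ≤ 36 * T * s' := by gcongr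
  omega

theorem LBStep_err {nb θ ω x e : ℝ} (hnb : 10 ≤ nb) (hθ0 : 0 ≤ θ) (hθ1 : θ ≤ 1)
    (hω : ω ≤ nb ^ 8) (hx : x ≤ θ) (he : e ≤ nb ^ 19 * θ) :
    e + 2 * √ω * √(x + 4 * (nb ^ 16 * θ)) ≤ nb ^ 20 * √θ := by
  have hnb0 : 0 ≤ nb := by linarith
  have hnb1 : 1 ≤ nb := by linarith
  have hs : 0 ≤ √θ := Real.sqrt_nonneg θ
  have h1 : √ω ≤ nb ^ 4 := Real.sqrt_le_iff.2 ⟨by positivity, by linarith [hω, pow_mul nb 4 2]⟩
  have h16 : 1 ≤ nb ^ 16 := one_le_pow₀ hnb1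
  have h2 : √(x + 4 * (nb ^ 16 * θ)) ≤ 3 * nb ^ 8 * √θ := by
    refine Real.sqrt_le_iff.2 ⟨by positivity, ?_⟩
    have e1 : (3 * nb ^ 8 * √θ) ^ 2 = 9 * (nb ^ 16 * θ) := by
      rw [mul_pow, Real.sq_sqrt hθ0]; ring
    have e2 : θ ≤ nb ^ 16 * θ := le_mul_of_one_le_left hθ0 h16
    rw [e1]; linarith
  have h3 : θ ≤ √θ := by
    refine Real.le_sqrt_of_sq_le ?_
    nlinarith
  have h4 : 2 * √ω * √(x + 4 * (nb ^ 16 * θ)) ≤ 2 * nb ^ 4 * (3 * nb ^ 8 * √θ) := by gcongr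
  have h5 : nb ^ 19 * θ ≤ nb ^ 19 * √θ := by gcongr
  have h6 : nb ^ 12 * √θ ≤ nb ^ 19 * √θ := by
    exact mul_le_mul_of_nonneg_right (pow_le_pow_right₀ hnb1 (by norm_num)) hs
  have h7 : 10 * (nb ^ 19 * √θ) ≤ nb * (nb ^ 19 * √θ) := by gcongr
  have h8 : 0 ≤ nb ^ 19 * √θ := by positivity
  have e3 : 2 * nb ^ 4 * (3 * nb ^ 8 * √θ) = 6 * (nb ^ 12 * √θ) := by ring
  have e4 : nb ^ 20 * √θ = nb * (nb ^ 19 * √θ) := by ring
  linarith

/-- Build the context: `u = 36 T w² s / N + 2` (division of naturals), `g1 = 36 w² s`,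
`c = (kern T w W).coeff`, `ξ` from `Bes.union`, `chaos` (weights `3 (2T) (2 e2) = 12 T e2`),
`smooth_family` with `k = N u` (`R^u = A^(N u)`), `kern_sq`, Cauchy-Schwarz for `c1`
(`2W + 1 ≤ s' ≤ nb`, `T² ≤ tt T ≤ nb`).  `2uT ≤ PP T s'` because `w ≤ 2N`, `s' ≥ 136 N s`. -/
theorem exists_ctx {C : Cell M} {T w s s' : ℕ} {e2 h2 θ nb : ℝ} (hC : C.OK (2 * T) e2 h2 s θ)
    (hT : 1 ≤ T) (hs : 1 ≤ s) (hN : 1 ≤ C.N) (hnum : StepNum T w C.W C.N s s' e2 h2)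
    (hnb : 10 ≤ nb) (hnb' : (NN T s' : ℝ) ≤ nb) (hθ : nb ^ 20 * θ ≤ 1) (hθ' : (1 / 2 : ℝ) ^ T ≤ θ) :
    ∃ X : Ctx M, X.C = C ∧ X.p = 2 * T ∧ X.T = T ∧ X.m0 = NN T s' ∧ X.ωE = 12 * T * e2 ∧
      X.ωD = 12 * T * h2 ∧ X.φ = (T : ℝ) ^ 2 / w ∧ X.θ = θ ∧ X.nb = nb ∧
      2 * X.u * T ≤ PP T s' := by
  obtain ⟨hA, ha, hb, hsl, ξE, ξD, hE, hD, errE, errD⟩ := hC
  obtain ⟨hw, hW, hs', n1, n2, n3⟩ := hnum
  have hR : Prob C.R := Cell.prob_R hA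
  have hU := Bes.union (p := 2 * T) (by omega) hR.1 hE hD
  have he2 : 0 ≤ e2 := hE.2.1 0
  have hh2 : 0 ≤ h2 := hD.2.1 0
  have hT' : (1 : ℝ) ≤ T := by exact_mod_cast hT
  have hw' : (1 : ℝ) ≤ w := by exact_mod_cast hw
  have hN' : (0 : ℝ) < C.N := by exact_mod_cast hN
  have hθ0 : 0 ≤ θ := le_trans (by positivity) hθ'
  have hWN : 2 * C.W ≤ C.N := by unfold Cell.N; omega
  have hwN : w ≤ 2 * C.N := by
    have : 1 * (w - 1) ≤ T * (w - 1) := Nat.mul_le_mul_right _ hT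
    omega
  have hNs : 1 ≤ C.N * s := Nat.mul_pos hN hs
  have hNs' : C.N ≤ C.N * s := Nat.le_mul_of_pos_right _ hs
  have hs'' : 136 * (C.N * s) ≤ s' := by rwa [← mul_assoc]
  have hu2 : 2 * (36 * T * w ^ 2 * s / C.N + 2) * T ≤ PP T s' := by
    have h1 : 36 * T * w ^ 2 * s / C.N ≤ 144 * T * (C.N * s) := by
      refine Nat.div_le_of_le_mul ?_
      calc 36 * T * w ^ 2 * s ≤ 36 * T * (2 * C.N) ^ 2 * s := by gcongr
        _ = C.N * (144 * T * (C.N * s)) := by ring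
    have h2 : 1 ≤ T * (C.N * s) := Nat.mul_pos hT hNs
    have h3 : 2 * (36 * T * w ^ 2 * s / C.N + 2) ≤ 292 * (T * (C.N * s)) := by
      rw [mul_assoc 144] at h1; omega
    have h4 : T ≤ tt T ^ 2 := by
      have := (LBStep_tt hT).1
      have h5 : T ≤ T ^ 2 := Nat.le_self_pow (by norm_num) T
      have h6 : tt T ≤ tt T ^ 2 := Nat.le_self_pow (by norm_num) _
      omega
    unfold PP
    calc 2 * (36 * T * w ^ 2 * s / C.N + 2) * T ≤ 292 * (T * (C.N * s)) * T := by gcongr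
      _ ≤ (36 * 136) * (T * (C.N * s)) * T := by gcongr; norm_num
      _ = 36 * T * T * (136 * (C.N * s)) := by ring
      _ ≤ 36 * T * tt T ^ 2 * s' := by gcongr
  have hφnb : (T : ℝ) ^ 2 / w ≤ nb := by
    have h1 : T ^ 2 ≤ NN T s' := by
      have := (LBStep_tt hT).1
      unfold NN; omega
    have h2 : (T : ℝ) ^ 2 ≤ NN T s' := by exact_mod_cast h1
    exact (div_le_self (by positivity) hw').trans (h2.trans hnb')
  have hWnb : ((2 * C.W + 1 : ℕ) : ℝ) ≤ nb := by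
    have h1 : 2 * C.W + 1 ≤ NN T s' := by
      have := LBStep_NN hT s'
      omega
    exact (Nat.cast_le.2 h1).trans hnb'
  refine ⟨{
    C := C
    p := 2 * T
    T := T
    u := 36 * T * w ^ 2 * s / C.N + 2
    m0 := NN T s'
    ξ := fun a => if a.1 then ξD a.2 else ξE a.2
    ωE := 12 * T * e2
    ωD := 12 * T * h2
    φ := (T : ℝ) ^ 2 / w
    θ := θ
    nb := nb
    c := (kern T w C.W).coeff
    hA := hA
    ha := ha
    hb := hb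
    hp := by omega
    hu := le_add_left (by norm_num)
    hωE := by positivity
    hωD := by positivity
    hφ := by positivity
    hθ := hθ0
    mass0 := hU.1
    chaos := fun n F hF => ?_
    errE := fun y hy => by simpa using errE y hy
    errD := fun y hy => by simpa using errD y hy
    c2 := kern_sq T w C.W _ hw
    c1 := ?_
    smooth := fun Z hZ => ?_
    hE := ?_
    hwin := n2
    hD := ?_
    hnb := hnb
    hm0 := hnb'
    hum := ?_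
    hnθ := hθ
    hT := hθ' }, rfl, rfl, rfl, rfl, rfl, rfl, rfl, rfl, rfl, hu2⟩
  · have h := chaos (p := 2 * T) (even_two_mul T) (by omega) hR hU n F hF
    have e : (fun a : Bool × ℕ => 3 * ((2 * T : ℕ) : ℝ) * (if a.1 then 2 * h2 else 2 * e2)) =
        fun a : Bool × ℕ => if a.1 then 12 * (T : ℝ) * h2 else 12 * T * e2 := by
      funext a
      split_ifs <;> push_cast <;> ring
    rwa [e] at h
  · refine abs_le_of_sq_le_sq' ?_ (by linarith) |>.2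
    have h1 := sq_sum_le_card_mul_sum_sq (s := range (2 * C.W + 1))
      (f := fun y => |(kern T w C.W).coeff y|)
    simp only [sq_abs, card_range] at h1
    have h2 := kern_sq T w C.W (2 * C.W + 1) hw
    calc _ ≤ _ := h1
      _ ≤ nb * nb := mul_le_mul hWnb (h2.trans hφnb) (sum_nonneg fun _ _ => sq_nonneg _)
          (by linarith)
      _ = nb ^ 2 := (sq nb).symm
  · have hk : T * (36 * w ^ 2 * s) + 2 * C.W ≤ C.N * (36 * T * w ^ 2 * s / C.N + 2) := by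
      have h1 := Nat.div_add_mod (36 * T * w ^ 2 * s) C.N
      have h2 := Nat.mod_lt (36 * T * w ^ 2 * s) hN
      have e : T * (36 * w ^ 2 * s) = 36 * T * w ^ 2 * s := by ring
      rw [e, mul_add]
      omega
    have h := smooth_family hA hsl (g1 := 36 * w ^ 2 * s) hw hW (by push_cast; linarith) hk Z hZ
    unfold Cell.R
    rw [← pow_mul]
    refine h.trans (mul_le_mul_of_nonneg_right (le_trans ?_ hθ') (norm_nonneg _))
    exact pow_le_pow_left₀ (by norm_num) (by norm_num) T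
  · refine le_trans (mul_le_mul_of_nonneg_right ?_ (by positivity)) n1
    have h1 : ((36 * T * w ^ 2 * s / C.N : ℕ) : ℝ) ≤ ((36 * T * w ^ 2 * s : ℕ) : ℝ) / C.N :=
      Nat.cast_div_le
    have e : 72 * (T : ℝ) * (w : ℝ) ^ 2 * s / C.N =
        2 * (((36 * T * w ^ 2 * s : ℕ) : ℝ) / C.N) := by
      push_cast; ring
    rw [e, Nat.cast_add]
    push_cast at h1 ⊢
    linarith
  · have h1 : (1 : ℝ) ≤ tt T := by
      have := (LBStep_tt hT).2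
      exact_mod_cast (by omega : 1 ≤ tt T)
    have g2 : (0 : ℝ) ≤ 12 * T * e2 := by positivity
    have g3 : (0 : ℝ) ≤ 12 * T * h2 := by positivity
    have g4 := le_mul_of_one_le_left (add_nonneg g2 g3) h1
    linarith
  · have h1 : 2 * (36 * T * w ^ 2 * s / C.N + 2) * 1 ≤ 2 * (36 * T * w ^ 2 * s / C.N + 2) * T :=
      Nat.mul_le_mul_left _ hT
    unfold NN
    omega

/-- The `a`-cell slips: `window` for `m = 16 N s` and `m + 1`, `Slip.pow_sub_pow`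
(`N √(s/(N m + 1)) ≤ 1/4`), `overlap` (mass `≥ 1/2`), `foguel`: `8 (m+1) ≤ 136 N s`. -/
theorem Ctx.slip_Ap (X : Ctx M) {s : ℕ} (hs : 1 ≤ s) (hN : 1 ≤ X.C.N) (h : Slip X.C.A s)
    (hm : 16 * X.C.N * s + 1 ≤ X.m0) : Slip X.C.Ap ((136 * X.C.N * s : ℕ) : ℝ) := by
  have hR : Prob X.C.R := Cell.prob_R X.hA
  have hAp : Prob X.C.Ap := X.prob_Ay _
  have hw : ∀ m ≤ X.m0, ‖X.C.Ap ^ m - X.C.R ^ m‖ ≤ 1 / 10 + 1 / 8 := by
    intro m hm
    obtain ⟨f, hf, he⟩ := X.window hm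
    have h1 := hf.norm_le X.hp (hR.pow m)
    have h2 := X.pow_θ_le (k := 16) (by norm_num)
    calc ‖X.C.Ap ^ m - X.C.R ^ m‖ = ‖(X.C.Ap ^ m - X.C.R ^ m - f) + f‖ := by rw [sub_add_cancel]
      _ ≤ _ := norm_add_le _ _
      _ ≤ _ := add_le_add (he.trans h2) h1
  set m := 16 * X.C.N * s with hmdef
  have hN' : (1 : ℝ) ≤ X.C.N := by exact_mod_cast hN
  have hs' : (1 : ℝ) ≤ s := by exact_mod_cast hs
  have h3 : ‖X.C.R ^ m - X.C.R ^ (m + 1)‖ ≤ 1 / 4 := by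
    have h4 := h.pow_sub_pow X.hA (X.C.N * m) X.C.N
    unfold Cell.R
    rw [← pow_mul, ← pow_mul, mul_add, mul_one]
    refine h4.trans ?_
    have h5 : √((s : ℝ) / (((X.C.N * m : ℕ) : ℝ) + 1)) ≤ 1 / (4 * X.C.N) := by
      refine Real.sqrt_le_iff.2 ⟨by positivity, ?_⟩
      rw [div_pow, div_le_div_iff₀ (by positivity) (by positivity), hmdef]
      push_cast
      nlinarith
    calc (X.C.N : ℝ) * √((s : ℝ) / (((X.C.N * m : ℕ) : ℝ) + 1)) ≤ X.C.N * (1 / (4 * X.C.N)) := by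
          gcongr
      _ = 1 / 4 := by field_simp
  have h6 : ‖X.C.Ap ^ m - X.C.Ap ^ (m + 1)‖ ≤ 1 := by
    have e : X.C.Ap ^ m - X.C.Ap ^ (m + 1) = (X.C.Ap ^ m - X.C.R ^ m) +
        (X.C.R ^ m - X.C.R ^ (m + 1)) - (X.C.Ap ^ (m + 1) - X.C.R ^ (m + 1)) := by abel
    have g1 := hw m (by omega)
    have g2 := hw (m + 1) hm
    rw [e]
    refine (norm_sub_le _ _).trans ?_
    have g3 := norm_add_le (X.C.Ap ^ m - X.C.R ^ m) (X.C.R ^ m - X.C.R ^ (m + 1))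
    linarith
  obtain ⟨μ, hμ, hμ1, hμ2, hμ3⟩ := overlap (hAp.pow m) (hAp.pow (m + 1))
  have h7 := foguel hAp hμ hμ1 hμ2 (ρ := 1 / 2) (by norm_num) (by linarith)
  refine h7.mono ?_
  rw [hmdef]
  push_cast
  have g4 : (1 : ℝ) ≤ X.C.N * s := one_le_mul_of_one_le_of_one_le hN' hs'
  nlinarith

/-- from a formal family to a Bessel family for `Ap ^ m`: `chaos`, `mass_ev_eq_zero`, `window`,
`rc_bes` -/
theorem Ctx.bes_of_fam (X : Ctx M) (hp : 2 ≤ X.p) {m : ℕ} (hm : m ≤ X.m0)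
    (F : ℕ → Wd (Bool × ℕ)) (hF : ∀ y, Hom m (F y))
    (hF' : ∀ y, Supp (fun l => ∃ a, some a ∈ l) (F y)) {ω : ℝ} (hω : 0 ≤ ω)
    (hn : ∀ (s : Finset ℕ) (c : ℕ → ℝ), nrm X.ω (∑ y ∈ s, c y • F y) ≤ √(∑ y ∈ s, c y ^ 2 * ω)) :
    ∃ ξ' : ℕ → Alg M, Bes X.p (X.C.Ap ^ m) ξ' (fun _ => 9 * ω) ∧
      ∀ y, ‖X.ev (F y) - ξ' y‖ ≤ 2 * √ω * √((1 / 2) ^ X.p + 4 * (X.nb ^ 16 * X.θ)) := by
  have hR : Prob X.C.R := Cell.prob_R X.hA
  have hAp : Prob X.C.Ap := X.prob_Ay _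
  have hB : Bes X.p (X.C.R ^ m) (fun y => X.ev (F y)) (fun _ => ω) := by
    refine ⟨fun y => mass_ev_eq_zero _ X.mass0 (hF' y), fun _ => hω, fun s c => ?_⟩
    have h1 := X.chaos m (∑ y ∈ s, c y • F y) (Hom.sum s _ fun y _ => (hF y).smul _)
    have e : ∑ y ∈ s, c y • X.ev (F y) = LB.ev X.C.R X.ξ (∑ y ∈ s, c y • F y) := by
      rw [map_sum]
      exact sum_congr rfl fun y _ => (map_smul _ _ _).symm
    rw [e]
    exact h1.mono (hn s c)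
  obtain ⟨f, hf, he⟩ := X.window hm
  exact rc_bes hp (hR.pow m) (hAp.pow m) hf he hB

/-- The inductive step: `exists_ctx`, `slip_Ap`, `famE`, `famD`, `bes_of_fam` with `m = NN T s'`
(`(next).R = Ap ^ (4P + t)`).  Errors: `√ω ≤ 4 t² √φ ≤ nb^4`, `(1/2)^(2T) ≤ θ`, so the total is at
most `nb^19 θ + 2 nb^4 √5 nb^8 √θ ≤ nb^20 √θ`. -/
theorem step {C : Cell M} {T w s s' : ℕ} {e2 h2 θ nb : ℝ} (hC : C.OK (2 * T) e2 h2 s θ)
    (hT : 1 ≤ T) (hs : 1 ≤ s) (hN : 1 ≤ C.N) (hnum : StepNum T w C.W C.N s s' e2 h2)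
    (hnb : 10 ≤ nb) (hnb' : (NN T s' : ℝ) ≤ nb) (hθ : nb ^ 20 * θ ≤ 1) (hθ' : (1 / 2 : ℝ) ^ T ≤ θ)
    {U V : ℕ → Bool} (hUV : (X - 1 : ℝ[X]) ^ T ∣ patPoly (tt T) U V) :
    (C.next (PP T s') (tt T) U V).OK (2 * T) (eNext T w h2) (hNext T w h2) s'
      (nb ^ 20 * √θ) := by
  obtain ⟨Y, rfl, hp, hT', hm0, hωE, hωD, hφ, rfl, rfl, hu⟩ :=
    exists_ctx hC hT hs hN hnum hnb hnb' hθ hθ'
  obtain ⟨hw, -, hs', -, -, n3⟩ := hnum
  have hNs : 1 ≤ Y.C.N * s := Nat.mul_pos hN hs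
  have hNN := LBStep_NN hT s'
  have hsl : Slip Y.C.Ap s' := by
    refine (Y.slip_Ap hs hN hC.2.2.2.1 ?_).mono (by exact_mod_cast hs')
    rw [hm0, mul_assoc]
    rw [mul_assoc] at hs'
    omega
  have hm : 4 * PP T s' + tt T ≤ Y.m0 := by rw [hm0]; exact le_rfl
  have hP : 2 * Y.u * Y.T ≤ PP T s' := by rw [hT']; exact hu
  have ht : (tt T : ℝ) * (Y.ωE + Y.ωD) ≤ 1 / 2 := by rw [hωE, hωD]; exact n3
  have ht1 : 1 ≤ tt T := by have := (LBStep_tt hT).2; omega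
  have hp2 : 2 ≤ Y.p := by omega
  obtain ⟨FE, a1, a2, a3, a4⟩ := Y.famE U V hP hm ht
  obtain ⟨FD, b1, b2, b3, b4⟩ := Y.famD U V hP hm ht ht1 hsl
    (by rw [hT']; unfold PP; exact le_of_eq (by ring)) (by rw [hT']; exact hUV)
  have hφ0 := Y.hφ
  have hD0 := Y.hωD
  have hD1 := Y.hD
  obtain ⟨ξE, c1, c2⟩ := Y.bes_of_fam hp2 hm FE a1 a2 (by positivity) a3
  obtain ⟨ξD, d1, d2⟩ := Y.bes_of_fam hp2 hm FD b1 b2 (by positivity) b3
  have hAp : Prob Y.C.Ap := Y.prob_Ay _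
  have hBp : Prob Y.C.Bp := Y.prob_By _
  have hRn : (Y.C.next (PP T s') (tt T) U V).R = Y.C.Ap ^ (4 * PP T s' + tt T) := by
    unfold Cell.R Cell.N Cell.next
    congr 1
    ring
  have hnb1 : 1 ≤ Y.nb := by linarith
  have hnb0 : 0 ≤ Y.nb := by linarith
  have htnb : (tt T : ℝ) ≤ Y.nb := by
    refine le_trans ?_ hnb'
    exact_mod_cast (by unfold NN; omega : tt T ≤ NN T s')
  have hφnb : Y.φ ≤ Y.nb := by
    rw [hφ]
    have h2 : (T : ℝ) ^ 2 ≤ tt T := by exact_mod_cast (LBStep_tt hT).1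
    exact (div_le_self (by positivity) (by exact_mod_cast hw)).trans (h2.trans htnb)
  have hθ1 : Y.θ ≤ 1 := Y.θ_le.trans (by norm_num)
  have hx : (1 / 2 : ℝ) ^ Y.p ≤ Y.θ :=
    (pow_le_pow_of_le_one (by norm_num) (by norm_num) (by omega)).trans hθ'
  have h16 : (16 : ℝ) ≤ Y.nb ^ 2 := by nlinarith
  have g1 : 16 * (tt T : ℝ) ^ 2 * Y.φ * Y.ωD ≤ Y.nb ^ 8 := by
    calc 16 * (tt T : ℝ) ^ 2 * Y.φ * Y.ωD ≤ Y.nb ^ 2 * Y.nb ^ 2 * Y.nb * 1 := by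
          gcongr; linarith
      _ = Y.nb ^ 5 := by ring
      _ ≤ Y.nb ^ 8 := pow_le_pow_right₀ hnb1 (by norm_num)
  have g2 : 16 * (tt T : ℝ) ^ 4 * Y.φ * Y.ωD ^ 2 ≤ Y.nb ^ 8 := by
    calc 16 * (tt T : ℝ) ^ 4 * Y.φ * Y.ωD ^ 2 ≤ Y.nb ^ 2 * Y.nb ^ 4 * Y.nb * 1 ^ 2 := by
          gcongr; linarith
      _ = Y.nb ^ 7 := by ring
      _ ≤ Y.nb ^ 8 := pow_le_pow_right₀ hnb1 (by norm_num)
  refine ⟨hAp, ((hAp.pow _).mul (hAp.pat hBp _ U)).mul (hAp.pow _),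
    ((hAp.pow _).mul (hAp.pat hBp _ V)).mul (hAp.pow _), hsl, ξE, ξD, ?_, ?_,
    fun y hy => ?_, fun y hy => ?_⟩
  · rw [hRn, ← hp]
    refine c1.mono fun _ => le_of_eq ?_
    rw [hφ, hωD]; unfold eNext; ring
  · rw [hRn, ← hp]
    refine d1.mono fun _ => le_of_eq ?_
    rw [hφ, hωD]; unfold hNext; ring
  · have h17 : Y.nb ^ 17 * Y.θ ≤ Y.nb ^ 19 * Y.θ :=
      mul_le_mul_of_nonneg_right (pow_le_pow_right₀ hnb1 (by norm_num)) Y.hθ
    refine le_trans ?_ (LBStep_err hnb Y.hθ hθ1 g1 hx h17)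
    exact (norm_sub_le_norm_sub_add_norm_sub _ (Y.ev (FE y)) _).trans
      (add_le_add (a4 y hy) (c2 y))
  · refine le_trans ?_ (LBStep_err hnb Y.hθ hθ1 g2 hx le_rfl)
    exact (norm_sub_le_norm_sub_add_norm_sub _ (Y.ev (FD y)) _).trans
      (add_le_add (b4 y hy) (d2 y))

end Crest.Agent.R300.LB
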