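import Crest.Agent.R300.LBComp
import Crest.Agent.R300.LBKerB
import Crest.Agent.R300.LBPat

/-! Row 300 lower bound: formal approximants of the defects of the next level. -/

set_option autoImplicit false

namespace Crest.Agent.R300.LB

open Finset

open Polynomial

/-- families whose members with a common second index have their first `D` at different
positions: triangle inequality in the second index, Pythagoras in the first -/
theorem nrm_family_le {ω : Option (Bool × ℕ) → ℝ} (hω : ∀ l, 0 ≤ ω l) {κ : Type*} (I : Finset κ)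
    (F : ℕ → κ → Wd (Bool × ℕ)) (pos : κ → ℕ) (hF : ∀ y, ∀ i ∈ I, FirstD (y + pos i) (F y i))
    {β : ℝ} (hβ : 0 ≤ β) (hn : ∀ y, ∀ i ∈ I, nrm ω (F y i) ≤ β) (s : Finset ℕ) (c : ℕ → ℝ) :
    nrm ω (∑ y ∈ s, c y • ∑ i ∈ I, F y i) ≤ √(∑ y ∈ s, c y ^ 2 * ((I.card : ℝ) * β) ^ 2) := by
  have h0 : 0 ≤ ∑ y ∈ s, c y ^ 2 * β ^ 2 := sum_nonneg fun _ _ => by positivity
  have e1 : ∑ y ∈ s, c y • ∑ i ∈ I, F y i = ∑ i ∈ I, ∑ y ∈ s, c y • F y i := by
    simp only [smul_sum]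
    exact sum_comm
  have e2 : ∀ i ∈ I, nrm ω (∑ y ∈ s, c y • F y i) ≤ √(∑ y ∈ s, c y ^ 2 * β ^ 2) := by
    intro i hi
    refine Real.le_sqrt_of_sq_le ?_
    rw [nrm_sum_orth hω s c (fun y => F y i) fun y _ y' _ hyy =>
      FirstD.orth ω (hF y i hi) (hF y' i hi) (by omega)]
    refine sum_le_sum fun y _ => mul_le_mul_of_nonneg_left ?_ (sq_nonneg _)
    exact pow_le_pow_left₀ (nrm_nonneg _ _) (hn y i hi) 2
  have e3 : ∑ y ∈ s, c y ^ 2 * ((I.card : ℝ) * β) ^ 2 =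
      (I.card : ℝ) ^ 2 * ∑ y ∈ s, c y ^ 2 * β ^ 2 := by
    rw [mul_sum]
    exact sum_congr rfl fun y _ => by ring
  rw [e1, e3, Real.sqrt_mul (sq_nonneg _), Real.sqrt_sq (Nat.cast_nonneg _)]
  refine (nrm_sum_le hω _ _).trans ((sum_le_sum e2).trans (le_of_eq ?_))
  rw [sum_const, nsmul_eq_mul]

variable {M : Type*} [Monoid M] (X : Ctx M)

namespace Ctx

/-- the types of the cells `a, a + 1, …` of a pattern -/
def stepA_ty (U : ℕ → Bool) (a n : ℕ) : List Ty :=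
  (List.range' a n).map fun j => if U j then Ty.b else Ty.a

theorem stepA_ty_length (U : ℕ → Bool) (a n : ℕ) : (stepA_ty U a n).length = n := by
  simp [stepA_ty]

theorem stepA_Bp : X.C.Bp = X.C.Ap + X.C.D X.C.W := X.C.By_eq _

theorem stepA_ty_map (U : ℕ → Bool) (a n : ℕ) :
    ((stepA_ty U a n).map fun τ => X.C.cT τ X.C.W) =
      (List.range' a n).map fun j => if U j then X.C.Ap + X.C.D X.C.W else X.C.Ap := by
  rw [stepA_ty, List.map_map]
  refine List.map_congr_left fun j _ => ?_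
  simp only [Function.comp_apply]
  split_ifs
  · exact X.stepA_Bp
  · rfl

theorem stepA_t_le {P t : ℕ} (hm : 4 * P + t ≤ X.m0) : (t : ℝ) ≤ X.nb :=
  le_trans (by exact_mod_cast (by omega : t ≤ X.m0)) X.hm0

theorem stepA_fam {P t : ℕ} {κ : Type} (I : Finset κ) (pos : κ → ℕ) (l : κ → List Ty) {n : ℕ}
    {κ0 : ℝ} (hlen : ∀ i ∈ I, pos i + 1 + (l i).length = t)
    (hcount : ∀ i ∈ I, n ≤ (l i).count Ty.d) (hcard : (I.card : ℝ) ≤ κ0)
    (hP : 2 * X.u * X.T ≤ P) (hm : 4 * P + t ≤ X.m0) (ht : t * (X.ωE + X.ωD) ≤ 1 / 2) :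
    ∃ F : ℕ → Wd (Bool × ℕ), (∀ y, Hom (4 * P + t) (F y)) ∧
      (∀ y, Supp (fun l => ∃ a, some a ∈ l) (F y)) ∧
      (∀ (s : Finset ℕ) (c : ℕ → ℝ), nrm X.ω (∑ y ∈ s, c y • F y) ≤
        √(∑ y ∈ s, c y ^ 2 * (κ0 * (4 * √(X.φ * X.ωD) * √X.ωD ^ n)) ^ 2)) ∧
      ∀ y ≤ 2 * P, ‖X.C.Ap ^ (y + P) * (∑ i ∈ I, X.C.Ap ^ pos i * X.C.D X.C.W *
          ((l i).map fun τ => X.C.cT τ X.C.W).prod) * X.C.Ap ^ (3 * P - y) - X.ev (F y)‖ ≤
        κ0 * (X.nb ^ 16 * X.θ) := by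
  have hβ : 0 ≤ 4 * √(X.φ * X.ωD) * √X.ωD ^ n := by positivity
  have hnb : (0 : ℝ) ≤ X.nb := le_trans (by norm_num) X.hnb
  have hθ := X.hθ
  have h : ∀ (y : ℕ) (i : κ), ∃ F : Wd (Bool × ℕ), Hom (4 * P + t) F ∧
      FirstD (y + (P + pos i)) F ∧ nrm X.ω F ≤ 4 * √(X.φ * X.ωD) * √X.ωD ^ n ∧
      (y ≤ 2 * P → i ∈ I → ‖X.C.Ap ^ (y + P) * (X.C.Ap ^ pos i * X.C.D X.C.W *
          ((l i).map fun τ => X.C.cT τ X.C.W).prod) * X.C.Ap ^ (3 * P - y) - X.ev F‖ ≤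
        X.nb ^ 16 * X.θ) := by
    intro y i
    by_cases hy : y ≤ 2 * P ∧ i ∈ I
    · have h1 := hlen i hy.2
      have h2 : ((l i).length : ℝ) * (X.ωE + X.ωD) ≤ 1 / 2 := by
        refine le_trans (mul_le_mul_of_nonneg_right ?_ (add_nonneg X.hωE X.hωD)) ht
        exact_mod_cast (by omega : (l i).length ≤ t)
      obtain ⟨F, f1, f2, f3, f4⟩ := X.comp (l i) h2 (mL := y + (P + pos i)) (mR := 3 * P - y)
        (by omega) (by omega) (by omega)
      refine ⟨F, ?_, f2, f3.trans ?_, fun _ _ => ?_⟩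
      · have : y + (P + pos i) + 1 + (l i).length + (3 * P - y) = 4 * P + t := by omega
        rwa [this] at f1
      · refine mul_le_mul_of_nonneg_left ?_ (by positivity)
        refine pow_le_pow_of_le_one (Real.sqrt_nonneg _) ?_ (hcount i hy.2)
        exact Real.sqrt_le_one.2 (X.hD.trans (by norm_num))
      · simpa only [pow_add, mul_assoc] using f4
    · exact ⟨0, hom_zero _, supp_zero _, by rw [nrm_zero]; exact hβ,
        fun h1 h2 => absurd ⟨h1, h2⟩ hy⟩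
  choose F f1 f2 f3 f4 using h
  refine ⟨fun y => ∑ i ∈ I, F y i, fun y => Hom.sum _ _ fun i _ => f1 y i,
    fun y => Supp.sum _ _ fun i _ => (f2 y i).has_letter, fun s c => ?_, fun y hy => ?_⟩
  · refine (nrm_family_le X.ω_nonneg I F (fun i => P + pos i) (fun y i _ => f2 y i) hβ
      (fun y i _ => f3 y i) s c).trans ?_
    gcongr
  · rw [map_sum, mul_sum, sum_mul, ← sum_sub_distrib]
    refine (norm_sum_le _ _).trans ((sum_le_sum fun i hi => f4 y i hy hi).trans ?_)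
    rw [sum_const, nsmul_eq_mul]
    gcongr

/-- `E' y = Ap^(y+P) (pat - Ap^t) Ap^(3P-y)`; `pat_sub_pow` and `comp` with `mL = y+P+i`, the list
of types `a`/`b` of the cells `j > i`, `mR = 3P - y`; choose the formal elements
(`0` if `U i` is false or `y > 2P`) and use `nrm_family_le` with `I = range t`. -/
theorem famE {P t : ℕ} (U V : ℕ → Bool) (hP : 2 * X.u * X.T ≤ P) (hm : 4 * P + t ≤ X.m0)
    (ht : t * (X.ωE + X.ωD) ≤ 1 / 2) :
    ∃ F : ℕ → Wd (Bool × ℕ), (∀ y, Hom (4 * P + t) (F y)) ∧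
      (∀ y, Supp (fun l => ∃ a, some a ∈ l) (F y)) ∧
      (∀ (s : Finset ℕ) (c : ℕ → ℝ), nrm X.ω (∑ y ∈ s, c y • F y) ≤
        √(∑ y ∈ s, c y ^ 2 * (16 * (t : ℝ) ^ 2 * X.φ * X.ωD))) ∧
      ∀ y ≤ 2 * P, ‖(X.C.next P t U V).E y - X.ev (F y)‖ ≤ X.nb ^ 17 * X.θ := by
  classical
  obtain ⟨F, h1, h2, h3, h4⟩ := X.stepA_fam ((range t).filter fun i => U i = true) (fun i => i)
    (fun i => stepA_ty U (i + 1) (t - 1 - i)) (n := 0) (κ0 := t)
    (fun i hi => by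
      have := mem_range.1 (mem_filter.1 hi).1
      rw [stepA_ty_length]; omega)
    (fun _ _ => Nat.zero_le _)
    (by exact_mod_cast (card_filter_le _ _).trans (card_range t).le) hP hm ht
  have ht' := X.stepA_t_le hm
  have hnb : (0 : ℝ) ≤ X.nb := le_trans (by norm_num) X.hnb
  have hθ := X.hθ
  refine ⟨F, h1, h2, fun s c => (h3 s c).trans (le_of_eq ?_), fun y hy => ?_⟩
  · congr 1
    refine sum_congr rfl fun y _ => ?_
    congr 1
    rw [mul_pow, mul_pow, mul_pow, Real.sq_sqrt (mul_nonneg X.hφ X.hωD)]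
    ring
  · have e : (X.C.next P t U V).E y = X.C.Ap ^ (y + P) * (pat X.C.Ap X.C.Bp t U - X.C.Ap ^ t) *
        X.C.Ap ^ (3 * P - y) := by
      have e1 : 3 * P - y = P + (2 * P - y) := by omega
      have e2 : 2 * P + t = P + t + P := by omega
      simp only [Cell.E, Cell.put, Cell.next]
      rw [e1, e2]
      simp only [pow_add, mul_sub, sub_mul, mul_assoc]
    have e' : pat X.C.Ap X.C.Bp t U - X.C.Ap ^ t = ∑ i ∈ (range t).filter fun i => U i = true,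
        X.C.Ap ^ i * X.C.D X.C.W *
          ((stepA_ty U (i + 1) (t - 1 - i)).map fun τ => X.C.cT τ X.C.W).prod := by
      rw [X.stepA_Bp, pat_sub_pow, sum_filter]
      simp only [X.stepA_ty_map]
    rw [e, e']
    refine (h4 y hy).trans ?_
    calc (t : ℝ) * (X.nb ^ 16 * X.θ) ≤ X.nb * (X.nb ^ 16 * X.θ) := by gcongr
      _ = _ := by ring

/-- the second order part of one pattern: `pat_sub_pow_two`, `comp` with `mL = y+P+i` and the
list `replicate (j-i-1) a ++ d :: (types of the cells l > j)`; at most `t²/2` pairs. -/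
theorem famTwo {P t : ℕ} (U : ℕ → Bool) (hP : 2 * X.u * X.T ≤ P) (hm : 4 * P + t ≤ X.m0)
    (ht : t * (X.ωE + X.ωD) ≤ 1 / 2) :
    ∃ F : ℕ → Wd (Bool × ℕ), (∀ y, Hom (4 * P + t) (F y)) ∧
      (∀ y, Supp (fun l => ∃ a, some a ∈ l) (F y)) ∧
      (∀ (s : Finset ℕ) (c : ℕ → ℝ), nrm X.ω (∑ y ∈ s, c y • F y) ≤
        √(∑ y ∈ s, c y ^ 2 * (4 * (t : ℝ) ^ 4 * X.φ * X.ωD ^ 2))) ∧
      ∀ y ≤ 2 * P, ‖X.C.Ap ^ (y + P) * (pat X.C.Ap X.C.Bp t U - X.C.Ap ^ t -
          ∑ i ∈ range t, if U i then X.C.Ap ^ i * X.C.D X.C.W * X.C.Ap ^ (t - 1 - i) else 0) *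
          X.C.Ap ^ (3 * P - y) - X.ev (F y)‖ ≤ X.nb ^ 18 * X.θ := by
  classical
  have hcard : ((((range t ×ˢ range t).filter fun ij : ℕ × ℕ =>
      U ij.1 = true ∧ U ij.2 = true ∧ ij.1 < ij.2).card : ℕ) : ℝ) ≤ (t : ℝ) ^ 2 / 2 := by
    have h1 : ((range t ×ˢ range t).filter fun ij : ℕ × ℕ =>
        U ij.1 = true ∧ U ij.2 = true ∧ ij.1 < ij.2).card ≤ t.choose 2 := by
      have := Finset.card_product_filter_lt (s := range t)
      rw [card_range] at this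
      rw [← this]
      exact card_le_card (monotone_filter_right _ fun ij _ h => h.2.2)
    have h2 : ((t.choose 2 : ℕ) : ℝ) ≤ (t : ℝ) ^ 2 / 2 := by
      rw [Nat.cast_choose_two]
      have : (0 : ℝ) ≤ t := Nat.cast_nonneg _
      nlinarith
    exact le_trans (by exact_mod_cast h1) h2
  obtain ⟨F, h1, h2, h3, h4⟩ := X.stepA_fam ((range t ×ˢ range t).filter fun ij : ℕ × ℕ =>
      U ij.1 = true ∧ U ij.2 = true ∧ ij.1 < ij.2) (fun ij => ij.1)
    (fun ij => List.replicate (ij.2 - ij.1 - 1) Ty.a ++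
      Ty.d :: stepA_ty U (ij.2 + 1) (t - 1 - ij.2)) (n := 1) (κ0 := (t : ℝ) ^ 2 / 2)
    (fun ij hi => by
      obtain ⟨hi1, -, -, hi2⟩ := mem_filter.1 hi
      have := mem_range.1 (mem_product.1 hi1).2
      simp only [List.length_append, List.length_replicate, List.length_cons, stepA_ty_length]
      omega)
    (fun _ _ => by simp only [List.count_append, List.count_cons_self]; omega)
    hcard hP hm ht
  have ht' := X.stepA_t_le hm
  have hnb : (0 : ℝ) ≤ X.nb := le_trans (by norm_num) X.hnb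
  have hθ := X.hθ
  refine ⟨F, h1, h2, fun s c => (h3 s c).trans (le_of_eq ?_), fun y hy => ?_⟩
  · congr 1
    refine sum_congr rfl fun y _ => ?_
    congr 1
    rw [pow_one, mul_pow, mul_pow, mul_pow, Real.sq_sqrt (mul_nonneg X.hφ X.hωD),
      Real.sq_sqrt X.hωD]
    ring
  · have e' : pat X.C.Ap X.C.Bp t U - X.C.Ap ^ t -
          (∑ i ∈ range t, if U i then X.C.Ap ^ i * X.C.D X.C.W * X.C.Ap ^ (t - 1 - i) else 0) =
        ∑ ij ∈ (range t ×ˢ range t).filter fun ij : ℕ × ℕ =>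
          U ij.1 = true ∧ U ij.2 = true ∧ ij.1 < ij.2,
        X.C.Ap ^ ij.1 * X.C.D X.C.W * ((List.replicate (ij.2 - ij.1 - 1) Ty.a ++
          Ty.d :: stepA_ty U (ij.2 + 1) (t - 1 - ij.2)).map fun τ => X.C.cT τ X.C.W).prod := by
      rw [X.stepA_Bp, pat_sub_pow_two, add_sub_cancel_left, sum_filter, sum_product]
      simp only [List.map_append, List.map_cons, List.map_replicate, List.prod_append,
        List.prod_cons, List.prod_replicate, X.stepA_ty_map, mul_assoc]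
      rfl
    rw [e']
    refine (h4 y hy).trans ?_
    have h0 : (0 : ℝ) ≤ t := Nat.cast_nonneg _
    calc (t : ℝ) ^ 2 / 2 * (X.nb ^ 16 * X.θ) ≤ X.nb ^ 2 * (X.nb ^ 16 * X.θ) := by
          gcongr
          nlinarith
      _ = _ := by ring

/-- `D' y = Ap^(y+P) (pat V - pat U) Ap^(3P-y)`: the first order terms form
`sh Ap (D W) (t-1) (patPoly t U V)` and are killed (`kill` with `m = t-1`, `g1 = 36 t² s'`,
`(1/3)^T ≤ θ`); the rest is `famTwo` for `V` minus `famTwo` for `U`. -/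
theorem famD {P t s' : ℕ} (U V : ℕ → Bool) (hP : 2 * X.u * X.T ≤ P) (hm : 4 * P + t ≤ X.m0)
    (ht : t * (X.ωE + X.ωD) ≤ 1 / 2) (ht1 : 1 ≤ t) (hs : Slip X.C.Ap s')
    (hP' : X.T * (36 * t ^ 2 * s') ≤ P)
    (hUV : (Polynomial.X - 1 : ℝ[X]) ^ X.T ∣ patPoly t U V) :
    ∃ F : ℕ → Wd (Bool × ℕ), (∀ y, Hom (4 * P + t) (F y)) ∧
      (∀ y, Supp (fun l => ∃ a, some a ∈ l) (F y)) ∧
      (∀ (s : Finset ℕ) (c : ℕ → ℝ), nrm X.ω (∑ y ∈ s, c y • F y) ≤
        √(∑ y ∈ s, c y ^ 2 * (16 * (t : ℝ) ^ 4 * X.φ * X.ωD ^ 2))) ∧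
      ∀ y ≤ 2 * P, ‖(X.C.next P t U V).D y - X.ev (F y)‖ ≤ X.nb ^ 19 * X.θ := by
  obtain ⟨F, h1, h2, h3, h4⟩ := X.famTwo V hP hm ht
  obtain ⟨G, k1, k2, k3, k4⟩ := X.famTwo U hP hm ht
  have ht' := X.stepA_t_le hm
  have hnb := X.hnb
  have hθ := X.hθ
  refine ⟨fun y => F y - G y, fun y => (h1 y).sub (k1 y), fun y => (h2 y).sub (k2 y),
    fun s c => ?_, fun y hy => ?_⟩
  · have e : ∑ y ∈ s, c y ^ 2 * (16 * (t : ℝ) ^ 4 * X.φ * X.ωD ^ 2) =
        2 ^ 2 * ∑ y ∈ s, c y ^ 2 * (4 * (t : ℝ) ^ 4 * X.φ * X.ωD ^ 2) := by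
      rw [mul_sum]
      exact sum_congr rfl fun y _ => by ring
    simp only [smul_sub, sum_sub_distrib]
    rw [e, Real.sqrt_mul (sq_nonneg _), Real.sqrt_sq (by norm_num)]
    refine (nrm_sub_le X.ω_nonneg _ _).trans ?_
    linarith [h3 s c, k3 s c]
  · have ht2 : t - 1 + 1 = t := by omega
    have ht3 : ((t - 1 : ℕ) : ℝ) + 1 = t := by exact_mod_cast ht2
    have hk := kill (X.prob_Ay X.C.W) hs hUV (patPoly_natDegree t U V) (patPoly_abs_le t U V)
      (g1 := 36 * t ^ 2 * s') (by rw [ht3]; push_cast; linarith) (X.C.D X.C.W)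
      (g := y + P) (g' := 3 * P - y) (by omega) (by omega)
    have hD : ‖X.C.D X.C.W‖ ≤ 2 := by
      have : X.C.D X.C.W = X.C.By X.C.W - X.C.Ay X.C.W := by rw [Cell.By_eq]; abel
      rw [this]
      refine (norm_sub_le _ _).trans ?_
      rw [(X.prob_Ay _).norm_eq, (X.prob_By _).norm_eq]
      norm_num
    have hT : (1 / 3 : ℝ) ^ X.T ≤ X.θ :=
      le_trans (pow_le_pow_left₀ (by norm_num) (by norm_num) _) X.hT
    have hsh : sh X.C.Ap (X.C.D X.C.W) (t - 1) (patPoly t U V) =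
        (∑ i ∈ range t, if V i then X.C.Ap ^ i * X.C.D X.C.W * X.C.Ap ^ (t - 1 - i) else 0) -
        (∑ i ∈ range t, if U i then X.C.Ap ^ i * X.C.D X.C.W * X.C.Ap ^ (t - 1 - i) else 0) := by
      rw [sh, ht2, ← sum_sub_distrib]
      refine sum_congr rfl fun i hi => ?_
      rw [patPoly_coeff, if_pos (mem_range.1 hi), sub_smul]
      congr 1 <;> split_ifs <;> simp
    have e : (X.C.next P t U V).D y = X.C.Ap ^ (y + P) *
        (pat X.C.Ap X.C.Bp t V - pat X.C.Ap X.C.Bp t U) * X.C.Ap ^ (3 * P - y) := by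
      have e1 : 3 * P - y = P + (2 * P - y) := by omega
      simp only [Cell.D, Cell.put, Cell.next]
      rw [e1]
      simp only [pow_add, mul_sub, sub_mul, mul_assoc]
    have e2 : (X.C.next P t U V).D y - X.ev (F y - G y) =
        (X.C.Ap ^ (y + P) * (pat X.C.Ap X.C.Bp t V - X.C.Ap ^ t -
          ∑ i ∈ range t, if V i then X.C.Ap ^ i * X.C.D X.C.W * X.C.Ap ^ (t - 1 - i) else 0) *
          X.C.Ap ^ (3 * P - y) - X.ev (F y)) -
        (X.C.Ap ^ (y + P) * (pat X.C.Ap X.C.Bp t U - X.C.Ap ^ t -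
          ∑ i ∈ range t, if U i then X.C.Ap ^ i * X.C.D X.C.W * X.C.Ap ^ (t - 1 - i) else 0) *
          X.C.Ap ^ (3 * P - y) - X.ev (G y)) +
        X.C.Ap ^ (y + P) * sh X.C.Ap (X.C.D X.C.W) (t - 1) (patPoly t U V) *
          X.C.Ap ^ (3 * P - y) := by
      rw [e, hsh, map_sub]
      simp only [mul_sub, sub_mul]
      abel
    rw [e2]
    refine (norm_add_le _ _).trans ?_
    refine (add_le_add ((norm_sub_le _ _).trans (add_le_add (h4 y hy) (k4 y hy))) hk).trans ?_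
    rw [ht3]
    have h5 : (t : ℝ) * (1 / 3) ^ X.T * ‖X.C.D X.C.W‖ ≤ X.nb * X.θ * 2 := by
      gcongr
    have h6 : X.nb ≤ X.nb ^ 18 := le_self_pow₀ (by linarith) (by norm_num)
    have h7 : X.nb * X.θ ≤ X.nb ^ 18 * X.θ := by gcongr
    have h8 : 0 ≤ X.nb ^ 18 * X.θ := by positivity
    have h9 : X.nb ^ 19 * X.θ = X.nb * (X.nb ^ 18 * X.θ) := by ring
    rw [h9]
    nlinarith

end Ctx

end Crest.Agent.R300.LB
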