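import Crest.Agent.Lib.PT.Rec

/-! Polynomial-time computable real / complex valued functions (values are rational, resp. Gaussian
rational). `PTR`, `PTC` are closed under the field operations by `fun_prop`. -/

set_option autoImplicit false
set_option linter.dupNamespace false

namespace Crest.Agent.Lib.PT

open Complex

variable {α β γ : Type} [Enc α] [Enc β] [Enc γ]

/-- `f` takes rational values, computable in polynomial time. -/
@[fun_prop] def PTR {α : Type} [Enc α] (f : α → ℝ) : Prop :=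
  ∃ g : α → ℚ, PT g ∧ ∀ a, f a = g a

/-- `f` takes Gaussian rational values, computable in polynomial time. -/
@[fun_prop] def PTC {α : Type} [Enc α] (f : α → ℂ) : Prop :=
  PTR (fun a => (f a).re) ∧ PTR (fun a => (f a).im)

/-- The complex number with the given rational coordinates. -/
def toC (q : ℚ × ℚ) : ℂ := ⟨q.1, q.2⟩

@[simp] lemma toC_re (q : ℚ × ℚ) : (toC q).re = q.1 := rfl
@[simp] lemma toC_im (q : ℚ × ℚ) : (toC q).im = q.2 := rfl

lemma toC_injective : Function.Injective toC := fun p q h => by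
  have h1 := congrArg Complex.re h
  have h2 := congrArg Complex.im h
  simp only [toC_re, toC_im, Rat.cast_inj] at h1 h2
  exact Prod.ext h1 h2

/-! ### reals -/

section PTR

variable {f g : α → ℝ}

protected lemma PTR.congr (hg : PTR g) (h : ∀ a, f a = g a) : PTR f := by
  obtain ⟨u, hu, h'⟩ := hg
  exact ⟨u, hu, fun a => (h a).trans (h' a)⟩

@[fun_prop] protected lemma PTR.comp {g : β → ℝ} {f : α → β} (hg : PTR g) (hf : PT f) :
    PTR (fun a => g (f a)) := by
  obtain ⟨u, hu, h⟩ := hg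
  exact ⟨fun a => u (f a), hu.comp hf, fun a => h _⟩

@[fun_prop] protected lemma PTR.ratCast {q : α → ℚ} (hq : PT q) : PTR (fun a => (q a : ℝ)) :=
  ⟨q, hq, fun _ => rfl⟩

@[fun_prop] protected lemma PTR.intCast {q : α → ℤ} (hq : PT q) : PTR (fun a => (q a : ℝ)) :=
  ⟨fun a => q a, hq.ratIntCast, fun _ => by simp⟩

@[fun_prop] protected lemma PTR.natCast {q : α → ℕ} (hq : PT q) : PTR (fun a => (q a : ℝ)) :=
  ⟨fun a => q a, hq.ratNatCast, fun _ => by simp⟩

protected lemma PTR.const_rat (q : ℚ) : PTR (fun _ : α => (q : ℝ)) := PTR.ratCast (PT.const q)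

@[fun_prop] protected lemma PTR.zero : PTR (fun _ : α => (0 : ℝ)) :=
  (PTR.const_rat 0).congr fun _ => by simp

@[fun_prop] protected lemma PTR.one : PTR (fun _ : α => (1 : ℝ)) :=
  (PTR.const_rat 1).congr fun _ => by simp

@[fun_prop] protected lemma PTR.ofNat (n : ℕ) [n.AtLeastTwo] :
    PTR (fun _ : α => (OfNat.ofNat n : ℝ)) :=
  (PTR.natCast (PT.const n)).congr fun _ => rfl

@[fun_prop] protected lemma PTR.add (hf : PTR f) (hg : PTR g) : PTR (fun a => f a + g a) := by
  obtain ⟨u, hu, h⟩ := hf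
  obtain ⟨v, hv, h'⟩ := hg
  exact ⟨fun a => u a + v a, hu.ratAdd hv, fun a => by simp [h, h']⟩

@[fun_prop] protected lemma PTR.mul (hf : PTR f) (hg : PTR g) : PTR (fun a => f a * g a) := by
  obtain ⟨u, hu, h⟩ := hf
  obtain ⟨v, hv, h'⟩ := hg
  exact ⟨fun a => u a * v a, hu.ratMul hv, fun a => by simp [h, h']⟩

@[fun_prop] protected lemma PTR.neg (hf : PTR f) : PTR (fun a => -f a) := by
  obtain ⟨u, hu, h⟩ := hf
  exact ⟨fun a => -u a, hu.ratNeg, fun a => by simp [h]⟩

@[fun_prop] protected lemma PTR.sub (hf : PTR f) (hg : PTR g) : PTR (fun a => f a - g a) :=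
  (hf.add hg.neg).congr fun _ => sub_eq_add_neg _ _

@[fun_prop] protected lemma PTR.inv (hf : PTR f) : PTR (fun a => (f a)⁻¹) := by
  obtain ⟨u, hu, h⟩ := hf
  exact ⟨fun a => (u a)⁻¹, hu.ratInv, fun a => by simp [h]⟩

@[fun_prop] protected lemma PTR.div (hf : PTR f) (hg : PTR g) : PTR (fun a => f a / g a) :=
  (hf.mul hg.inv).congr fun _ => div_eq_mul_inv _ _

@[fun_prop] protected lemma PTR.pow {n : α → ℕ} (hf : PTR f) (hn : PT n) (hb : PB n) :
    PTR (fun a => f a ^ n a) := by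
  obtain ⟨u, hu, h⟩ := hf
  exact ⟨fun a => u a ^ n a, hu.ratPow hn hb, fun a => by simp [h]⟩

lemma zpow_eq_ite {K : Type} [DivisionRing K] (x : K) (k : ℤ) :
    x ^ k = if k < 0 then (x ^ k.natAbs)⁻¹ else x ^ k.natAbs := by
  split_ifs with h
  · obtain ⟨m, rfl⟩ := Int.exists_eq_neg_ofNat h.le
    simp
  · obtain ⟨m, rfl⟩ := Int.eq_ofNat_of_zero_le (not_lt.1 h)
    simp

@[fun_prop] protected lemma PTR.ite {P : α → Prop} [∀ a, Decidable (P a)]
    (hP : PT (fun a => decide (P a))) (hf : PTR f) (hg : PTR g) :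
    PTR (fun a => if P a then f a else g a) := by
  obtain ⟨u, hu, h⟩ := hf
  obtain ⟨v, hv, h'⟩ := hg
  exact ⟨fun a => if P a then u a else v a, PT.ite hP hu hv,
    fun a => by by_cases hp : P a <;> simp [hp, h, h']⟩

@[fun_prop] protected lemma PTR.cond {c : α → Bool} (hc : PT c) (hf : PTR f) (hg : PTR g) :
    PTR (fun a => cond (c a) (f a) (g a)) :=
  (PTR.ite (P := fun a => c a = true) (hc.congr fun a => by simp) hf hg).congr fun a => by
    cases c a <;> simp

@[fun_prop] protected lemma PTR.zpow {k : α → ℤ} (hf : PTR f) (hk : PT k)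
    (hb : PB (fun a => (k a).natAbs)) : PTR (fun a => f a ^ k a) :=
  (PTR.ite (P := fun a => k a < 0) (by fun_prop) (hf.pow hk.natAbs hb).inv
    (hf.pow hk.natAbs hb)).congr fun a => zpow_eq_ite _ _

@[fun_prop] protected lemma PT.real_decide_lt [∀ a, Decidable (f a < g a)] (hf : PTR f)
    (hg : PTR g) : PT (fun a => decide (f a < g a)) := by
  obtain ⟨u, hu, h⟩ := hf
  obtain ⟨v, hv, h'⟩ := hg
  exact (hu.rat_decide_lt hv).congr fun a => by simp [h, h']

@[fun_prop] protected lemma PT.real_decide_le [∀ a, Decidable (f a ≤ g a)] (hf : PTR f)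
    (hg : PTR g) : PT (fun a => decide (f a ≤ g a)) := by
  obtain ⟨u, hu, h⟩ := hf
  obtain ⟨v, hv, h'⟩ := hg
  exact (hu.rat_decide_le hv).congr fun a => by simp [h, h']

@[fun_prop] protected lemma PT.real_decide_gt [∀ a, Decidable (f a > g a)] (hf : PTR f)
    (hg : PTR g) : PT (fun a => decide (f a > g a)) := PT.real_decide_lt hg hf

@[fun_prop] protected lemma PT.real_decide_ge [∀ a, Decidable (f a ≥ g a)] (hf : PTR f)
    (hg : PTR g) : PT (fun a => decide (f a ≥ g a)) := PT.real_decide_le hg hf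

protected lemma PT.real_decide_eq [∀ a, Decidable (f a = g a)] (hf : PTR f)
    (hg : PTR g) : PT (fun a => decide (f a = g a)) := by
  obtain ⟨u, hu, h⟩ := hf
  obtain ⟨v, hv, h'⟩ := hg
  exact (hu.decide_eq hv).congr fun a => by simp [h, h']

@[fun_prop] protected lemma PTR.max (hf : PTR f) (hg : PTR g) : PTR (fun a => max (f a) (g a)) := by
  obtain ⟨u, hu, h⟩ := hf
  obtain ⟨v, hv, h'⟩ := hg
  exact ⟨fun a => max (u a) (v a), hu.ratMax hv, fun a => by simp [h, h']⟩

@[fun_prop] protected lemma PTR.min (hf : PTR f) (hg : PTR g) : PTR (fun a => min (f a) (g a)) := by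
  obtain ⟨u, hu, h⟩ := hf
  obtain ⟨v, hv, h'⟩ := hg
  exact ⟨fun a => min (u a) (v a), hu.ratMin hv, fun a => by simp [h, h']⟩

@[fun_prop] protected lemma PTR.abs (hf : PTR f) : PTR (fun a => |f a|) := by
  obtain ⟨u, hu, h⟩ := hf
  exact ⟨fun a => |u a|, hu.ratAbs, fun a => by simp [h]⟩

@[fun_prop] protected lemma PT.realFloor (hf : PTR f) : PT (fun a => ⌊f a⌋) := by
  obtain ⟨u, hu, h⟩ := hf
  exact hu.ratFloor.congr fun a => by rw [h, Rat.floor_cast]

@[fun_prop] protected lemma PT.realCeil (hf : PTR f) : PT (fun a => ⌈f a⌉) := by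
  obtain ⟨u, hu, h⟩ := hf
  exact hu.ratCeil.congr fun a => by rw [h, Rat.ceil_cast]

@[fun_prop] protected lemma PT.realNatFloor (hf : PTR f) : PT (fun a => ⌊f a⌋₊) :=
  (PT.realFloor hf).toNat'.congr fun _ => (Int.floor_toNat _).symm

@[fun_prop] protected lemma PT.realNatCeil (hf : PTR f) : PT (fun a => ⌈f a⌉₊) :=
  (PT.realCeil hf).toNat'.congr fun _ => (Int.ceil_toNat _).symm

@[fun_prop] protected lemma PT.realRound (hf : PTR f) : PT (fun a => round (f a)) :=
  (PT.realFloor (f := fun a => f a + 1 / 2) (by fun_prop)).congr fun _ => round_eq _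

/-- Sums over the members of a list (the summand need only be `PTR` on members). -/
protected lemma PTR.sum_map_mem {l : α → List β} {F : α → β → ℝ} (hl : PT l)
    (hF : PTR (fun p : {p : α × β // p.2 ∈ l p.1} => F p.1.1 p.1.2)) :
    PTR (fun a => ((l a).map (F a)).sum) := by
  classical
  obtain ⟨u, hu, h⟩ := hF
  refine ⟨fun a => ((l a).map fun b => if hb : b ∈ l a then u ⟨(a, b), hb⟩ else 0).sum,
    (hl.map_mem (hu.congr fun p => by simp [p.2])).ratSum, fun a => ?_⟩
  beta_reduce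
  rw [Rat.cast_list_sum, List.map_map]
  congr 1
  exact List.map_congr_left fun b hb => by simpa [hb] using h ⟨(a, b), hb⟩

protected lemma PTR.prod_map_mem {l : α → List β} {F : α → β → ℝ} (hl : PT l)
    (hF : PTR (fun p : {p : α × β // p.2 ∈ l p.1} => F p.1.1 p.1.2)) :
    PTR (fun a => ((l a).map (F a)).prod) := by
  classical
  obtain ⟨u, hu, h⟩ := hF
  refine ⟨fun a => ((l a).map fun b => if hb : b ∈ l a then u ⟨(a, b), hb⟩ else 0).prod,
    (hl.map_mem (hu.congr fun p => by simp [p.2])).ratProd, fun a => ?_⟩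
  beta_reduce
  rw [Rat.cast_list_prod, List.map_map]
  congr 1
  exact List.map_congr_left fun b hb => by simpa [hb] using h ⟨(a, b), hb⟩

@[fun_prop] protected lemma PTR.sum_map {l : α → List β} {F : α → β → ℝ} (hl : PT l)
    (hF : PTR (fun p : α × β => F p.1 p.2)) : PTR (fun a => ((l a).map (F a)).sum) :=
  PTR.sum_map_mem hl (hF.comp (f := Subtype.val) (by fun_prop))

@[fun_prop] protected lemma PTR.prod_map {l : α → List β} {F : α → β → ℝ} (hl : PT l)
    (hF : PTR (fun p : α × β => F p.1 p.2)) : PTR (fun a => ((l a).map (F a)).prod) :=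
  PTR.prod_map_mem hl (hF.comp (f := Subtype.val) (by fun_prop))

@[fun_prop] protected lemma PTR.sum_fin {n : α → ℕ} {F : (a : α) → Fin (n a) → ℝ} (hn : PT n)
    (hb : PB n) (hF : PTR (fun p : Σ a, Fin (n a) => F p.1 p.2)) : PTR (fun a => ∑ i, F a i) := by
  obtain ⟨u, hu, h⟩ := hF
  exact ⟨fun a => ∑ i, u ⟨a, i⟩, PT.rat_sum_fin (f := fun a i => u ⟨a, i⟩) hn hb hu,
    fun a => by push_cast; exact Finset.sum_congr rfl fun i _ => h ⟨a, i⟩⟩

@[fun_prop] protected lemma PTR.prod_fin {n : α → ℕ} {F : (a : α) → Fin (n a) → ℝ} (hn : PT n)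
    (hb : PB n) (hF : PTR (fun p : Σ a, Fin (n a) => F p.1 p.2)) : PTR (fun a => ∏ i, F a i) := by
  obtain ⟨u, hu, h⟩ := hF
  exact ⟨fun a => ∏ i, u ⟨a, i⟩, PT.rat_prod_fin (f := fun a i => u ⟨a, i⟩) hn hb hu,
    fun a => by push_cast; exact Finset.prod_congr rfl fun i _ => h ⟨a, i⟩⟩

@[fun_prop] protected lemma PTR.sum_range {n : α → ℕ} {F : α → ℕ → ℝ} (hn : PT n)
    (hb : PB n) (hF : PTR (fun p : Σ a, Fin (n a) => F p.1 p.2)) :
    PTR (fun a => ∑ i ∈ Finset.range (n a), F a i) :=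
  (PTR.sum_fin (F := fun a i => F a i) hn hb hF).congr fun _ => Finset.sum_range _

@[fun_prop] protected lemma PTR.prod_range {n : α → ℕ} {F : α → ℕ → ℝ} (hn : PT n)
    (hb : PB n) (hF : PTR (fun p : Σ a, Fin (n a) => F p.1 p.2)) :
    PTR (fun a => ∏ i ∈ Finset.range (n a), F a i) :=
  (PTR.prod_fin (F := fun a i => F a i) hn hb hF).congr fun _ => Finset.prod_range _

/-- `List.argmin` for a real key. -/
@[fun_prop] protected lemma PT.argmin_real {l : α → List β} {F : α → β → ℝ} (hl : PT l)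
    (hF : PTR (fun p : α × β => F p.1 p.2)) : PT (fun a => (l a).argmin (F a)) :=
  PT.argAux (r := fun a b c => F a b < F a c)
    (PT.real_decide_lt (hF.comp (f := fun p : α × β × β => (p.1, p.2.1)) (by fun_prop))
      (hF.comp (f := fun p : α × β × β => (p.1, p.2.2)) (by fun_prop))) hl

@[fun_prop] protected lemma PT.argmax_real {l : α → List β} {F : α → β → ℝ} (hl : PT l)
    (hF : PTR (fun p : α × β => F p.1 p.2)) : PT (fun a => (l a).argmax (F a)) :=
  PT.argAux (r := fun a b c => F a c < F a b)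
    (PT.real_decide_lt (hF.comp (f := fun p : α × β × β => (p.1, p.2.2)) (by fun_prop))
      (hF.comp (f := fun p : α × β × β => (p.1, p.2.1)) (by fun_prop))) hl

end PTR

/-! ### complex numbers -/

section PTC

variable {f g : α → ℂ}

protected lemma PTC.congr (hg : PTC g) (h : ∀ a, f a = g a) : PTC f :=
  ⟨hg.1.congr fun a => by rw [h], hg.2.congr fun a => by rw [h]⟩

@[fun_prop] protected lemma PTC.comp {g : β → ℂ} {f : α → β} (hg : PTC g) (hf : PT f) :
    PTC (fun a => g (f a)) := ⟨hg.1.comp hf, hg.2.comp hf⟩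

@[fun_prop] protected lemma PTR.re (hf : PTC f) : PTR (fun a => (f a).re) := hf.1
@[fun_prop] protected lemma PTR.im (hf : PTC f) : PTR (fun a => (f a).im) := hf.2

@[fun_prop] protected lemma PTC.toC {q : α → ℚ × ℚ} (hq : PT q) : PTC (fun a => toC (q a)) :=
  ⟨PTR.ratCast hq.fst, PTR.ratCast hq.snd⟩

protected lemma PTC.exists_pt (hf : PTC f) : ∃ q : α → ℚ × ℚ, PT q ∧ ∀ a, f a = toC (q a) := by
  obtain ⟨⟨u, hu, h⟩, ⟨v, hv, h'⟩⟩ := hf
  exact ⟨fun a => (u a, v a), hu.pair hv, fun a => Complex.ext (h a) (h' a)⟩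

@[fun_prop] protected lemma PTC.ofReal {x : α → ℝ} (hx : PTR x) : PTC (fun a => (x a : ℂ)) :=
  ⟨hx.congr fun _ => by simp, PTR.zero.congr fun _ => by simp⟩

@[fun_prop] protected lemma PTC.mk {x y : α → ℝ} (hx : PTR x) (hy : PTR y) :
    PTC (fun a => (⟨x a, y a⟩ : ℂ)) := ⟨hx, hy⟩

@[fun_prop] protected lemma PTC.ratCast {q : α → ℚ} (hq : PT q) : PTC (fun a => (q a : ℂ)) :=
  (PTC.ofReal (PTR.ratCast hq)).congr fun _ => by simp

@[fun_prop] protected lemma PTC.intCast {q : α → ℤ} (hq : PT q) : PTC (fun a => (q a : ℂ)) :=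
  (PTC.ofReal (PTR.intCast hq)).congr fun _ => by simp

@[fun_prop] protected lemma PTC.natCast {q : α → ℕ} (hq : PT q) : PTC (fun a => (q a : ℂ)) :=
  (PTC.ofReal (PTR.natCast hq)).congr fun _ => by simp

@[fun_prop] protected lemma PTC.zero : PTC (fun _ : α => (0 : ℂ)) := ⟨PTR.zero, PTR.zero⟩

@[fun_prop] protected lemma PTC.one : PTC (fun _ : α => (1 : ℂ)) := ⟨PTR.one, PTR.zero⟩

@[fun_prop] protected lemma PTC.I : PTC (fun _ : α => Complex.I) := ⟨PTR.zero, PTR.one⟩

@[fun_prop] protected lemma PTC.ofNat (n : ℕ) [n.AtLeastTwo] :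
    PTC (fun _ : α => (OfNat.ofNat n : ℂ)) :=
  (PTC.natCast (PT.const n)).congr fun _ => rfl

@[fun_prop] protected lemma PTC.add (hf : PTC f) (hg : PTC g) : PTC (fun a => f a + g a) :=
  ⟨hf.1.add hg.1, hf.2.add hg.2⟩

@[fun_prop] protected lemma PTC.neg (hf : PTC f) : PTC (fun a => -f a) := ⟨hf.1.neg, hf.2.neg⟩

@[fun_prop] protected lemma PTC.sub (hf : PTC f) (hg : PTC g) : PTC (fun a => f a - g a) :=
  ⟨hf.1.sub hg.1, hf.2.sub hg.2⟩

@[fun_prop] protected lemma PTC.mul (hf : PTC f) (hg : PTC g) : PTC (fun a => f a * g a) :=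
  ⟨(hf.1.mul hg.1).sub (hf.2.mul hg.2), (hf.1.mul hg.2).add (hf.2.mul hg.1)⟩

@[fun_prop] protected lemma PTC.real_smul {x : α → ℝ} (hx : PTR x) (hf : PTC f) :
    PTC (fun a => x a • f a) := ((PTC.ofReal hx).mul hf).congr fun _ => by simp

@[fun_prop] protected lemma PTC.smul (hg : PTC g) (hf : PTC f) :
    PTC (fun a => g a • f a) := hg.mul hf

@[fun_prop] protected lemma PTC.star (hf : PTC f) : PTC (fun a => star (f a)) := ⟨hf.1, hf.2.neg⟩

@[fun_prop] protected lemma PTC.conj (hf : PTC f) : PTC (fun a => starRingEnd ℂ (f a)) :=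
  ⟨hf.1, hf.2.neg⟩

@[fun_prop] protected lemma PTR.normSq (hf : PTC f) : PTR (fun a => Complex.normSq (f a)) :=
  ((hf.1.mul hf.1).add (hf.2.mul hf.2)).congr fun _ => Complex.normSq_apply _

protected lemma PTR.norm_sq (hf : PTC f) : PTR (fun a => ‖f a‖ ^ 2) :=
  (PTR.normSq hf).congr fun _ => (Complex.normSq_eq_norm_sq _).symm

@[fun_prop] protected lemma PTC.inv (hf : PTC f) : PTC (fun a => (f a)⁻¹) :=
  ⟨(hf.1.div (PTR.normSq hf)).congr fun _ => Complex.inv_re _,
    (hf.2.neg.div (PTR.normSq hf)).congr fun _ => Complex.inv_im _⟩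

@[fun_prop] protected lemma PTC.div (hf : PTC f) (hg : PTC g) : PTC (fun a => f a / g a) :=
  (hf.mul hg.inv).congr fun _ => div_eq_mul_inv _ _

@[fun_prop] protected lemma PTC.ite {P : α → Prop} [∀ a, Decidable (P a)]
    (hP : PT (fun a => decide (P a))) (hf : PTC f) (hg : PTC g) :
    PTC (fun a => if P a then f a else g a) :=
  ⟨(PTR.ite hP hf.1 hg.1).congr fun a => by beta_reduce; split_ifs <;> rfl,
    (PTR.ite hP hf.2 hg.2).congr fun a => by beta_reduce; split_ifs <;> rfl⟩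

@[fun_prop] protected lemma PTC.cond {c : α → Bool} (hc : PT c) (hf : PTC f) (hg : PTC g) :
    PTC (fun a => cond (c a) (f a) (g a)) :=
  (PTC.ite (P := fun a => c a = true) (hc.congr fun a => by simp) hf hg).congr fun a => by
    cases c a <;> simp

protected lemma PT.complex_decide_eq [∀ a, Decidable (f a = g a)] (hf : PTC f)
    (hg : PTC g) : PT (fun a => decide (f a = g a)) := by
  obtain ⟨u, hu, h⟩ := hf.exists_pt
  obtain ⟨v, hv, h'⟩ := hg.exists_pt
  exact (hu.decide_eq hv).congr fun a => by simp [h, h', toC_injective.eq_iff]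

/-- Comparison of norms. -/
protected lemma PT.norm_decide_le [∀ a, Decidable (‖f a‖ ≤ ‖g a‖)] (hf : PTC f) (hg : PTC g) :
    PT (fun a => decide (‖f a‖ ≤ ‖g a‖)) :=
  (PT.real_decide_le (PTR.norm_sq hf) (PTR.norm_sq hg)).congr fun a => by
    simp only [decide_eq_decide]
    exact (pow_le_pow_iff_left₀ (norm_nonneg _) (norm_nonneg _) two_ne_zero).symm

protected lemma PT.norm_decide_lt [∀ a, Decidable (‖f a‖ < ‖g a‖)] (hf : PTC f) (hg : PTC g) :
    PT (fun a => decide (‖f a‖ < ‖g a‖)) :=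
  (PT.real_decide_lt (PTR.norm_sq hf) (PTR.norm_sq hg)).congr fun a => by
    simp only [decide_eq_decide]
    exact (pow_lt_pow_iff_left₀ (norm_nonneg _) (norm_nonneg _) two_ne_zero).symm

protected lemma PTC.sum_map_mem {l : α → List β} {F : α → β → ℂ} (hl : PT l)
    (hF : PTC (fun p : {p : α × β // p.2 ∈ l p.1} => F p.1.1 p.1.2)) :
    PTC (fun a => ((l a).map (F a)).sum) :=
  ⟨(PTR.sum_map_mem (F := fun a b => (F a b).re) hl hF.1).congr fun a => by
      have := map_list_sum Complex.reAddGroupHom ((l a).map (F a))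
      rw [List.map_map] at this; exact this,
    (PTR.sum_map_mem (F := fun a b => (F a b).im) hl hF.2).congr fun a => by
      have := map_list_sum Complex.imAddGroupHom ((l a).map (F a))
      rw [List.map_map] at this; exact this⟩

@[fun_prop] protected lemma PTC.sum_map {l : α → List β} {F : α → β → ℂ} (hl : PT l)
    (hF : PTC (fun p : α × β => F p.1 p.2)) : PTC (fun a => ((l a).map (F a)).sum) :=
  PTC.sum_map_mem hl (hF.comp (f := Subtype.val) (by fun_prop))

@[fun_prop] protected lemma PTC.sum_fin {n : α → ℕ} {F : (a : α) → Fin (n a) → ℂ} (hn : PT n)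
    (hb : PB n) (hF : PTC (fun p : Σ a, Fin (n a) => F p.1 p.2)) : PTC (fun a => ∑ i, F a i) :=
  ⟨(PTR.sum_fin (F := fun a i => (F a i).re) hn hb hF.1).congr fun _ => Complex.re_sum _ _,
    (PTR.sum_fin (F := fun a i => (F a i).im) hn hb hF.2).congr fun _ => Complex.im_sum _ _⟩

@[fun_prop] protected lemma PTC.sum_range {n : α → ℕ} {F : α → ℕ → ℂ} (hn : PT n)
    (hb : PB n) (hF : PTC (fun p : Σ a, Fin (n a) => F p.1 p.2)) :
    PTC (fun a => ∑ i ∈ Finset.range (n a), F a i) :=
  (PTC.sum_fin (F := fun a i => F a i) hn hb hF).congr fun _ => Finset.sum_range _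

/-! ### products -/

/-- Product of Gaussian integers written as pairs. -/
def gmul (x y : ℤ × ℤ) : ℤ × ℤ := (x.1 * y.1 - x.2 * y.2, x.1 * y.2 + x.2 * y.1)

/-- Size measure for Gaussian integers. -/
def gms (x : ℤ × ℤ) : ℕ := Nat.size (x.1.natAbs + x.2.natAbs)

lemma sz_le_gms (x : ℤ × ℤ) : sz x ≤ 15 * gms x + 15 := by
  have h1 : Nat.size x.1.natAbs ≤ gms x := Nat.size_le_size (by omega)
  have h2 : Nat.size x.2.natAbs ≤ gms x := Nat.size_le_size (by omega)
  rw [sz_prod, sz_int, sz_int, sz_nat, sz_nat]; omega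

lemma gms_mul_le (x y : ℤ × ℤ) : gms (gmul x y) ≤ gms x + gms y := by
  refine le_trans (Nat.size_le_size ?_) (size_mul_le _ _)
  have h1 := Int.natAbs_sub_le (x.1 * y.1) (x.2 * y.2)
  have h2 := Int.natAbs_add_le (x.1 * y.2) (x.2 * y.1)
  simp only [Int.natAbs_mul] at h1 h2
  simp only [gmul]
  nlinarith

lemma pt_gprod {l : α → List (ℤ × ℤ)} (hl : PT l) : PT (fun a => (l a).foldr gmul (1, 0)) := by
  have h1 : PB (fun p : α × ℤ × ℤ => gms p.2) := by unfold gms; fun_prop
  exact PT.foldr_meas (f := fun _ => gmul) (l := l) (ini := fun _ => (1, 0)) gms 15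
    (fun p => gms p.2) sz_le_gms (by unfold gmul; fun_prop) hl (by fun_prop) (by fun_prop) h1
    (fun a acc x _ => by have := gms_mul_le x acc; simp only; omega)

/-- Product of a list of Gaussian rationals. -/
lemma ptc_prod_toC {l : α → List (ℚ × ℚ)} (hl : PT l) : PTC (fun a => ((l a).map toC).prod) := by
  have h1 := pt_gprod (hl.map (g := fun _ (q : ℚ × ℚ) => (q.1.num * q.2.den, q.2.num * q.1.den))
    (by fun_prop))
  have h2 := (hl.map (g := fun _ (q : ℚ × ℚ) => q.1.den * q.2.den) (by fun_prop)).natProd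
  refine ((PTC.mk (PTR.intCast h1.fst) (PTR.intCast h1.snd)).div (PTC.natCast h2)).congr
    fun a => ?_
  induction l a with
  | nil => apply Complex.ext <;> simp
  | cons q m ih =>
    simp only [List.map_cons, List.prod_cons, List.foldr_cons, ih]
    generalize List.foldr gmul (1, 0) _ = y
    generalize (List.map (fun q : ℚ × ℚ => q.1.den * q.2.den) m).prod = d
    have e : toC q = (⟨((q.1.num * q.2.den : ℤ) : ℝ), ((q.2.num * q.1.den : ℤ) : ℝ)⟩ : ℂ) /
        ((q.1.den * q.2.den : ℕ) : ℂ) := by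
      have a1 : (q.1.den : ℝ) ≠ 0 := by exact_mod_cast q.1.den_nz
      have a2 : (q.2.den : ℝ) ≠ 0 := by exact_mod_cast q.2.den_nz
      rw [eq_div_iff (by exact_mod_cast mul_ne_zero q.1.den_nz q.2.den_nz)]
      apply Complex.ext
      · simp only [Complex.mul_re, toC_re, toC_im, natCast_re, natCast_im, Rat.cast_def]
        push_cast; field_simp; ring
      · simp only [Complex.mul_im, toC_re, toC_im, natCast_re, natCast_im, Rat.cast_def]
        push_cast; field_simp; ring
    rw [e, div_mul_div_comm, Nat.cast_mul (_ * _)]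
    congr 1
    apply Complex.ext <;> simp [gmul]

protected lemma PTC.prod_map_mem {l : α → List β} {F : α → β → ℂ} (hl : PT l)
    (hF : PTC (fun p : {p : α × β // p.2 ∈ l p.1} => F p.1.1 p.1.2)) :
    PTC (fun a => ((l a).map (F a)).prod) := by
  classical
  obtain ⟨u, hu, h⟩ := hF.exists_pt
  refine (ptc_prod_toC (l := fun a => (l a).map fun b => if hb : b ∈ l a then u ⟨(a, b), hb⟩ else 0)
    (hl.map_mem (hu.congr fun p => by simp [p.2]))).congr fun a => ?_
  rw [List.map_map]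
  congr 1
  exact List.map_congr_left fun b hb => by simpa [hb] using h ⟨(a, b), hb⟩

@[fun_prop] protected lemma PTC.prod_map {l : α → List β} {F : α → β → ℂ} (hl : PT l)
    (hF : PTC (fun p : α × β => F p.1 p.2)) : PTC (fun a => ((l a).map (F a)).prod) :=
  PTC.prod_map_mem hl (hF.comp (f := Subtype.val) (by fun_prop))

@[fun_prop] protected lemma PTC.prod_fin {n : α → ℕ} {F : (a : α) → Fin (n a) → ℂ} (hn : PT n)
    (hb : PB n) (hF : PTC (fun p : Σ a, Fin (n a) => F p.1 p.2)) : PTC (fun a => ∏ i, F a i) := by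
  obtain ⟨u, hu, h⟩ := hF.exists_pt
  refine (ptc_prod_toC (PT.ofFn (f := fun a i => u ⟨a, i⟩) hn hb hu)).congr fun a => ?_
  rw [List.map_ofFn, List.prod_ofFn]
  exact Finset.prod_congr rfl fun i _ => h ⟨a, i⟩

@[fun_prop] protected lemma PTC.prod_range {n : α → ℕ} {F : α → ℕ → ℂ} (hn : PT n)
    (hb : PB n) (hF : PTC (fun p : Σ a, Fin (n a) => F p.1 p.2)) :
    PTC (fun a => ∏ i ∈ Finset.range (n a), F a i) :=
  (PTC.prod_fin (F := fun a i => F a i) hn hb hF).congr fun _ => Finset.prod_range _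

@[fun_prop] protected lemma PTC.pow {n : α → ℕ} (hf : PTC f) (hn : PT n) (hb : PB n) :
    PTC (fun a => f a ^ n a) :=
  (PTC.prod_range (F := fun a _ => f a) hn hb (hf.comp PT.id.sigmaFst)).congr fun a => by simp

@[fun_prop] protected lemma PTC.zpow {k : α → ℤ} (hf : PTC f) (hk : PT k)
    (hb : PB (fun a => (k a).natAbs)) : PTC (fun a => f a ^ k a) :=
  (PTC.ite (P := fun a => k a < 0) (by fun_prop) (hf.pow hk.natAbs hb).inv
    (hf.pow hk.natAbs hb)).congr fun a => zpow_eq_ite _ _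

end PTC

end Crest.Agent.Lib.PT
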