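import Crest.Agent.R300.PTC

/-! `PT` index families, sums over them, real and complex matrix inverses, products of lists of
matrices, rounding. -/

set_option autoImplicit false
set_option linter.dupNamespace false

namespace Crest.Agent.Lib.PT

open Complex Matrix

variable {α β γ : Type} [Enc α] [Enc β] [Enc γ]

/-! ### index families -/

/-- The family of finite types `ι a` can be enumerated in polynomial time. -/
def PTI {α : Type} [Enc α] (ι : α → Type) [∀ a, Enc (ι a)] : Prop :=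
  ∃ l : (a : α) → List (ι a), PT (fun a => enc (l a)) ∧ ∀ a, (l a).Nodup ∧ ∀ i, i ∈ l a

section PTI

variable {ι κ : α → Type} [∀ a, Enc (ι a)] [∀ a, Enc (κ a)]

protected lemma PTI.fin {n : α → ℕ} (hn : PT n) (hb : PB n) : PTI (fun a => Fin (n a)) :=
  ⟨fun a => List.finRange (n a), PT.finRange hn hb, fun _ => ⟨List.nodup_finRange _, by simp⟩⟩

protected lemma PTI.const (β : Type) [Enc β] [Fintype β] : PTI (fun _ : α => β) :=
  ⟨fun _ => Finset.univ.toList, PT.const _, fun _ => ⟨Finset.nodup_toList _, by simp⟩⟩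

protected lemma PTI.comp (h : PTI ι) {f : β → α} (hf : PT f) : PTI (fun b => ι (f b)) := by
  obtain ⟨l, hl, h⟩ := h
  exact ⟨fun b => l (f b), hl.comp hf, fun b => h _⟩

lemma enc_list_congr {δ ε : Type} [Enc δ] [Enc ε] {l : List δ} {m : List ε}
    (h : l.map enc = m.map enc) : enc l = enc m := by
  rw [enc_list, enc_list, h]

protected lemma PTI.prod (h : PTI ι) (h' : PTI κ) : PTI (fun a => ι a × κ a) := by
  obtain ⟨l, hl, h⟩ := h
  obtain ⟨m, hm, h'⟩ := h'
  refine ⟨fun a => l a ×ˢ m a, (hl.toList.sprod hm.toList).of_enc fun a => ?_,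
    fun a => ⟨(h a).1.product (h' a).1, fun i => List.mem_product.2 ⟨(h a).2 _, (h' a).2 _⟩⟩⟩
  rw [enc_D, toList_enc, toList_enc]
  refine enc_list_congr ?_
  simp only [SProd.sprod, List.product, List.map_flatMap, List.flatMap_map, List.map_map]
  rfl

protected lemma PTI.sum (h : PTI ι) (h' : PTI κ) : PTI (fun a => ι a ⊕ κ a) := by
  obtain ⟨l, hl, h⟩ := h
  obtain ⟨m, hm, h'⟩ := h'
  have h1 : PT (fun a => (D.toList (enc (l a))).map (fun d => (Sum.inl d : D ⊕ D)) ++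
      (D.toList (enc (m a))).map (fun d => (Sum.inr d : D ⊕ D))) :=
    (hl.toList.map (g := fun _ d => (Sum.inl d : D ⊕ D)) PT.id.snd.inl).append
      (hm.toList.map (g := fun _ d => (Sum.inr d : D ⊕ D)) PT.id.snd.inr)
  refine ⟨fun a => (l a).map Sum.inl ++ (m a).map Sum.inr, h1.of_enc fun a => ?_, fun a => ⟨?_, ?_⟩⟩
  · rw [enc_D, toList_enc, toList_enc]
    refine enc_list_congr ?_
    simp only [List.map_append, List.map_map]
    rfl
  · refine List.nodup_append.2 ⟨(h a).1.map Sum.inl_injective, (h' a).1.map Sum.inr_injective, ?_⟩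
    simp
  · rintro (i | i)
    · simp [(h a).2]
    · simp [(h' a).2]

/-- Members of a `PT` list without repetitions. -/
protected lemma PTI.mem {l : α → List β} (hl : PT l) (hnd : ∀ a, (l a).Nodup) :
    PTI (fun a => {b // b ∈ l a}) :=
  ⟨fun a => (l a).attach, hl.of_enc fun a => by
      rw [enc_D]
      refine enc_list_congr ?_
      conv_rhs => rw [← List.attach_map_subtype_val (l a), List.map_map]
      rfl,
    fun a => ⟨List.nodup_attach.2 (hnd a), fun i => List.mem_attach _ _⟩⟩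

/-- Transport along encoding-compatible equivalences. -/
protected lemma PTI.of_equiv (h : PTI ι) (e : (a : α) → ι a ≃ κ a)
    (he : PT (fun p : Sigma ι => enc (e p.1 p.2))) : PTI κ := by
  obtain ⟨l, hl, h⟩ := h
  exact ⟨fun a => (l a).map (e a), hl.dmap' he, fun a => ⟨(h a).1.map (e a).injective,
    fun i => List.mem_map.2 ⟨(e a).symm i, (h a).2 _, by simp⟩⟩⟩

protected lemma PTI.exists_equiv (h : PTI ι) :
    ∃ (n : α → ℕ) (e : (a : α) → Fin (n a) ≃ ι a), PT n ∧ PB n ∧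
      PT (fun p : Σ a, Fin (n a) => enc (e p.1 p.2)) ∧
      PT (fun p : Sigma ι => (((e p.1).symm p.2 : Fin _) : ℕ)) := by
  classical
  obtain ⟨l, hl, h⟩ := h
  refine ⟨fun a => (l a).length,
    fun a => List.Nodup.getEquivOfForallMemList (l a) (h a).1 (h a).2, hl.dlength, PB.dlength hl,
    ?_, ?_⟩
  · refine ((PT.id.sigmaFinVal).getD (hl.comp PT.id.sigmaFst).toList (PT.const D.nil)).congr
      fun p => ?_
    rw [toList_enc]
    simp [List.Nodup.getEquivOfForallMemList]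
  · refine (PT.idxOf PT.id.sigmaSnd (hl.comp PT.id.sigmaFst).toList).congr fun p => ?_
    rw [toList_enc]
    simp only [List.Nodup.getEquivOfForallMemList, Equiv.coe_fn_symm_mk]
    generalize l p.1 = m
    induction m with
    | nil => rfl
    | cons x m ih => simp [List.idxOf_cons, ih, Enc.inj.eq_iff, Bool.beq_eq_decide_eq]

protected lemma PTI.pb_card [∀ a, Fintype (ι a)] (h : PTI ι) : PB (fun a => Fintype.card (ι a)) := by
  obtain ⟨n, e, -, hb, -⟩ := h.exists_equiv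
  exact hb.of_le fun a => by rw [← Fintype.card_congr (e a), Fintype.card_fin]

protected lemma PTI.pt_card [∀ a, Fintype (ι a)] (h : PTI ι) : PT (fun a => Fintype.card (ι a)) := by
  obtain ⟨n, e, hn, -⟩ := h.exists_equiv
  exact hn.congr fun a => by rw [← Fintype.card_congr (e a), Fintype.card_fin]

/-- Elements of a `PT` index family have polynomial size. -/
protected lemma PTI.exists_sz (h : PTI ι) : ∃ B : α → ℕ, PB B ∧ ∀ a (i : ι a), sz i ≤ B a := by
  obtain ⟨l, hl, h⟩ := h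
  exact ⟨fun a => sz (l a), PB.sz hl, fun a i => sz_le_of_mem ((h a).2 i)⟩

protected lemma PTR.dcomp {g : (a : α) → ι a → ℝ} (hg : PTR (fun p : Sigma ι => g p.1 p.2))
    {x : β → α} {i : (b : β) → ι (x b)} (hx : PT x) (hi : PT (fun b => enc (i b))) :
    PTR (fun b => g (x b) (i b)) :=
  hg.comp (f := fun b => (⟨x b, i b⟩ : Sigma ι)) (hx.sigmaMk hi)

protected lemma PTC.dcomp {g : (a : α) → ι a → ℂ} (hg : PTC (fun p : Sigma ι => g p.1 p.2))
    {x : β → α} {i : (b : β) → ι (x b)} (hx : PT x) (hi : PT (fun b => enc (i b))) :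
    PTC (fun b => g (x b) (i b)) :=
  hg.comp (f := fun b => (⟨x b, i b⟩ : Sigma ι)) (hx.sigmaMk hi)

protected lemma PT.dcomp' {g : (a : α) → ι a → γ} (hg : PT (fun p : Sigma ι => g p.1 p.2))
    {x : β → α} {i : (b : β) → ι (x b)} (hx : PT x) (hi : PT (fun b => enc (i b))) :
    PT (fun b => g (x b) (i b)) :=
  hg.comp (f := fun b => (⟨x b, i b⟩ : Sigma ι)) (hx.sigmaMk hi)

variable [∀ a, Fintype (ι a)]

protected lemma PTR.sum_idx (h : PTI ι) {F : (a : α) → ι a → ℝ}
    (hF : PTR (fun p : Sigma ι => F p.1 p.2)) : PTR (fun a => ∑ i, F a i) := by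
  obtain ⟨n, e, hn, hb, he, -⟩ := h.exists_equiv
  exact (PTR.sum_fin (F := fun a i => F a (e a i)) hn hb (hF.dcomp PT.id.sigmaFst he)).congr
    fun a => ((e a).sum_comp (F a)).symm

protected lemma PTR.prod_idx (h : PTI ι) {F : (a : α) → ι a → ℝ}
    (hF : PTR (fun p : Sigma ι => F p.1 p.2)) : PTR (fun a => ∏ i, F a i) := by
  obtain ⟨n, e, hn, hb, he, -⟩ := h.exists_equiv
  exact (PTR.prod_fin (F := fun a i => F a (e a i)) hn hb (hF.dcomp PT.id.sigmaFst he)).congr
    fun a => ((e a).prod_comp (F a)).symm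

protected lemma PTC.sum_idx (h : PTI ι) {F : (a : α) → ι a → ℂ}
    (hF : PTC (fun p : Sigma ι => F p.1 p.2)) : PTC (fun a => ∑ i, F a i) := by
  obtain ⟨n, e, hn, hb, he, -⟩ := h.exists_equiv
  exact (PTC.sum_fin (F := fun a i => F a (e a i)) hn hb (hF.dcomp PT.id.sigmaFst he)).congr
    fun a => ((e a).sum_comp (F a)).symm

protected lemma PTC.prod_idx (h : PTI ι) {F : (a : α) → ι a → ℂ}
    (hF : PTC (fun p : Sigma ι => F p.1 p.2)) : PTC (fun a => ∏ i, F a i) := by
  obtain ⟨n, e, hn, hb, he, -⟩ := h.exists_equiv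
  exact (PTC.prod_fin (F := fun a i => F a (e a i)) hn hb (hF.dcomp PT.id.sigmaFst he)).congr
    fun a => ((e a).prod_comp (F a)).symm

end PTI

/-! ### matrices -/

section Mat

variable {ι κ μ : α → Type} [∀ a, Enc (ι a)] [∀ a, Enc (κ a)] [∀ a, Enc (μ a)]

/-- A family of real matrices with `PTR` entries. -/
def PTRM (A : (a : α) → Matrix (ι a) (κ a) ℝ) : Prop :=
  PTR (fun p : Σ a, ι a × κ a => A p.1 p.2.1 p.2.2)

/-- A family of complex matrices with `PTC` entries. -/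
def PTM (A : (a : α) → Matrix (ι a) (κ a) ℂ) : Prop :=
  PTC (fun p : Σ a, ι a × κ a => A p.1 p.2.1 p.2.2)

/-- A family of complex vectors with `PTC` entries. -/
def PTV (v : (a : α) → ι a → ℂ) : Prop := PTC (fun p : Sigma ι => v p.1 p.2)

protected lemma PTRM.entry {A : (a : α) → Matrix (ι a) (κ a) ℝ} (hA : PTRM A) {x : β → α}
    {i : (b : β) → ι (x b)} {j : (b : β) → κ (x b)} (hx : PT x) (hi : PT (fun b => enc (i b)))
    (hj : PT (fun b => enc (j b))) : PTR (fun b => A (x b) (i b) (j b)) :=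
  PTR.dcomp (ι := fun a => ι a × κ a) (g := fun a q => A a q.1 q.2) hA (i := fun b => (i b, j b))
    hx (hi.dpair hj)

protected lemma PTM.entry {A : (a : α) → Matrix (ι a) (κ a) ℂ} (hA : PTM A) {x : β → α}
    {i : (b : β) → ι (x b)} {j : (b : β) → κ (x b)} (hx : PT x) (hi : PT (fun b => enc (i b)))
    (hj : PT (fun b => enc (j b))) : PTC (fun b => A (x b) (i b) (j b)) :=
  PTC.dcomp (ι := fun a => ι a × κ a) (g := fun a q => A a q.1 q.2) hA (i := fun b => (i b, j b))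
    hx (hi.dpair hj)

protected lemma PTV.entry {v : (a : α) → ι a → ℂ} (hv : PTV v) {x : β → α}
    {i : (b : β) → ι (x b)} (hx : PT x) (hi : PT (fun b => enc (i b))) :
    PTC (fun b => v (x b) (i b)) := PTC.dcomp hv hx hi

protected lemma PTM.congr {A B : (a : α) → Matrix (ι a) (κ a) ℂ} (hB : PTM B)
    (h : ∀ a, A a = B a) : PTM A := PTC.congr hB fun p => by rw [h]

protected lemma PTV.congr {v w : (a : α) → ι a → ℂ} (hw : PTV w)
    (h : ∀ a, v a = w a) : PTV v := PTC.congr hw fun p => by rw [h]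

protected lemma PTM.comp {A : (a : α) → Matrix (ι a) (κ a) ℂ} (hA : PTM A) {x : β → α}
    (hx : PT x) : PTM (ι := fun b => ι (x b)) (κ := fun b => κ (x b)) (fun b => A (x b)) :=
  hA.entry (hx.comp PT.id.sigmaFst) PT.id.sigmaSnd.dfst PT.id.sigmaSnd.dsnd

protected lemma PTV.comp {v : (a : α) → ι a → ℂ} (hv : PTV v) {x : β → α}
    (hx : PT x) : PTV (ι := fun b => ι (x b)) (fun b => v (x b)) :=
  hv.entry (hx.comp PT.id.sigmaFst) PT.id.sigmaSnd

protected lemma PTM.add {A B : (a : α) → Matrix (ι a) (κ a) ℂ} (hA : PTM A) (hB : PTM B) :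
    PTM (fun a => A a + B a) := PTC.add hA hB

protected lemma PTM.sub {A B : (a : α) → Matrix (ι a) (κ a) ℂ} (hA : PTM A) (hB : PTM B) :
    PTM (fun a => A a - B a) := PTC.sub hA hB

protected lemma PTM.neg {A : (a : α) → Matrix (ι a) (κ a) ℂ} (hA : PTM A) :
    PTM (fun a => -A a) := PTC.neg hA

protected lemma PTM.smul {c : α → ℂ} {A : (a : α) → Matrix (ι a) (κ a) ℂ} (hc : PTC c)
    (hA : PTM A) : PTM (fun a => c a • A a) := PTC.mul (hc.comp PT.id.sigmaFst) hA

protected lemma PTM.real_smul {c : α → ℝ} {A : (a : α) → Matrix (ι a) (κ a) ℂ} (hc : PTR c)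
    (hA : PTM A) : PTM (fun a => c a • A a) := PTC.real_smul (hc.comp PT.id.sigmaFst) hA

protected lemma PTM.transpose {A : (a : α) → Matrix (ι a) (κ a) ℂ} (hA : PTM A) :
    PTM (fun a => (A a)ᵀ) :=
  hA.entry PT.id.sigmaFst PT.id.sigmaSnd.dsnd PT.id.sigmaSnd.dfst

protected lemma PTM.conjTranspose {A : (a : α) → Matrix (ι a) (κ a) ℂ} (hA : PTM A) :
    PTM (fun a => (A a)ᴴ) := PTC.star hA.transpose

protected lemma PTM.zero : PTM (fun a => (0 : Matrix (ι a) (κ a) ℂ)) := PTC.zero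

protected lemma PTM.diagonal [∀ a, DecidableEq (ι a)] {v : (a : α) → ι a → ℂ} (hv : PTV v) :
    PTM (fun a => Matrix.diagonal (v a)) :=
  (PTC.ite (P := fun p : Σ a, ι a × ι a => p.2.1 = p.2.2)
    (PT.dep_decide_eq PT.id.sigmaSnd.dfst PT.id.sigmaSnd.dsnd)
    (hv.entry PT.id.sigmaFst PT.id.sigmaSnd.dfst) PTC.zero).congr fun _ => rfl

protected lemma PTM.one [∀ a, DecidableEq (ι a)] : PTM (fun a => (1 : Matrix (ι a) (ι a) ℂ)) :=
  PTM.diagonal (v := fun _ _ => 1) PTC.one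

protected lemma PTM.mul [∀ a, Fintype (κ a)] (h : PTI κ) {A : (a : α) → Matrix (ι a) (κ a) ℂ}
    {B : (a : α) → Matrix (κ a) (μ a) ℂ} (hA : PTM A) (hB : PTM B) :
    PTM (fun a => A a * B a) :=
  PTC.sum_idx (α := Σ a, ι a × μ a) (ι := fun p => κ p.1) (h.comp PT.id.sigmaFst)
    (F := fun p k => A p.1 p.2.1 k * B p.1 k p.2.2)
    ((hA.entry PT.id.sigmaFst.sigmaFst PT.id.sigmaFst.sigmaSnd.dfst PT.id.sigmaSnd).mul
      (hB.entry PT.id.sigmaFst.sigmaFst PT.id.sigmaSnd PT.id.sigmaFst.sigmaSnd.dsnd))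

protected lemma PTV.mulVec [∀ a, Fintype (κ a)] (h : PTI κ) {A : (a : α) → Matrix (ι a) (κ a) ℂ}
    {v : (a : α) → κ a → ℂ} (hA : PTM A) (hv : PTV v) : PTV (fun a => A a *ᵥ v a) :=
  PTC.sum_idx (α := Sigma ι) (ι := fun p => κ p.1) (h.comp PT.id.sigmaFst)
    (F := fun p k => A p.1 p.2 k * v p.1 k)
    ((hA.entry PT.id.sigmaFst.sigmaFst PT.id.sigmaFst.sigmaSnd PT.id.sigmaSnd).mul
      (hv.entry PT.id.sigmaFst.sigmaFst PT.id.sigmaSnd))

protected lemma PTV.vecMul [∀ a, Fintype (ι a)] (h : PTI ι) {A : (a : α) → Matrix (ι a) (κ a) ℂ}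
    {v : (a : α) → ι a → ℂ} (hv : PTV v) (hA : PTM A) : PTV (fun a => v a ᵥ* A a) :=
  PTC.sum_idx (α := Sigma κ) (ι := fun p => ι p.1) (h.comp PT.id.sigmaFst)
    (F := fun p k => v p.1 k * A p.1 k p.2)
    ((hv.entry PT.id.sigmaFst.sigmaFst PT.id.sigmaSnd).mul
      (hA.entry PT.id.sigmaFst.sigmaFst PT.id.sigmaSnd PT.id.sigmaFst.sigmaSnd))

protected lemma PTC.dotProduct [∀ a, Fintype (ι a)] (h : PTI ι) {v w : (a : α) → ι a → ℂ}
    (hv : PTV v) (hw : PTV w) : PTC (fun a => v a ⬝ᵥ w a) :=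
  PTC.sum_idx h (F := fun a k => v a k * w a k) (PTC.mul hv hw)

protected lemma PTV.add {v w : (a : α) → ι a → ℂ} (hv : PTV v) (hw : PTV w) :
    PTV (fun a => v a + w a) := PTC.add hv hw

protected lemma PTV.sub {v w : (a : α) → ι a → ℂ} (hv : PTV v) (hw : PTV w) :
    PTV (fun a => v a - w a) := PTC.sub hv hw

protected lemma PTV.smul {c : α → ℂ} {v : (a : α) → ι a → ℂ} (hc : PTC c) (hv : PTV v) :
    PTV (fun a => c a • v a) := PTC.mul (hc.comp PT.id.sigmaFst) hv

protected lemma PTV.star {v : (a : α) → ι a → ℂ} (hv : PTV v) :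
    PTV (fun a => star (v a)) := PTC.star hv

/-- Rational matrices behind a `PTRM` family, after enumerating the indices. -/
lemma PTRM.exists_rat {n m : α → ℕ} (hn : PT n) (hb : PB n) (hm : PT m) (hmb : PB m)
    {A : (a : α) → Matrix (Fin (n a)) (Fin (m a)) ℝ} (hA : PTRM A) :
    ∃ Q : (a : α) → Matrix (Fin (n a)) (Fin (m a)) ℚ, PT (fun a => enc (Q a)) ∧
      ∀ a, A a = (Q a).map (Rat.castHom ℝ) := by
  obtain ⟨u, hu, h⟩ := hA
  refine ⟨fun a => Matrix.of fun i j => u ⟨a, i, j⟩, PT.mat hn hb hm hmb ?_,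
    fun a => Matrix.ext fun i j => h ⟨a, i, j⟩⟩
  exact hu.comp (f := fun p : Σ q : (Σ a, Fin (n a)), Fin (m q.1) =>
    (⟨p.1.1, p.1.2, p.2⟩ : Σ a, Fin (n a) × Fin (m a)))
    (PT.id.sigmaFst.sigmaFst.sigmaMk (PT.id.sigmaFst.sigmaSnd.dpair PT.id.sigmaSnd))

lemma PTRM.of_rat {n m : α → ℕ} {Q : (a : α) → Matrix (Fin (n a)) (Fin (m a)) ℚ}
    (hQ : PT (fun a => enc (Q a))) : PTRM (fun a => (Q a).map (Rat.castHom ℝ)) :=
  PTR.ratCast (PT.entry (hQ.comp PT.id.sigmaFst) (PT.id.sigmaSnd.dfst.of_enc fun _ => rfl)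
    (PT.id.sigmaSnd.dsnd.of_enc fun _ => rfl))

lemma map_inv_castHom {n : Type} [Fintype n] [DecidableEq n] (Q : Matrix n n ℚ) :
    (Q.map (Rat.castHom ℝ))⁻¹ = Q⁻¹.map (Rat.castHom ℝ) := by
  have h1 := (Rat.castHom ℝ).map_det Q
  have h2 := (Rat.castHom ℝ).map_adjugate Q
  simp only [RingHom.mapMatrix_apply] at h1 h2
  rw [Matrix.inv_def, Matrix.inv_def, ← h1, ← h2]
  ext i j
  simp

protected lemma PTRM.inv [∀ a, Fintype (ι a)] [∀ a, DecidableEq (ι a)] (h : PTI ι)
    {A : (a : α) → Matrix (ι a) (ι a) ℝ} (hA : PTRM A) : PTRM (fun a => (A a)⁻¹) := by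
  obtain ⟨n, e, hn, hb, he, he'⟩ := h.exists_equiv
  have h1 : PTRM (fun a => (A a).submatrix (e a) (e a)) :=
    hA.entry PT.id.sigmaFst
      (PT.dcomp' (g := fun a i => enc (e a i)) he PT.id.sigmaFst PT.id.sigmaSnd.dfst)
      (PT.dcomp' (g := fun a i => enc (e a i)) he PT.id.sigmaFst PT.id.sigmaSnd.dsnd)
  obtain ⟨Q, hQ, h2⟩ := PTRM.exists_rat hn hb hn hb h1
  have h3 := (PTRM.of_rat hQ.rat_matInv).entry (β := Σ a, ι a × ι a) PT.id.sigmaFst
    (i := fun p => (e p.1).symm p.2.1) (j := fun p => (e p.1).symm p.2.2)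
    ((PT.dcomp' (g := fun a i => (((e a).symm i : Fin _) : ℕ)) he' PT.id.sigmaFst
      PT.id.sigmaSnd.dfst).of_enc fun _ => rfl)
    ((PT.dcomp' (g := fun a i => (((e a).symm i : Fin _) : ℕ)) he' PT.id.sigmaFst
      PT.id.sigmaSnd.dsnd).of_enc fun _ => rfl)
  refine h3.congr fun p => ?_
  rw [← map_inv_castHom, ← h2, Matrix.inv_submatrix_equiv]
  simp

/-- Realification of a complex matrix. -/
def realify {m n : Type} (M : Matrix m n ℂ) : Matrix (m ⊕ m) (n ⊕ n) ℝ :=
  Matrix.fromBlocks (M.map re) (-M.map im) (M.map im) (M.map re)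

lemma realify_mul {l m n : Type} [Fintype m] (M : Matrix l m ℂ) (N : Matrix m n ℂ) :
    realify (M * N) = realify M * realify N := by
  unfold realify
  rw [Matrix.fromBlocks_multiply]
  congr 1 <;> ext i j <;>
    simp [Matrix.mul_apply, Finset.sum_add_distrib, sub_eq_add_neg, add_comm]

lemma realify_one {n : Type} [DecidableEq n] : realify (1 : Matrix n n ℂ) = 1 := by
  unfold realify
  rw [← Matrix.fromBlocks_one]
  congr 1 <;> ext i j <;> by_cases h : i = j <;> simp [h, Matrix.one_apply]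

lemma realify_zero {m n : Type} : realify (0 : Matrix m n ℂ) = 0 := by
  ext (i | i) (j | j) <;> simp [realify]

lemma realify_inv {n : Type} [Fintype n] [DecidableEq n] (M : Matrix n n ℂ) :
    realify M⁻¹ = (realify M)⁻¹ := by
  by_cases h : IsUnit M.det
  · exact (Matrix.inv_eq_left_inv (by rw [← realify_mul, Matrix.nonsing_inv_mul _ h, realify_one])).symm
  · rw [Matrix.nonsing_inv_apply_not_isUnit _ h, realify_zero]
    refine (Matrix.nonsing_inv_apply_not_isUnit _ fun h' => ?_).symm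
    obtain ⟨v, hv, h0⟩ := Matrix.exists_mulVec_eq_zero_iff.2 (show M.det = 0 by simpa using h)
    have h1 : realify M * realify (Matrix.replicateCol Unit v) = 0 := by
      rw [← realify_mul, ← Matrix.replicateCol_mulVec, h0]
      simpa using realify_zero
    have h2 : realify (Matrix.replicateCol Unit v) = 0 := by
      have := congrArg ((realify M)⁻¹ * ·) h1
      simpa [← Matrix.mul_assoc, Matrix.nonsing_inv_mul _ h'] using this
    refine hv (funext fun i => Complex.ext ?_ ?_)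
    · simpa [realify] using congrFun (congrFun h2 (Sum.inl i)) (Sum.inl ())
    · simpa [realify] using congrFun (congrFun h2 (Sum.inr i)) (Sum.inl ())

lemma pt_sum_cases {x : (a : α) → ι a ⊕ ι a} (hx : PT (fun a => enc (x a))) :
    PT (fun a => (x a).isLeft) ∧ PT (fun a => enc ((x a).elim id id)) := by
  refine ⟨(hx.car.iteNil (PT.const true) (PT.const false)).congr fun a => ?_,
    hx.cdr.congr fun a => ?_⟩
  · cases x a <;> rfl
  · cases x a <;> rfl

protected lemma PTM.realify {A : (a : α) → Matrix (ι a) (κ a) ℂ} (hA : PTM A) :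
    PTRM (fun a => realify (A a)) := by
  have h1 := pt_sum_cases (α := Σ a, (ι a ⊕ ι a) × (κ a ⊕ κ a)) (ι := fun p => ι p.1)
    (x := fun p => p.2.1) PT.id.sigmaSnd.dfst
  have h2 := pt_sum_cases (α := Σ a, (ι a ⊕ ι a) × (κ a ⊕ κ a)) (ι := fun p => κ p.1)
    (x := fun p => p.2.2) PT.id.sigmaSnd.dsnd
  have h3 := hA.entry PT.id.sigmaFst h1.2 h2.2
  refine (PTR.cond h1.1 (PTR.cond h2.1 h3.1 h3.2.neg) (PTR.cond h2.1 h3.2 h3.1)).congr ?_
  rintro ⟨a, i | i, j | j⟩ <;> simp [realify]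

protected lemma PTM.of_realify {A : (a : α) → Matrix (ι a) (κ a) ℂ}
    (hA : PTRM (fun a => realify (A a))) : PTM A := by
  have hl : ∀ {τ : (Σ a, ι a × κ a) → Type} [∀ p, Enc (τ p)] {x : (p : Σ a, ι a × κ a) → τ p},
      PT (fun p => enc (x p)) → PT (fun p => enc (Sum.inl (x p) : τ p ⊕ τ p)) :=
    fun hx => (PT.const D.nil).dcons hx
  have hr : ∀ {τ : (Σ a, ι a × κ a) → Type} [∀ p, Enc (τ p)] {x : (p : Σ a, ι a × κ a) → τ p},
      PT (fun p => enc (x p)) → PT (fun p => enc (Sum.inr (x p) : τ p ⊕ τ p)) :=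
    fun hx => (PT.const (D.cons .nil .nil)).dcons hx
  exact ⟨(hA.entry PT.id.sigmaFst (hl PT.id.sigmaSnd.dfst) (hl PT.id.sigmaSnd.dsnd)).congr
      fun p => by simp [realify],
    (hA.entry PT.id.sigmaFst (hr PT.id.sigmaSnd.dfst) (hl PT.id.sigmaSnd.dsnd)).congr
      fun p => by simp [realify]⟩

/-- The inverse of a complex matrix. -/
protected lemma PTM.inv [∀ a, Fintype (ι a)] [∀ a, DecidableEq (ι a)] (h : PTI ι)
    {A : (a : α) → Matrix (ι a) (ι a) ℂ} (hA : PTM A) : PTM (fun a => (A a)⁻¹) :=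
  PTM.of_realify (PTR.congr (PTRM.inv (h.sum h) hA.realify) fun p => by
    beta_reduce; rw [realify_inv])

end Mat

end Crest.Agent.Lib.PT
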