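import Crest.Agent.R300.PTC2

/-! Products of lists of matrices, linear recurrences, rounding. -/

set_option autoImplicit false
set_option linter.dupNamespace false

namespace Crest.Agent.Lib.PT

open Complex Matrix

variable {α β γ : Type} [Enc α] [Enc β] [Enc γ]

/-! ### products of lists of matrices -/

section Prod

lemma abs_foldl_mul_le {k : ℕ} (B : ℕ) (L : List (Matrix (Fin k) (Fin k) ℤ))
    (hL : ∀ M ∈ L, sz M ≤ B) (P : Matrix (Fin k) (Fin k) ℤ) (e : ℕ) (hP : ∀ i j, |P i j| ≤ 2 ^ e) :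
    ∀ i j, |L.foldl (· * ·) P i j| ≤ 2 ^ (e + L.length * (k + B)) := by
  induction L generalizing P e with
  | nil => simpa using hP
  | cons M L ih =>
    have := ih (fun N hN => hL N (by simp [hN])) (P * M) (e + (k + B)) fun i j => by
      rw [Matrix.mul_apply]
      refine (Finset.abs_sum_le_sum_abs _ _).trans ?_
      have h1 : ∀ t, |P i t * M t j| ≤ 2 ^ e * 2 ^ B := fun t => by
        rw [abs_mul]
        refine mul_le_mul (hP i t) ((abs_lt_two_pow_sz _).trans ?_) (abs_nonneg _) (by positivity)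
        exact pow_le_pow_right₀ (by norm_num) ((sz_entry_le M t j).trans (hL M (by simp)))
      refine (Finset.sum_le_card_nsmul _ _ _ fun t _ => h1 t).trans ?_
      have h2 : (k : ℤ) ≤ 2 ^ k := by exact_mod_cast Nat.lt_two_pow_self.le
      rw [Finset.card_univ, Fintype.card_fin, nsmul_eq_mul, pow_add, pow_add]
      calc (k : ℤ) * (2 ^ e * 2 ^ B) ≤ 2 ^ k * (2 ^ e * 2 ^ B) := by gcongr
        _ = _ := by ring
    intro i j
    have e1 : e + (M :: L).length * (k + B) = e + (k + B) + L.length * (k + B) := by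
      rw [List.length_cons]; ring
    rw [e1]
    exact this i j

variable {n : α → ℕ}

protected lemma PT.int_matListProd (hn : PT n) (hb : PB n)
    {L : (a : α) → List (Matrix (Fin (n a)) (Fin (n a)) ℤ)} (hL : PT (fun a => enc (L a))) :
    PT (fun a => enc (L a).prod) := by
  have h1 : PT (fun a => enc (1 : Matrix (Fin (n a)) (Fin (n a)) ℤ)) := by
    refine PT.mat hn hb hn hb ?_
    simp only [Matrix.one_apply]
    exact PT.ite (PT.fin_decide_eq (by fun_prop) (by fun_prop)) (PT.const _) (PT.const _)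
  have hs : PB (fun a => sz (L a)) := PB.sz hL
  have hl : PB (fun a => (L a).length) := PB.dlength hL
  refine (PT.dfoldl (τ := fun a => Matrix (Fin (n a)) (Fin (n a)) ℤ)
    (f := fun _ => (· * ·)) (l := L) (ini := fun _ => 1)
    (fun a => (((6 * ((L a).length * (n a + sz (L a))) + 13) + 1) * n a + 1 + 1) * n a + 1)
    (PT.int_matMul PT.id.sigmaSnd.dfst PT.id.sigmaSnd.dsnd (hn.comp PT.id.sigmaFst)
      (hb.comp PT.id.sigmaFst)) hL h1 (by fun_prop) fun a i => ?_).congr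
    fun a => by rw [List.prod_eq_foldl]
  refine sz_matrix_le _ _ fun s t => ?_
  have := abs_foldl_mul_le (sz (L a)) ((L a).take i)
    (fun M hM => sz_le_of_mem (List.mem_of_mem_take hM)) 1 0
    (fun i j => by rw [Matrix.one_apply]; split_ifs <;> simp) s t
  refine (sz_int_le_of_abs_le_two_pow this).trans ?_
  have : ((L a).take i).length ≤ (L a).length := by simp
  have := Nat.mul_le_mul_right (n a + sz (L a)) this
  omega

lemma exists_int_mat {k : ℕ} (M : Matrix (Fin k) (Fin k) ℚ) :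
    (M.map fun q => (q * ((∏ i, ∏ j, (M i j).den : ℕ) : ℚ)).num).map (Int.castRingHom ℚ) =
      ((∏ i, ∏ j, (M i j).den : ℕ) : ℚ) • M := by
  have hdvd : ∀ i j, (M i j).den ∣ ∏ i, ∏ j, (M i j).den := fun i j =>
    (Finset.dvd_prod_of_mem (fun j => (M i j).den) (Finset.mem_univ j)).trans
      (Finset.dvd_prod_of_mem (fun i => ∏ j, (M i j).den) (Finset.mem_univ i))
  generalize (∏ i, ∏ j, (M i j).den : ℕ) = d at hdvd
  ext i j
  obtain ⟨c, hc⟩ := hdvd i j
  have e : M i j * (d : ℚ) = (((M i j).num * c : ℤ) : ℚ) := by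
    rw [hc]; push_cast; rw [← mul_assoc, Rat.mul_den_eq_num]
  simp only [Matrix.map_apply, Matrix.smul_apply, smul_eq_mul, eq_intCast]
  rw [e, Rat.num_intCast, ← e, mul_comm]

protected lemma PT.rat_matListProd (hn : PT n) (hb : PB n)
    {L : (a : α) → List (Matrix (Fin (n a)) (Fin (n a)) ℚ)} (hL : PT (fun a => enc (L a))) :
    PT (fun a => enc (L a).prod) := by
  have hd : PT (fun p : Σ a, Matrix (Fin (n a)) (Fin (n a)) ℚ => ∏ i, ∏ j, (p.2 i j).den) :=
    PT.prod_fin (by fun_prop) (by fun_prop)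
      (PT.prod_fin (by fun_prop) (by fun_prop) (PT.entries
        (A := fun p : Σ a, Matrix (Fin (n a)) (Fin (n a)) ℚ => p.2) PT.id.sigmaSnd).den)
  have h1 : PT (fun p : Σ a, Matrix (Fin (n a)) (Fin (n a)) ℚ =>
      enc (p.2.map fun q => (q * ((∏ i, ∏ j, (p.2 i j).den : ℕ) : ℚ)).num)) :=
    PT.matMap (g := fun (p : Σ a, Matrix (Fin (n a)) (Fin (n a)) ℚ) (q : ℚ) =>
      (q * ((∏ i, ∏ j, (p.2 i j).den : ℕ) : ℚ)).num) PT.id.sigmaSnd
      (PT.ratMul PT.id.snd (hd.comp PT.id.fst).ratNatCast).num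
  have h2 := PT.int_matListProd hn hb (hL.dmap' (g := fun a (M : Matrix (Fin (n a)) (Fin (n a)) ℚ) =>
    M.map fun q => (q * ((∏ i, ∏ j, (M i j).den : ℕ) : ℚ)).num) h1)
  have h3 := (hL.dmap (g := fun a (M : Matrix (Fin (n a)) (Fin (n a)) ℚ) =>
    ∏ i, ∏ j, (M i j).den) hd).natProd
  refine (PT.matMap (g := fun a (z : ℤ) => (z : ℚ) / ((((L a).map
    fun M : Matrix (Fin (n a)) (Fin (n a)) ℚ => ∏ i, ∏ j, (M i j).den).prod : ℕ) : ℚ)) h2
    (PT.id.snd.ratIntCast.ratDiv (h3.comp PT.id.fst).ratNatCast)).congr fun a => ?_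
  congr 1
  have key : ∀ L : List (Matrix (Fin (n a)) (Fin (n a)) ℚ),
      ((L.map fun M : Matrix (Fin (n a)) (Fin (n a)) ℚ =>
        M.map fun q => (q * ((∏ i, ∏ j, (M i j).den : ℕ) : ℚ)).num).prod).map (Int.castRingHom ℚ) =
      (((L.map fun M : Matrix (Fin (n a)) (Fin (n a)) ℚ => ∏ i, ∏ j, (M i j).den).prod : ℕ) : ℚ) •
        L.prod := by
    intro L
    induction L with
    | nil => simp
    | cons M L ih =>
      rw [List.map_cons, List.prod_cons, Matrix.map_mul, ih, exists_int_mat, List.map_cons,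
        List.prod_cons, List.prod_cons, Nat.cast_mul, Matrix.smul_mul, Matrix.mul_smul, smul_smul]
  have hpos : (0 : ℚ) < (((L a).map
      fun M : Matrix (Fin (n a)) (Fin (n a)) ℚ => ∏ i, ∏ j, (M i j).den).prod : ℕ) := by
    refine Nat.cast_pos.2 (List.prod_pos fun x hx => ?_)
    obtain ⟨M, -, rfl⟩ := List.mem_map.1 hx
    exact Finset.prod_pos fun i _ => Finset.prod_pos fun j _ => (M i j).den_pos
  ext i j
  have := congrFun (congrFun (key (L a)) i) j
  simp only [Matrix.map_apply, Matrix.smul_apply, smul_eq_mul, eq_intCast] at this ⊢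
  rw [this, mul_div_cancel_left₀ _ hpos.ne']

variable {ι : α → Type} [∀ a, Enc (ι a)] [∀ a, Fintype (ι a)] [∀ a, DecidableEq (ι a)]

lemma submatrix_list_prod {R m k : Type} [Semiring R] [Fintype m] [DecidableEq m] [Fintype k]
    [DecidableEq k] (e : k ≃ m) (L : List (Matrix m m R)) :
    L.prod.submatrix e e = (L.map fun M => M.submatrix e e).prod := by
  induction L with
  | nil => simp
  | cons M L ih => rw [List.prod_cons, List.map_cons, List.prod_cons, ← ih,
      Matrix.submatrix_mul_equiv]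

protected lemma PTRM.prod_map_mem (h : PTI ι) {l : α → List β} (hl : PT l)
    {M : (a : α) → β → Matrix (ι a) (ι a) ℝ}
    (hM : PTRM (α := {p : α × β // p.2 ∈ l p.1}) (ι := fun p => ι p.1.1) (κ := fun p => ι p.1.1)
      (fun p => M p.1.1 p.1.2)) : PTRM (fun a => ((l a).map (M a)).prod) := by
  classical
  obtain ⟨n, e, hn, hb, he, he'⟩ := h.exists_equiv
  have hx : PT (fun p : {p : α × β // p.2 ∈ l p.1} => p.1.1) := by fun_prop
  have h1 : PTRM (α := {p : α × β // p.2 ∈ l p.1}) (ι := fun p => Fin (n p.1.1))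
      (κ := fun p => Fin (n p.1.1)) (fun p => (M p.1.1 p.1.2).submatrix (e p.1.1) (e p.1.1)) :=
    hM.entry PT.id.sigmaFst
      (PT.dcomp' (g := fun a i => enc (e a i)) he (hx.comp PT.id.sigmaFst) PT.id.sigmaSnd.dfst)
      (PT.dcomp' (g := fun a i => enc (e a i)) he (hx.comp PT.id.sigmaFst) PT.id.sigmaSnd.dsnd)
  obtain ⟨Q, hQ, h2⟩ := PTRM.exists_rat (hn.comp hx) (hb.comp hx) (hn.comp hx) (hb.comp hx) h1
  have h4 : PT (fun a => enc ((l a).map fun b =>
      if hb : b ∈ l a then Q ⟨(a, b), hb⟩ else (0 : Matrix (Fin (n a)) (Fin (n a)) ℚ))) :=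
    (hl.map_mem (g := fun a b => enc (if hb : b ∈ l a then Q ⟨(a, b), hb⟩ else
      (0 : Matrix (Fin (n a)) (Fin (n a)) ℚ))) (hQ.congr fun p => by simp [p.2])).of_enc
      fun a => enc_map_congr _ _ _ fun _ _ => rfl
  have h3 := (PTRM.of_rat (PT.rat_matListProd hn hb h4)).entry (β := Σ a, ι a × ι a) PT.id.sigmaFst
    (i := fun p => (e p.1).symm p.2.1) (j := fun p => (e p.1).symm p.2.2)
    ((PT.dcomp' (g := fun a i => (((e a).symm i : Fin _) : ℕ)) he' PT.id.sigmaFst
      PT.id.sigmaSnd.dfst).of_enc fun _ => rfl)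
    ((PT.dcomp' (g := fun a i => (((e a).symm i : Fin _) : ℕ)) he' PT.id.sigmaFst
      PT.id.sigmaSnd.dsnd).of_enc fun _ => rfl)
  refine h3.congr fun p => ?_
  have e1 := map_list_prod (Rat.castHom ℝ).mapMatrix ((l p.1).map fun b =>
      if hb : b ∈ l p.1 then Q ⟨(p.1, b), hb⟩ else (0 : Matrix (Fin (n p.1)) (Fin (n p.1)) ℚ))
  rw [RingHom.mapMatrix_apply, List.map_map] at e1
  rw [e1, List.map_congr_left (g := fun b => (M p.1 b).submatrix (e p.1) (e p.1))
    (fun b hb => by simpa [hb] using (h2 ⟨(p.1, b), hb⟩).symm)]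
  have e2 := submatrix_list_prod (e p.1) ((l p.1).map (M p.1))
  rw [List.map_map] at e2
  have e3 := congrFun (congrFun e2 ((e p.1).symm p.2.1)) ((e p.1).symm p.2.2)
  simpa [Function.comp_def] using e3

lemma realify_list_prod {m : Type} [Fintype m] [DecidableEq m] (L : List (Matrix m m ℂ)) :
    realify L.prod = (L.map realify).prod := by
  induction L with
  | nil => simpa using realify_one
  | cons M L ih => rw [List.prod_cons, List.map_cons, List.prod_cons, ← ih, realify_mul]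

/-- Products of lists of complex matrices. -/
protected lemma PTM.prod_map_mem (h : PTI ι) {l : α → List β} (hl : PT l)
    {M : (a : α) → β → Matrix (ι a) (ι a) ℂ}
    (hM : PTM (α := {p : α × β // p.2 ∈ l p.1}) (ι := fun p => ι p.1.1) (κ := fun p => ι p.1.1)
      (fun p => M p.1.1 p.1.2)) : PTM (fun a => ((l a).map (M a)).prod) :=
  PTM.of_realify (PTR.congr (PTRM.prod_map_mem (h.sum h) hl (M := fun a b => realify (M a b))
    hM.realify) fun p => by beta_reduce; rw [realify_list_prod, List.map_map]; rfl)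

protected lemma PTM.prod_map (h : PTI ι) {l : α → List β} (hl : PT l)
    {M : (a : α) → β → Matrix (ι a) (ι a) ℂ}
    (hM : PTM (α := α × β) (ι := fun p => ι p.1) (κ := fun p => ι p.1)
      (fun p => M p.1 p.2)) : PTM (fun a => ((l a).map (M a)).prod) :=
  PTM.prod_map_mem h hl (hM.comp (x := Subtype.val) (by fun_prop))

protected lemma PTM.pow (h : PTI ι) {k : α → ℕ} (hk : PT k) (hkb : PB k)
    {M : (a : α) → Matrix (ι a) (ι a) ℂ} (hM : PTM M) : PTM (fun a => M a ^ k a) :=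
  (PTM.prod_map h (hk.range hkb) (M := fun a _ => M a) (hM.comp PT.id.fst)).congr fun a => by
    simp

lemma foldl_mulVec_eq {m δ : Type} [Fintype m] [DecidableEq m] (M : δ → Matrix m m ℂ) (l : List δ)
    (v : m → ℂ) : l.foldl (fun w b => M b *ᵥ w) v = (l.reverse.map M).prod *ᵥ v := by
  induction l generalizing v with
  | nil => simp
  | cons b l ih => simp [ih]

lemma foldl_vecMul_eq {m δ : Type} [Fintype m] [DecidableEq m] (M : δ → Matrix m m ℂ) (l : List δ)
    (v : m → ℂ) : l.foldl (fun w b => w ᵥ* M b) v = v ᵥ* (l.map M).prod := by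
  induction l generalizing v with
  | nil => simp
  | cons b l ih => simp [ih]

lemma foldr_mulVec_eq {m δ : Type} [Fintype m] [DecidableEq m] (M : δ → Matrix m m ℂ) (l : List δ)
    (v : m → ℂ) : l.foldr (fun b w => M b *ᵥ w) v = (l.map M).prod *ᵥ v := by
  induction l with
  | nil => simp
  | cons b l ih => simp [ih]

protected lemma PTV.foldl_mulVec (h : PTI ι) {l : α → List β} (hl : PT l)
    {M : (a : α) → β → Matrix (ι a) (ι a) ℂ}
    (hM : PTM (α := α × β) (ι := fun p => ι p.1) (κ := fun p => ι p.1) (fun p => M p.1 p.2))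
    {v : (a : α) → ι a → ℂ} (hv : PTV v) :
    PTV (fun a => (l a).foldl (fun w b => M a b *ᵥ w) (v a)) :=
  (PTV.mulVec h (PTM.prod_map h hl.reverse hM) hv).congr fun _ => foldl_mulVec_eq _ _ _

protected lemma PTV.foldl_vecMul (h : PTI ι) {l : α → List β} (hl : PT l)
    {M : (a : α) → β → Matrix (ι a) (ι a) ℂ}
    (hM : PTM (α := α × β) (ι := fun p => ι p.1) (κ := fun p => ι p.1) (fun p => M p.1 p.2))
    {v : (a : α) → ι a → ℂ} (hv : PTV v) :
    PTV (fun a => (l a).foldl (fun w b => w ᵥ* M a b) (v a)) :=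
  (PTV.vecMul h hv (PTM.prod_map h hl hM)).congr fun _ => foldl_vecMul_eq _ _ _

protected lemma PTV.foldr_mulVec (h : PTI ι) {l : α → List β} (hl : PT l)
    {M : (a : α) → β → Matrix (ι a) (ι a) ℂ}
    (hM : PTM (α := α × β) (ι := fun p => ι p.1) (κ := fun p => ι p.1) (fun p => M p.1 p.2))
    {v : (a : α) → ι a → ℂ} (hv : PTV v) :
    PTV (fun a => (l a).foldr (fun b w => M a b *ᵥ w) (v a)) :=
  (PTV.mulVec h (PTM.prod_map h hl hM) hv).congr fun _ => foldr_mulVec_eq _ _ _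

end Prod

/-! ### rounding -/

/-- Clip to `[-2^K, 2^K]` and round down to a multiple of `2^{-K}`. -/
noncomputable def rndR (K : ℕ) (x : ℝ) : ℚ :=
  (⌊2 ^ K * max (-2 ^ K) (min (2 ^ K) x)⌋ : ℚ) / 2 ^ K

/-- Clip and round both coordinates. -/
noncomputable def rnd (K : ℕ) (z : ℂ) : ℚ × ℚ := (rndR K z.re, rndR K z.im)

@[fun_prop] protected lemma PT.rndR {K : α → ℕ} {x : α → ℝ} (hK : PT K) (hb : PB K) (hx : PTR x) :
    PT (fun a => rndR (K a) (x a)) := by
  unfold rndR
  fun_prop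

@[fun_prop] protected lemma PT.rnd {K : α → ℕ} {z : α → ℂ} (hK : PT K) (hb : PB K) (hz : PTC z) :
    PT (fun a => rnd (K a) (z a)) := by
  unfold rnd
  fun_prop

lemma abs_rndR_sub_le (K : ℕ) (x : ℝ) {w : ℝ} (hw : |w| ≤ 2 ^ K) :
    |(rndR K x : ℝ) - w| ≤ |x - w| + 1 / 2 ^ K := by
  have hp : (0 : ℝ) < 2 ^ K := by positivity
  obtain ⟨hw1, hw2⟩ := abs_le.1 hw
  set y := max (-2 ^ K) (min (2 ^ K) x) with hy
  have h1 : |y - w| ≤ |x - w| := by
    rw [hy, abs_le]
    have := le_abs_self (x - w)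
    have := neg_abs_le (x - w)
    have := abs_nonneg (x - w)
    constructor
    · rcases le_total (2 ^ K) x with h | h
      · rw [min_eq_left h, max_eq_right (by linarith)]; linarith
      · rw [min_eq_right h]; linarith [le_max_right (-2 ^ K) x]
    · rcases le_total (-2 ^ K) (min (2 ^ K) x) with h | h
      · rw [max_eq_right h]; linarith [min_le_right (2 ^ K) x]
      · rw [max_eq_left h]; linarith
  have h2 : |(rndR K x : ℝ) - y| ≤ 1 / 2 ^ K := by
    have a1 := Int.floor_le (2 ^ K * y)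
    have a2 := Int.lt_floor_add_one (2 ^ K * y)
    have e : (rndR K x : ℝ) - y = (⌊2 ^ K * y⌋ - 2 ^ K * y) / 2 ^ K := by
      rw [rndR, ← hy]; push_cast; field_simp
    rw [e, abs_div, abs_of_pos hp]
    gcongr
    rw [abs_le]; constructor <;> linarith
  calc |(rndR K x : ℝ) - w| = |((rndR K x : ℝ) - y) + (y - w)| := by ring_nf
    _ ≤ _ := abs_add_le _ _
    _ ≤ _ := by linarith

/-- Rounding moves an approximation of `w` at most `2 / 2^K` further from `w` (up to a factor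
for the norm), if `‖w‖ ≤ 2^K`. -/
lemma norm_rnd_sub_le (K : ℕ) (z : ℂ) {w : ℂ} (hw : ‖w‖ ≤ 2 ^ K) :
    ‖toC (rnd K z) - w‖ ≤ ‖z - w‖ + 2 / 2 ^ K := by
  have h1 := abs_rndR_sub_le K z.re ((Complex.abs_re_le_norm w).trans hw)
  have h2 := abs_rndR_sub_le K z.im ((Complex.abs_im_le_norm w).trans hw)
  have h3 : ‖toC (rnd K z) - w‖ ≤ ‖(⟨|z.re - w.re| + 1 / 2 ^ K, |z.im - w.im| + 1 / 2 ^ K⟩ : ℂ)‖ := by
    rw [← sq_le_sq₀ (norm_nonneg _) (norm_nonneg _), ← Complex.normSq_eq_norm_sq,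
      ← Complex.normSq_eq_norm_sq, Complex.normSq_apply, Complex.normSq_apply]
    simp only [Complex.sub_re, Complex.sub_im, toC_re, toC_im, rnd]
    exact add_le_add (by rw [← sq, ← sq, ← sq_abs]; gcongr) (by rw [← sq, ← sq, ← sq_abs]; gcongr)
  refine h3.trans ?_
  have e : (⟨|z.re - w.re| + 1 / 2 ^ K, |z.im - w.im| + 1 / 2 ^ K⟩ : ℂ) =
      (⟨|z.re - w.re|, |z.im - w.im|⟩ : ℂ) + (⟨1 / 2 ^ K, 1 / 2 ^ K⟩ : ℂ) := rfl
  rw [e]
  refine (norm_add_le _ _).trans (add_le_add (le_of_eq ?_) ?_)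
  · rw [← sq_eq_sq₀ (norm_nonneg _) (norm_nonneg _), ← Complex.normSq_eq_norm_sq,
      ← Complex.normSq_eq_norm_sq, Complex.normSq_apply, Complex.normSq_apply]
    simp
  · refine (Complex.norm_le_abs_re_add_abs_im _).trans (le_of_eq ?_)
    have hp : (0 : ℝ) < 1 / 2 ^ K := by positivity
    simp only [abs_of_pos hp]; ring

lemma sz_rndR_le (K : ℕ) (x : ℝ) : sz (rndR K x) ≤ 24 * K + 36 := by
  have hp : (0 : ℝ) < 2 ^ K := by positivity
  set y := max (-2 ^ K) (min (2 ^ K) x) with hy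
  have h1 : -2 ^ K ≤ y := le_max_left _ _
  have h2 : y ≤ 2 ^ K := max_le (by linarith) (min_le_left _ _)
  have h3 : |⌊2 ^ K * y⌋| ≤ 2 ^ (K + K) := by
    rw [abs_le, pow_add]
    constructor
    · rw [Int.le_floor]; push_cast; nlinarith
    · have := Int.floor_le (2 ^ K * y)
      have h4 : ((⌊2 ^ K * y⌋ : ℤ) : ℝ) ≤ ((2 ^ K * 2 ^ K : ℤ) : ℝ) := by push_cast; nlinarith
      exact_mod_cast h4
  have e : rndR K x = mkRat ⌊2 ^ K * y⌋ (2 ^ K) := by
    rw [rndR, ← hy, Rat.mkRat_eq_div]; push_cast; rfl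
  have h4 := ht_mkRat_le ⌊2 ^ K * y⌋ (2 ^ K)
  have h5 : Nat.size ⌊2 ^ K * y⌋.natAbs ≤ K + K + 1 := by
    rw [Nat.size_le, pow_succ]
    have : (⌊2 ^ K * y⌋.natAbs : ℤ) ≤ ((2 ^ (K + K) : ℕ) : ℤ) := by
      rw [Int.natCast_natAbs]; exact_mod_cast h3
    have h6 : ⌊2 ^ K * y⌋.natAbs ≤ 2 ^ (K + K) := by exact_mod_cast this
    have := Nat.two_pow_pos (K + K)
    omega
  have h6 : Nat.size (2 ^ K) = K + 1 := Nat.size_pow
  have := sz_le_ht (rndR K x)
  rw [← e] at h4
  omega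

lemma sz_rnd_le (K : ℕ) (z : ℂ) : sz (rnd K z) ≤ 48 * K + 73 := by
  have h1 := sz_rndR_le K z.re
  have h2 := sz_rndR_le K z.im
  rw [sz_prod]; simp only [rnd]; omega

end Crest.Agent.Lib.PT
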