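import Crest.Agent.R300.PTC3

/-! Magnitudes: `PM f` says that all numbers occurring in `f a` are polynomially bounded. -/

set_option autoImplicit false
set_option linter.dupNamespace false

namespace Crest.Agent.Lib.PT

/-- The sum of the absolute values of all numbers inside a datum. -/
class Mag (β : Type) where
  /-- the magnitude -/
  mag : β → ℕ

export Mag (mag)

instance : Mag ℕ := ⟨fun n => n⟩
instance : Mag ℤ := ⟨Int.natAbs⟩
instance : Mag Bool := ⟨fun _ => 0⟩
instance : Mag Unit := ⟨fun _ => 0⟩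
instance {β γ : Type} [Mag β] [Mag γ] : Mag (β × γ) := ⟨fun p => mag p.1 + mag p.2⟩
instance {β : Type} [Mag β] : Mag (Option β) := ⟨fun o => o.elim 0 mag⟩
instance {β : Type} [Mag β] : Mag (List β) := ⟨fun l => (l.map mag).sum⟩

section simp
variable {β γ : Type} [Mag β] [Mag γ]

@[simp] lemma mag_nat (n : ℕ) : mag n = n := rfl
@[simp] lemma mag_int (n : ℤ) : mag n = n.natAbs := rfl
@[simp] lemma mag_bool (b : Bool) : mag b = 0 := rfl
@[simp] lemma mag_pair (b : β) (c : γ) : mag (b, c) = mag b + mag c := rfl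
lemma mag_prod (p : β × γ) : mag p = mag p.1 + mag p.2 := rfl
@[simp] lemma mag_none : mag (none : Option β) = 0 := rfl
@[simp] lemma mag_some (b : β) : mag (some b) = mag b := rfl
@[simp] lemma mag_kind (b : Option Bool) : mag b = 0 := by cases b <;> rfl
@[simp] lemma mag_nil : mag ([] : List β) = 0 := rfl
@[simp] lemma mag_cons (b : β) (l : List β) : mag (b :: l) = mag b + mag l := by
  simp [mag]
@[simp] lemma mag_append (l m : List β) : mag (l ++ m) = mag l + mag m := by
  simp [mag]
lemma mag_list (l : List β) : mag l = (l.map mag).sum := rfl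

lemma mag_le_of_mem {l : List β} {b : β} (h : b ∈ l) : mag b ≤ mag l :=
  List.single_le_sum (fun _ _ => Nat.zero_le _) _ (List.mem_map_of_mem h)

lemma mag_list_le (l : List β) (M : ℕ) (h : ∀ b ∈ l, mag b ≤ M) : mag l ≤ l.length * M := by
  induction l with
  | nil => simp
  | cons b l ih =>
    have h1 := h b (by simp)
    have h2 := ih fun c hc => h c (by simp [hc])
    rw [mag_cons, List.length_cons]; nlinarith

lemma mag_mono_add (μ ν : ℕ × ℤ) : mag (μ + ν) ≤ mag μ + mag ν := by
  have := Int.natAbs_add_le μ.2 ν.2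
  simp only [mag_prod, Prod.fst_add, Prod.snd_add, mag_nat, mag_int]
  omega

end simp

/-- All numbers in `f a` are polynomially bounded. -/
@[fun_prop] def PM {α β : Type} [Enc α] [Mag β] (f : α → β) : Prop := PB (fun a => mag (f a))

variable {α α' β γ : Type} [Enc α] [Enc α'] [Mag β] [Mag γ]

protected lemma PM.of_le {f : α → β} {B : α → ℕ} (hB : PB B) (h : ∀ a, mag (f a) ≤ B a) : PM f :=
  hB.of_le h

protected lemma PM.congr {f g : α → β} (hg : PM g) (h : ∀ a, f a = g a) : PM f :=
  PB.of_le hg fun a => by rw [h]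

@[fun_prop] protected lemma PM.const (b : β) : PM (fun _ : α => b) := PB.const _

@[fun_prop] protected lemma PM.comp {g : α' → β} {f : α → α'} (hg : PM g) (hf : PT f) :
    PM (fun a => g (f a)) := PB.comp (g := fun x => mag (g x)) hg hf

@[fun_prop] protected lemma PM.of_pb {n : α → ℕ} (hn : PB n) : PM n := hn

protected lemma PM.pb {n : α → ℕ} (hn : PM n) : PB n := hn

@[fun_prop] protected lemma PM.bool (f : α → Bool) : PM f := PB.const 0

@[fun_prop] protected lemma PM.kind (f : α → Option Bool) : PM f :=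
  PM.of_le (PB.const 0) fun _ => by simp

@[fun_prop] protected lemma PM.pair {f : α → β} {g : α → γ} (hf : PM f) (hg : PM g) :
    PM (fun a => (f a, g a)) := PB.add hf hg

@[fun_prop] protected lemma PM.fst {f : α → β × γ} (hf : PM f) : PM (fun a => (f a).1) :=
  PM.of_le hf fun _ => Nat.le_add_right _ _

@[fun_prop] protected lemma PM.snd {f : α → β × γ} (hf : PM f) : PM (fun a => (f a).2) :=
  PM.of_le hf fun _ => Nat.le_add_left _ _

@[fun_prop] protected lemma PB.fst_pm {f : α → ℕ × γ} (hf : PM f) : PB (fun a => (f a).1) := hf.fst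

@[fun_prop] protected lemma PB.snd_pm {f : α → β × ℕ} (hf : PM f) : PB (fun a => (f a).2) := hf.snd

@[fun_prop] protected lemma PB.natAbs_pm {k : α → ℤ} (hk : PM k) : PB (fun a => (k a).natAbs) := hk

@[fun_prop] protected lemma PM.intNatCast {n : α → ℕ} (hn : PB n) : PM (fun a => (n a : ℤ)) :=
  PM.of_le hn fun _ => by simp

@[fun_prop] protected lemma PM.intNeg {k : α → ℤ} (hk : PM k) : PM (fun a => -k a) :=
  PM.of_le hk fun _ => by simp

@[fun_prop] protected lemma PM.intAdd {k l : α → ℤ} (hk : PM k) (hl : PM l) :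
    PM (fun a => k a + l a) := PM.of_le (PB.add hk hl) fun _ => Int.natAbs_add_le _ _

@[fun_prop] protected lemma PM.intSub {k l : α → ℤ} (hk : PM k) (hl : PM l) :
    PM (fun a => k a - l a) := PM.of_le (PB.add hk hl) fun _ => Int.natAbs_sub_le _ _

@[fun_prop] protected lemma PM.intMul {k l : α → ℤ} (hk : PM k) (hl : PM l) :
    PM (fun a => k a * l a) := PM.of_le (PB.mul hk hl) fun _ => (Int.natAbs_mul _ _).le

@[fun_prop] protected lemma PM.monoAdd {k l : α → ℕ × ℤ} (hk : PM k) (hl : PM l) :
    PM (fun a => k a + l a) := PM.of_le (PB.add hk hl) fun _ => mag_mono_add _ _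

@[fun_prop] protected lemma PM.ite {f g : α → β} (P : α → Prop) [∀ a, Decidable (P a)] (hf : PM f)
    (hg : PM g) : PM (fun a => if P a then f a else g a) :=
  PM.of_le (PB.add hf hg) fun a => by split_ifs <;> simp

@[fun_prop] protected lemma PM.cond {f g : α → β} (c : α → Bool) (hf : PM f)
    (hg : PM g) : PM (fun a => cond (c a) (f a) (g a)) :=
  PM.of_le (PB.add hf hg) fun a => by cases c a <;> simp

@[fun_prop] protected lemma PB.cond {f g : α → ℕ} (c : α → Bool) (hf : PB f)
    (hg : PB g) : PB (fun a => cond (c a) (f a) (g a)) := PM.cond (β := ℕ) c hf hg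

@[fun_prop] protected lemma PM.cons {x : α → β} {l : α → List β} (hx : PM x) (hl : PM l) :
    PM (fun a => x a :: l a) := PM.of_le (PB.add hx hl) fun _ => by simp

@[fun_prop] protected lemma PM.append {l m : α → List β} (hl : PM l) (hm : PM m) :
    PM (fun a => l a ++ m a) := PM.of_le (PB.add hl hm) fun _ => by simp

/-- Members of a bounded list are bounded. -/
protected lemma PM.mem [Enc β] {l : α → List β} (hl : PM l) :
    PM (fun p : {p : α × β // p.2 ∈ l p.1} => p.1.2) :=
  PM.of_le (PB.comp (f := fun p : {p : α × β // p.2 ∈ l p.1} => p.1.1) hl (by fun_prop))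
    fun p => mag_le_of_mem p.2

protected lemma PM.of_mem {l : α → List β} (hl : PM l) {x : α → β} (h : ∀ a, x a ∈ l a) : PM x :=
  PM.of_le hl fun a => mag_le_of_mem (h a)

/-- A list is bounded if its length and its members are. -/
protected lemma PM.of_forall {l : α → List β} {B : α → ℕ} (hl : PB (fun a => (l a).length))
    (hB : PB B) (h : ∀ a, ∀ b ∈ l a, mag b ≤ B a) : PM l :=
  PM.of_le (hl.mul hB) fun a => mag_list_le _ _ (h a)

@[fun_prop] protected lemma PM.range {n : α → ℕ} (hn : PB n) : PM (fun a => List.range (n a)) :=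
  PM.of_forall (hn.of_le fun _ => by simp) hn fun _ _ hb => (List.mem_range.1 hb).le

@[fun_prop] protected lemma PM.getElem_fin {l : α → List β} (hl : PM l)
    (i : (a : α) → Fin (l a).length) : PM (fun a => (l a)[i a]) :=
  hl.of_mem fun _ => List.getElem_mem _

/-- A uniform bound over a polynomially bounded extra parameter. -/
protected lemma PB.exists_unif {n : α → ℕ} {g : (Σ a, Fin (n a)) → ℕ} (hg : PB g) :
    PB n → ∃ B : α → ℕ, PB B ∧ ∀ a i, g ⟨a, i⟩ ≤ B a := fun hn => by
  obtain ⟨c, k, h⟩ := hg.exists_bound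
  have := PB.sz_id (α := α)
  refine ⟨fun a => c * (sz a + 6 * n a + 2) ^ k, by fun_prop, fun a i => h _ _ ?_⟩
  have h1 := sz_nat_le_self (i : ℕ)
  have h2 := i.2
  rw [sz_sigma, sz_fin]; simp only; omega

/-- A uniform bound over the members of a list. -/
protected lemma PB.exists_unif_mem {δ : Type} [Enc δ] {l : α → List δ} (hl : PT l)
    {g : {p : α × δ // p.2 ∈ l p.1} → ℕ} (hg : PB g) :
    ∃ B : α → ℕ, PB B ∧ ∀ a b (h : b ∈ l a), g ⟨(a, b), h⟩ ≤ B a := by
  obtain ⟨c, k, h⟩ := hg.exists_bound
  have := PB.sz_id (α := α)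
  refine ⟨fun a => c * (sz a + sz (l a) + 1) ^ k, by fun_prop, fun a b hb => h _ _ ?_⟩
  have h1 := sz_le_of_mem hb
  simp only [sz_subtype, sz_pair]; omega

protected lemma PM.map_mem {δ : Type} [Enc δ] {l : α → List δ} (hl : PT l) {g : α → δ → β}
    (hg : PM (fun p : {p : α × δ // p.2 ∈ l p.1} => g p.1.1 p.1.2)) :
    PM (fun a => (l a).map (g a)) := by
  obtain ⟨B, hB, h⟩ := PB.exists_unif_mem hl hg
  refine PM.of_forall ((PB.length hl).of_le fun _ => by simp) hB fun a b hb => ?_
  obtain ⟨x, hx, rfl⟩ := List.mem_map.1 hb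
  exact h a x hx

protected lemma PM.flatten {l : α → List (List β)} (hl : PM l) : PM (fun a => (l a).flatten) :=
  PM.of_le hl fun a => by
    induction l a with
    | nil => simp
    | cons x m ih => simp only [List.flatten_cons, mag_append, mag_cons]; omega

protected lemma PM.flatMap_mem {δ : Type} [Enc δ] {l : α → List δ} (hl : PT l)
    {g : α → δ → List β} (hg : PM (fun p : {p : α × δ // p.2 ∈ l p.1} => g p.1.1 p.1.2)) :
    PM (fun a => (l a).flatMap (g a)) := (PM.map_mem hl hg).flatten

variable {δ ε : Type} [Enc δ] [Enc ε]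

protected lemma PT.flatMap_mem {l : α → List δ} (hl : PT l)
    {g : α → δ → List ε} (hg : PT (fun p : {p : α × δ // p.2 ∈ l p.1} => g p.1.1 p.1.2)) :
    PT (fun a => (l a).flatMap (g a)) := (hl.map_mem hg).flatten

@[fun_prop] protected lemma PT.getElem_fin {l : α → List δ} (hl : PT l)
    {i : (a : α) → Fin (l a).length} (hi : PT (fun a => (i a : ℕ))) : PT (fun a => (l a)[i a]) :=
  (hi.getElem? hl).enc.cdr.of_enc fun a => by simp; rfl

omit [Enc δ] in
lemma argAux_congr {r r' : δ → δ → Prop} [DecidableRel r] [DecidableRel r'] (S : δ → Prop)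
    (h : ∀ x y, S x → S y → (r x y ↔ r' x y)) (l : List δ) (hl : ∀ x ∈ l, S x) (o : Option δ)
    (ho : ∀ x ∈ o, S x) : l.foldl (List.argAux r) o = l.foldl (List.argAux r') o := by
  induction l generalizing o with
  | nil => rfl
  | cons x l ih =>
    have hx := hl x (by simp)
    have e : List.argAux r o x = List.argAux r' o x := by
      cases o with
      | none => rfl
      | some c => simp only [List.argAux, h x c hx (ho c rfl)]
    rw [List.foldl_cons, List.foldl_cons, ← e]
    refine ih (fun y hy => hl y (by simp [hy])) _ fun y hy => ?_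
    cases o with
    | none => obtain rfl : x = y := by simpa [List.argAux] using hy
              exact hx
    | some c =>
      simp only [List.argAux] at hy
      split_ifs at hy
      · obtain rfl : x = y := by simpa using hy
        exact hx
      · obtain rfl : c = y := by simpa using hy
        exact ho c rfl

protected lemma PTR.extend_subtype {P : α → Prop} {g : Subtype P → ℝ} (hg : PTR g) :
    ∃ G : α → ℝ, PTR G ∧ ∀ a (h : P a), G a = g ⟨a, h⟩ := by
  obtain ⟨u, hu, h⟩ := hg
  obtain ⟨G, hG, h'⟩ := hu.extend_subtype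
  exact ⟨fun a => G a, PTR.ratCast hG, fun a ha => by beta_reduce; rw [h, h' a ha]⟩

protected lemma PTC.extend_subtype {P : α → Prop} {g : Subtype P → ℂ} (hg : PTC g) :
    ∃ G : α → ℂ, PTC G ∧ ∀ a (h : P a), G a = g ⟨a, h⟩ := by
  obtain ⟨u, hu, h⟩ := hg.exists_pt
  obtain ⟨G, hG, h'⟩ := hu.extend_subtype
  exact ⟨fun a => toC (G a), PTC.toC hG, fun a ha => by beta_reduce; rw [h, h' a ha]⟩

protected lemma PT.argmax_real_mem {l : α → List δ} {F : α → δ → ℝ} (hl : PT l)
    (hF : PTR (fun p : {p : α × δ // p.2 ∈ l p.1} => F p.1.1 p.1.2)) :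
    PT (fun a => (l a).argmax (F a)) := by
  obtain ⟨G, hG, h⟩ := hF.extend_subtype
  refine (PT.argmax_real (F := fun a b => G (a, b)) hl hG).congr fun a => ?_
  exact argAux_congr (· ∈ l a) (fun x y hx hy => by beta_reduce; rw [h (a, x) hx, h (a, y) hy]) _
    (fun _ h => h) none (by simp)

protected lemma PT.argmin_real_mem {l : α → List δ} {F : α → δ → ℝ} (hl : PT l)
    (hF : PTR (fun p : {p : α × δ // p.2 ∈ l p.1} => F p.1.1 p.1.2)) :
    PT (fun a => (l a).argmin (F a)) := by
  obtain ⟨G, hG, h⟩ := hF.extend_subtype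
  refine (PT.argmin_real (F := fun a b => G (a, b)) hl hG).congr fun a => ?_
  exact argAux_congr (· ∈ l a) (fun x y hx hy => by beta_reduce; rw [h (a, x) hx, h (a, y) hy]) _
    (fun _ h => h) none (by simp)

/-- A right fold whose step is only known to be `PT` on valid states. -/
protected lemma PT.foldr_valid [Dec ε] {f : α → δ → ε → ε} {l : α → List δ} {ini : α → ε}
    (V : α × δ × ε → Prop) (B : α → ℕ)
    (hf : PT (fun p : Subtype V => f p.1.1 p.1.2.1 p.1.2.2)) (hl : PT l) (hi : PT ini) (hB : PB B)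
    (hV : ∀ a x m, x :: m <:+ l a → V (a, x, m.foldr (f a) (ini a)))
    (hsz : ∀ a m, m <:+ l a → sz (m.foldr (f a) (ini a)) ≤ B a) :
    PT (fun a => (l a).foldr (f a) (ini a)) := by
  obtain ⟨G, hG, h⟩ := hf.extend_subtype
  have key : ∀ a m, m <:+ l a →
      m.foldr (fun x acc => G (a, x, acc)) (ini a) = m.foldr (f a) (ini a) := by
    intro a m
    induction m with
    | nil => intro _; rfl
    | cons x m ih =>
      intro hm
      rw [List.foldr_cons, List.foldr_cons, ih ((List.suffix_cons x m).trans hm),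
        h _ (hV a x m hm)]
  refine (PT.foldr (f := fun a x acc => G (a, x, acc)) B hG hl hi hB fun a i => ?_).congr
    fun a => (key a _ (List.suffix_refl _)).symm
  rw [key a _ (List.drop_suffix _ _)]
  exact hsz a _ (List.drop_suffix _ _)

end Crest.Agent.Lib.PT
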