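import Crest.Agent.R300.UBNum

set_option autoImplicit false

noncomputable section

namespace Crest.Agent.R300.UB

open Complex Finset Crest.Agent.Lib.PT Crest.TraceRecon Crest.FinProb

/-! Algebra of chains: the shuffle product. -/

theorem c1_cend_nil (w : List Bool) (T : ℕ) : cend w [] T = 0 := by
  cases w <;> simp [cend]

theorem c1_cend_nil' (c : List (ℂ × Bool × ℂ)) (T : ℕ) : cend [] c T = 0 := by
  cases c <;> simp [cend]

theorem c1_cval_nil (w : List Bool) : cval w [] = 1 := by
  cases w <;> simp [cval]

theorem c1_cval_eq_sum_cend (w : List Bool) {c : List (ℂ × Bool × ℂ)} (hc : c ≠ []) :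
    cval w c = ∑ T ∈ range w.length, cend w c T := by
  induction w generalizing c with
  | nil =>
    obtain ⟨s, r, rfl⟩ := List.exists_cons_of_ne_nil hc
    simp [cval]
  | cons σ w ih =>
    obtain ⟨s, r, rfl⟩ := List.exists_cons_of_ne_nil hc
    rw [List.length_cons, Finset.sum_range_succ']
    simp only [cval, cend]
    rw [Finset.sum_add_distrib, ← Finset.mul_sum, ← Finset.mul_sum, ← ih hc]
    by_cases hr : r = []
    · subst hr
      simp [c1_cend_nil, c1_cval_nil]
    · rw [← ih hr, if_neg hr, add_zero]

theorem c1_shuf_ne_nil (c c' : Chain) : ∀ d ∈ shuf c c', d ≠ [] := by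
  intro d hd
  cases c with
  | nil => simp [shuf] at hd
  | cons s r =>
    cases c' with
    | nil => simp [shuf] at hd
    | cons s' r' =>
      rw [shuf] at hd
      simp only [List.mem_append, List.mem_map] at hd
      rcases hd with hd | ⟨a, -, rfl⟩ | ⟨a, -, rfl⟩ | ⟨a, -, rfl⟩
      · split_ifs at hd
        · simp only [List.mem_singleton] at hd
          rw [hd]; simp
        · simp at hd
      all_goals simp

theorem c1_mk_or (a b σ : Bool) : mk (a || b) σ = mk a σ * mk b σ := by
  cases a <;> cases b <;> cases σ <;> simp [mk]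

theorem c1_ser_nil (e : Mono → ℂ) (w : List Bool) (T : ℕ) : serEnd e w [] T = 0 := by
  simp [serEnd]

theorem c1_ser_cons (e : Mono → ℂ) (w : List Bool) (c : Chain) (S : Ser) (T : ℕ) :
    serEnd e w (c :: S) T = cend w (evC e c) T + serEnd e w S T := by
  simp [serEnd]

theorem c1_ser_append (e : Mono → ℂ) (w : List Bool) (S S' : Ser) (T : ℕ) :
    serEnd e w (S ++ S') T = serEnd e w S T + serEnd e w S' T := by
  simp [serEnd]

theorem c1_ser_wnil (e : Mono → ℂ) (S : Ser) (T : ℕ) : serEnd e [] S T = 0 := by
  simp [serEnd, c1_cend_nil']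

theorem c1_evC_cons (e : Mono → ℂ) (s : Stp) (c : Chain) :
    evC e (s :: c) = (e s.1, s.2.1, e s.2.2) :: evC e c := rfl

theorem c1_evC_eq_nil (e : Mono → ℂ) (c : Chain) : evC e c = [] ↔ c = [] := by
  simp [evC]

theorem c1_ser_map_succ (e : Mono → ℂ) (σ : Bool) (w : List Bool) (a : Stp) (S : Ser) (T : ℕ) :
    serEnd e (σ :: w) (S.map fun c => a :: c) (T + 1) =
      e a.1 * serEnd e w (S.map fun c => a :: c) T + mk a.2.1 σ * e a.2.2 * serEnd e w S T := by
  induction S with
  | nil => simp [c1_ser_nil]
  | cons c S ih =>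
    simp only [List.map_cons, c1_ser_cons, ih, c1_evC_cons, cend]
    ring

theorem c1_ser_map_zero (e : Mono → ℂ) (σ : Bool) (w : List Bool) (a : Stp) (S : Ser)
    (hS : ∀ c ∈ S, c ≠ []) : serEnd e (σ :: w) (S.map fun c => a :: c) 0 = 0 := by
  induction S with
  | nil => simp [c1_ser_nil]
  | cons c S ih =>
    have hc : evC e c ≠ [] := fun h => hS c (by simp) ((c1_evC_eq_nil e c).1 h)
    simp only [List.map_cons, c1_ser_cons, c1_evC_cons, cend, if_neg hc, zero_add]
    exact ih fun d hd => hS d (by simp [hd])

theorem c1_ser_ite_succ (e : Mono → ℂ) (σ : Bool) (w : List Bool) (a : Stp) (P : Prop)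
    [Decidable P] (T : ℕ) : serEnd e (σ :: w) (if P then [[a]] else []) (T + 1) =
      e a.1 * serEnd e w (if P then [[a]] else []) T := by
  split_ifs
  · simp [c1_ser_cons, c1_ser_nil, evC, cend, c1_cend_nil]
  · simp [c1_ser_nil]

theorem c1_shuf_spec {e : Mono → ℂ} (he : ∀ μ ν, e (μ + ν) = e μ * e ν) (w : List Bool)
    (c c' : Chain) (T : ℕ) :
    serEnd e w (shuf c c') T = cend w (evC e c) T * cend w (evC e c') T := by
  induction w generalizing c c' T with
  | nil => simp [c1_ser_wnil, c1_cend_nil']
  | cons σ w ih =>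
    cases c with
    | nil => simp [shuf, c1_ser_nil, evC, c1_cend_nil]
    | cons s r =>
      cases c' with
      | nil => simp [shuf, c1_ser_nil, evC, c1_cend_nil]
      | cons s' r' =>
        cases T with
        | zero =>
          rw [shuf]
          simp only [c1_ser_append, c1_ser_map_zero e σ w _ _ (c1_shuf_ne_nil _ _), add_zero,
            c1_evC_cons, cend, c1_evC_eq_nil]
          by_cases h1 : r = []
          · by_cases h2 : r' = []
            · simp only [h1, h2, and_self, if_true, c1_ser_cons, c1_ser_nil, evC, List.map_cons,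
                List.map_nil, cend, c1_mk_or, he]
              ring
            · simp [h2, c1_ser_nil]
          · simp [h1, c1_ser_nil]
        | succ T =>
          have h0 := ih (s :: r) (s' :: r') T
          rw [shuf] at h0 ⊢
          simp only [c1_ser_append] at h0
          simp only [c1_ser_append, c1_ser_map_succ, c1_ser_ite_succ, ih, c1_mk_or, he]
          simp only [c1_evC_cons, cend] at h0 ⊢
          linear_combination (e s.1 * e s'.1) * h0

theorem c1_serEnd_mul {e : Mono → ℂ} (he : ∀ μ ν, e (μ + ν) = e μ * e ν) (w : List Bool)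
    (S S' : Ser) (T : ℕ) : serEnd e w (serMul S S') T = serEnd e w S T * serEnd e w S' T := by
  have h1 : ∀ c : Chain, serEnd e w (S'.flatMap fun c' => shuf c c') T =
      cend w (evC e c) T * serEnd e w S' T := by
    intro c
    induction S' with
    | nil => simp [c1_ser_nil]
    | cons c' S' ih =>
      rw [List.flatMap_cons, c1_ser_append, ih, c1_shuf_spec he, c1_ser_cons, mul_add]
  unfold serMul
  induction S with
  | nil => simp [c1_ser_nil]
  | cons c S ih => rw [List.flatMap_cons, c1_ser_append, ih, h1, c1_ser_cons, add_mul]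

end Crest.Agent.R300.UB
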