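import Crest.Agent.R300.UBNum

set_option autoImplicit false

noncomputable section

namespace Crest.Agent.R300.UB

open Complex Finset Crest.Agent.Lib.PT Crest.TraceRecon Crest.FinProb

/-! Expansion of features into chains (helpers for `UBChain`). -/

theorem c2_nil (w : List Bool) (T : ℕ) : cend w [] T = 0 := by cases w <;> simp [cend]

theorem c2_single (z : ℂ) (m : Bool) (μ : ℂ) : ∀ (w : List Bool) (T : ℕ), T < w.length →
    cend w [(z, m, μ)] T = z ^ T * mk m (w.getD T false) * μ
  | [], _, h => absurd h (Nat.not_lt_zero _)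
  | σ :: w, 0, _ => by simp [cend]
  | σ :: w, T + 1, h => by
    rw [cend, c2_nil, c2_single z m μ w T (Nat.lt_of_succ_lt_succ h), List.getD_cons_succ]
    ring

theorem c2_snoc (z : ℂ) : ∀ (w : List Bool) (c : List (ℂ × Bool × ℂ)) (T : ℕ), c ≠ [] →
    T < w.length → cend w (c ++ [(z, false, z)]) T = ∑ t ∈ range T, cend w c t * z ^ (T - t)
  | [], _, _, _, h => absurd h (Nat.not_lt_zero _)
  | _ :: _, [], _, h, _ => absurd rfl h
  | σ :: w, s :: r, 0, _, _ => by simp [cend]
  | σ :: w, s :: r, T + 1, _, h => by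
    have h' := Nat.lt_of_succ_lt_succ h
    have h1 := c2_snoc z w (s :: r) T (List.cons_ne_nil _ _) h'
    rw [List.cons_append] at h1
    rw [List.cons_append, cend, h1, sum_range_succ']
    simp only [cend, Nat.add_sub_add_right, Nat.sub_zero, add_mul, sum_add_distrib, mul_assoc,
      ← mul_sum]
    by_cases hr : r = []
    · subst hr
      rw [List.nil_append, c2_single z false z w T h']
      simp [c2_nil, mk, pow_succ]
    · rw [c2_snoc z w r T hr h', if_neg hr, zero_mul, add_zero]

theorem c2_conj : ∀ (w : List Bool) (c : List (ℂ × Bool × ℂ)) (T : ℕ),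
    cend w (c.map fun s => ((starRingEnd ℂ) s.1, s.2.1, (starRingEnd ℂ) s.2.2)) T =
      (starRingEnd ℂ) (cend w c T)
  | w, [], T => by simp [c2_nil]
  | [], _ :: _, _ => by simp [cend]
  | σ :: w, s :: r, 0 => by
    by_cases hr : r = [] <;> by_cases hm : (s.2.1 && !σ) = true <;> simp [cend, mk, hr, hm]
  | σ :: w, s :: r, T + 1 => by
    have h1 := c2_conj w (s :: r) T
    rw [List.map_cons] at h1
    rw [List.map_cons, cend, cend, h1, c2_conj w r T]
    by_cases hm : (s.2.1 && !σ) = true <;> simp [mk, hm]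

variable (A B : ℝ) (x : List Bool)

theorem c2_append (e : Mono → ℂ) (S S' : Ser) (T : ℕ) :
    serEnd e x (S ++ S') T = serEnd e x S T + serEnd e x S' T := by
  simp [serEnd]

theorem c2_cj (S : Ser) (T : ℕ) :
    serEnd (val A B) x (serCj S) T = (starRingEnd ℂ) (serEnd (val A B) x S T) := by
  rw [serEnd, serEnd, serCj, map_list_sum, List.map_map, List.map_map]
  congr 1
  refine List.map_congr_left fun c _ => ?_
  simp only [Function.comp_def, ← c2_conj, evC, List.map_map, val_cj]

theorem c2_kind (κ : Kind) {S : Ser} {g : ℕ → ℂ} {T : ℕ} (hT : T < x.length)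
    (h : serEnd (val A B) x S T = g T) : serEnd (val A B) x (kindSer κ S) T = kindApp κ g T := by
  rcases κ with _ | _ | _
  · simp [kindSer, kindApp, serEnd, serOne, evC, c2_single _ _ _ x T hT, val_zero, mk]
  · exact h
  · exact (c2_cj A B x S T).trans (congrArg _ h)

theorem c2_kind_ne (κ : Kind) {S : Ser} (h : ∀ c ∈ S, c ≠ []) : ∀ c ∈ kindSer κ S, c ≠ [] := by
  rcases κ with _ | _ | _
  · simp [kindSer, serOne]
  · exact h
  · intro c hc
    obtain ⟨c', hc', rfl⟩ := List.mem_map.1 hc
    simpa using h c' hc'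

theorem c2_map_snoc (e : Mono → ℂ) (μ : Mono) {T : ℕ} (hT : T < x.length) :
    ∀ S : Ser, (∀ c ∈ S, c ≠ []) → serEnd e x (S.map fun c => c ++ [(μ, false, μ)]) T =
      ∑ t ∈ range T, serEnd e x S t * e μ ^ (T - t)
  | [], _ => by simp [serEnd]
  | c :: S, h => by
    have h1 := c2_map_snoc e μ hT S fun c hc => h c (List.mem_cons_of_mem _ hc)
    have h2 := c2_snoc (e μ) x (evC e c) T (by simpa [evC] using h c List.mem_cons_self) hT
    simp only [serEnd, List.map_cons, List.sum_cons, add_mul, sum_add_distrib] at h1 ⊢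
    rw [h1, ← h2]
    simp [evC]

theorem c2_slot {S : Ser} {g : ℕ → ℂ} (hS : ∀ c ∈ S, c ≠ [])
    (h : ∀ t < x.length, serEnd (val A B) x S t = g t) (sl : Slot) {T : ℕ} (hT : T < x.length) :
    serEnd (val A B) x (slotSer S sl) T = slotApp (val A B) g sl T := by
  have h1 : ∑ t ∈ range T, serEnd (val A B) x (kindSer sl.1 S) t * val A B sl.2.2 ^ (T - t) =
      ∑ t ∈ range T, kindApp sl.1 g t * val A B sl.2.2 ^ (T - t) :=
    sum_congr rfl fun t ht => by
      have ht' := (mem_range.1 ht).trans hT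
      rw [c2_kind A B x sl.1 ht' (h t ht')]
  rw [slotSer, c2_append, c2_map_snoc x _ _ hT _ (c2_kind_ne _ hS), h1, slotApp]
  cases sl.2.1
  · rw [cond_false, cond_false, sum_range_succ, c2_kind A B x sl.1 hT (h T hT), Nat.sub_self,
      pow_zero, mul_one, add_comm]
  · simp [serEnd]

theorem c2_mul_ne (hs : ∀ c c' : Chain, ∀ d ∈ shuf c c', d ≠ []) (S S' : Ser) :
    ∀ c ∈ serMul S S', c ≠ [] := by
  intro d hd
  obtain ⟨c, -, hd⟩ := List.mem_flatMap.1 hd
  obtain ⟨c', -, hd⟩ := List.mem_flatMap.1 hd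
  exact hs c c' d hd

theorem c2_expand_ne (hs : ∀ c c' : Chain, ∀ d ∈ shuf c c', d ≠ []) (νs : List Node) :
    ∀ c ∈ expand νs, c ≠ [] := by
  rcases νs with _ | ⟨⟨κ, μ, _ | ⟨sl, sls⟩⟩, νs⟩
  · simp [expand, serBit]
  · exact c2_mul_ne hs _ _
  · exact c2_mul_ne hs _ _

theorem c2_expand (hs : ∀ c c' : Chain, ∀ d ∈ shuf c c', d ≠ [])
    (hm : ∀ (S S' : Ser) (T : ℕ), serEnd (val A B) x (serMul S S') T =
      serEnd (val A B) x S T * serEnd (val A B) x S' T) (νs : List Node) :
    ∀ T < x.length, serEnd (val A B) x (expand νs) T = feat (val A B) x νs T := by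
  induction νs with
  | nil =>
    intro T hT
    simp only [expand, feat, List.foldr_nil, serBit, serEnd, evC, List.map_cons, List.map_nil,
      List.sum_cons, List.sum_nil, c2_single _ _ _ x T hT, val_zero, bit, mk]
    cases x.getD T false <;> simp
  | cons ν νs ih =>
    intro T hT
    obtain ⟨κ, μ, sls⟩ := ν
    change serEnd _ x (nodeSer _ (expand νs)) T = nodeApp _ _ (feat _ x νs) T
    simp only [nodeSer, nodeApp]
    induction sls with
    | nil =>
      rw [List.foldr_nil, hm, c2_kind A B x κ hT (ih T hT)]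
      simp [serConst, serEnd, evC, c2_single _ _ _ x T hT, val_zero, mk, mul_comm]
    | cons sl sls ih' =>
      rw [List.foldr_cons, hm, ih', c2_slot A B x (c2_expand_ne hs νs) ih sl hT, List.map_cons,
        List.prod_cons]
      ring

theorem c2_sum (e : Mono → ℂ)
    (hc : ∀ c : List (ℂ × Bool × ℂ), c ≠ [] → cval x c = ∑ T ∈ range x.length, cend x c T) :
    ∀ S : Ser, (∀ c ∈ S, c ≠ []) →
      (S.map fun c => cval x (evC e c)).sum = ∑ T ∈ range x.length, serEnd e x S T
  | [], _ => by simp [serEnd]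
  | c :: S, h => by
    have h1 := c2_sum e hc S fun c hc => h c (List.mem_cons_of_mem _ hc)
    rw [List.map_cons, List.sum_cons, h1, hc _ (by simpa [evC] using h c List.mem_cons_self),
      ← sum_add_distrib]
    simp [serEnd]

theorem c2_qSer (hs : ∀ c c' : Chain, ∀ d ∈ shuf c c', d ≠ [])
    (hm : ∀ (S S' : Ser) (T : ℕ), serEnd (val A B) x (serMul S S') T =
      serEnd (val A B) x S T * serEnd (val A B) x S' T)
    (hc : ∀ c : List (ℂ × Bool × ℂ), c ≠ [] → cval x c = ∑ T ∈ range x.length, cend x c T)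
    (q : Query) : ((qSer q).map fun c => cval x (evC (val A B) c)).sum =
      ∑ T ∈ range x.length, feat (val A B) x q.1 T * val A B q.2 ^ T := by
  rw [qSer, c2_sum x _ hc _ (c2_mul_ne hs _ _)]
  refine sum_congr rfl fun T hT => ?_
  have hT' := mem_range.1 hT
  rw [hm, c2_expand A B x hs hm _ T hT']
  simp [serGeo, serEnd, evC, c2_single _ _ _ x T hT', val_zero, mk]

theorem c2_take (e : Mono → ℂ) (νs : List Node) {m : ℕ} :
    ∀ T < m, feat e (x.take m) νs T = feat e x νs T := by
  induction νs with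
  | nil =>
    intro T hT
    simp [feat, bit, List.getD_eq_getElem?_getD, List.getElem?_take_of_lt hT]
  | cons ν νs ih =>
    intro T hT
    have h1 : ∀ κ, ∀ t < m, kindApp κ (feat e (x.take m) νs) t = kindApp κ (feat e x νs) t :=
      fun κ t ht => by simp only [kindApp, ih t ht]
    change nodeApp e ν (feat e (x.take m) νs) T = nodeApp e ν (feat e x νs) T
    rw [nodeApp, nodeApp, h1 _ T hT]
    congr 2
    refine List.map_congr_left fun sl _ => sum_congr rfl fun t ht => ?_
    rw [h1 _ t]
    have := mem_range.1 ht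
    revert this
    cases sl.2.1 <;> simp only [cond_true, cond_false] <;> omega

end Crest.Agent.R300.UB
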