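import Crest.Agent.R300.UBNum
import Crest.Agent.R300.UBChainAuxA
import Crest.Agent.R300.UBChainAuxB

set_option autoImplicit false

noncomputable section

namespace Crest.Agent.R300.UB

open Complex Finset Crest.Agent.Lib.PT Crest.TraceRecon Crest.FinProb

/-! Algebra of chains. -/

theorem cval_eq_sum_cend (w : List Bool) {c : List (ℂ × Bool × ℂ)} (hc : c ≠ []) :
    cval w c = ∑ T ∈ range w.length, cend w c T := c1_cval_eq_sum_cend w hc

theorem shuf_ne_nil (c c' : Chain) : ∀ d ∈ shuf c c', d ≠ [] := c1_shuf_ne_nil c c'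

theorem shuf_spec (A B : ℝ) (w : List Bool) (c c' : Chain) (T : ℕ) :
    serEnd (val A B) w (shuf c c') T =
      cend w (evC (val A B) c) T * cend w (evC (val A B) c') T :=
  c1_shuf_spec (val_add A B) w c c' T

theorem serEnd_mul (A B : ℝ) (w : List Bool) (S S' : Ser) (T : ℕ) :
    serEnd (val A B) w (serMul S S') T = serEnd (val A B) w S T * serEnd (val A B) w S' T :=
  c1_serEnd_mul (val_add A B) w S S' T

theorem expand_ne_nil (νs : List Node) : ∀ c ∈ expand νs, c ≠ [] :=
  c2_expand_ne shuf_ne_nil νs

theorem expand_spec (A B : ℝ) (x : List Bool) (νs : List Node) {T : ℕ} (hT : T < x.length) :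
    serEnd (val A B) x (expand νs) T = feat (val A B) x νs T :=
  c2_expand A B x shuf_ne_nil (serEnd_mul A B x) νs T hT

/-- The chains of a query sum to `∑_T g T z^T`. -/
theorem qSer_spec (A B : ℝ) (x : List Bool) (q : Query) :
    ((qSer q).map fun c => cval x (evC (val A B) c)).sum =
      ∑ T ∈ range x.length, feat (val A B) x q.1 T * val A B q.2 ^ T :=
  c2_qSer A B x shuf_ne_nil (serEnd_mul A B x) (fun _ hc => cval_eq_sum_cend x hc) q

/-- Features are causal. -/
theorem feat_take (e : Mono → ℂ) (x : List Bool) (νs : List Node) {m T : ℕ} (hT : T < m) :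
    feat e (x.take m) νs T = feat e x νs T :=
  c2_take x e νs T hT

end Crest.Agent.R300.UB
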