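import Crest.Agent.R300.UBComb
import Crest.Agent.R300.UBChain
import Crest.Agent.R300.PTC4

/-! Row 300, polynomial time: numbers, chains, least squares. -/

set_option autoImplicit false

noncomputable section

namespace Crest.Agent.R300.UB

open Complex Finset Crest.Agent.Lib.PT

variable {α β : Type} [Enc α] [Enc β]

/-! ### encodings -/

instance : Enc Lev := Enc.ofInj
  (fun L => [L.g, L.om, L.r, L.r', L.lb, L.lc, L.kS, L.kF, L.M, L.eP, L.eR, L.E, L.K]) (by
    rintro ⟨⟩ ⟨⟩ h
    simp only [List.cons.injEq] at h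
    simp only [Lev.mk.injEq]
    tauto)

lemma pt_levList {L : α → Lev} (hL : PT L) : PT (fun a => [(L a).g, (L a).om, (L a).r, (L a).r',
    (L a).lb, (L a).lc, (L a).kS, (L a).kF, (L a).M, (L a).eP, (L a).eR, (L a).E, (L a).K]) :=
  hL.of_enc fun _ => rfl

section Lev
variable {L : α → Lev}
@[fun_prop] lemma pt_g (hL : PT L) : PT (fun a => (L a).g) :=
  (PT.const 0).getD (pt_levList hL) (PT.const 0)
@[fun_prop] lemma pt_om (hL : PT L) : PT (fun a => (L a).om) :=
  (PT.const 1).getD (pt_levList hL) (PT.const 0)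
@[fun_prop] lemma pt_r (hL : PT L) : PT (fun a => (L a).r) :=
  (PT.const 2).getD (pt_levList hL) (PT.const 0)
@[fun_prop] lemma pt_r' (hL : PT L) : PT (fun a => (L a).r') :=
  (PT.const 3).getD (pt_levList hL) (PT.const 0)
@[fun_prop] lemma pt_lb (hL : PT L) : PT (fun a => (L a).lb) :=
  (PT.const 4).getD (pt_levList hL) (PT.const 0)
@[fun_prop] lemma pt_lc (hL : PT L) : PT (fun a => (L a).lc) :=
  (PT.const 5).getD (pt_levList hL) (PT.const 0)
@[fun_prop] lemma pt_kS (hL : PT L) : PT (fun a => (L a).kS) :=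
  (PT.const 6).getD (pt_levList hL) (PT.const 0)
@[fun_prop] lemma pt_kF (hL : PT L) : PT (fun a => (L a).kF) :=
  (PT.const 7).getD (pt_levList hL) (PT.const 0)
@[fun_prop] lemma pt_M (hL : PT L) : PT (fun a => (L a).M) :=
  (PT.const 8).getD (pt_levList hL) (PT.const 0)
@[fun_prop] lemma pt_eP (hL : PT L) : PT (fun a => (L a).eP) :=
  (PT.const 9).getD (pt_levList hL) (PT.const 0)
@[fun_prop] lemma pt_eR (hL : PT L) : PT (fun a => (L a).eR) :=
  (PT.const 10).getD (pt_levList hL) (PT.const 0)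
@[fun_prop] lemma pt_E (hL : PT L) : PT (fun a => (L a).E) :=
  (PT.const 11).getD (pt_levList hL) (PT.const 0)
@[fun_prop] lemma pt_K (hL : PT L) : PT (fun a => (L a).K) :=
  (PT.const 12).getD (pt_levList hL) (PT.const 0)
end Lev

lemma pt_levMk {g om r r' lb lc kS kF M eP eR E K : α → ℕ} (h1 : PT g) (h2 : PT om) (h3 : PT r)
    (h4 : PT r') (h5 : PT lb) (h6 : PT lc) (h7 : PT kS) (h8 : PT kF) (h9 : PT M) (h10 : PT eP)
    (h11 : PT eR) (h12 : PT E) (h13 : PT K) :
    PT (fun a => (⟨g a, om a, r a, r' a, lb a, lc a, kS a, kF a, M a, eP a, eR a, E a, K a⟩ : Lev)) :=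
  PT.of_enc (g := fun a => [g a, om a, r a, r' a, lb a, lc a, kS a, kF a, M a, eP a, eR a, E a, K a])
    (by fun_prop) fun _ => rfl

instance : Mag Lev := ⟨fun L => L.r + L.r' + L.lb + L.lc + L.kS + L.kF + L.eP + L.eR + L.K⟩

lemma mag_lev (L : Lev) :
    mag L = L.r + L.r' + L.lb + L.lc + L.kS + L.kF + L.eP + L.eR + L.K := rfl

section LevB
variable {L : α → Lev}
@[fun_prop] lemma pb_r (hL : PM L) : PB (fun a => (L a).r) :=
  PB.of_le hL fun a => by rw [mag_lev]; omega
@[fun_prop] lemma pb_r' (hL : PM L) : PB (fun a => (L a).r') :=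
  PB.of_le hL fun a => by rw [mag_lev]; omega
@[fun_prop] lemma pb_lb (hL : PM L) : PB (fun a => (L a).lb) :=
  PB.of_le hL fun a => by rw [mag_lev]; omega
@[fun_prop] lemma pb_lc (hL : PM L) : PB (fun a => (L a).lc) :=
  PB.of_le hL fun a => by rw [mag_lev]; omega
@[fun_prop] lemma pb_kS (hL : PM L) : PB (fun a => (L a).kS) :=
  PB.of_le hL fun a => by rw [mag_lev]; omega
@[fun_prop] lemma pb_kF (hL : PM L) : PB (fun a => (L a).kF) :=
  PB.of_le hL fun a => by rw [mag_lev]; omega
@[fun_prop] lemma pb_eP (hL : PM L) : PB (fun a => (L a).eP) :=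
  PB.of_le hL fun a => by rw [mag_lev]; omega
@[fun_prop] lemma pb_eR (hL : PM L) : PB (fun a => (L a).eR) :=
  PB.of_le hL fun a => by rw [mag_lev]; omega
@[fun_prop] lemma pb_K (hL : PM L) : PB (fun a => (L a).K) :=
  PB.of_le hL fun a => by rw [mag_lev]; omega
end LevB

/-! ### numbers -/

@[fun_prop] lemma ptr_alpha {Y : α → ℕ} (hY : PT Y) : PTR (fun a => alpha (Y a)) := by
  unfold alpha; fun_prop

@[fun_prop] lemma ptc_uu {Y : α → ℕ} (hY : PT Y) : PTC (fun a => uu (Y a)) := by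
  unfold uu; fun_prop

@[fun_prop] lemma pt_cj {μ : α → Mono} (h : PT μ) : PT (fun a => cj (μ a)) := by
  unfold cj; fun_prop

@[simp] lemma mag_cj (μ : Mono) : mag (cj μ) = mag μ := by simp [cj, mag_prod]

@[fun_prop] lemma pm_cj {μ : α → Mono} (h : PM μ) : PM (fun a => cj (μ a)) :=
  PM.of_le h fun _ => by simp

@[fun_prop] lemma pt_monoAdd {μ ν : α → Mono} (h : PT μ) (h' : PT ν) : PT (fun a => μ a + ν a) :=
  (h.fst.add h'.fst).pair (h.snd.intAdd h'.snd)

@[fun_prop] lemma ptc_ev {Y : α → ℕ} {μ : α → Mono} (hY : PT Y) (h : PT μ) (hb : PM μ) :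
    PTC (fun a => ev (Y a) (μ a)) := by
  unfold ev; fun_prop

@[fun_prop] lemma ptr_Wt {Y r : α → ℕ} {s : α → ℤ} (hY : PT Y) (hr : PT r) (hrb : PB r) (hs : PT s)
    (hb : PM s) : PTR (fun a => Wt (Y a) (r a) (s a)) := by
  unfold Wt; fun_prop

@[fun_prop] lemma pt_intRange {N : α → ℕ} (hN : PT N) (hb : PB N) :
    PT (fun a => intRange (N a)) := by
  unfold intRange; fun_prop

@[fun_prop] lemma pm_intRange {N : α → ℕ} (hb : PB N) : PM (fun a => intRange (N a)) :=
  PM.of_forall (PB.of_le (m := fun a => 2 * N a + 1) (by fun_prop) fun _ => (length_intRange _).le)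
    hb fun _ _ h => mem_intRange.1 h

@[fun_prop] lemma pt_rndR {K : α → ℕ} {x : α → ℝ} (hK : PT K) (hb : PB K) (hx : PTR x) :
    PT (fun a => rndR (K a) (x a)) := by
  unfold rndR; fun_prop

@[fun_prop] lemma pt_rnd {K : α → ℕ} {z : α → ℂ} (hK : PT K) (hb : PB K) (hz : PTC z) :
    PT (fun a => rnd (K a) (z a)) := by
  unfold rnd; fun_prop

lemma sz_rndR (K : ℕ) (x : ℝ) : sz (rndR K x) ≤ 24 * K + 36 := by
  set z : ℤ := max (-(4 ^ K : ℤ)) (min (4 ^ K : ℤ) ⌊x * 2 ^ K⌋) with hz
  have hp : (0 : ℤ) < 4 ^ K := by positivity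
  have h3 : |z| ≤ 4 ^ K := abs_le.2 ⟨le_max_left _ _, max_le (by linarith) (min_le_left _ _)⟩
  have e : rndR K x = mkRat z (2 ^ K) := by
    rw [rndR, ← hz, Rat.mkRat_eq_div]; push_cast; rfl
  have h4 := ht_mkRat_le z (2 ^ K)
  have h5 : Nat.size z.natAbs ≤ K + K + 1 := by
    rw [Nat.size_le, pow_succ]
    have : (z.natAbs : ℤ) ≤ ((2 ^ (K + K) : ℕ) : ℤ) := by
      rw [Int.natCast_natAbs, pow_add, ← mul_pow]; exact_mod_cast h3
    have h6 : z.natAbs ≤ 2 ^ (K + K) := by exact_mod_cast this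
    have := Nat.two_pow_pos (K + K)
    omega
  have h6 : Nat.size (2 ^ K) = K + 1 := Nat.size_pow
  have := sz_le_ht (rndR K x)
  rw [← e] at h4
  omega

lemma sz_rnd (K : ℕ) (z : ℂ) : sz (rnd K z) ≤ 48 * K + 73 := by
  have h1 := sz_rndR K z.re
  have h2 := sz_rndR K z.im
  rw [sz_prod]; simp only [rnd]; omega

@[fun_prop] lemma ptc_look {t : α → Table} {q : α → Query} (ht : PT t) (hq : PT q) :
    PTC (fun a => look (t a) (q a)) := by
  unfold look; fun_prop

/-! ### chains -/

@[fun_prop] lemma ptc_mk {e σ : α → Bool} (he : PT e) (hσ : PT σ) :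
    PTC (fun a => mk (e a) (σ a)) :=
  (PTC.cond (he.and hσ.not) PTC.zero PTC.one).congr fun a => by
    unfold mk; cases (e a && !σ a) <;> rfl

/-- The transfer matrix of a letter. -/
def cmat (c : List (ℂ × Bool × ℂ)) (σ : Bool) : Matrix (Fin (c.length + 1)) (Fin (c.length + 1)) ℂ :=
  Matrix.of fun i j => if (j : ℕ) = i then (c.getD i (1, false, 0)).1
    else if (j : ℕ) = i + 1 then mk (c.getD i (1, false, 0)).2.1 σ * (c.getD i (1, false, 0)).2.2
    else 0

lemma cval_drop (c : List (ℂ × Bool × ℂ)) (w : List Bool) :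
    w.foldr (fun σ v => (cmat c σ).mulVec v) (fun i => if (i : ℕ) = c.length then 1 else 0) =
      fun i : Fin (c.length + 1) => cval w (c.drop i) := by
  induction w with
  | nil =>
    funext i
    by_cases h : (i : ℕ) = c.length
    · simp [h, cval]
    · have : (i : ℕ) < c.length := by omega
      simp only [List.foldr_nil, h, if_false]
      rw [List.drop_eq_getElem_cons this, cval]
  | cons σ w ih =>
    funext i
    rw [List.foldr_cons, ih]
    simp only [Matrix.mulVec, dotProduct, cmat, Matrix.of_apply]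
    by_cases h : (i : ℕ) = c.length
    · rw [Finset.sum_eq_single i]
      · simp [h, cval]
      · intro j _ hj
        have h1 : (j : ℕ) ≠ i := fun e => hj (Fin.ext e)
        have h2 : (j : ℕ) ≠ i + 1 := by omega
        simp [h1, h2]
      · simp
    · have hi : (i : ℕ) < c.length := by omega
      rw [Finset.sum_eq_add_of_mem i ⟨i + 1, by omega⟩ (Finset.mem_univ _) (Finset.mem_univ _)
        (by intro e; have := congrArg Fin.val e; simp at this)]
      · conv_rhs => rw [List.drop_eq_getElem_cons hi, cval, ← List.drop_eq_getElem_cons hi]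
        simp [List.getD_eq_getElem?_getD, List.getElem?_eq_getElem hi]
      · intro j _ hj
        have h1 : (j : ℕ) ≠ i := fun e => hj.1 (Fin.ext e)
        have h2 : (j : ℕ) ≠ i + 1 := fun e => hj.2 (Fin.ext e)
        simp [h1, h2]

/-- rational steps -/
def toC3 (s : (ℚ × ℚ) × Bool × (ℚ × ℚ)) : ℂ × Bool × ℂ := (toC s.1, s.2.1, toC s.2.2)

lemma ptc_cval_rat {w : α → List Bool} {c : α → List ((ℚ × ℚ) × Bool × (ℚ × ℚ))} (hw : PT w)
    (hc : PT c) : PTC (fun a => cval (w a) ((c a).map toC3)) := by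
  have hn : PT (fun a => ((c a).map toC3).length + 1) :=
    (hc.length.add (PT.const 1)).congr fun a => by simp
  have hb : PB (fun a => ((c a).map toC3).length + 1) :=
    ((PB.length hc).add (PB.const 1)).of_le fun a => by simp
  have e : ∀ a (i : ℕ), ((c a).map toC3).getD i (1, false, 0) =
      toC3 ((c a).getD i ((1, 0), false, (0, 0))) := fun a i => by
    rw [← List.getD_map (f := toC3)]
    congr 1
    simp only [toC3, Prod.mk.injEq, true_and]
    constructor <;> apply Complex.ext <;> simp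
  have h1 := PTV.foldr_mulVec (PTI.fin hn hb) hw (M := fun a σ => cmat ((c a).map toC3) σ)
    (v := fun a i => if (i : ℕ) = ((c a).map toC3).length then 1 else 0) (by
      unfold PTM
      simp only [cmat, Matrix.of_apply, e, toC3]
      have hi : PT (fun p : Σ a : α × Bool, Fin (((c a.1).map toC3).length + 1) ×
          Fin (((c a.1).map toC3).length + 1) => (p.2.1 : ℕ)) :=
        PT.id.sigmaSnd.dfst.of_enc fun _ => rfl
      have hj : PT (fun p : Σ a : α × Bool, Fin (((c a.1).map toC3).length + 1) ×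
          Fin (((c a.1).map toC3).length + 1) => (p.2.2 : ℕ)) :=
        PT.id.sigmaSnd.dsnd.of_enc fun _ => rfl
      fun_prop) (by
      unfold PTV
      simp only [List.length_map]
      fun_prop)
  refine (h1.entry PT.id (i := fun _ => 0) (PT.const (enc (0 : ℕ)))).congr fun a => ?_
  rw [cval_drop]; simp

/-- The value of a chain with `PTC` entries. -/
lemma ptc_cval {w : α → List Bool} {c : α → List β} {F : α → β → ℂ × Bool × ℂ} (hw : PT w)
    (hc : PT c) (h1 : PTC (fun p : {p : α × β // p.2 ∈ c p.1} => (F p.1.1 p.1.2).1))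
    (h2 : PT (fun p : {p : α × β // p.2 ∈ c p.1} => (F p.1.1 p.1.2).2.1))
    (h3 : PTC (fun p : {p : α × β // p.2 ∈ c p.1} => (F p.1.1 p.1.2).2.2)) :
    PTC (fun a => cval (w a) ((c a).map (F a))) := by
  classical
  obtain ⟨u, hu, e1⟩ := h1.exists_pt
  obtain ⟨v, hv, e3⟩ := h3.exists_pt
  refine (ptc_cval_rat hw (c := fun a => (c a).map fun b =>
    if hb : b ∈ c a then (u ⟨(a, b), hb⟩, (F a b).2.1, v ⟨(a, b), hb⟩) else ((0, 0), false, (0, 0)))
    (hc.map_mem ((hu.pair (h2.pair hv)).congr fun p => by simp [p.2]))).congr fun a => ?_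
  rw [List.map_map]
  congr 1
  refine List.map_congr_left fun b hb => ?_
  simp only [Function.comp, hb, dif_pos, toC3]
  exact Prod.ext (e1 ⟨(a, b), hb⟩) (Prod.ext rfl (e3 ⟨(a, b), hb⟩))

lemma cend_eq (w : List Bool) (c : List (ℂ × Bool × ℂ)) (T : ℕ) :
    cend w c T = cval (w.take (T + 1)) c - cval (w.take T) c := by
  induction w generalizing c T with
  | nil => cases c <;> simp [cend, cval]
  | cons σ w ih =>
    cases c with
    | nil => simp [cend, cval]
    | cons s r =>
      cases T with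
      | zero => cases r <;> simp [cend, cval]
      | succ T => simp only [cend, List.take_succ_cons, cval, ih]; ring

lemma ptc_cval_evC {Y : α → ℕ} {w : α → List Bool} {c : α → Chain} (hY : PT Y) (hw : PT w)
    (hc : PT c) (hb : PM c) : PTC (fun a => cval (w a) (evC (ev (Y a)) (c a))) := by
  have hm := hb.mem
  refine ptc_cval hw hc ?_ (by fun_prop) ?_
  · exact ptc_ev (by fun_prop) (by fun_prop) hm.fst
  · exact ptc_ev (by fun_prop) (by fun_prop) hm.snd.snd

lemma ptc_serEnd {Y T : α → ℕ} {w : α → List Bool} {S : α → Ser} (hY : PT Y) (hT : PT T)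
    (hw : PT w) (hS : PT S) (hb : PM S) : PTC (fun a => serEnd (ev (Y a)) (w a) (S a) (T a)) := by
  unfold serEnd
  simp only [cend_eq]
  refine PTC.sum_map_mem hS (PTC.sub ?_ ?_)
  · exact ptc_cval_evC (by fun_prop) (by fun_prop) (by fun_prop) hb.mem
  · exact ptc_cval_evC (by fun_prop) (by fun_prop) (by fun_prop) hb.mem

/-! ### least squares -/

lemma ptv_lsq {ι κ : Type} [Enc ι] [Enc κ] {I : α → List ι} {J : α → List κ} (hI : PT I) (hJ : PT J)
    {A : α → κ → ι → ℂ} {ω : α → κ → ℝ} {c : α → κ → ℂ} {ρ : α → ι → ℝ}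
    (hA : PTC (fun p : {p : α × κ × ι // p.2.1 ∈ J p.1 ∧ p.2.2 ∈ I p.1} => A p.1.1 p.1.2.1 p.1.2.2))
    (hω : PTR (fun p : {p : α × κ // p.2 ∈ J p.1} => ω p.1.1 p.1.2))
    (hc : PTC (fun p : {p : α × κ // p.2 ∈ J p.1} => c p.1.1 p.1.2))
    (hρ : PTR (fun p : {p : α × ι // p.2 ∈ I p.1} => ρ p.1.1 p.1.2)) :
    PTV (ι := fun a => Fin (I a).length) (fun a => lsq (I a) (J a) (A a) (ω a) (c a) (ρ a)) := by
  obtain ⟨A', hA', eA⟩ := hA.extend_subtype
  obtain ⟨ω', hω', eω⟩ := hω.extend_subtype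
  obtain ⟨c', hc', ec⟩ := hc.extend_subtype
  obtain ⟨ρ', hρ', eρ⟩ := hρ.extend_subtype
  have hx := PTI.fin hI.length (PB.length hI)
  have key : PTV (ι := fun a => Fin (I a).length) (fun a => lsq (I a) (J a)
      (fun j i => A' (a, j, i)) (fun j => ω' (a, j)) (fun j => c' (a, j)) (fun i => ρ' (a, i))) := by
    unfold lsq
    refine PTV.mulVec hx (PTM.inv hx ?_) ?_
    · unfold PTM
      simp only [Matrix.of_apply]
      have hi : PT (fun p : Σ a : α, Fin (I a).length × Fin (I a).length => (p.2.1 : ℕ)) :=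
        PT.id.sigmaSnd.dfst.of_enc fun _ => rfl
      have hj : PT (fun p : Σ a : α, Fin (I a).length × Fin (I a).length => (p.2.2 : ℕ)) :=
        PT.id.sigmaSnd.dsnd.of_enc fun _ => rfl
      have h0 : PT (fun p : Σ a : α, Fin (I a).length × Fin (I a).length => p.1) := by fun_prop
      have gi := PT.getElem_fin (hI.comp h0) hi
      have gj := PT.getElem_fin (hI.comp h0) hj
      refine PTC.add (PTC.sum_map (hJ.comp h0) (PTC.mul (PTC.mul (by fun_prop) (PTC.conj ?_)) ?_))
        (PTC.ite (PT.fin_decide_eq hi hj) (PTC.ofReal (hρ'.comp (h0.pair gi))) PTC.zero)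
      · exact hA'.comp ((h0.comp PT.id.fst).pair (PT.id.snd.pair (gi.comp PT.id.fst)))
      · exact hA'.comp ((h0.comp PT.id.fst).pair (PT.id.snd.pair (gj.comp PT.id.fst)))
    · unfold PTV
      have h0 : PT (fun p : Σ a : α, Fin (I a).length => p.1) := by fun_prop
      have gi := PT.getElem_fin (hI.comp h0) (i := fun p => p.2) PT.id.sigmaFinVal
      refine PTC.sum_map (hJ.comp h0) (PTC.mul (PTC.mul (by fun_prop) (PTC.conj ?_)) (by fun_prop))
      exact hA'.comp ((h0.comp PT.id.fst).pair (PT.id.snd.pair (gi.comp PT.id.fst)))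
  refine key.congr fun a => ?_
  unfold lsq
  congr 1
  · congr 1
    ext i i'
    simp only [Matrix.of_apply]
    rw [eρ (a, _) (List.getElem_mem _)]
    congr 2
    refine List.map_congr_left fun j hj => ?_
    rw [eω (a, j) hj, eA (a, j, _) ⟨hj, List.getElem_mem _⟩, eA (a, j, _) ⟨hj, List.getElem_mem _⟩]
  · funext i
    congr 1
    refine List.map_congr_left fun j hj => ?_
    beta_reduce
    rw [eω (a, j) hj, eA (a, j, _) ⟨hj, List.getElem_mem _⟩, ec (a, j) hj]

end Crest.Agent.R300.UB
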