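import Crest.Agent.R300.PTD1

/-! Row 300, polynomial time: shuffles, series, features. -/

set_option autoImplicit false

noncomputable section

namespace Crest.Agent.R300.UB

open Complex Finset Crest.Agent.Lib.PT

variable {α β : Type} [Enc α] [Enc β]

/-- all chains have length at most `h` -/
def SL (h : ℕ) (S : Ser) : Prop := ∀ c ∈ S, c.length ≤ h
/-- all exponents of a chain are at most `b` -/
def CB (b : ℕ) (c : Chain) : Prop := ∀ s ∈ c, mag s.1 ≤ b ∧ mag s.2.2 ≤ b
/-- all exponents of a series are at most `b` -/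
def SB (b : ℕ) (S : Ser) : Prop := ∀ c ∈ S, CB b c

lemma CB.mono {b b' : ℕ} {c : Chain} (h : CB b c) (hb : b ≤ b') : CB b' c :=
  fun s hs => ⟨(h s hs).1.trans hb, (h s hs).2.trans hb⟩

lemma SB.mono {b b' : ℕ} {S : Ser} (h : SB b S) (hb : b ≤ b') : SB b' S :=
  fun c hc => (h c hc).mono hb

lemma SL.mono {b b' : ℕ} {S : Ser} (h : SL b S) (hb : b ≤ b') : SL b' S :=
  fun c hc => (h c hc).trans hb

lemma cb_mag (c : Chain) : CB (mag c) c := fun s hs => by
  have := mag_le_of_mem hs
  simp only [mag_prod s, mag_prod s.2] at this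
  omega

lemma sb_mag (S : Ser) : SB (mag S) S := fun c hc => (cb_mag c).mono (mag_le_of_mem hc)

lemma sb_shuf {b b' : ℕ} (c c' : Chain) (h : CB b c) (h' : CB b' c') : SB (b + b') (shuf c c') := by
  induction c, c' using shuf.induct with
  | case1 c' => intro d hd; simp [shuf] at hd
  | case2 s r => intro d hd; simp [shuf] at hd
  | case3 s r s' r' ih1 ih2 ih3 =>
    have hr : CB b r := fun x hx => h x (by simp [hx])
    have hr' : CB b' r' := fun x hx => h' x (by simp [hx])
    obtain ⟨a1, a2⟩ := h s (by simp)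
    obtain ⟨a3, a4⟩ := h' s' (by simp)
    have b1 := mag_mono_add s.1 s'.1
    have b2 := mag_mono_add s.2.2 s'.2.2
    have b3 := mag_mono_add s.2.2 s'.1
    have b4 := mag_mono_add s.1 s'.2.2
    intro d hd
    rw [shuf] at hd
    simp only [List.mem_append, List.mem_map] at hd
    rcases hd with hd | ⟨e, he, rfl⟩ | ⟨e, he, rfl⟩ | ⟨e, he, rfl⟩
    · split_ifs at hd
      · obtain rfl := List.mem_singleton.1 hd
        intro x hx
        obtain rfl := List.mem_singleton.1 hx
        simp only; omega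
      · simp at hd
    · intro x hx
      rcases List.mem_cons.1 hx with rfl | hx
      · simp only; omega
      · exact ih1 hr h' e he x hx
    · intro x hx
      rcases List.mem_cons.1 hx with rfl | hx
      · simp only; omega
      · exact ih2 h hr' e he x hx
    · intro x hx
      rcases List.mem_cons.1 hx with rfl | hx
      · simp only; omega
      · exact ih3 hr hr' e he x hx

lemma sz_mono_le (μ : Mono) : sz μ ≤ 12 * Nat.size (mag μ) + 9 := by
  have h1 : Nat.size μ.1 ≤ Nat.size (mag μ) := Nat.size_le_size (by simp [mag_prod])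
  have h2 : Nat.size μ.2.natAbs ≤ Nat.size (mag μ) := Nat.size_le_size (by simp [mag_prod])
  rw [sz_prod, sz_int, sz_nat, sz_nat]; omega

lemma sz_chain_le {b : ℕ} {c : Chain} (h : CB b c) :
    sz c ≤ (24 * Nat.size b + 26) * c.length + 1 :=
  sz_list_le c _ fun s hs => by
    have h1 := sz_mono_le s.1
    have h2 := sz_mono_le s.2.2
    have h3 := Nat.size_le_size (h s hs).1
    have h4 := Nat.size_le_size (h s hs).2
    rw [sz_prod, sz_prod s.2, sz_bool]; omega

lemma sz_ser_le {b h : ℕ} {S : Ser} (hb : SB b S) (hl : SL h S) :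
    sz S ≤ ((24 * Nat.size b + 26) * h + 2) * S.length + 1 :=
  sz_list_le S _ fun c hc => (sz_chain_le (hb c hc)).trans
    (Nat.add_le_add_right (Nat.mul_le_mul_left _ (hl c hc)) _)

lemma mag_ser_le {b h : ℕ} {S : Ser} (hb : SB b S) (hl : SL h S) :
    mag S ≤ S.length * (h * (2 * b)) :=
  mag_list_le S _ fun c hc => (mag_list_le c (2 * b) fun s hs => by
    have := hb c hc s hs
    simp only [mag_prod s, mag_prod s.2, mag_bool]; omega).trans
    (Nat.mul_le_mul_right _ (hl c hc))

/-! ### the shuffle -/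

/-- default step -/
def s0 : Stp := ((0, 0), false, (0, 0))

/-- one step of the recursive procedure for `shuf` -/
def shufNext (k : Chain × Chain × List Ser) : Ser ⊕ Chain × Chain × List Ser :=
  if k.1 = [] ∨ k.2.1 = [] then Sum.inl []
  else if k.2.2.length = 0 then Sum.inr (k.1.tail, k.2.1, [])
  else if k.2.2.length = 1 then Sum.inr (k.1, k.2.1.tail, [])
  else if k.2.2.length = 2 then Sum.inr (k.1.tail, k.2.1.tail, [])
  else Sum.inl ((if k.1.tail = [] ∧ k.2.1.tail = [] then
      [[((k.1.headD s0).1 + (k.2.1.headD s0).1, (k.1.headD s0).2.1 || (k.2.1.headD s0).2.1,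
        (k.1.headD s0).2.2 + (k.2.1.headD s0).2.2)]] else []) ++
    ((k.2.2.getD 0 []).map (fun c => ((k.1.headD s0).1 + (k.2.1.headD s0).1, (k.1.headD s0).2.1,
        (k.1.headD s0).2.2 + (k.2.1.headD s0).1) :: c) ++
    ((k.2.2.getD 1 []).map (fun c => ((k.1.headD s0).1 + (k.2.1.headD s0).1, (k.2.1.headD s0).2.1,
        (k.1.headD s0).1 + (k.2.1.headD s0).2.2) :: c) ++
    (k.2.2.getD 2 []).map (fun c => ((k.1.headD s0).1 + (k.2.1.headD s0).1,
        (k.1.headD s0).2.1 || (k.2.1.headD s0).2.1,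
        (k.1.headD s0).2.2 + (k.2.1.headD s0).2.2) :: c))))

/-- return from a recursive call -/
def shufRes (k : Chain × Chain × List Ser) (S : Ser) : Chain × Chain × List Ser :=
  (k.1, k.2.1, k.2.2 ++ [S])

lemma shuf_run (Z W : ℕ) (c c' : Chain) (hZ : ∀ d d' : Chain, d <:+ c → d' <:+ c' →
    sz (shuf d d') ≤ Z ∧ sz d ≤ W ∧ sz d' ≤ W) :
    ∃ n, n + 4 ≤ 5 * 3 ^ (c.length + c'.length) ∧
      Run shufNext shufRes (2 * W + 3 * Z + 6) (c, c', []) (shuf c c') n := by
  induction c, c' using shuf.induct with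
  | case1 c' =>
    obtain ⟨-, h1, h2⟩ := hZ [] c' (List.suffix_refl _) (List.suffix_refl _)
    have : 1 ≤ 3 ^ c'.length := Nat.one_le_pow _ _ (by norm_num)
    refine ⟨1, by simpa using by omega, Run.ret (by simp [shufNext, shuf]) ?_ ?_⟩
    · simp only [sz_pair, sz_nil] at *; omega
    · simp only [shuf, sz_nil]; omega
  | case2 s r =>
    obtain ⟨-, h1, h2⟩ := hZ (s :: r) [] (List.suffix_refl _) (List.suffix_refl _)
    have : 1 ≤ 3 ^ ((s :: r).length + 0) := Nat.one_le_pow _ _ (by norm_num)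
    refine ⟨1, by simpa using by omega, Run.ret (by simp [shufNext, shuf]) ?_ ?_⟩
    · simp only [sz_pair, sz_nil] at *; omega
    · simp only [shuf, sz_nil]; omega
  | case3 s r s' r' ih1 ih2 ih3 =>
    have t1 := List.suffix_cons s r
    have t2 := List.suffix_cons s' r'
    obtain ⟨n1, b1, r1⟩ := ih1 fun d d' h h' => hZ d d' (h.trans t1) h'
    obtain ⟨n2, b2, r2⟩ := ih2 fun d d' h h' => hZ d d' h (h'.trans t2)
    obtain ⟨n3, b3, r3⟩ := ih3 fun d d' h h' => hZ d d' (h.trans t1) (h'.trans t2)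
    obtain ⟨z0, w1, w2⟩ := hZ _ _ (List.suffix_refl (s :: r)) (List.suffix_refl (s' :: r'))
    obtain ⟨z1, -⟩ := hZ _ _ t1 (List.suffix_refl (s' :: r'))
    obtain ⟨z2, -⟩ := hZ _ _ (List.suffix_refl (s :: r)) t2
    obtain ⟨z3, -⟩ := hZ _ _ t1 t2
    refine ⟨n1 + (n2 + (n3 + 1 + 1) + 1) + 1, ?_, Run.call (k' := (r, s' :: r', [])) ?_ ?_ r1
      (Run.call (k' := (s :: r, r', [])) ?_ ?_ r2 (Run.call (k' := (r, r', [])) ?_ ?_ r3
        (Run.ret ?_ ?_ ?_)))⟩
    · simp only [List.length_cons] at *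
      have e1 : r.length + 1 + (r'.length + 1) = r.length + r'.length + 1 + 1 := by omega
      have e2 : r.length + (r'.length + 1) = r.length + r'.length + 1 := by omega
      have e3 : r.length + 1 + r'.length = r.length + r'.length + 1 := by omega
      rw [e1, pow_succ, pow_succ]
      rw [e2, pow_succ] at b1
      rw [e3, pow_succ] at b2
      omega
    · simp [shufNext]
    · simp only [sz_pair, sz_nil]; omega
    · simp [shufNext, shufRes]
    · simp only [shufRes, List.nil_append, sz_pair, sz_cons (shuf _ _), sz_nil]; omega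
    · simp [shufNext, shufRes]
    · simp only [shufRes, List.nil_append, List.cons_append, sz_pair, sz_cons (shuf _ _), sz_nil]
      omega
    · rw [shuf]; simp [shufNext, shufRes]
    · simp only [shufRes, List.nil_append, List.cons_append, sz_pair, sz_cons (shuf _ _), sz_nil]
      omega
    · omega

lemma size_mag_le_sz (c : Chain) : Nat.size (mag c) ≤ sz c := by
  induction c with
  | nil => simp
  | cons s c ih =>
    have h1 := size_add_le (mag s) (mag c)
    have h2 := size_add_le (mag s.1) (mag s.2.2)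
    have h3 := size_add_le s.1.1 s.1.2.natAbs
    have h4 := size_add_le s.2.2.1 s.2.2.2.natAbs
    have e : mag s = mag s.1 + mag s.2.2 := by simp [mag_prod s, mag_prod s.2]
    rw [mag_cons, sz_cons, sz_prod s, sz_prod s.2, sz_prod s.1, sz_prod s.2.2, sz_int, sz_int,
      sz_nat, sz_nat, sz_nat, sz_nat]
    rw [← e] at h2
    have e1 : mag s.1 = s.1.1 + s.1.2.natAbs := rfl
    have e2 : mag s.2.2 = s.2.2.1 + s.2.2.2.natAbs := rfl
    rw [← e1] at h3
    rw [← e2] at h4
    omega

lemma pt_shuf {c c' : α → Chain} (hc : PT c) (hc' : PT c')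
    (hb : PB (fun a => 3 ^ ((c a).length + (c' a).length))) : PT (fun a => shuf (c a) (c' a)) := by
  refine PT.of_run (fun _ => shufNext) (fun _ => shufRes) (fun a => (c a, c' a, []))
    (fun a => 5 * 3 ^ ((c a).length + (c' a).length))
    (fun a => 2 * (sz (c a) + sz (c' a)) + 3 * (((24 * (sz (c a) + sz (c' a) + 1) + 26) *
      ((c a).length + (c' a).length) + 2) * 3 ^ ((c a).length + (c' a).length) + 1) + 6)
    (by unfold shufNext; fun_prop) (by unfold shufRes; fun_prop) (by fun_prop) (by fun_prop)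
    (by fun_prop) fun a => ?_
  obtain ⟨n, hn, hr⟩ := shuf_run (((24 * (sz (c a) + sz (c' a) + 1) + 26) *
      ((c a).length + (c' a).length) + 2) * 3 ^ ((c a).length + (c' a).length) + 1)
      (sz (c a) + sz (c' a)) (c a) (c' a) fun d d' hd hd' => by
    have a1 := sz_sublist_le hd.sublist
    have a2 := sz_sublist_le hd'.sublist
    have a3 := hd.length_le
    have a4 := hd'.length_le
    refine ⟨?_, by omega, by omega⟩
    have h1 := sz_ser_le (sb_shuf d d' (cb_mag d) (cb_mag d'))
      (h := (c a).length + (c' a).length) (fun e he => by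
        have := length_of_mem_shuf d d' e he; omega)
    have h2 := size_add_le (mag d) (mag d')
    have h3 := size_mag_le_sz d
    have h4 := size_mag_le_sz d'
    have h5 : (shuf d d').length ≤ 3 ^ ((c a).length + (c' a).length) :=
      (length_shuf_le d d').trans (Nat.pow_le_pow_right (by norm_num) (by omega))
    refine h1.trans ?_
    gcongr
    omega
  exact ⟨n, by omega, hr⟩

/-! ### series -/

lemma pt_serMul {S S' : α → Ser} (hS : PT S) (hS' : PT S') (h : α → ℕ)
    (hb : PB (fun a => 3 ^ h a)) (hl : ∀ a, SL (h a) (S a)) (hl' : ∀ a, SL (h a) (S' a)) :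
    PT (fun a => serMul (S a) (S' a)) := by
  unfold serMul
  refine hS.flatMap_mem (PT.flatMap_mem (by fun_prop) (pt_shuf (by fun_prop) (by fun_prop) ?_))
  refine PB.of_le (m := fun p => 3 ^ h p.1.1.1.1 * 3 ^ h p.1.1.1.1)
    ((hb.mul hb).comp (by fun_prop)) fun p => ?_
  rw [← pow_add]
  exact Nat.pow_le_pow_right (by norm_num) (add_le_add (hl _ _ p.1.1.2) (hl' _ _ p.2))

lemma sl_serMul {h h' : ℕ} {S S' : Ser} (hl : SL h S) (hl' : SL h' S') :
    SL (h + h') (serMul S S') := by
  intro d hd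
  simp only [serMul, List.mem_flatMap] at hd
  obtain ⟨c, hc, c', hc', hd⟩ := hd
  have := length_of_mem_shuf c c' d hd
  have := hl c hc
  have := hl' c' hc'
  omega

lemma sb_serMul {b b' : ℕ} {S S' : Ser} (hl : SB b S) (hl' : SB b' S') :
    SB (b + b') (serMul S S') := by
  intro d hd
  simp only [serMul, List.mem_flatMap] at hd
  obtain ⟨c, hc, c', hc', hd⟩ := hd
  exact sb_shuf c c' (hl c hc) (hl' c' hc') d hd

@[fun_prop] lemma pt_kindSer {κ : α → Kind} {S : α → Ser} (hκ : PT κ) (hS : PT S) :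
    PT (fun a => kindSer (κ a) (S a)) := by
  unfold kindSer serCj; fun_prop

@[fun_prop] lemma pt_slotSer {sl : α → Slot} {S : α → Ser} (hS : PT S) (hsl : PT sl) :
    PT (fun a => slotSer (S a) (sl a)) := by
  unfold slotSer; fun_prop

lemma sl_kindSer {h : ℕ} {S : Ser} (κ : Kind) (hl : SL h S) : SL (h + 1) (kindSer κ S) := by
  intro c hc
  rcases κ with _ | _ | _
  · obtain rfl := List.mem_singleton.1 hc
    simp
  · exact (hl c hc).trans (by omega)
  · obtain ⟨d, hd, rfl⟩ := List.mem_map.1 hc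
    rw [List.length_map]
    exact (hl d hd).trans (by omega)

lemma sb_kindSer {b : ℕ} {S : Ser} (κ : Kind) (hl : SB b S) : SB b (kindSer κ S) := by
  intro c hc
  rcases κ with _ | _ | _
  · obtain rfl := List.mem_singleton.1 hc
    intro s hs
    obtain rfl := List.mem_singleton.1 hs
    simp
  · exact hl c hc
  · obtain ⟨d, hd, rfl⟩ := List.mem_map.1 hc
    intro s hs
    obtain ⟨u, hu, rfl⟩ := List.mem_map.1 hs
    simpa using hl d hd u hu

lemma sl_slotSer {h : ℕ} {S : Ser} (sl : Slot) (hl : SL h S) : SL (h + 2) (slotSer S sl) := by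
  intro c hc
  rcases List.mem_append.1 hc with hc | hc
  · cases h1 : sl.2.1
    · rw [h1] at hc
      exact (sl_kindSer _ hl c hc).trans (by omega)
    · rw [h1] at hc
      simp at hc
  · obtain ⟨d, hd, rfl⟩ := List.mem_map.1 hc
    have := sl_kindSer _ hl d hd
    simp only [List.length_append, List.length_singleton]; omega

lemma sb_slotSer {b : ℕ} {S : Ser} (sl : Slot) (hl : SB b S) : SB (b + mag sl) (slotSer S sl) := by
  intro c hc
  rcases List.mem_append.1 hc with hc | hc
  · cases h1 : sl.2.1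
    · rw [h1] at hc
      exact (sb_kindSer _ hl c hc).mono (by omega)
    · rw [h1] at hc
      simp at hc
  · obtain ⟨d, hd, rfl⟩ := List.mem_map.1 hc
    intro s hs
    rcases List.mem_append.1 hs with hs | hs
    · exact (sb_kindSer _ hl d hd).mono (by omega) s hs
    · obtain rfl := List.mem_singleton.1 hs
      simp only [mag_prod sl, mag_prod sl.2]; omega

lemma sb_single (s : Stp) : SB (mag s) [[s]] := by
  have := sb_mag [[s]]
  simpa using this

lemma sb_nodeSer {b : ℕ} {S : Ser} {ν : Node} (h3 : ν.2.2.length = 3) (hl : SB b S) :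
    SB (4 * (b + mag ν)) (nodeSer ν S) := by
  obtain ⟨κ, μ, l⟩ := ν
  obtain ⟨s1, s2, s3, rfl⟩ := List.length_eq_three.1 h3
  have h0 : SB (mag μ) (serConst μ) := by simpa [serConst] using sb_single ((0, 0), false, μ)
  refine (sb_serMul (sb_slotSer s1 hl) (sb_serMul (sb_slotSer s2 hl) (sb_serMul (sb_slotSer s3 hl)
    (sb_serMul (sb_kindSer κ hl) h0)))).mono ?_
  simp only [mag_pair, mag_cons, mag_nil]
  omega

lemma pt_nodeSer {ν : α → Node} {S : α → Ser} (hν : PT ν) (hS : PT S) (h : α → ℕ)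
    (hb : PB (fun a => 3 ^ h a)) (h3 : ∀ a, (ν a).2.2.length = 3) (hl : ∀ a, SL (h a) (S a)) :
    PT (fun a => nodeSer (ν a) (S a)) := by
  have hb' : PB (fun a => 3 ^ (3 * h a + 6)) :=
    PB.of_le (m := fun a => (3 ^ h a) ^ 3 * 3 ^ 6) (by fun_prop) fun a => by
      rw [pow_add, ← pow_mul, mul_comm 3]
  have c0 : ∀ μ, SL 1 (serConst μ) := fun μ c hc => by
    obtain rfl := List.mem_singleton.1 hc
    simp
  let d : Slot := (none, false, (0, 0))
  have l0 := fun a => sl_serMul (sl_kindSer (ν a).1 (hl a)) (c0 (ν a).2.1)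
  have p0 : PT (fun a => serMul (kindSer (ν a).1 (S a)) (serConst (ν a).2.1)) :=
    pt_serMul (by fun_prop) (by unfold serConst; fun_prop) _ hb'
      (fun a => (sl_kindSer _ (hl a)).mono (by omega)) fun a => (c0 _).mono (by omega)
  have l1 := fun a => sl_serMul (sl_slotSer ((ν a).2.2.getD 2 d) (hl a)) (l0 a)
  have p1 := pt_serMul (S := fun a => slotSer (S a) ((ν a).2.2.getD 2 d)) (by fun_prop) p0 _ hb'
    (fun a => (sl_slotSer _ (hl a)).mono (by omega)) fun a => (l0 a).mono (by omega)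
  have l2 := fun a => sl_serMul (sl_slotSer ((ν a).2.2.getD 1 d) (hl a)) (l1 a)
  have p2 := pt_serMul (S := fun a => slotSer (S a) ((ν a).2.2.getD 1 d)) (by fun_prop) p1 _ hb'
    (fun a => (sl_slotSer _ (hl a)).mono (by omega)) fun a => (l1 a).mono (by omega)
  have p3 := pt_serMul (S := fun a => slotSer (S a) ((ν a).2.2.getD 0 d)) (by fun_prop) p2 _ hb'
    (fun a => (sl_slotSer _ (hl a)).mono (by omega)) fun a => (l2 a).mono (by omega)
  refine p3.congr fun a => ?_
  obtain ⟨s1, s2, s3, e⟩ := List.length_eq_three.1 (h3 a)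
  simp [nodeSer, e]

/-- `νs` is a feature of depth at most `k` -/
def IsF (k : ℕ) (νs : List Node) : Prop := ∃ ls : List Lev, ls.length ≤ k ∧ νs ∈ feats ls

/-- the bound that has to be polynomial -/
def big (k : ℕ) : ℕ := 2 ^ ((k + 1) * 4 ^ k)

lemma IsF.tail {k : ℕ} {ν : Node} {νs : List Node} (h : IsF k (ν :: νs)) :
    ν.2.2.length = 3 ∧ IsF k νs := by
  obtain ⟨ls, h1, h2⟩ := h
  cases ls with
  | nil => simp [feats] at h2
  | cons L ls =>
    obtain ⟨ν', h3, νs', h4, e⟩ := mem_feats_cons.1 h2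
    obtain ⟨rfl, rfl⟩ := List.cons.inj e
    exact ⟨(mem_nodeSet.1 h3).2.1, ls, by simp at h1; omega, h4⟩

lemma IsF.suffix {k : ℕ} {νs m : List Node} (h : IsF k νs) (hm : m <:+ νs) : IsF k m := by
  induction νs with
  | nil => rwa [List.suffix_nil.1 hm]
  | cons ν νs ih =>
    rcases List.suffix_cons_iff.1 hm with rfl | hm
    · exact h
    · exact ih h.tail.2 hm

lemma IsF.length {k : ℕ} {νs : List Node} (h : IsF k νs) : νs.length ≤ k := by
  obtain ⟨ls, h1, h2⟩ := h
  refine le_trans ?_ h1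
  clear h1
  induction ls generalizing νs with
  | nil => simp [feats] at h2; simp [h2]
  | cons L ls ih =>
    obtain ⟨ν', -, νs', h4, rfl⟩ := mem_feats_cons.1 h2
    simpa using ih h4

lemma le_big (k : ℕ) : 4 ^ k ≤ big k :=
  (Nat.le_mul_of_pos_left _ (by omega)).trans Nat.lt_two_pow_self.le

lemma three_pow_le_big (k : ℕ) : 3 ^ 4 ^ k ≤ big k ^ 2 := by
  rw [big, ← pow_mul]
  calc 3 ^ 4 ^ k ≤ (2 ^ 2) ^ 4 ^ k := Nat.pow_le_pow_left (by norm_num) _
    _ = 2 ^ (2 * 4 ^ k) := (pow_mul _ _ _).symm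
    _ ≤ _ := Nat.pow_le_pow_right (by norm_num) (by nlinarith [Nat.zero_le (k * 4 ^ k)])

lemma IsF.expand {k : ℕ} {νs : List Node} (h : IsF k νs) :
    (expand νs).length ≤ big k ^ 11 ∧ SL (4 ^ k) (expand νs) ∧
      SB (big k ^ 2 * mag νs) (expand νs) := by
  refine ⟨?_, ?_, ?_⟩
  · obtain ⟨ls, h1, h2⟩ := h
    refine (expand_length h2).1.trans ?_
    rw [big, ← pow_mul]
    refine Nat.pow_le_pow_right (by norm_num) ?_
    have := Nat.pow_le_pow_right (show 0 < 4 by norm_num) h1
    calc 11 * ls.length * 4 ^ ls.length ≤ 11 * (k + 1) * 4 ^ k := by gcongr; omega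
      _ = _ := by ring
  · obtain ⟨ls, h1, h2⟩ := h
    exact fun c hc => ((expand_length h2).2 c hc).trans (Nat.pow_le_pow_right (by norm_num) h1)
  · have key : SB (8 ^ νs.length * mag νs) (UB.expand νs) := by
      induction νs with
      | nil => simpa [UB.expand, serBit] using sb_single ((0, 0), true, (0, 0))
      | cons ν νs ih =>
        refine (sb_nodeSer h.tail.1 (ih h.tail.2)).mono ?_
        have : 1 ≤ 8 ^ νs.length := Nat.one_le_pow _ _ (by norm_num)
        rw [List.length_cons, pow_succ, mag_cons]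
        nlinarith [Nat.zero_le (8 ^ νs.length * mag νs), Nat.mul_le_mul_right (mag ν) this]
    refine key.mono (Nat.mul_le_mul_right _ ?_)
    calc 8 ^ νs.length ≤ 16 ^ k := (Nat.pow_le_pow_left (by norm_num) _).trans
          (Nat.pow_le_pow_right (by norm_num) h.length)
      _ = (4 ^ k) ^ 2 := by rw [← pow_mul, mul_comm, pow_mul]; norm_num
      _ ≤ _ := Nat.pow_le_pow_left (le_big k) _

lemma mag_suffix_le {γ : Type} [Mag γ] {l m : List γ} (h : m <:+ l) : mag m ≤ mag l := by
  obtain ⟨t, rfl⟩ := h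
  simp

section expand

variable {νs : α → List Node} {k : α → ℕ}

lemma pt_expand (hν : PT νs) (hm : PM νs) (hk : PB (fun a => big (k a)))
    (hF : ∀ a, IsF (k a) (νs a)) : PT (fun a => expand (νs a)) := by
  have h4 : PB (fun a => 4 ^ k a) := hk.of_le fun a => le_big _
  have h3 : PB (fun a => 3 ^ 4 ^ k a) := (hk.pow 2).of_le fun a => three_pow_le_big _
  have hm' : PB (fun a => mag (νs a)) := hm
  refine PT.foldr_valid (f := fun _ => nodeSer) (ini := fun _ => serBit)
    (fun p => p.2.1.2.2.length = 3 ∧ SL (4 ^ k p.1) p.2.2)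
    (fun a => ((24 * (big (k a) ^ 2 * mag (νs a)) + 26) * 4 ^ k a + 2) * big (k a) ^ 11 + 1)
    (pt_nodeSer (by fun_prop) (by fun_prop) (fun p => 4 ^ k p.1.1) (h3.comp (by fun_prop))
      (fun p => p.2.1) fun p => p.2.2) hν (PT.const _) (by fun_prop) (fun a x m h => ?_)
    fun a m h => ?_
  · have := ((hF a).suffix h).tail
    exact ⟨this.1, this.2.expand.2.1⟩
  · obtain ⟨h1, h2, h5⟩ := ((hF a).suffix h).expand
    refine (sz_ser_le h5 h2).trans ?_
    have := mag_suffix_le h
    have := size_le_self' (big (k a) ^ 2 * mag m)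
    have : big (k a) ^ 2 * mag m ≤ big (k a) ^ 2 * mag (νs a) := by gcongr
    gcongr
    omega

lemma pm_expand (hm : PM νs) (hk : PB (fun a => big (k a)))
    (hF : ∀ a, IsF (k a) (νs a)) : PM (fun a => expand (νs a)) := by
  have h4 : PB (fun a => 4 ^ k a) := hk.of_le fun a => le_big _
  have hm' : PB (fun a => mag (νs a)) := hm
  refine PM.of_le (B := fun a => big (k a) ^ 11 * (4 ^ k a * (2 * (big (k a) ^ 2 * mag (νs a)))))
    (by fun_prop) fun a => ?_
  obtain ⟨h1, h2, h5⟩ := (hF a).expand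
  exact (mag_ser_le h5 h2).trans (Nat.mul_le_mul_right _ h1)

lemma ptc_feat {Y T : α → ℕ} {w : α → List Bool} (hY : PT Y) (hY' : ∀ a, 100 ≤ Y a) (hT : PT T)
    (hw : PT w) (hlt : ∀ a, T a < (w a).length) (hν : PT νs) (hm : PM νs)
    (hk : PB (fun a => big (k a))) (hF : ∀ a, IsF (k a) (νs a)) :
    PTC (fun a => feat (ev (Y a)) (w a) (νs a) (T a)) :=
  (ptc_serEnd hY hT hw (pt_expand hν hm hk hF) (pm_expand hm hk hF)).congr fun a => by
    rw [ev_eq (hY' a), expand_spec _ _ _ _ (hlt a)]

end expand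

lemma pt_qSer {q : α → Query} {k : α → ℕ} (hq : PT q) (hm : PM q) (hk : PB (fun a => big (k a)))
    (hF : ∀ a, IsF (k a) (q a).1) : PT (fun a => qSer (q a)) ∧ PM (fun a => qSer (q a)) := by
  have h4 : PB (fun a => 4 ^ k a) := hk.of_le fun a => le_big _
  have h3 : PB (fun a => 3 ^ 4 ^ k a) := (hk.pow 2).of_le fun a => three_pow_le_big _
  have c0 : ∀ μ, SL 1 (serGeo μ) := fun μ c hc => by
    obtain rfl := List.mem_singleton.1 hc
    simp
  have h1 : PT (fun a => qSer (q a)) :=
    pt_serMul (pt_expand hq.fst hm.fst hk hF) (by unfold serGeo; fun_prop) _ h3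
      (fun a => (hF a).expand.2.1) fun a => (c0 _).mono (Nat.one_le_pow _ _ (by norm_num))
  have hm1 : PB (fun a => mag (q a).1) := hm.fst
  have hm2 : PB (fun a => mag (q a).2) := hm.snd
  refine ⟨h1, PM.of_le (B := fun a => (qSer (q a)).length *
    ((4 ^ k a + 1) * (2 * (big (k a) ^ 2 * mag (q a).1 + mag (q a).2)))) (by fun_prop) fun a => ?_⟩
  have g0 : SB (mag (q a).2) (serGeo (q a).2) := by
    simpa [serGeo] using sb_single ((q a).2, false, (0, 0))
  exact mag_ser_le (sb_serMul (hF a).expand.2.2 g0) (sl_serMul (hF a).expand.2.1 (c0 _))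

end Crest.Agent.R300.UB
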