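import Crest.Agent.R300.PTD2

/-! Row 300, polynomial time: queries and the REP step. -/

set_option autoImplicit false

noncomputable section

namespace Crest.Agent.R300.UB

open Complex Finset Crest.Agent.Lib.PT

variable {α β : Type} [Enc α] [Enc β]

@[fun_prop] lemma pm_lb {L : α → Lev} (hL : PM L) : PM (fun a => (L a).lb) := pb_lb hL

/-! ### queries -/

@[fun_prop] lemma pt_contour {lb kS : α → ℕ} (h1 : PT lb) (h2 : PT kS) (hb : PB kS) :
    PT (fun a => contour (lb a) (kS a)) := by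
  unfold contour; fun_prop

@[fun_prop] lemma pm_contour {lb kS : α → ℕ} (h1 : PB lb) (hb : PB kS) :
    PM (fun a => contour (lb a) (kS a)) :=
  PM.of_forall (B := fun a => lb a + 11 * kS a + 20)
    (PB.of_le (m := fun a => 2 * kS a + 1) (by fun_prop) fun a => by
      simp [contour, length_intRange]) (by fun_prop) fun a z hz => by
    obtain ⟨κ, hκ, rfl⟩ := List.mem_map.1 hz
    have := mem_intRange.1 hκ
    simp only [mag_pair, mag_nat, mag_int]; omega

lemma pt_nodeSet {L : α → Lev} (hL : PT L) (hb : PM L) : PT (fun a => nodeSet (L a)) := by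
  have h : PT (fun a => slotSet (L a)) := by unfold slotSet; fun_prop
  unfold nodeSet
  have : ∀ S : α → List Slot, PT S → PT (fun a => kinds.flatMap fun f => (S a).flatMap fun s1 =>
      (S a).flatMap fun s2 => (S a).map fun s3 => ((f, ((L a).lc, 0), [s1, s2, s3]) : Node)) :=
    fun S hS => by fun_prop
  exact this _ h

lemma mag_node_le {L : Lev} {ν : Node} (h : ν ∈ nodeSet L) : mag ν ≤ 3 * mag L := by
  obtain ⟨h1, h2, h3⟩ := mem_nodeSet.1 h
  have h4 := mag_list_le ν.2.2 (L.lb + L.kF) fun sl hsl => by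
    obtain ⟨a1, a2⟩ := h3 sl hsl
    simp only [mag_prod sl, mag_prod sl.2, mag_prod sl.2.2, mag_kind, mag_bool, mag_nat, mag_int]
    omega
  rw [mag_prod ν, mag_prod ν.2, h1, mag_lev]
  rw [h2] at h4
  simp only [mag_kind, mag_pair, mag_nat, mag_int, Int.natAbs_zero]
  omega

lemma mem_feats {ls : List Lev} {νs : List Node} (h : νs ∈ feats ls) :
    νs.length = ls.length ∧ ∀ ν ∈ νs, ∃ L ∈ ls, ν ∈ nodeSet L := by
  induction ls generalizing νs with
  | nil => simp [feats] at h; simp [h]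
  | cons L ls ih =>
    obtain ⟨ν', h3, νs', h4, rfl⟩ := mem_feats_cons.1 h
    refine ⟨by simp [(ih h4).1], fun ν hν => ?_⟩
    rcases List.mem_cons.1 hν with rfl | hν
    · exact ⟨L, by simp, h3⟩
    · obtain ⟨L', h5, h6⟩ := (ih h4).2 ν hν
      exact ⟨L', by simp [h5], h6⟩

lemma length_nodeSet (L : Lev) : (nodeSet L).length = 3 * (6 * (2 * L.kF + 1)) ^ 3 := by
  have h : (slotSet L).length = 6 * (2 * L.kF + 1) := by
    simp [slotSet, kinds, length_intRange]; ring
  simp [nodeSet, kinds, List.length_flatMap, h]; ring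

lemma length_feats_cons (L : Lev) (ls : List Lev) :
    (feats (L :: ls)).length = (nodeSet L).length * (feats ls).length := by
  simp [feats, List.length_flatMap]

lemma length_feats_suffix {m ls : List Lev} (h : m <:+ ls) :
    (feats m).length ≤ (feats ls).length := by
  induction ls with
  | nil => rw [List.suffix_nil.1 h]
  | cons L ls ih =>
    rcases List.suffix_cons_iff.1 h with rfl | h
    · exact le_rfl
    · rw [length_feats_cons]
      exact (ih h).trans (Nat.le_mul_of_pos_left _ (by rw [length_nodeSet]; positivity))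

lemma pt_feats {ls : α → List Lev} (hl : PT ls) (hb : PM ls)
    (hc : PB (fun a => (feats (ls a)).length)) : PT (fun a => feats (ls a)) := by
  have h1 := pt_nodeSet (L := fun p : {p : α × Lev // p.2 ∈ ls p.1} => p.1.2) (by fun_prop) hb.mem
  obtain ⟨B, hB, h2⟩ := PB.exists_unif_mem hl (PB.sz h1)
  refine PT.foldr_valid (f := fun _ L F => (nodeSet L).flatMap fun ν => F.map fun νs => ν :: νs)
    (ini := fun _ => [[]]) (fun p => p.2.1 ∈ ls p.1)
    (fun a => ((B a + 1) * (ls a).length + 2) * (feats (ls a)).length + 1) ?_ hl (PT.const _)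
    (by fun_prop) (fun a x m h => h.subset (by simp)) fun a m h => ?_
  · have h3 := pt_nodeSet (L := fun p : {p : α × Lev × List (List Node) // p.2.1 ∈ ls p.1} => p.1.2.1)
      (by fun_prop) (PM.of_mem (hb.comp (by fun_prop)) fun p => p.2)
    exact PT.flatMap h3 (by fun_prop)
  · refine (sz_list_le (feats m) ((B a + 1) * (ls a).length + 1) fun νs hν => ?_).trans ?_
    · obtain ⟨e, h3⟩ := mem_feats hν
      refine (sz_list_le νs (B a) fun ν hν => ?_).trans ?_
      · obtain ⟨L, h4, h5⟩ := h3 ν hν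
        exact (sz_le_of_mem h5).trans (h2 a L (h.subset h4))
      · have := h.length_le
        gcongr; omega
    · have := length_feats_suffix h
      gcongr

/-- a default level -/
def L0 : Lev := ⟨0, 0, 0, 0, 0, 0, 0, 0, 0, 0, 0, 0, 0⟩

lemma pm_headD {ls : α → List Lev} (hb : PM ls) : PM (fun a => (ls a).headD L0) :=
  PM.of_le hb fun a => by
    cases ls a with
    | nil => exact le_of_eq rfl
    | cons L m => simp

lemma zsOf_eq (l0 : ℕ) (ls : List Lev) : zsOf l0 ls =
    if ls = [] then [(l0, 0)] else contour (ls.headD L0).lb (ls.headD L0).kS := by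
  cases ls <;> simp [zsOf]

lemma pt_qlist {l0 : α → ℕ} {ls : α → List Lev} (h0 : PT l0) (h0b : PB l0) (hl : PT ls) (hb : PM ls)
    (hc : PB (fun a => (feats (ls a)).length)) :
    PT (fun a => qlist (l0 a) (ls a)) ∧ PM (fun a => qlist (l0 a) (ls a)) := by
  have h1 := pm_headD hb
  have h2 : PT (fun a => (ls a).headD L0) := by fun_prop
  have hz : PT (fun a => zsOf (l0 a) (ls a)) := by
    simp only [zsOf_eq]
    exact PT.ite (by fun_prop) (by fun_prop) (pt_contour (pt_lb h2) (pt_kS h2) (pb_kS h1))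
  have hz' : PB (fun a => mag (zsOf (l0 a) (ls a))) := by
    simp only [zsOf_eq]
    exact PM.ite _ (by fun_prop) (pm_contour (pb_lb h1) (pb_kS h1))
  have h3 : PT (fun a => qlist (l0 a) (ls a)) :=
    PT.flatMap (pt_feats hl hb hc) (PT.map (hz.comp PT.id.fst) (by fun_prop))
  have hb' : PB (fun a => mag (ls a)) := hb
  refine ⟨h3, PM.of_forall (B := fun a => (ls a).length * (3 * mag (ls a)) + mag (zsOf (l0 a) (ls a)))
    (PB.length h3) (by fun_prop) fun a q hq => ?_⟩
  obtain ⟨h4, h5⟩ := mem_qlist.1 hq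
  obtain ⟨e, h6⟩ := mem_feats h4
  rw [mag_prod, ← e]
  refine add_le_add (mag_list_le _ _ fun ν hν => ?_) (mag_le_of_mem h5)
  obtain ⟨L, h7, h8⟩ := h6 ν hν
  exact (mag_node_le h8).trans (Nat.mul_le_mul_left _ (mag_le_of_mem h7))

/-! ### REP -/

lemma ptc_kindApp {κ : α → Kind} {g : α → ℕ → ℂ} {t : α → ℕ} (hκ : PT κ)
    (hg : PTC (fun a => g a (t a))) : PTC (fun a => kindApp (κ a) (g a) (t a)) :=
  (PTC.cond hκ.isSome (PTC.cond (hκ.optionGetD (PT.const false)) hg.conj hg) PTC.one).congr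
    fun a => by unfold kindApp; rcases κ a with _ | _ | _ <;> rfl

lemma ptc_XX {Y r m N : α → ℕ} {g : α → ℕ → ℂ} {x : α → Kind × ℤ} (hY : PT Y) (hr : PT r)
    (hrb : PB r) (hm : PT m) (hmb : PB m) (hN : PT N) (hNb : PB N)
    (hg : PTC (fun p : Σ a, Fin (N a) => g p.1 p.2)) (hx : PT x) (hxb : PM x) :
    PTC (fun a => XX (Y a) (r a) (m a) (N a) (g a) (x a)) := by
  unfold XX
  refine PTC.sum_range hN hNb (PTC.mul (PTC.mul ?_ (by fun_prop)) (by fun_prop))
  exact ptc_kindApp (g := fun p : Σ a, Fin (N a) => g p.1) (t := fun p => p.2) (by fun_prop) hg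

section rep

variable {Y n : α → ℕ} {L : α → Lev}

lemma pt_repI (hL : PT L) (hb : PM L) : PT (fun a => repI (L a)) ∧ PM (fun a => repI (L a)) := by
  have h1 : PT (fun a => repI (L a)) := by unfold repI; fun_prop
  have h2 : PB (fun a => mag (contour (L a).lb (L a).kS)) := pm_contour (pb_lb hb) (pb_kS hb)
  refine ⟨h1, PM.of_forall (B := fun a => 3 * (L a).kS + mag (contour (L a).lb (L a).kS))
    (PB.length h1) (by fun_prop) fun a i hi => ?_⟩
  simp only [repI, List.mem_flatMap, List.mem_map, mem_intRange] at hi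
  obtain ⟨p1, h1, p2, h2, p3, h3, z, hz, rfl⟩ := hi
  have := mag_le_of_mem hz
  simp only [mag_pair, mag_int]; omega

lemma pt_repJ (hn : PT n) (hb : PB n) : PT (fun a => repJ (n a)) ∧ PM (fun a => repJ (n a)) := by
  have h1 : PT (fun a => repJ (n a)) := by unfold repJ; fun_prop
  refine ⟨h1, PM.of_forall (B := fun a => 4 * n a) (PB.length h1) (by fun_prop) fun a i hi => ?_⟩
  simp only [repJ, List.mem_flatMap, List.mem_map, List.mem_range] at hi
  obtain ⟨p1, h1, p2, h2, p3, h3, z, hz, rfl⟩ := hi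
  simp only [mag_pair, mag_nat]; omega

lemma ptc_repA {j : α → ℕ × ℕ × ℕ × ℕ} {i : α → (ℤ × ℤ × ℤ) × Mono} (hY : PT Y) (hL : PT L)
    (hb : PM L) (hj : PT j) (hjb : PM j) (hi : PT i) (hib : PM i) :
    PTC (fun a => repA (Y a) (L a) (j a) (i a)) := by
  unfold repA; fun_prop

lemma ptc_repC {j : α → ℕ × ℕ × ℕ × ℕ} {k : α → ℤ} (hY : PT Y) (hL : PT L)
    (hb : PM L) (hk : PT k) (hkb : PM k) (hj : PT j) (hjb : PM j) :
    PTC (fun a => repC (Y a) (L a) (k a) (j a)) := by
  unfold repC; fun_prop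

lemma ptr_repW {j : α → ℕ × ℕ × ℕ × ℕ} (hY : PT Y) (hL : PT L)
    (hb : PM L) (hj : PT j) (hjb : PM j) : PTR (fun a => repW (Y a) (L a) (j a)) := by
  unfold repW; fun_prop

lemma ptv_repCoef {k : α → ℤ} (hY : PT Y) (hn : PT n) (hnb : PB n) (hL : PT L) (hb : PM L)
    (hk : PT k) (hkb : PM k) :
    PTV (ι := fun a => Fin (repI (L a)).length) (fun a => repCoef (Y a) (n a) (L a) (k a)) := by
  obtain ⟨hI, hIb⟩ := pt_repI hL hb
  obtain ⟨hJ, hJb⟩ := pt_repJ hn hnb
  refine ptv_lsq hI hJ ?_ ?_ ?_ ?_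
  · exact ptc_repA (by fun_prop) (by fun_prop) (by fun_prop) (by fun_prop)
      (PM.of_mem (hJb.comp (by fun_prop)) fun p => p.2.1) (by fun_prop)
      (PM.of_mem (hIb.comp (by fun_prop)) fun p => p.2.2)
  · exact ptr_repW (by fun_prop) (by fun_prop) (by fun_prop) (by fun_prop) hJb.mem
  · exact ptc_repC (by fun_prop) (by fun_prop) (by fun_prop) (by fun_prop) (by fun_prop)
      (by fun_prop) hJb.mem
  · exact PTR.div (PTR.natCast (hI.length.comp (by fun_prop))) (by fun_prop)

lemma ptc_part {O : α → Query → ℂ} {νs : α → List Node} {f : α → Kind × ℤ}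
    {x y z : α → (Kind × ℤ) × Bool} (hY : PT Y) (hn : PT n) (hnb : PB n) (hL : PT L) (hb : PM L)
    (hO : PTC (fun p : α × Query => O p.1 p.2)) (hν : PT νs) (hf : PT f) (hfb : PM f) (hx : PT x)
    (hxb : PM x) (hy : PT y) (hyb : PM y) (hz : PT z) (hzb : PM z) :
    PTC (fun a => part (Y a) (n a) (L a) (O a) (νs a) (f a) (x a) (y a) (z a)) := by
  obtain ⟨hI, hIb⟩ := pt_repI hL hb
  unfold part
  refine PTC.div (PTC.sum_fin hI.length (PB.length hI) (PTC.mul ?_ ?_)) (by fun_prop)
  · exact ptv_repCoef (k := fun a => (f a).2 + (x a).1.2 + (y a).1.2 + (z a).1.2) hY hn hnb hL hb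
      (by fun_prop) (by fun_prop)
  · have h0 : PT (fun p : Σ a : α, Fin (repI (L a)).length => p.1) := by fun_prop
    have gi := PT.getElem_fin (hI.comp h0) (i := fun p => p.2) PT.id.sigmaFinVal
    have key : ∀ i : (Σ a : α, Fin (repI (L a)).length) → (ℤ × ℤ × ℤ) × Mono, PT i →
        PT (fun p => (p.1, (repNode (L p.1) (f p.1).1 (x p.1) (y p.1) (z p.1) (i p).1 :: νs p.1,
          (i p).2))) := fun i hi => by unfold repNode; fun_prop
    exact hO.comp (key _ gi)

end rep

/-- A product oracle that is polynomial-time on bounded frequencies. -/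
def PTP (P : α → P4) : Prop :=
  ∀ (β : Type) [Enc β] (x : β → α) (a b c d : β → Kind × ℤ), PT x → PT a → PM a → PT b → PM b →
    PT c → PM c → PT d → PM d → PTC (fun y => P (x y) (a y) (b y) (c y) (d y))

lemma PTP.comp {P : α → P4} (hP : PTP P) {f : β → α} (hf : PT f) : PTP (fun b => P (f b)) :=
  fun γ _ x a b c d hx => hP γ (fun y => f (x y)) a b c d (hf.comp hx)

lemma ptc_XX_feat {Y r k : α → ℕ} {w : α → List Bool} {νs : α → List Node} {x : α → Kind × ℤ}
    (hY : PT Y) (hY' : ∀ a, 100 ≤ Y a) (hr : PT r) (hrb : PB r) (hw : PT w) (hν : PT νs)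
    (hm : PM νs) (hk : PB (fun a => big (k a))) (hF : ∀ a, IsF (k a) (νs a)) (hx : PT x)
    (hxb : PM x) :
    PTC (fun a => XX (Y a) (r a) (w a).length (w a).length (feat (ev (Y a)) (w a) (νs a)) (x a)) :=
  ptc_XX hY hr hrb hw.length (PB.length hw) hw.length (PB.length hw)
    (ptc_feat (k := fun p : Σ a, Fin (w a).length => k p.1) (by fun_prop) (fun p => hY' _)
      (by fun_prop) (by fun_prop) (fun p => p.2.2) (by fun_prop) (by fun_prop)
      (hk.comp PT.id.sigmaFst) fun p => hF _) hx hxb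

lemma ptp_prod4 {Y n k : α → ℕ} {L : α → Lev} {w : α → List Bool} {O : α → Query → ℂ}
    {νs : α → List Node} (hY : PT Y) (hY' : ∀ a, 100 ≤ Y a) (hn : PT n) (hnb : PB n) (hL : PT L)
    (hb : PM L) (hw : PT w) (hO : PTC (fun p : α × Query => O p.1 p.2)) (hν : PT νs)
    (hm : PM νs) (hk : PB (fun a => big (k a))) (hF : ∀ a, IsF (k a) (νs a)) :
    PTP (fun a => prod4 (Y a) (n a) (L a) (w a) (O a) (νs a)) := by
  intro β _ x a b c d hx ha ha' hb1 hb' hc hc' hd hd'
  have hX : ∀ u : β → Kind × ℤ, PT u → PM u → PTC (fun y => XX (Y (x y)) (L (x y)).r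
      (w (x y)).length (w (x y)).length (feat (ev (Y (x y))) (w (x y)) (νs (x y))) (u y)) :=
    fun u hu hu' => ptc_XX_feat (k := fun y => k (x y)) (by fun_prop) (fun _ => hY' _)
      (by fun_prop) (by fun_prop) (by fun_prop) (by fun_prop) (by fun_prop) (hk.comp hx)
      (fun _ => hF _) hu hu'
  have hp : ∀ (f : β → Kind × ℤ) (u v t : β → (Kind × ℤ) × Bool), PT f → PM f → PT u → PM u →
      PT v → PM v → PT t → PM t → PTC (fun y => part (Y (x y)) (n (x y)) (L (x y)) (O (x y))
        (νs (x y)) (f y) (u y) (v y) (t y)) :=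
    fun f u v t => ptc_part (by fun_prop) (by fun_prop) (by fun_prop) (by fun_prop) (by fun_prop)
      (hO.comp (f := fun p : β × Query => (x p.1, p.2)) (by fun_prop)) (by fun_prop)
  unfold prod4
  refine PTC.add (PTC.add (PTC.add (PTC.add (PTC.mul (PTC.mul (PTC.mul (hX _ ha ha')
    (hX _ hb1 hb')) (hX _ hc hc')) (hX _ hd hd')) ?_) ?_) ?_) ?_ <;>
  exact hp _ _ _ _ (by fun_prop) (by fun_prop) (by fun_prop) (by fun_prop) (by fun_prop)
    (by fun_prop) (by fun_prop) (by fun_prop)

end Crest.Agent.R300.UB
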