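import Crest.Agent.R300.PTD3

/-! Row 300, polynomial time: the CHAIN and JENSEN steps. -/

set_option autoImplicit false

noncomputable section

namespace Crest.Agent.R300.UB

open Complex Finset Crest.Agent.Lib.PT

variable {α β : Type} [Enc α] [Enc β]

variable {P : α → P4} {V ε M : α → ℝ} {kT kA η h : α → ℕ} {k : α → ℤ}

lemma ptr_sHat (hP : PTP P) (hV : PTR V) (hε : PTR ε) (hk : PT k) (hkb : PM k) :
    PTR (fun a => sHat (P a) (V a) (ε a) (k a)) := by
  have := hP α (fun a => a) (fun a => (some false, k a)) (fun a => (some true, -k a))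
    (fun _ => (none, 0)) (fun _ => (none, 0)) PT.id (by fun_prop) (by fun_prop) (by fun_prop)
    (by fun_prop) (by fun_prop) (by fun_prop) (by fun_prop) (by fun_prop)
  unfold sHat
  exact PTR.add (PTR.abs (PTR.div (PTR.re this) (by fun_prop))) hε

lemma natAbs_thetaH_le (P : P4) (V ε : ℝ) (kT h : ℕ) : (thetaH P V ε kT h).natAbs ≤ kT := by
  unfold thetaH
  cases e : (cand kT h).argmax fun k => sHat P V ε k * sHat P V ε (k + h) with
  | none => simp
  | some k => exact mem_intRange.1 (List.mem_of_mem_filter (List.argmax_mem e))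

@[fun_prop] lemma pm_thetaH (P : α → P4) (V ε : α → ℝ) (h : α → ℕ) (hT : PB kT) :
    PM (fun a => thetaH (P a) (V a) (ε a) (kT a) (h a)) :=
  PM.of_le hT fun _ => natAbs_thetaH_le _ _ _ _ _

lemma pt_thetaH (hP : PTP P) (hV : PTR V) (hε : PTR ε) (hT : PT kT) (hTb : PB kT) (hh : PT h)
    (hhb : PB h) : PT (fun a => thetaH (P a) (V a) (ε a) (kT a) (h a)) := by
  have h1 : PT (fun a => cand (kT a) (h a)) := by unfold cand; fun_prop
  have h2 : PM (fun p : {p : α × ℤ // p.2 ∈ cand (kT p.1) (h p.1)} => p.1.2) :=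
    PM.of_mem (pm_intRange (hTb.comp (f := fun p : {p : α × ℤ // p.2 ∈ cand (kT p.1) (h p.1)} =>
      p.1.1) (by fun_prop))) fun p => List.mem_of_mem_filter p.2
  unfold thetaH
  refine (PT.argmax_real_mem h1 (PTR.mul ?_ ?_)).optionGetD (PT.const 0)
  · exact ptr_sHat (hP.comp (by fun_prop)) (by fun_prop) (by fun_prop) (by fun_prop) h2
  · exact ptr_sHat (hP.comp (by fun_prop)) (by fun_prop) (by fun_prop) (by fun_prop)
      (h2.intAdd (by fun_prop))

lemma ptr_tauH (hP : PTP P) (hV : PTR V) (hε : PTR ε) (hT : PT kT) (hTb : PB kT) (hh : PT h)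
    (hhb : PB h) : PTR (fun a => tauH (P a) (V a) (ε a) (kT a) (h a)) := by
  have h1 := pt_thetaH hP hV hε hT hTb hh hhb
  unfold tauH
  exact (ptr_sHat hP hV hε h1 (by fun_prop)).mul
    (ptr_sHat hP hV hε (h1.intAdd hh.intNatCast) (by fun_prop))

lemma hStar_le (P : P4) (V ε : ℝ) (kT kA : ℕ) : hStar P V ε kT kA ≤ kA := by
  unfold hStar
  cases e : (List.range (kA + 1)).argmin (tauH P V ε kT) with
  | none => simp
  | some k => have := List.mem_range.1 (List.argmin_mem e); simp only [Option.getD_some]; omega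

lemma ptr_tau2 (hP : PTP P) (hV : PTR V) (hε : PTR ε) (hT : PT kT) (hTb : PB kT) (hA : PT kA)
    (hAb : PB kA) : PTR (fun a => tau2 (P a) (V a) (ε a) (kT a) (kA a)) := by
  have h1 : PT (fun a => hStar (P a) (V a) (ε a) (kT a) (kA a)) := by
    unfold hStar
    refine (PT.argmin_real_mem (l := fun a => List.range (kA a + 1)) (by fun_prop) ?_).optionGetD
      (PT.const 0)
    exact ptr_tauH (hP.comp (by fun_prop)) (by fun_prop) (by fun_prop) (by fun_prop) (by fun_prop)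
      (by fun_prop) (PM.mem (l := fun a => List.range (kA a + 1)) (by fun_prop))
  exact ptr_tauH hP hV hε hT hTb h1 (hAb.of_le fun _ => hStar_le _ _ _ _ _)

lemma ptc_PP (hP : PTP P) (hV : PTR V) (hε : PTR ε) (hT : PT kT) (hTb : PB kT) (hη : PT η)
    (hh : PT h) (hhb : PB h) : PTC (fun a => PP (P a) (V a) (ε a) (kT a) (η a) (h a)) := by
  have h1 := pt_thetaH hP hV hε hT hTb hh hhb
  have h2 := pt_thetaH (h := fun a => h a - η a) hP hV hε hT hTb (by fun_prop) (by fun_prop)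
  unfold PP
  refine PTC.ite (by fun_prop) (PTC.div ?_ (by fun_prop)) ?_
  · exact hP α (fun a => a) _ _ _ _ PT.id ((PT.const _).pair (h1.intAdd hh.intNatCast))
      (by fun_prop) ((PT.const _).pair h1.intNeg) (by fun_prop) (by fun_prop) (by fun_prop)
      (by fun_prop) (by fun_prop)
  · exact hP α (fun a => a) _ _ _ _ PT.id ((PT.const _).pair (h1.intAdd hh.intNatCast))
      (by fun_prop) ((PT.const _).pair h1.intNeg) (by fun_prop)
      ((PT.const _).pair (h2.intAdd (by fun_prop)).intNeg) (by fun_prop)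
      ((PT.const _).pair h2) (by fun_prop)

lemma ptc_Qt (hP : PTP P) (hV : PTR V) (hε : PTR ε) (hT : PT kT) (hTb : PB kT) (hη : PT η)
    (hh : PT h) (hhb : PB h) : PTC (fun a => Qt (P a) (V a) (ε a) (kT a) (η a) (h a)) := by
  unfold Qt
  have h1 := ptc_PP (h := fun p : Σ a, Fin ((h a - 1) / η a + 1) => h p.1 - p.2 * η p.1)
    (kT := fun p => kT p.1) (η := fun p => η p.1) (V := fun p => V p.1) (ε := fun p => ε p.1)
    (hP.comp PT.id.sigmaFst) (by fun_prop) (by fun_prop) (by fun_prop) (by fun_prop) (by fun_prop)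
    (by fun_prop) (by fun_prop)
  exact PTC.prod_range (by fun_prop) (by fun_prop) (PTC.ite (by fun_prop) h1 h1.conj.inv)

lemma ptc_Xt (hP : PTP P) (hV : PTR V) (hε : PTR ε) (hT : PT kT) (hTb : PB kT) (hη : PT η)
    (hk : PT k) (hkb : PM k) : PTC (fun a => Xt (P a) (V a) (ε a) (kT a) (η a) (k a)) := by
  have h1 := pt_thetaH (h := fun a => (k a).natAbs) hP hV hε hT hTb hk.natAbs hkb
  have h2 := ptc_Qt (h := fun a => (k a).natAbs) hP hV hε hT hTb hη hk.natAbs hkb
  unfold Xt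
  refine PTC.ite (by fun_prop) (PTC.div ?_ ((PTC.ofReal hV).mul h2.conj))
    (PTC.div ?_ ((PTC.ofReal hV).mul h2))
  · exact hP α (fun a => a) _ _ _ _ PT.id (by fun_prop) (by fun_prop)
      ((PT.const _).pair (h1.intAdd (by fun_prop)).intNeg) (by fun_prop)
      ((PT.const _).pair h1) (by fun_prop) (by fun_prop) (by fun_prop)
  · exact hP α (fun a => a) _ _ _ _ PT.id (by fun_prop) (by fun_prop)
      ((PT.const _).pair (h1.intAdd (by fun_prop))) (by fun_prop)
      ((PT.const _).pair h1.intNeg) (by fun_prop) (by fun_prop) (by fun_prop)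

open Classical in
lemma pt_useX (hP : PTP P) (hV : PTR V) (hε : PTR ε) (hM : PTR M) (hT : PT kT) (hTb : PB kT)
    (hA : PT kA) (hAb : PB kA) (hη : PT η) (hk : PT k) :
    PT (fun a => decide (useX (P a) (V a) (ε a) (M a) (kT a) (kA a) (η a) (k a))) := by
  have h1 := ptr_tau2 hP hV hε hT hTb hA hAb
  have h2 := PT.real_decide_le (f := fun a => 16 * ((kA a / η a + 1 : ℕ) : ℝ) * ε a * (M a ^ 2 + 1))
    (by fun_prop) h1
  refine (PT.decide_and h2 (PT.decide_le hk.natAbs hA)).congr fun a => ?_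
  unfold useX
  congr

lemma ptr_wsq (hP : PTP P) (hV : PTR V) (hε : PTR ε) (hM : PTR M) (hT : PT kT) (hTb : PB kT)
    (hA : PT kA) (hAb : PB kA) (hη : PT η) (hk : PT k) (hkb : PM k) :
    PTR (fun a => wsq (P a) (V a) (ε a) (M a) (kT a) (kA a) (η a) (k a)) := by
  classical
  have h1 := ptr_tau2 hP hV hε hT hTb hA hAb
  unfold wsq delta
  exact PTR.ite (pt_useX hP hV hε hM hT hTb hA hAb hη hk)
    (PTR.pow (PTR.div (by fun_prop) h1) (PT.const 2) (PB.const 2)) (ptr_sHat hP hV hε hk hkb)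

lemma ptc_tgt (hP : PTP P) (hV : PTR V) (hε : PTR ε) (hM : PTR M) (hT : PT kT) (hTb : PB kT)
    (hA : PT kA) (hAb : PB kA) (hη : PT η) (hk : PT k) (hkb : PM k) :
    PTC (fun a => tgt (P a) (V a) (ε a) (M a) (kT a) (kA a) (η a) (k a)) := by
  classical
  unfold tgt
  exact PTC.ite (pt_useX hP hV hε hM hT hTb hA hAb hη hk) (ptc_Xt hP hV hε hT hTb hη hk hkb)
    PTC.zero

lemma jen_key1 {Y r s : α → ℕ} {u : α → ℤ} (hY : PT Y) (hr : PT r) (hrb : PB r) (hu : PT u)
    (hub : PM u) (hs : PT s) (hsb : PB s) :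
    PTC (fun y => (Wt (Y y) (r y) (s y) : ℂ) * uu (Y y) ^ (u y * s y)) := by fun_prop

lemma jen_key2 {Y r s : α → ℕ} (hY : PT Y) (hr : PT r) (hrb : PB r) (hu : PTR M)
    (hs : PT s) (hsb : PB s) : PTR (fun y => Wt (Y y) (r y) (s y) / M y) := by fun_prop

lemma jen_key3 {Y r s : α → ℕ} (hY : PT Y) (hr : PT r) (hrb : PB r)
    (hs : PT s) (hsb : PB s) : PTC (fun y => (Wt (Y y) (r y) (s y) : ℂ)) := by fun_prop

lemma ptc_jenLS {Y r N : α → ℕ} {c : α → ℤ → ℂ} {w2 : α → ℤ → ℝ} {z : α → Mono} (hY : PT Y)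
    (hr : PT r) (hrb : PB r) (hN : PT N) (hNb : PB N) (hM : PTR M) (hT : PT kT) (hTb : PB kT)
    (hc : PTC (fun p : {p : α × ℤ // p.2 ∈ intRange (kT p.1)} => c p.1.1 p.1.2))
    (hw : PTR (fun p : {p : α × ℤ // p.2 ∈ intRange (kT p.1)} => w2 p.1.1 p.1.2))
    (hz : PT z) (hzb : PM z) :
    PTC (fun a => jenLS (Y a) (r a) (N a) (M a) (kT a) (c a) (w2 a) (z a)) := by
  have hI : PT (fun a => List.range (N a)) := by fun_prop
  have hIb : PM (fun a => List.range (N a)) := by fun_prop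
  have hJ : PT (fun a => intRange (kT a)) := by fun_prop
  have hJb : PM (fun a => intRange (kT a)) := by fun_prop
  have hl := hI.length
  have hlb := PB.length hI
  have h0 : PT (fun p : Σ a, Fin (List.range (N a)).length => p.1) := PT.id.sigmaFst
  have hi : PT (fun p : Σ a, Fin (List.range (N a)).length => (p.2 : ℕ)) := PT.id.sigmaFinVal
  have hib : PB (fun p : Σ a, Fin (List.range (N a)).length => (p.2 : ℕ)) :=
    PB.finVal' _ (hlb.comp h0)
  have h31 := jen_key3 (hY.comp h0) (hr.comp h0) (hrb.comp h0) hi hib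
  have h32 := (ptc_ev (hY.comp h0) (hz.comp h0) (hzb.comp h0)).pow hi hib
  have g0 : PT (fun p : {p : α × ℤ × ℕ // p.2.1 ∈ intRange (kT p.1) ∧
      p.2.2 ∈ List.range (N p.1)} => p.1.1) := by fun_prop
  have g1 := jen_key1 (α := {p : α × ℤ × ℕ // p.2.1 ∈ intRange (kT p.1) ∧
      p.2.2 ∈ List.range (N p.1)}) (u := fun p => p.1.2.1) (s := fun p => p.1.2.2) (hY.comp g0) (hr.comp g0)
    (hrb.comp g0) (by fun_prop) (PM.of_mem (hJb.comp g0) fun p => p.2.1) (by fun_prop)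
    (PM.of_mem (hIb.comp g0) fun p => p.2.2).pb
  have g2 : PT (fun p : {p : α × ℕ // p.2 ∈ List.range (N p.1)} => p.1.1) := by fun_prop
  have g3 := jen_key2 (α := {p : α × ℕ // p.2 ∈ List.range (N p.1)}) (s := fun p => p.1.2)
    (hY.comp g2) (hr.comp g2) (hrb.comp g2) (hM.comp g2) (by fun_prop) hIb.mem.pb
  have h4 := ptv_lsq hI hJ (A := fun a k s => (Wt (Y a) (r a) s : ℂ) * uu (Y a) ^ (k * s))
    (ω := fun a k => 1 / ((2 * kT a + 1) * w2 a k)) (c := c) (ρ := fun a s => Wt (Y a) (r a) s / M a)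
    g1 (PTR.div PTR.one (PTR.mul (by fun_prop) hw)) hc g3
  exact PTC.sum_fin hl hlb (F := fun a i => lsq (List.range (N a)) (intRange (kT a))
    (fun k s => (Wt (Y a) (r a) s : ℂ) * uu (Y a) ^ (k * s))
    (fun k => 1 / ((2 * kT a + 1) * w2 a k)) (c a) (fun s => Wt (Y a) (r a) s / M a) i *
    (Wt (Y a) (r a) (i : ℕ) : ℂ) * ev (Y a) (z a) ^ (i : ℕ)) (PTC.mul (PTC.mul h4 h31) h32)

lemma ptc_jenOut {Y r N : α → ℕ} {lf : α → ℤ → ℂ} {z : α → Mono} (hY : PT Y) (hYb : PB Y)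
    (hr : PT r) (hrb : PB r) (hN : PT N) (hNb : PB N) (hP : PTP P) (hV : PTR V) (hε : PTR ε)
    (hM : PTR M) (hη : PT η)
    (hlf : PTC (fun p : {p : α × ℤ // p.2 ∈ intRange (kTh (Y p.1) (z p.1))} => lf p.1.1 p.1.2))
    (hz : PT z) (hzb : PM z) :
    PTC (fun a => jenOut (Y a) (r a) (N a) (P a) (V a) (ε a) (M a) (η a) (lf a) (z a)) := by
  have h1 : PT (fun a => kTh (Y a) (z a)) := by unfold kTh; fun_prop
  have h2 : PB (fun a => kTh (Y a) (z a)) := hYb.of_le fun a => min_le_right _ _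
  have h3 : PT (fun a => kH (z a)) := by unfold kH; fun_prop
  have h4 : PB (fun a => kH (z a)) := by unfold kH; fun_prop
  have h0 : PT (fun p : {p : α × ℤ // p.2 ∈ intRange (kTh (Y p.1) (z p.1))} => p.1.1) := by fun_prop
  have h5 := (pm_intRange h2).mem
  unfold jenOut
  refine ptc_jenLS hY hr hrb hN hNb hM h1 h2 (PTC.sub ?_ hlf) ?_ hz hzb
  · exact ptc_tgt (hP.comp h0) (hV.comp h0) (hε.comp h0) (hM.comp h0) (h1.comp h0) (h2.comp h0)
      (h3.comp h0) (h4.comp h0) (hη.comp h0) (by fun_prop) h5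
  · exact ptr_wsq (hP.comp h0) (hV.comp h0) (hε.comp h0) (hM.comp h0) (h1.comp h0) (h2.comp h0)
      (h3.comp h0) (h4.comp h0) (hη.comp h0) (by fun_prop) h5

lemma ptc_stepVal {Y n k : α → ℕ} {L : α → Lev} {w : α → List Bool} {O : α → Query → ℂ}
    {q : α → Query} (hY : PT Y) (hYb : PB Y) (hY' : ∀ a, 100 ≤ Y a) (hn : PT n) (hnb : PB n)
    (hL : PT L) (hb : PM L) (hw : PT w) (hO : PTC (fun p : α × Query => O p.1 p.2)) (hq : PT q)
    (hm : PM q) (hk : PB (fun a => big (k a))) (hF : ∀ a, IsF (k a) (q a).1) :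
    PTC (fun a => stepVal (Y a) (n a) (L a) (w a) (O a) (q a)) := by
  unfold stepVal
  refine ptc_jenOut hY hYb (pt_r hL) (pb_r hb) (by fun_prop) (by fun_prop)
    (ptp_prod4 hY hY' hn hnb hL hb hw hO hq.fst hm.fst hk hF) (by unfold Vz; fun_prop)
    (by fun_prop) (by fun_prop) (pt_lb hL) ?_ hq.snd hm.snd
  have h0 : PT (fun p : {p : α × ℤ // p.2 ∈ intRange (kTh (Y p.1) (q p.1).2)} => p.1.1) := by
    fun_prop
  have h2 : PB (fun a => kTh (Y a) (q a).2) := hYb.of_le fun a => min_le_right _ _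
  exact ptc_XX_feat (k := fun p : {p : α × ℤ // p.2 ∈ intRange (kTh (Y p.1) (q p.1).2)} => k p.1.1)
    (hY.comp h0) (fun _ => hY' _) ((pt_r hL).comp h0)
    ((pb_r hb).comp h0) (hw.comp h0) (hq.fst.comp h0) (hm.fst.comp h0) (hk.comp h0)
    (fun _ => hF _) (by fun_prop) ((PM.const _).pair (pm_intRange h2).mem)

end Crest.Agent.R300.UB
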