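import Crest.Agent.R300.PTD4

/-! Row 300, polynomial time: the estimator and the decoder with given parameters. -/

set_option autoImplicit false

noncomputable section

namespace Crest.Agent.R300.UB

open Complex Finset Crest.Agent.Lib.PT

variable {α β : Type} [Enc α] [Enc β]

@[fun_prop] lemma ptc_mob {z v : α → ℂ} (hz : PTC z) (hv : PTC v) :
    PTC (fun a => mob (z a) (v a)) := by
  unfold mob; fun_prop

@[fun_prop] lemma ptr_vnode {T N j : α → ℕ} (hT : PT T) (hN : PT N) (hj : PT j) :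
    PTR (fun a => vnode (T a) (N a) (j a)) := by
  unfold vnode; fun_prop

@[fun_prop] lemma ptr_acoef {T N H j : α → ℕ} (hT : PT T) (hN : PT N) (hNb : PB N) (hH : PT H)
    (hHb : PB H) (hj : PT j) : PTR (fun a => acoef (T a) (N a) (H a) (j a)) := by
  unfold acoef bcoef; fun_prop

lemma ptc_cval_unb {Y : α → ℕ} {p : α → ℝ} {v : α → ℂ} {w : α → List Bool} {c : α → Chain}
    (hY : PT Y) (hp : PTR p) (hv : PTC v) (hw : PT w) (hc : PT c) (hb : PM c) :
    PTC (fun a => cval (w a) (unb (p a) (mobChain (Y a) (v a) (c a)))) := by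
  unfold unb mobChain
  simp only [List.map_map]
  have h0 : PT (fun q : {q : α × Stp // q.2 ∈ c q.1} => q.1.1) := by fun_prop
  have h1 := ptc_ev (hY.comp h0) (μ := fun q => q.1.2.1) (by fun_prop) hb.mem.fst
  have h2 := ptc_ev (hY.comp h0) (μ := fun q => q.1.2.2.2) (by fun_prop) hb.mem.snd.snd
  have h3 := PTC.ofReal (hp.comp h0)
  refine ptc_cval hw hc ?_ (PT.congr (g := fun q => q.1.2.2.1) (by fun_prop) fun _ => rfl) ?_
  · exact ((ptc_mob h1 (hv.comp h0)).sub (PTC.ofReal (PTR.one.sub (hp.comp h0)))).div h3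
  · exact h2.div h3

section est

variable {Y T N H : α → ℕ} {p : α → ℝ} {S : α → Ser}

lemma ptc_est1 {w : α → List Bool} (hY : PT Y) (hp : PTR p) (hT : PT T) (hN : PT N) (hNb : PB N)
    (hH : PT H) (hHb : PB H) (hS : PT S) (hb : PM S) (hw : PT w) :
    PTC (fun a => est1 (Y a) (p a) (T a) (N a) (H a) (S a) (w a)) := by
  unfold est1
  refine PTC.sum_range (by fun_prop) (by fun_prop) (PTC.mul (by fun_prop) ?_)
  have h0 : PT (fun q : Σ a, Fin (N a + 1) => q.1) := PT.id.sigmaFst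
  refine PTC.sum_map_mem (hS.comp h0) ?_
  exact ptc_cval_unb (by fun_prop) (by fun_prop) (by fun_prop) (by fun_prop) (by fun_prop)
    (hb.comp h0).mem

lemma ptc_estAvg {τ : α → List (List Bool)} (hY : PT Y) (hp : PTR p) (hT : PT T) (hN : PT N)
    (hNb : PB N) (hH : PT H) (hHb : PB H) (hS : PT S) (hb : PM S) (hτ : PT τ) :
    PTC (fun a => estAvg (Y a) (p a) (T a) (N a) (H a) (S a) (τ a)) := by
  unfold estAvg
  refine PTC.div (PTC.sum_map hτ ?_) (by fun_prop)
  exact ptc_est1 (by fun_prop) (by fun_prop) (by fun_prop) (by fun_prop) (by fun_prop) (by fun_prop)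
    (by fun_prop) (by fun_prop) (by fun_prop) PT.id.snd

end est

lemma ptc_full {Y k : α → ℕ} {w : α → List Bool} {q : α → Query} (hY : PT Y)
    (hY' : ∀ a, 100 ≤ Y a) (hw : PT w) (hq : PT q) (hm : PM q) (hk : PB (fun a => big (k a)))
    (hF : ∀ a, IsF (k a) (q a).1) : PTC (fun a => full (Y a) (w a) (q a)) := by
  unfold full
  refine PTC.sum_range hw.length (PB.length hw) (PTC.mul ?_ (by fun_prop))
  exact ptc_feat (k := fun p : Σ a, Fin (w a).length => k p.1) (by fun_prop) (fun p => hY' _)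
    (by fun_prop) (by fun_prop) (fun p => p.2.2) (by fun_prop) (by fun_prop)
    (hk.comp PT.id.sigmaFst) fun p => hF _

lemma big_mono {k k' : ℕ} (h : k ≤ k') : big k ≤ big k' :=
  Nat.pow_le_pow_right (by norm_num)
    (Nat.mul_le_mul (by omega) (Nat.pow_le_pow_right (by norm_num) h))

lemma pt_stepTable {Y n l0 : α → ℕ} {w : α → List Bool} {L : α → Lev} {ls : α → List Lev}
    {t : α → Table} (hY : PT Y) (hYb : PB Y) (hY' : ∀ a, 100 ≤ Y a) (hn : PT n) (hnb : PB n)
    (h0 : PT l0) (h0b : PB l0) (hw : PT w) (hL : PT L) (hb : PM L) (hl : PT ls) (hlb : PM ls)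
    (hc : PB (fun a => (feats (ls a)).length)) (hk : PB (fun a => big (ls a).length)) (ht : PT t) :
    PT (fun a => stepTable (Y a) (n a) (l0 a) (w a) (L a) (ls a) (t a)) := by
  obtain ⟨h1, h2⟩ := pt_qlist h0 h0b hl hlb hc
  unfold stepTable
  have g0 : PT (fun q : {q : α × Query // q.2 ∈ qlist (l0 q.1) (ls q.1)} => q.1.1) := by fun_prop
  refine h1.map_mem (PT.pair (by fun_prop) (pt_rnd ((pt_K hL).comp g0) ((pb_K hb).comp g0) ?_))
  exact ptc_stepVal (k := fun q : {q : α × Query // q.2 ∈ qlist (l0 q.1) (ls q.1)} =>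
    (ls q.1.1).length) (hY.comp g0) (hYb.comp g0) (fun _ => hY' _) (hn.comp g0) (hnb.comp g0)
    (hL.comp g0) (hb.comp g0) (hw.comp g0)
    (ptc_look (ht.comp (g0.comp PT.id.fst)) PT.id.snd) (by fun_prop) h2.mem (hk.comp g0)
    fun q => ⟨_, le_rfl, (mem_qlist.1 q.2).1⟩

lemma descend_eq (Y n l0 : ℕ) (w : List Bool) (ls : List Lev) (t : Table) :
    descend Y n l0 w ls t = (List.range ls.length).foldl
      (fun t i => stepTable Y n l0 w (ls.getD i L0) (ls.drop (i + 1)) t) t := by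
  induction ls generalizing t with
  | nil => rfl
  | cons L ls ih =>
    rw [descend, ih, List.length_cons, List.range_succ_eq_map, List.foldl_cons, List.foldl_map]
    rfl

lemma pm_getD {ls : α → List Lev} (hb : PM ls) (i : α → ℕ) : PM (fun a => (ls a).getD (i a) L0) :=
  PM.of_le hb fun a => by
    rw [List.getD_eq_getElem?_getD]
    cases e : (ls a)[i a]? with
    | none => exact Nat.zero_le _
    | some L => exact mag_le_of_mem (List.mem_of_getElem? e)

lemma pt_descend {Y n l0 : α → ℕ} {w : α → List Bool} {ls : α → List Lev}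
    {t : α → Table} (hY : PT Y) (hYb : PB Y) (hY' : ∀ a, 100 ≤ Y a) (hn : PT n) (hnb : PB n)
    (h0 : PT l0) (h0b : PB l0) (hw : PT w) (hl : PT ls) (hlb : PM ls)
    (hc : PB (fun a => (feats (ls a)).length)) (hk : PB (fun a => big (ls a).length)) (ht : PT t) :
    PT (fun a => descend (Y a) (n a) (l0 a) (w a) (ls a) (t a)) := by
  simp only [descend_eq]
  have hd : ∀ {γ : Type} [Enc γ] (x : γ → α) (i : γ → ℕ), PT x → PT i →
      PT (fun y => (ls (x y)).drop (i y + 1)) ∧ PM (fun y => (ls (x y)).drop (i y + 1)) ∧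
      PB (fun y => (feats ((ls (x y)).drop (i y + 1))).length) ∧
      PB (fun y => big ((ls (x y)).drop (i y + 1)).length) := fun x i hx hi =>
    ⟨(hi.add (PT.const 1)).drop (hl.comp hx),
      PM.of_le (hlb.comp hx) fun _ => mag_suffix_le (List.drop_suffix _ _),
      (hc.comp hx).of_le fun _ => length_feats_suffix (List.drop_suffix _ _),
      (hk.comp hx).of_le fun _ => big_mono (List.drop_suffix _ _).length_le⟩
  have hr : PT (fun a => List.range (ls a).length) := hl.length.range (PB.length hl)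
  have g0 : PT (fun q : {q : α × ℕ // q.2 ∈ List.range (ls q.1).length} => q.1.1) :=
    PT.id.subtypeVal.fst
  obtain ⟨a1, a2, a3, -⟩ := hd _ _ g0 PT.id.subtypeVal.snd
  have g1 := PB.sz (pt_qlist (h0.comp g0) (h0b.comp g0) a1 a2 a3).1
  obtain ⟨B, hB, hB'⟩ := PB.exists_unif_mem hr g1
  have hm : PB (fun a => mag (ls a)) := hlb
  have g2 : PT (fun p : α × Table × ℕ => p.1) := PT.id.fst
  obtain ⟨b1, b2, b3, b4⟩ := hd _ _ g2 PT.id.snd.snd
  clear hd
  refine PT.foldl_inv (fun a s => sz s ≤ sz (t a) + ((B a + 48 * mag (ls a) + 75) * B a + 1))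
    (fun a => sz (t a) + ((B a + 48 * mag (ls a) + 75) * B a + 1)) ?_ hr ht (by fun_prop)
    (fun a => Nat.le_add_right _ _) (fun a s i hi _ => ?_) fun _ _ h => h
  · exact pt_stepTable (hY.comp g2) (hYb.comp g2) (fun _ => hY' _) (hn.comp g2) (hnb.comp g2)
      (h0.comp g2) (h0b.comp g2) (hw.comp g2) (PT.id.snd.snd.getD (hl.comp g2) (PT.const L0))
      (pm_getD (hlb.comp g2) _) b1 b2 b3 b4 PT.id.snd.fst
  · have c1 := hB' a i hi
    simp only at c1
    have c2 : ((ls a).getD i L0).K ≤ mag (ls a) := by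
      have : mag ((ls a).getD i L0) ≤ mag (ls a) := by
        rw [List.getD_eq_getElem _ _ (List.mem_range.1 hi)]
        exact mag_le_of_mem (List.getElem_mem _)
      rw [mag_lev] at this; omega
    refine le_trans ?_ (Nat.le_add_left _ _)
    refine (sz_list_le _ (B a + 48 * mag (ls a) + 74) fun x hx => ?_).trans ?_
    · obtain ⟨q, hq, rfl⟩ := List.mem_map.1 hx
      have c3 := sz_le_of_mem hq
      have c4 := sz_rnd ((ls a).getD i L0).K
        (stepVal (Y a) (n a) ((ls a).getD i L0) (w a) (look s) q)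
      rw [sz_pair]; omega
    · have c3 := length_le_sz (qlist (l0 a) ((ls a).drop (i + 1)))
      rw [stepTable, List.length_map]
      gcongr
      omega

/-- Polynomial-time parameters. -/
structure ParPT (P : α → Par) : Prop where
  hY : PT (fun a => (P a).Y)
  hYb : PB (fun a => (P a).Y)
  hY' : ∀ a, 100 ≤ (P a).Y
  h0 : PT (fun a => (P a).l0)
  h0b : PB (fun a => (P a).l0)
  hl : PT (fun a => (P a).ls)
  hlb : PM (fun a => (P a).ls)
  hc : PB (fun a => (feats (P a).ls).length)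
  hk : PB (fun a => big (P a).ls.length)
  hK : PT (fun a => (P a).Kt)
  hKb : PB (fun a => (P a).Kt)
  hT : PT (fun a => (P a).T)
  hN : PT (fun a => (P a).N)
  hNb : PB (fun a => (P a).N)
  hH : PT (fun a => (P a).H)
  hHb : PB (fun a => (P a).H)

lemma ParPT.comp {P : α → Par} (h : ParPT P) {x : β → α} (hx : PT x) : ParPT (fun b => P (x b)) :=
  ⟨h.hY.comp hx, h.hYb.comp hx, fun _ => h.hY' _, h.h0.comp hx, h.h0b.comp hx, h.hl.comp hx,
    h.hlb.comp hx, h.hc.comp hx, h.hk.comp hx, h.hK.comp hx, h.hKb.comp hx, h.hT.comp hx,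
    h.hN.comp hx, h.hNb.comp hx, h.hH.comp hx, h.hHb.comp hx⟩

variable {P : α → Par} {n : α → ℕ} {p : α → ℝ} {τ : α → List (List Bool)} {w : α → List Bool}

lemma pt_topTable (h : ParPT P) (hp : PTR p) (hτ : PT τ) (hw : PT w) :
    PT (fun a => topTable (P a) (p a) (τ a) (w a)) := by
  obtain ⟨h1, h2⟩ := pt_qlist h.h0 h.h0b h.hl h.hlb h.hc
  unfold topTable
  have g0 : PT (fun q : {q : α × Query // q.2 ∈ qlist (P q.1).l0 (P q.1).ls} => q.1.1) :=
    PT.id.subtypeVal.fst
  have g1 : PT (fun q : {q : α × Query // q.2 ∈ qlist (P q.1).l0 (P q.1).ls} => q.1.2) :=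
    PT.id.subtypeVal.snd
  have g := h.comp g0
  have hF : ∀ q : {q : α × Query // q.2 ∈ qlist (P q.1).l0 (P q.1).ls},
      IsF (P q.1.1).ls.length q.1.2.1 := fun q => ⟨_, le_rfl, (mem_qlist.1 q.2).1⟩
  obtain ⟨s1, s2⟩ := pt_qSer g1 h2.mem g.hk hF
  refine h1.map_mem (PT.pair g1 (pt_rnd g.hK g.hKb (PTC.div (PTC.sub ?_ ?_) ?_)))
  · exact ptc_estAvg g.hY (hp.comp g0) g.hT g.hN g.hNb g.hH g.hHb s1 s2 (hτ.comp g0)
  · exact ptc_full g.hY g.hY' (hw.comp g0) g1 h2.mem g.hk hF
  · exact (ptc_ev g.hY g1.snd h2.mem.snd).pow (hw.comp g0).length (PB.length (hw.comp g0))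

lemma pt_nextBit (h : ParPT P) (hn : PT n) (hnb : PB n) (hp : PTR p) (hτ : PT τ) (hw : PT w) :
    PT (fun a => nextBit (P a) (n a) (p a) (τ a) (w a)) := by
  unfold nextBit
  refine PT.real_decide_lt (by fun_prop) (PTR.re (ptc_look ?_ ?_))
  · exact pt_descend h.hY h.hYb h.hY' hn hnb h.h0 h.h0b hw h.hl h.hlb h.hc h.hk
      (pt_topTable h hp hτ hw)
  · exact (PT.const _).pair (h.h0.pair (PT.const _))

lemma pt_decodeP (h : ParPT P) (hn : PT n) (hnb : PB n) (hp : PTR p) (hτ : PT τ) :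
    PT (fun a => decodeP (P a) (n a) (p a) (τ a)) := by
  unfold decodeP
  have g0 : PT (fun q : α × List Bool × ℕ => q.1) := PT.id.fst
  refine PT.foldl_add (fun _ => 6) (PT.id.snd.fst.append (PT.cons ?_ (PT.const [])))
    (hn.range hnb) (PT.const []) (PB.const 6) fun a acc x _ => ?_
  · exact pt_nextBit (h.comp g0) (hn.comp g0) (hnb.comp g0) (hp.comp g0) (hτ.comp g0) PT.id.snd.fst
  · simp [sz_boolList]; omega

end Crest.Agent.R300.UB
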