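import Crest.Agent.R300.UBDefs

set_option autoImplicit false

noncomputable section

namespace Crest.Agent.R300.UB

open Complex Finset Crest.Agent.Lib.PT Crest.TraceRecon Crest.FinProb

/-! Validity of the schedule. -/

variable {n : ℕ} {p : ℚ}

theorem sch_size_le_half (m : ℕ) : Nat.size m ≤ m / 2 + 2 := by
  rw [Nat.size_le, pow_add]
  have := Nat.lt_two_pow_self (n := m / 2)
  omega

theorem sch_two_pow_size {m : ℕ} (h : 0 < m) : 2 ^ Nat.size m ≤ 2 * m := by
  have h1 : 0 < Nat.size m := Nat.size_pos.2 h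
  obtain ⟨k, hk⟩ : ∃ k, Nat.size m = k + 1 := ⟨_, (Nat.succ_pred_eq_of_pos h1).symm⟩
  have : 2 ^ k ≤ m := Nat.lt_size.1 (by omega)
  rw [hk, pow_succ]; omega

theorem sch_gQ_pow (hn : 2 ≤ n) : 2 ^ gQ n p ≤ n := by
  unfold gQ
  by_cases h : min ⌊1 / (1 - p)⌋₊ n = 0
  · rw [h]; simp; omega
  · exact (Nat.pow_log_le_self 2 h).trans (min_le_right _ _)

theorem sch_gQ_lt (hn : 2 ≤ n) : gQ n p < Nat.size n := Nat.lt_size.2 (sch_gQ_pow hn)

theorem sch_size_lt : Nat.size n < 2 ^ xx n p * (gQ n p + 1) :=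
  (Nat.div_lt_iff_lt_mul (Nat.succ_pos _)).1 (Nat.lt_size_self _)

theorem sch_W_le (hn : 2 ≤ n) : 2 ^ xx n p * (gQ n p + 1) ≤ 2 * Nat.size n := by
  have h : 0 < Nat.size n / (gQ n p + 1) := Nat.div_pos (sch_gQ_lt hn) (Nat.succ_pos _)
  calc 2 ^ xx n p * (gQ n p + 1) ≤ 2 * (Nat.size n / (gQ n p + 1)) * (gQ n p + 1) :=
        Nat.mul_le_mul_right _ (sch_two_pow_size h)
    _ ≤ 2 * Nat.size n := by
        rw [mul_assoc]; exact Nat.mul_le_mul_left _ (Nat.div_mul_le_self _ _)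

/-- the doubling base of the high levels -/
def schB (n : ℕ) (p : ℚ) : ℕ := 16 + J0 * dl n p + gQ n p - gZ n p

theorem sch_B : schB n p + gZ n p = 16 + J0 * dl n p + gQ n p ∧ gQ n p + 600 ≤ 2 * schB n p := by
  have h := sch_size_le_half (G0 n p)
  simp only [schB, gZ, kk, J0, G0, dl] at h ⊢
  omega

theorem sch_dl : 6 ≤ dl n p := by unfold dl; omega

theorem sch_gs_low {j : ℕ} (h : j ≤ J0) : gs n p j = 16 + j * dl n p := if_pos h

theorem sch_gs_zero : gs n p 0 = 16 := by rw [sch_gs_low (Nat.zero_le _)]; simp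

theorem sch_gs_high {j : ℕ} (h : J0 ≤ j) :
    gs n p j + gQ n p = 2 ^ (j - J0) * schB n p + gZ n p := by
  obtain ⟨h1, h2⟩ := sch_B (n := n) (p := p)
  rcases h.eq_or_lt with rfl | h
  · rw [sch_gs_low le_rfl]; simp; omega
  · have e : gs n p j = 2 ^ (j - J0) * schB n p + gZ n p - gQ n p := if_neg (not_le.2 h)
    have h3 : 2 ^ 1 ≤ 2 ^ (j - J0) := Nat.pow_le_pow_right (by norm_num) (by omega)
    have h4 := Nat.mul_le_mul_right (schB n p) h3
    omega

theorem sch_gs_succ_low {j : ℕ} (h : j < J0) : gs n p (j + 1) = gs n p j + dl n p := by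
  rw [sch_gs_low (j := j + 1) h, sch_gs_low h.le]; ring

theorem sch_gs_succ_high {j : ℕ} (h : J0 ≤ j) :
    gs n p (j + 1) + gZ n p = 2 * gs n p j + gQ n p ∧ gs n p j + 300 ≤ gs n p (j + 1) := by
  have h1 := sch_gs_high (n := n) (p := p) h
  have h2 := sch_gs_high (n := n) (p := p) (Nat.le_succ_of_le h)
  rw [show j.succ - J0 = (j - J0) + 1 by omega, pow_succ, mul_right_comm] at h2
  have h3 := (sch_B (n := n) (p := p)).2
  have h4 : 1 * schB n p ≤ 2 ^ (j - J0) * schB n p := Nat.mul_le_mul_right _ Nat.one_le_two_pow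
  simp only [Nat.succ_eq_add_one] at h2
  omega

theorem sch_gs_succ (j : ℕ) : gs n p j + 6 ≤ gs n p (j + 1) := by
  rcases lt_or_ge j J0 with h | h
  · rw [sch_gs_succ_low h]; have := sch_dl (n := n) (p := p); omega
  · have := (sch_gs_succ_high (n := n) (p := p) h).2; omega

theorem sch_gs_mono : Monotone (gs n p) :=
  monotone_nat_of_le_succ fun j => by have := sch_gs_succ (n := n) (p := p) j; omega

theorem sch_gs_ge (j : ℕ) : 16 ≤ gs n p j := sch_gs_zero (n := n) (p := p) ▸ sch_gs_mono (Nat.zero_le j)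

theorem sch_gs_le_low {j : ℕ} (h : j ≤ J0) : gs n p j ≤ 2 ^ j * (16 + dl n p) := by
  rw [sch_gs_low h, mul_add]
  have h1 : j ≤ 2 ^ j := Nat.lt_two_pow_self.le
  have h2 : 1 ≤ 2 ^ j := Nat.one_le_two_pow
  have := Nat.mul_le_mul_right (dl n p) h1
  omega

theorem sch_gs_le (j : ℕ) : gs n p j + gQ n p ≤ 2 ^ j * G0 n p := by
  induction j with
  | zero => rw [sch_gs_zero]; unfold G0; omega
  | succ j ih =>
    rcases lt_or_ge j J0 with h | h
    · have h1 := sch_gs_le_low (n := n) (p := p) (j := j + 1) h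
      have h2 : 1 * gQ n p ≤ 2 ^ (j + 1) * gQ n p := Nat.mul_le_mul_right _ Nat.one_le_two_pow
      unfold G0
      rw [mul_add]; omega
    · have := (sch_gs_succ_high (n := n) (p := p) h).1
      rw [pow_succ, mul_right_comm]; omega

theorem sch_top (hn : 2 ≤ n) : n ≤ 2 ^ gs n p (kk n p - 1) := by
  have h1 := sch_gs_high (n := n) (p := p) (j := kk n p - 1) (by unfold kk; omega)
  rw [show kk n p - 1 - J0 = xx n p + 2 by unfold kk; omega, pow_add] at h1
  have h2 := (sch_B (n := n) (p := p)).2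
  have h3 := sch_size_lt (n := n) (p := p)
  have h4 := sch_gQ_lt (p := p) hn
  have h5 : 2 ^ xx n p * (gQ n p + 1) ≤ 2 ^ xx n p * (2 * schB n p) :=
    Nat.mul_le_mul_left _ (by omega)
  have h6 : 2 ^ xx n p * 2 ^ 2 * schB n p = 2 * (2 ^ xx n p * (2 * schB n p)) := by ring
  exact (Nat.lt_size_self n).le.trans (Nat.pow_le_pow_right (by norm_num) (by omega))

/-! ### accuracies -/

theorem sch_four_pow (a : ℕ) : 4 ^ a = 2 ^ (2 * a) := by rw [pow_mul]; norm_num

theorem sch_omOf_le {g eP m : ℕ} (h : 128 * (eP + 65 + 4 * g) < 2 ^ m) : 2 * omOf g eP ≤ m + 1 := by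
  have := Nat.size_le.2 h
  unfold omOf; omega

theorem sch_hom (g eP : ℕ) : 128 * (eP + 65 + 4 * g) ≤ 4 ^ omOf g eP := by
  have h := Nat.lt_size_self (128 * (eP + 65 + 4 * g))
  have h2 : 2 ^ Nat.size (128 * (eP + 65 + 4 * g)) ≤ 2 ^ (2 * omOf g eP) :=
    Nat.pow_le_pow_right (by norm_num) (by unfold omOf; omega)
  rw [← sch_four_pow] at h2
  omega

theorem sch_four_pow_om (g eP : ℕ) : 4 ^ omOf g eP ≤ 512 * (eP + 65 + 4 * g) := by
  have h := sch_two_pow_size (m := 128 * (eP + 65 + 4 * g)) (by omega)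
  have h2 : 2 ^ (2 * omOf g eP) ≤ 2 ^ (Nat.size (128 * (eP + 65 + 4 * g)) + 1) :=
    Nat.pow_le_pow_right (by norm_num) (by unfold omOf; omega)
  rw [← sch_four_pow, pow_succ] at h2
  omega

theorem sch_Es_succ (j : ℕ) : Es n p (j + 1) = ePs n p j + 75 + 8 * gs n p j + 4 * oms n p j := rfl

theorem sch_ePs_zero : ePs n p 0 = 582 := by simp [ePs, ePof, sch_gs_zero, Es]

theorem sch_oms_zero : oms n p 0 = 9 := by
  have h : Nat.size 91008 = 17 :=
    le_antisymm (Nat.size_le.2 (by norm_num)) (Nat.lt_size.2 (by norm_num))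
  simp [oms, omOf, sch_ePs_zero, sch_gs_zero, h]

theorem sch_Es_one : Es n p 1 = 821 := by
  rw [sch_Es_succ, sch_ePs_zero, sch_oms_zero, sch_gs_zero]

theorem sch_ePs_succ (j : ℕ) : ePs n p (j + 1) =
    gs n p (j + 1) + 6 + (39 * (Es n p (j + 1) + gs n p (j + 1) + 10) + 4) / 5 := by
  simp [ePs, ePof]

theorem sch_step {a E eP : ℕ} (ha : 9 ≤ a) (hE : E ≤ 4 ^ a)
    (heP : eP = 13 + a + 6 + (39 * (E + (13 + a) + 10) + 4) / 5) :
    omOf (13 + a) eP ≤ a + 6 ∧ eP + 75 + 8 * (13 + a) + 4 * omOf (13 + a) eP ≤ 4 ^ (a + 3) := by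
  have h1 : 512 * (a + 1) ≤ 4 ^ a := by
    have h2 : a + 1 ≤ 2 ^ a := Nat.lt_two_pow_self
    have h3 : 2 ^ 9 ≤ 2 ^ a := Nat.pow_le_pow_right (by norm_num) ha
    calc 512 * (a + 1) ≤ 2 ^ a * 2 ^ a := Nat.mul_le_mul h3 h2
      _ = 4 ^ a := by rw [← mul_pow]; norm_num
  have h4 : 2 * omOf (13 + a) eP ≤ 2 * (a + 6) + 1 := by
    refine sch_omOf_le ?_
    rw [← sch_four_pow, pow_add]
    omega
  refine ⟨by omega, ?_⟩
  rw [pow_add]
  omega

theorem sch_inv (j : ℕ) : Es n p (j + 1) ≤ 4 ^ (gs n p (j + 1) - 13) ∧ oms n p j + 7 ≤ gs n p j := by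
  induction j with
  | zero =>
    rw [zero_add, sch_Es_one, sch_oms_zero, sch_gs_zero]
    have h := sch_gs_succ (n := n) (p := p) 0
    rw [sch_gs_zero, zero_add] at h
    have : 4 ^ 9 ≤ 4 ^ (gs n p 1 - 13) := Nat.pow_le_pow_right (by norm_num) (by omega)
    omega
  | succ j ih =>
    have h0 := sch_gs_succ (n := n) (p := p) j
    have h1 := sch_gs_ge (n := n) (p := p) j
    have h2 := sch_gs_succ (n := n) (p := p) (j + 1)
    obtain ⟨a, ha⟩ : ∃ a, gs n p (j + 1) = 13 + a := ⟨gs n p (j + 1) - 13, by omega⟩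
    have hE := ih.1
    rw [ha, Nat.add_sub_cancel_left] at hE
    have h3 := sch_ePs_succ (n := n) (p := p) j
    rw [ha] at h3
    obtain ⟨h4, h5⟩ := sch_step (by omega) hE h3
    have h6 : oms n p (j + 1) = omOf (13 + a) (ePs n p (j + 1)) := by rw [oms, ha]
    refine ⟨?_, by omega⟩
    rw [sch_Es_succ, h6, ha]
    exact h5.trans (Nat.pow_le_pow_right (by norm_num) (by omega))

theorem sch_hg (j : ℕ) : oms n p j + 7 ≤ gs n p j := (sch_inv j).2

theorem sch_Es_le_ePs (j : ℕ) : Es n p j ≤ ePs n p j := by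
  unfold ePs ePof; split_ifs <;> omega

theorem sch_Es_mono : Monotone (Es n p) :=
  monotone_nat_of_le_succ fun j => by
    have := sch_Es_le_ePs (n := n) (p := p) j
    rw [sch_Es_succ]; omega

theorem sch_oms_mono : Monotone (oms n p) :=
  monotone_nat_of_le_succ fun j => by
    have h1 := sch_Es_le_ePs (n := n) (p := p) (j + 1)
    have h2 := sch_gs_succ (n := n) (p := p) j
    rw [sch_Es_succ] at h1
    have : Nat.size (128 * (ePs n p j + 65 + 4 * gs n p j)) ≤
        Nat.size (128 * (ePs n p (j + 1) + 65 + 4 * gs n p (j + 1))) := Nat.size_le_size (by omega)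
    unfold oms omOf; omega

theorem sch_oms_ge (j : ℕ) : 9 ≤ oms n p j :=
  sch_oms_zero (n := n) (p := p) ▸ sch_oms_mono (Nat.zero_le j)

/-- geometric growth of the accuracies with ratio `39/5` -/
theorem sch_Es_le {G : ℕ} (hG : 22 ≤ G) (j : ℕ) (h : ∀ i ≤ j, gs n p i ≤ 2 ^ i * G) :
    5 ^ (j + 1) * (Es n p (j + 1) + 6 * (2 ^ (j + 1) * G)) ≤ 7 * 39 ^ (j + 1) * G := by
  induction j with
  | zero => rw [zero_add, sch_Es_one]; omega
  | succ j ih =>
    have h1 := ih fun i hi => h i (by omega)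
    have h2 := h (j + 1) le_rfl
    have h3 := sch_hg (n := n) (p := p) (j + 1)
    have h4 := sch_ePs_succ (n := n) (p := p) j
    have h5 : 1 * G ≤ 2 ^ (j + 1) * G := Nat.mul_le_mul_right _ Nat.one_le_two_pow
    have h6 : 5 * (Es n p (j + 1 + 1) + 6 * (2 ^ (j + 1 + 1) * G)) ≤
        39 * (Es n p (j + 1) + 6 * (2 ^ (j + 1) * G)) := by
      rw [sch_Es_succ (j + 1), pow_succ 2 (j + 1), mul_right_comm _ 2 G]
      omega
    calc 5 ^ (j + 1 + 1) * (Es n p (j + 1 + 1) + 6 * (2 ^ (j + 1 + 1) * G))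
        = 5 ^ (j + 1) * (5 * (Es n p (j + 1 + 1) + 6 * (2 ^ (j + 1 + 1) * G))) := by ring
      _ ≤ 5 ^ (j + 1) * (39 * (Es n p (j + 1) + 6 * (2 ^ (j + 1) * G))) := Nat.mul_le_mul_left _ h6
      _ = 39 * (5 ^ (j + 1) * (Es n p (j + 1) + 6 * (2 ^ (j + 1) * G))) := by ring
      _ ≤ 39 * (7 * 39 ^ (j + 1) * G) := Nat.mul_le_mul_left _ h1
      _ = 7 * 39 ^ (j + 1 + 1) * G := by ring

theorem sch_Es_le8 {G : ℕ} (hG : 22 ≤ G) (j : ℕ) (h : ∀ i ≤ j, gs n p i ≤ 2 ^ i * G) :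
    Es n p (j + 1) ≤ 7 * 8 ^ (j + 1) * G := by
  have h1 := sch_Es_le hG j h
  have h2 : 39 ^ (j + 1) ≤ 5 ^ (j + 1) * 8 ^ (j + 1) := by
    rw [← mul_pow]; exact Nat.pow_le_pow_left (by norm_num) _
  refine Nat.le_of_mul_le_mul_left (c := 5 ^ (j + 1)) ?_ (by positivity)
  calc 5 ^ (j + 1) * Es n p (j + 1) ≤ 5 ^ (j + 1) * (Es n p (j + 1) + 6 * (2 ^ (j + 1) * G)) :=
        Nat.mul_le_mul_left _ (Nat.le_add_right _ _)
    _ ≤ 7 * 39 ^ (j + 1) * G := h1
    _ ≤ 7 * (5 ^ (j + 1) * 8 ^ (j + 1)) * G := by gcongr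
    _ = 5 ^ (j + 1) * (7 * 8 ^ (j + 1) * G) := by ring

theorem sch_G0_ge : 22 ≤ G0 n p := by unfold G0 dl; omega

theorem sch_gs_le' (j : ℕ) : gs n p j ≤ 2 ^ j * G0 n p := by
  have := sch_gs_le (n := n) (p := p) j; omega

theorem sch_om_high {j : ℕ} (h : j < kk n p) :
    2 * oms n p j ≤ 11 + 3 * kk n p + Nat.size (G0 n p) := by
  have h1 := sch_Es_le8 (n := n) (p := p) sch_G0_ge j fun i _ => sch_gs_le' i
  have h2 : 8 ^ (j + 1) ≤ 8 ^ kk n p := Nat.pow_le_pow_right (by norm_num) h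
  have h3 := Nat.lt_size_self (G0 n p)
  have h4 : 7 * 8 ^ (j + 1) * G0 n p ≤ 7 * (8 ^ kk n p * 2 ^ Nat.size (G0 n p)) := by
    rw [mul_assoc]; gcongr
  have h5 : 0 < 8 ^ kk n p * 2 ^ Nat.size (G0 n p) := by positivity
  have := sch_omOf_le (g := gs n p j) (eP := ePs n p j) (m := 10 + 3 * kk n p + Nat.size (G0 n p)) (by
    rw [pow_add, pow_add, pow_mul, mul_assoc]
    rw [sch_Es_succ] at h1
    norm_num
    omega)
  unfold oms; omega

/-! ### the grid -/

theorem sch_eY_ge {j : ℕ} (h : j < kk n p) : 8 * gs n p j + 75 ≤ eY n p := by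
  have h1 := sch_Es_mono (n := n) (p := p) (show j + 1 ≤ kk n p from h)
  rw [sch_Es_succ] at h1
  unfold eY; omega

theorem sch_div {a e : ℕ} (h : a ≤ e) : 2 ^ e / 2 ^ a = 2 ^ (e - a) := Nat.pow_div h (by norm_num)

theorem sch_lb {j : ℕ} (h : j < kk n p) : (lev n p j).lb = 2 ^ (eY n p - (gs n p j + 5)) :=
  sch_div (by have := sch_eY_ge h; omega)

theorem sch_kS {j : ℕ} (h : j < kk n p) : kSs n p j = 2 ^ (oms n p j + eY n p - gs n p j) := by
  have := sch_eY_ge h
  rw [kSs, YY, sch_div (by omega), ← pow_add]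
  congr 1; omega

theorem sch_rs {j : ℕ} (h : j < kk n p) : rs n p j = 2 ^ (eY n p - 2 * (gs n p j + 1)) := by
  have := sch_eY_ge h
  rw [rs, if_pos h, YY, show 4 = 2 ^ 2 by norm_num, ← pow_mul, sch_div (by omega)]

theorem sch_kS_le {j : ℕ} (h : j < kk n p) : 128 * kSs n p j ≤ YY n p := by
  have h1 := sch_eY_ge h
  have h2 := sch_hg (n := n) (p := p) j
  rw [sch_kS h, YY, show 128 = 2 ^ 7 by norm_num, ← pow_add]
  exact Nat.pow_le_pow_right (by norm_num) (by omega)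

theorem sch_kF_succ {j : ℕ} (h : j + 1 < kk n p) :
    (lev n p (j + 1)).kF ≤ 2 ^ (7 + oms n p (j + 1) + eY n p - gs n p j) := by
  have e : (lev n p (j + 1)).kF = 100 * kSs n p j + kSs n p (j + 1) := by simp [lev]
  have h1 := sch_eY_ge h
  have h2 := sch_gs_succ (n := n) (p := p) j
  have h3 := sch_oms_mono (n := n) (p := p) (Nat.le_succ j)
  have h4 : kSs n p j ≤ 2 ^ (oms n p (j + 1) + eY n p - gs n p j) := by
    rw [sch_kS (by omega)]; exact Nat.pow_le_pow_right (by norm_num) (by simp only [Nat.succ_eq_add_one] at h3; omega)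
  have h5 : kSs n p (j + 1) ≤ 2 ^ (oms n p (j + 1) + eY n p - gs n p j) := by
    rw [sch_kS h]; exact Nat.pow_le_pow_right (by norm_num) (by omega)
  rw [e, show 7 + oms n p (j + 1) + eY n p - gs n p j = 7 + (oms n p (j + 1) + eY n p - gs n p j) by
    omega, pow_add]
  omega

theorem sch_levs_succ (j : ℕ) : levs n p (j + 1) = lev n p j :: levs n p j := by
  simp [levs, List.range_succ]

theorem sch_levs_length (j : ℕ) : (levs n p j).length = j := by simp [levs]

theorem sch_mem_levs {j : ℕ} {L : Lev} (h : L ∈ levs n p j) : ∃ i < j, L = lev n p i := by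
  simp only [levs, List.mem_reverse, List.mem_map, List.mem_range] at h
  obtain ⟨i, hi, rfl⟩ := h
  exact ⟨i, hi, rfl⟩

theorem sch_mem_contour {lb kS : ℕ} {z : Mono} (h : z ∈ contour lb kS) :
    z.2.natAbs ≤ kS ∧ z.1 = lb + (10 * z.2.natAbs + 20) / 21 := by
  simp only [contour, intRange, List.mem_map, List.mem_range] at h
  obtain ⟨_, ⟨i, hi, rfl⟩, rfl⟩ := h
  exact ⟨by simp only; omega, rfl⟩

theorem sch_eP_aux {g E eP : ℕ} (h : eP = g + 6 + (39 * (E + g + 10) + 4) / 5) :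
    5 * (g + 6) + 39 * (E + g + 10) ≤ 5 * eP := by omega

theorem sch_levOK {j : ℕ} (h : j < kk n p) :
    LevOK (YY n p) n (lev n p j) (zsOf (7 * YY n p / 10) (levs n p j)) (Es n p (j + 1)) := by
  have h1 := sch_eY_ge h
  have h2 := sch_hg (n := n) (p := p) j
  have h3 := sch_gs_succ (n := n) (p := p) j
  refine ⟨?_, ?_, ?_, ?_, rfl, ?_, rfl, rfl, sch_hom _ _, h2, ?_, ?_, le_rfl, ?_⟩
  · change rs n p j * 4 ^ (gs n p j + 1) = _
    rw [sch_rs h, show 4 = 2 ^ 2 by norm_num, ← pow_mul, ← pow_add, YY]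
    congr 1; omega
  · change 64 * rs n p (j + 1) ≤ rs n p j
    by_cases h' : j + 1 < kk n p
    · have := sch_eY_ge h'
      rw [sch_rs h, sch_rs h', show 64 = 2 ^ 6 by norm_num, ← pow_add]
      exact Nat.pow_le_pow_right (by norm_num) (by omega)
    · rw [rs, if_neg h']; omega
  · change (lev n p j).lb * 2 ^ (gs n p j + 5) = _
    rw [sch_lb h, ← pow_add, YY]
    congr 1; omega
  · rw [sch_lb h]
    exact le_trans (by norm_num) (Nat.pow_le_pow_right (by norm_num) (show 10 ≤ _ by omega))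
  · change kSs n p j * 2 ^ gs n p j = 2 ^ oms n p j * _
    rw [sch_kS h, YY, ← pow_add, ← pow_add]
    congr 1; omega
  · exact (sch_Es_succ j).ge
  · rw [YY, eY, pow_add]
    exact Nat.mul_le_mul (Nat.pow_le_pow_right (by norm_num) (sch_Es_mono h)) (Nat.lt_size_self n).le
  · intro z hz
    cases j with
    | zero =>
      have e : z = (7 * YY n p / 10, 0) := by simpa [zsOf, levs] using hz
      refine ⟨?_, Or.inr ⟨e, ?_⟩⟩
      · have : kTh (YY n p) z ≤ YY n p := min_le_right _ _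
        simpa [lev] using this
      · simp [lev, ePs, ePof]
    | succ j =>
      have h' : j < kk n p := by omega
      rw [sch_levs_succ] at hz
      obtain ⟨a1, a2⟩ := sch_mem_contour (show z ∈ contour (lev n p j).lb (kSs n p j) from hz)
      have a3 := sch_kS_le h'
      have a4 := sch_eY_ge h'
      have a5 := sch_oms_ge (n := n) (p := p) j
      have a6 : 1024 ≤ (lev n p j).lb := by
        rw [sch_lb h']
        exact le_trans (by norm_num) (Nat.pow_le_pow_right (by norm_num) (show 10 ≤ _ by omega))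
      have a7 : 4 * (lev n p j).lb ≤ kSs n p j := by
        rw [sch_lb h', sch_kS h', show 4 = 2 ^ 2 by norm_num, ← pow_add]
        exact Nat.pow_le_pow_right (by norm_num) (by omega)
      have a8 : z.1 ≤ kSs n p j := by omega
      refine ⟨?_, Or.inl ⟨by omega, by omega, by omega, ?_⟩⟩
      · have : kTh (YY n p) z ≤ 100 * z.1 := min_le_left _ _
        have e : (lev n p (j + 1)).kF = 100 * kSs n p j + kSs n p (j + 1) := by simp [lev]
        have e' : (lev n p (j + 1)).kS = kSs n p (j + 1) := rfl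
        omega
      · exact sch_eP_aux (sch_ePs_succ (n := n) (p := p) j)

theorem sch_chainOK (j : ℕ) (h : j ≤ kk n p) :
    ChainOK (YY n p) n (7 * YY n p / 10) (levs n p j) (rs n p j) (Es n p j) := by
  induction j with
  | zero => exact le_rfl
  | succ j ih =>
    rw [sch_levs_succ]
    exact ⟨rfl, sch_levOK h, ih (by omega)⟩

theorem sch_kF_le {j : ℕ} (h : j < kk n p) : (lev n p j).kF ≤ 2 * YY n p := by
  have h1 := sch_kS_le h
  cases j with
  | zero =>
    have e : (lev n p 0).kF = YY n p + kSs n p 0 := by simp [lev]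
    omega
  | succ j =>
    have e : (lev n p (j + 1)).kF = 100 * kSs n p j + kSs n p (j + 1) := by simp [lev]
    have h2 := sch_kS_le (show j < kk n p by omega)
    omega

theorem sch_hD {j : ℕ} (h : j < kk n p) : (lev n p j).kF ≤ DD n p * (lev n p j).lb ∨
    4 * (lev n p j).kF ^ 2 * 4 ^ kk n p ≤ 2 ^ gQ n p * (lev n p j).lb * YY n p := by
  have h1 := sch_eY_ge h
  cases j with
  | zero =>
    left
    refine (sch_kF_le h).trans ?_
    rw [sch_lb h, DD, YY, ← pow_add, ← pow_succ', sch_gs_zero]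
    rw [sch_gs_zero] at h1
    exact Nat.pow_le_pow_right (by norm_num) (by omega)
  | succ j =>
    have h2 := sch_kF_succ h
    have h3 := sch_gs_succ (n := n) (p := p) j
    rcases lt_or_ge j J0 with hj | hj
    · left
      refine h2.trans ?_
      have h4 := sch_gs_succ_low (n := n) (p := p) hj
      have h5 := sch_oms_mono (n := n) (p := p) (show j + 1 ≤ J0 from hj)
      rw [sch_lb h, DD, ← pow_add]
      exact Nat.pow_le_pow_right (by norm_num) (by omega)
    · right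
      have h4 := (sch_gs_succ_high (n := n) (p := p) hj).1
      have h5 := sch_om_high h
      calc 4 * (lev n p (j + 1)).kF ^ 2 * 4 ^ kk n p
          ≤ 4 * (2 ^ (7 + oms n p (j + 1) + eY n p - gs n p j)) ^ 2 * 4 ^ kk n p := by gcongr
        _ = 2 ^ (2 + (7 + oms n p (j + 1) + eY n p - gs n p j) * 2 + 2 * kk n p) := by
          rw [pow_add, pow_add, pow_mul, pow_mul]; norm_num
        _ ≤ 2 ^ (gQ n p + (eY n p - (gs n p (j + 1) + 5)) + eY n p) :=
          Nat.pow_le_pow_right (by norm_num) (by unfold gZ at h4; omega)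
        _ = 2 ^ gQ n p * (lev n p (j + 1)).lb * YY n p := by rw [sch_lb h, YY, pow_add, pow_add]

theorem par_ok {n : ℕ} {p : ℚ} (hn : 2 ≤ n) (hp : 0 < p) (hp1 : p < 1) :
    ParOK n (p : ℝ) (par n p) := by
  have hk : kk n p = (kk n p - 1) + 1 := by unfold kk; omega
  refine ⟨rfl, ?_, ⟨lev n p (kk n p - 1), levs n p (kk n p - 1), ?_, sch_top hn, le_rfl⟩, le_rfl, ?_,
    ⟨DD n p, 2 ^ gQ n p, ?_, ?_, ?_, ?_⟩, ?_, ?_⟩
  · have := sch_chainOK (n := n) (p := p) (kk n p) le_rfl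
    rwa [show rs n p (kk n p) = 0 from if_neg (lt_irrefl _)] at this
  · change levs n p (kk n p) = _
    rw [← sch_levs_succ, ← hk]
  · change 4 ^ kk n p = 4 ^ (levs n p (kk n p)).length
    rw [sch_levs_length]
  · exact le_trans (by norm_num) (Nat.pow_le_pow_right (by norm_num) (show 2 ≤ _ by omega))
  · have h0 : (0 : ℚ) < 1 - p := by linarith
    have h1 : (1 : ℚ) ≤ 1 / (1 - p) := by rw [le_div_iff₀ h0]; linarith
    have h2 : 1 ≤ ⌊1 / (1 - p)⌋₊ := Nat.le_floor (by simpa using h1)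
    have h3 : 2 ^ gQ n p ≤ ⌊1 / (1 - p)⌋₊ :=
      (Nat.pow_log_le_self 2 (by omega)).trans (min_le_left _ _)
    have h4 : ((2 ^ gQ n p : ℕ) : ℚ) ≤ 1 / (1 - p) :=
      (Nat.cast_le.2 h3).trans (Nat.floor_le (by positivity))
    rw [le_div_iff₀ h0] at h4
    exact_mod_cast h4
  · have h1 : (2 + 2 * (DD n p : ℚ)) / p ≤ TT n p := Nat.le_ceil _
    rw [div_le_iff₀ hp] at h1
    change (2 + 2 * (DD n p : ℝ)) ≤ (TT n p : ℝ) * p
    exact_mod_cast h1
  · intro L hL
    obtain ⟨j, hj, rfl⟩ := sch_mem_levs hL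
    exact sch_hD hj
  · change 2 * TT n p * (Nat.size n + 4 ^ kk n p * (2 * (levs n p (kk n p)).length + 6) + _ + _ + 1) ≤ _
    rw [sch_levs_length]
    exact le_rfl
  · intro L hL
    obtain ⟨j, hj, rfl⟩ := sch_mem_levs hL
    exact sch_kF_le hj

end Crest.Agent.R300.UB
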