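import Crest.Agent.R300.PTD5
import Crest.Agent.R300.UBSched

/-! Row 300, polynomial time: the schedule. -/

set_option autoImplicit false

noncomputable section

namespace Crest.Agent.R300.UB

open Complex Finset Crest.Agent.Lib.PT

section num

variable {n : ℕ} {p : ℚ}

lemma eNeed_ge : (17 + 3 * eY n p) * kk n p + eY n p + (par n p).N +
    (kk n p + 1) * 4 ^ kk n p ≤ eNeed n p := by
  have h : (kk n p + 1) * 4 ^ kk n p ≤ (11 * kk n p + 4) * 4 ^ kk n p :=
    Nat.mul_le_mul_right _ (by omega)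
  have e1 : (par n p).ls.length = kk n p := sch_levs_length _
  have e2 : (par n p).H = 4 ^ kk n p := rfl
  rw [eNeed, eNeedP, e1, e2]
  omega

lemma J0_lt_kk : J0 < kk n p := by unfold kk; omega

lemma Es_le_eY {j : ℕ} (h : j ≤ kk n p) : Es n p j ≤ eY n p :=
  (sch_Es_mono h).trans (Nat.le_add_right _ _)

lemma ePs_le_eY {j : ℕ} (h : j < kk n p) : ePs n p j ≤ eY n p := by
  have h1 := Es_le_eY (n := n) (p := p) (j := j + 1) h
  rw [sch_Es_succ] at h1
  omega

lemma mag_lev_le {j : ℕ} (h : j < kk n p) :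
    mag (lev n p j) ≤ (6 + 2 * eY n p) * YY n p + 7 * eY n p + 200 := by
  have h1 := sch_eY_ge h
  have h2 := sch_hg (n := n) (p := p) j
  have h3 := ePs_le_eY h
  have h4 := sch_kS_le h
  have h5 := sch_kF_le h
  have h6 := Es_le_eY h.le
  have h7 : ∀ i, rs n p i ≤ YY n p := fun i => by
    unfold rs; split_ifs
    · exact Nat.div_le_self _ _
    · exact Nat.zero_le _
  have h8 := h7 j
  have h9 := h7 (j + 1)
  have h10 : YY n p / 2 ^ (gs n p j + 5) ≤ YY n p := Nat.div_le_self _ _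
  have h11 : 2 * (gs n p j + 5) * YY n p ≤ 2 * eY n p * YY n p :=
    Nat.mul_le_mul_right _ (by omega)
  rw [mag_lev, add_mul]
  simp only [lev] at h5 ⊢
  omega

lemma hundred_le_YY : 100 ≤ YY n p := by
  have h := sch_eY_ge (n := n) (p := p) J0_lt_kk
  calc 100 ≤ 2 ^ 7 := by norm_num
    _ ≤ _ := Nat.pow_le_pow_right (by norm_num) (by omega)

end num

variable {α β : Type} [Enc α] [Enc β] {n j : α → ℕ} {p : α → ℚ}

@[fun_prop] lemma pt_gQ (hn : PT n) (hp : PT p) : PT (fun a => gQ (n a) (p a)) := by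
  unfold gQ; fun_prop

@[fun_prop] lemma pt_xx (hn : PT n) (hp : PT p) : PT (fun a => xx (n a) (p a)) := by
  unfold xx; fun_prop

@[fun_prop] lemma pb_xx (hn : PT n) (hp : PT p) : PB (fun a => xx (n a) (p a)) := by
  unfold xx; fun_prop

@[fun_prop] lemma pt_dl (hn : PT n) (hp : PT p) : PT (fun a => dl (n a) (p a)) := by
  unfold dl; fun_prop

@[fun_prop] lemma pb_dl (hn : PT n) (hp : PT p) : PB (fun a => dl (n a) (p a)) := by
  unfold dl; fun_prop

@[fun_prop] lemma pt_kk (hn : PT n) (hp : PT p) : PT (fun a => kk (n a) (p a)) := by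
  unfold kk; fun_prop

@[fun_prop] lemma pb_kk (hn : PT n) (hp : PT p) : PB (fun a => kk (n a) (p a)) := by
  unfold kk; fun_prop

@[fun_prop] lemma pt_G0 (hn : PT n) (hp : PT p) : PT (fun a => G0 (n a) (p a)) := by
  unfold G0; fun_prop

@[fun_prop] lemma pt_gZ (hn : PT n) (hp : PT p) : PT (fun a => gZ (n a) (p a)) := by
  unfold gZ; fun_prop

@[fun_prop] lemma pt_gs (hn : PT n) (hp : PT p) (hj : PT j) (hb : PB j) :
    PT (fun a => gs (n a) (p a) (j a)) := by
  have h0 : PT (fun _ : α => J0) := PT.const _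
  have h1 := pt_dl hn hp
  have h2 := pt_gQ hn hp
  have h3 := pt_gZ hn hp
  exact PT.ite (hj.decide_le h0) ((PT.const 16).add (hj.mul h1))
    (((((PT.const 2).pow (hj.sub h0) (hb.sub _)).mul
      ((((PT.const 16).add (h0.mul h1)).add h2).sub h3)).add h3).sub h2)

@[fun_prop] lemma pt_ePof {g E : α → ℕ} (hj : PT j) (hg : PT g) (hE : PT E) :
    PT (fun a => ePof (j a) (g a) (E a)) := by
  unfold ePof; fun_prop

@[fun_prop] lemma pt_omOf {g E : α → ℕ} (hg : PT g) (hE : PT E) :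
    PT (fun a => omOf (g a) (E a)) := by
  unfold omOf; fun_prop

lemma pt_Es (hn : PT n) (hp : PT p) (hj : PT j) (hb : PB j)
    (hE : PB (fun a => Es (n a) (p a) (j a))) : PT (fun a => Es (n a) (p a) (j a)) := by
  set f : α → ℕ → ℕ → ℕ := fun a i E => ePof i (gs (n a) (p a) (min i (j a))) E + 75 +
    8 * gs (n a) (p a) (min i (j a)) + 4 * omOf (gs (n a) (p a) (min i (j a)))
      (ePof i (gs (n a) (p a) (min i (j a))) E) with hf
  have key : ∀ a i, i ≤ j a → (Nat.rec 2 (f a) i : ℕ) = Es (n a) (p a) i := fun a i hi => by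
    induction i with
    | zero => rfl
    | succ i ih =>
      change f a i (Nat.rec 2 (f a) i) = _
      rw [ih (by omega), hf, Es]
      simp only [min_eq_left (show i ≤ j a by omega)]
  have hg : PT (fun q : α × ℕ × ℕ => gs (n q.1) (p q.1) (min q.2.1 (j q.1))) :=
    pt_gs (by fun_prop) (by fun_prop) (by fun_prop) (PB.min_right _ (hb.comp PT.id.fst))
  have h1 : PT (fun q : α × ℕ × ℕ => f q.1 q.2.1 q.2.2) := by
    clear key
    simp only [hf]
    have h2 := pt_ePof PT.id.snd.fst hg PT.id.snd.snd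
    exact ((h2.add (PT.const 75)).add ((PT.const 8).mul hg)).add ((PT.const 4).mul (pt_omOf hg h2))
  refine (PT.natRec (ini := fun _ => 2) (fun a => 6 * Es (n a) (p a) (j a) + 1) h1 hj hb (PT.const 2)
    (((PB.const 6).mul hE).add (PB.const 1)) fun a i hi => ?_).congr fun a => (key a _ le_rfl).symm
  rw [key a i hi]
  have h2 := sz_nat_le_self (Es (n a) (p a) i)
  have h3 := sch_Es_mono (n := n a) (p := p a) hi
  omega

lemma pt_eG {ls : α → List Lev} (hl : PT ls) : PT (fun a => eG (ls a)) := by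
  unfold eG
  refine PT.foldr_add (f := fun _ L e => 4 * e + 3 * (5 + L.g))
    (fun q => sz (3 * (5 + q.2.g)) + 30) (by fun_prop) hl (PT.const 0) (by fun_prop)
    fun a e L _ => ?_
  have h1 := sz_add_le (4 * e) (3 * (5 + L.g))
  have h2 := sz_mul_le 4 e
  have h3 : sz (4 : ℕ) = 19 := by rw [sz_nat]; rfl
  simp only
  omega

/-- Inputs for which the number of traces needed is polynomially bounded. -/
structure SchPT (n : α → ℕ) (p : α → ℚ) : Prop where
  hn : PT n
  hp : PT p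
  hE : PB (fun a => 2 ^ eNeed (n a) (p a))

namespace SchPT

lemma comp (h : SchPT n p) {x : β → α} (hx : PT x) : SchPT (fun b => n (x b)) (fun b => p (x b)) :=
  ⟨h.hn.comp hx, h.hp.comp hx, h.hE.comp hx⟩

lemma pb_of_le (h : SchPT n p) {m : α → ℕ} (hm : ∀ a, m a ≤ eNeed (n a) (p a)) : PB m :=
  h.hE.of_le fun a => (hm a).trans Nat.lt_two_pow_self.le

lemma pb_pow (h : SchPT n p) {m : α → ℕ} (hm : ∀ a, m a ≤ eNeed (n a) (p a)) :
    PB (fun a => 2 ^ m a) :=
  h.hE.of_le fun a => Nat.pow_le_pow_right (by norm_num) (hm a)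

lemma pb_eY (h : SchPT n p) : PB (fun a => eY (n a) (p a)) :=
  h.pb_of_le fun a => by have := eNeed_ge (n := n a) (p := p a); omega

lemma pb_YY (h : SchPT n p) : PB (fun a => YY (n a) (p a)) :=
  h.pb_pow fun a => by have := eNeed_ge (n := n a) (p := p a); omega

lemma pt_Es (h : SchPT n p) (hj : PT j) (hlt : ∀ a, j a ≤ kk (n a) (p a)) :
    PT (fun a => Es (n a) (p a) (j a)) :=
  UB.pt_Es h.hn h.hp hj ((pb_kk h.hn h.hp).of_le hlt) (h.pb_eY.of_le fun a => Es_le_eY (hlt a))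

lemma pt_eY (h : SchPT n p) : PT (fun a => eY (n a) (p a)) :=
  (h.pt_Es (pt_kk h.hn h.hp) fun _ => le_rfl).add h.hn.size

lemma pt_YY (h : SchPT n p) : PT (fun a => YY (n a) (p a)) :=
  (PT.const 2).pow h.pt_eY h.pb_eY

lemma pt_gs (h : SchPT n p) (hj : PT j) (hlt : ∀ a, j a ≤ kk (n a) (p a)) :
    PT (fun a => gs (n a) (p a) (j a)) :=
  UB.pt_gs h.hn h.hp hj ((pb_kk h.hn h.hp).of_le hlt)

lemma pb_gs (h : SchPT n p) (hlt : ∀ a, j a < kk (n a) (p a)) :
    PB (fun a => gs (n a) (p a) (j a)) :=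
  h.pb_eY.of_le fun a => by have := sch_eY_ge (hlt a); omega

lemma pt_ePs (h : SchPT n p) (hj : PT j) (hlt : ∀ a, j a ≤ kk (n a) (p a)) :
    PT (fun a => ePs (n a) (p a) (j a)) :=
  pt_ePof hj (h.pt_gs hj hlt) (h.pt_Es hj hlt)

lemma pt_oms (h : SchPT n p) (hj : PT j) (hlt : ∀ a, j a ≤ kk (n a) (p a)) :
    PT (fun a => oms (n a) (p a) (j a)) :=
  pt_omOf (h.pt_gs hj hlt) (h.pt_ePs hj hlt)

lemma pb_oms (h : SchPT n p) (hlt : ∀ a, j a < kk (n a) (p a)) :
    PB (fun a => oms (n a) (p a) (j a)) :=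
  (h.pb_gs hlt).of_le fun a => by have := sch_hg (n := n a) (p := p a) (j a); omega

lemma pt_rs (h : SchPT n p) (hj : PT j) : PT (fun a => rs (n a) (p a) (j a)) := by
  have hk := pt_kk h.hn h.hp
  have h1 : ∀ a, min (j a) (kk (n a) (p a) - 1) < kk (n a) (p a) := fun a => by
    have := J0_lt_kk (n := n a) (p := p a); omega
  have h2 := h.pt_gs (hj.min (hk.sub (PT.const 1))) fun a => (h1 a).le
  refine (PT.ite (hj.decide_lt hk) (h.pt_YY.div ((PT.const 4).pow (h2.add (PT.const 1))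
    ((h.pb_gs h1).add (PB.const 1)))) (PT.const 0)).congr fun a => ?_
  unfold rs
  split_ifs with h3
  · rw [min_eq_left (by omega)]
  · rfl

lemma pt_kSs (h : SchPT n p) (hj : PT j) (hlt : ∀ a, j a < kk (n a) (p a)) :
    PT (fun a => kSs (n a) (p a) (j a)) :=
  ((PT.const 2).pow (h.pt_oms hj fun a => (hlt a).le) (h.pb_oms hlt)).mul
    (h.pt_YY.div ((PT.const 2).pow (h.pt_gs hj fun a => (hlt a).le) (h.pb_gs hlt)))

lemma pt_lev (h : SchPT n p) (hj : PT j) (hlt : ∀ a, j a < kk (n a) (p a)) :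
    PT (fun a => lev (n a) (p a) (j a)) := by
  have hle := fun a => (hlt a).le
  have g1 := h.pt_gs hj hle
  have g2 := h.pb_gs hlt
  have g3 := h.pt_oms hj hle
  have g4 := h.pt_YY
  have g5 := h.pt_kSs hj hlt
  have g6 := h.pt_kSs (hj.sub (PT.const 1)) fun a => (Nat.sub_le _ _).trans_lt (hlt a)
  have g7 := h.pt_ePs hj hle
  have g8 := h.pt_Es hj hle
  have g9 := h.pt_rs hj
  have g10 := h.pt_rs (hj.add (PT.const 1))
  clear hle hlt h
  exact pt_levMk g1 g3 g9 g10 (by fun_prop) (by fun_prop) g5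
    ((PT.ite (hj.decide_eq (PT.const 0)) g4 ((PT.const 100).mul g6)).add g5) (by fun_prop) g7
    (by fun_prop) g8 (by fun_prop)

lemma pt_levs (h : SchPT n p) : PT (fun a => levs (n a) (p a) (kk (n a) (p a))) := by
  have g0 : PT (fun q : {q : α × ℕ // q.2 ∈ List.range (kk (n q.1) (p q.1))} => q.1.1) :=
    PT.id.subtypeVal.fst
  exact (((pt_kk h.hn h.hp).range (pb_kk h.hn h.hp)).map_mem
    ((h.comp g0).pt_lev PT.id.subtypeVal.snd fun q => List.mem_range.1 q.2)).reverse

lemma pm_levs (h : SchPT n p) : PM (fun a => levs (n a) (p a) (kk (n a) (p a))) := by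
  have h1 := h.pb_eY
  have h2 := h.pb_YY
  refine PM.of_forall ((pb_kk h.hn h.hp).of_le fun a => (sch_levs_length _).le)
    (B := fun a => (6 + 2 * eY (n a) (p a)) * YY (n a) (p a) + 7 * eY (n a) (p a) + 200)
    (by fun_prop) fun a L hL => ?_
  obtain ⟨i, hi, rfl⟩ := sch_mem_levs hL
  exact mag_lev_le hi

lemma pt_TT (h : SchPT n p) : PT (fun a => TT (n a) (p a)) := by
  have h1 := h.pt_oms (PT.const J0) fun _ => J0_lt_kk.le
  have h2 := h.pb_oms (j := fun _ => J0) fun _ => J0_lt_kk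
  have h3 := h.hn
  have h4 := h.hp
  unfold TT DD
  fun_prop

lemma pt_Ets (h : SchPT n p) : PT (fun a => Ets (n a) (p a)) := by
  have hk := pt_kk h.hn h.hp
  have h1 : ∀ a, kk (n a) (p a) - 1 < kk (n a) (p a) := fun a => by
    have := J0_lt_kk (n := n a) (p := p a); omega
  exact ((h.pt_Es hk fun _ => le_rfl).add ((PT.const 3).mul ((PT.const 2).pow
    (h.pt_oms (hk.sub (PT.const 1)) fun a => (h1 a).le) (h.pb_oms h1)))).add (PT.const 2)

lemma parPT (h : SchPT n p) : ParPT (fun a => par (n a) (p a)) := by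
  have hk := pt_kk h.hn h.hp
  have hH := (PT.const 4).pow hk (pb_kk h.hn h.hp)
  have hY := h.pt_YY
  have hYb := h.pb_YY
  have hE := h.pt_Es hk fun _ => le_rfl
  refine ⟨hY, hYb, fun _ => hundred_le_YY, ((PT.const 7).mul hY).div (PT.const 10),
    ((PB.const 7).mul hYb).div _, h.pt_levs, h.pm_levs, ?_, ?_,
    (hE.add h.hn.size).add (PT.const 2), h.pb_eY.add (PB.const 2), h.pt_TT, ?_, ?_, hH, ?_⟩
  · refine (h.pb_pow (m := fun a => (17 + 3 * eY (n a) (p a)) * kk (n a) (p a)) fun a => ?_).of_le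
      fun a => ?_
    · have := eNeed_ge (n := n a) (p := p a); omega
    · refine (cg_feats (Y := YY (n a) (p a)) Nat.one_le_two_pow le_rfl fun L hL => ?_).trans_eq
        (by rw [show (par (n a) (p a)).ls.length = _ from sch_levs_length _])
      obtain ⟨i, hi, rfl⟩ := sch_mem_levs hL
      exact sch_kF_le hi
  · refine (h.pb_pow (m := fun a => (kk (n a) (p a) + 1) * 4 ^ kk (n a) (p a)) fun a => ?_).of_le
      fun a => ?_
    · have := eNeed_ge (n := n a) (p := p a); omega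
    · rw [show (par (n a) (p a)).ls.length = _ from sch_levs_length _, big]
  · exact ((PT.const 2).mul h.pt_TT).mul ((((h.hn.size.add (hH.mul (((PT.const 2).mul hk).add
      (PT.const 6)))).add (pt_eG h.pt_levs)).add h.pt_Ets).add (PT.const 1))
  · exact h.pb_of_le fun a => by have := eNeed_ge (n := n a) (p := p a); omega
  · refine h.pb_of_le fun a => ?_
    have h1 := eNeed_ge (n := n a) (p := p a)
    have h2 : 4 ^ kk (n a) (p a) ≤ (kk (n a) (p a) + 1) * 4 ^ kk (n a) (p a) :=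
      Nat.le_mul_of_pos_left _ (Nat.succ_pos _)
    exact h2.trans (by omega)

lemma pb_n (h : SchPT n p) : PB n :=
  (h.pb_pow (m := fun a => Nat.size (n a)) fun a => by
    have h1 := eNeed_ge (n := n a) (p := p a)
    have h2 : Nat.size (n a) ≤ eY (n a) (p a) := Nat.le_add_left _ _
    omega).of_le fun a => (Nat.lt_size_self _).le

end SchPT

theorem decode_pt' : PT (fun a : {a : PTW.Raw // Valid a} => decode a.1) := by
  have h1 : PT (fun a : {a : PTW.Raw // Valid a} => a.1.1) := PT.id.subtypeVal.fst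
  have h2 : PT (fun a : {a : PTW.Raw // Valid a} => a.1.2.1) := PT.id.subtypeVal.snd.fst
  have h3 : PT (fun a : {a : PTW.Raw // Valid a} => a.1.2.2) := PT.id.subtypeVal.snd.snd
  have h : SchPT (fun a : {a : PTW.Raw // Valid a} => a.1.1) (fun a => a.1.2.1) :=
    ⟨h1, h2, (PB.length h3).of_le fun a => a.2.2.2.2⟩
  exact pt_decodeP h.parPT h1 h.pb_n (PTR.ratCast h2) h3

end Crest.Agent.R300.UB
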