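import Crest.Prelude.Def_TraceDecoder
import Crest.Prelude.Def_Randomized
import Crest.Agent.Lib.PT.Rec

/-! Row 300, poly-time part: from a `PT` deterministic decoder on (valid) triples
`(n, p, traces)` to the randomized algorithm of S0457. -/

set_option autoImplicit false

namespace Crest.Agent.R300.PTW

open Crest.Agent.Lib.PT Crest.TraceRecon Crest.FinProb Crest.Randomized

/-- Raw decoder inputs: word length, retention probability, list of traces. -/
abbrev Raw := ℕ × ℚ × List (List Bool)

lemma sd_word : SD (fun w : List Bool => Crest.Enc.natCode w.length ++ w) :=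
  (SD.natCode.list SD.bool (fun b => by simp)).congr fun w => by
    congr 1
    induction w with
    | nil => rfl
    | cons b w ih => simpa using ih

lemma sd_traceListCode : SD traceListCode :=
  SD.natCode.list sd_word fun _ h => natCode_ne_nil _ (List.append_eq_nil_iff.1 h).1

/-- The code of a raw input. -/
def rawCode (a : Raw) : List Bool :=
  Crest.Enc.natCode a.1 ++ Crest.Enc.ratCode a.2.1 ++ traceListCode a.2.2

lemma reads_rawCode : Reads rawCode (fun a => a) := by
  have h0 : Reads rawCode (fun a : Raw => Crest.Enc.natCode a.1 ++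
      (Crest.Enc.ratCode a.2.1 ++ traceListCode a.2.2)) :=
    (Reads.self rawCode).congr fun a => by simp [rawCode]
  have h1 := Reads.split SD.natCode h0
  have h2 := Reads.split SD.ratCode h1.2
  have h3 := Reads.decode sd_traceListCode h2.2
  exact h1.1.pair (h2.1.pair h3)

/-- A decoder that is `PT` on the valid raw inputs (`V`) gives a randomized polynomial-time
algorithm (ignoring its tape) which agrees with it on the codes of valid inputs. -/
theorem exists_alg (V : Raw → Prop) (dec : Raw → List Bool)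
    (hdec : PT (fun a : {a : Raw // V a} => dec a.1)) :
    ∃ A : List Bool × List Bool → List Bool, RandPolyTime A ∧
      ∀ a : Raw, V a → ∀ w, A (rawCode a, w) = dec a := by
  have h1 : Reads (fun a : {a : Raw // V a} => rawCode a.1) (fun a => a) :=
    ((reads_rawCode.precomp Subtype.val).subtypeMk (p := V) (fun a => a.2)).congr fun _ => rfl
  obtain ⟨A, hA, h⟩ := h1.exists_randPolyTime
    (g := fun p : {a : Raw // V a} × List Bool => dec p.1.1) (hdec.comp PT.id.fst)
  exact ⟨A, hA, fun a ha w => h ⟨a, ha⟩ w⟩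

/-- Success probability of a deterministic decoder on `m` traces. -/
noncomputable def detSuccess {n : ℕ} (m : ℕ) (p : ℚ) (dec : Raw → List Bool) (x : Fin n → Bool) : ℝ :=
  ∑ keeps : Fin m → Fin n → Bool, (∏ k, bernoulliWeight (p : ℝ) (keeps k)) *
    if readWord n (dec (n, p, List.ofFn fun k => traceOf x (keeps k))) = x then 1 else 0

lemma uniformProb_const {Ω : Type} [Fintype Ω] [Nonempty Ω] (P : Prop) [Decidable P] :
    uniformProb {_ω : Ω | P} = if P then 1 else 0 := by
  unfold uniformProb
  by_cases h : P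
  · simp [h]
  · simp [h]

/-- **Wrapper.** S0457 follows from a decoder that is `PT` on valid inputs, when all actual inputs
are valid and the decoder succeeds with probability `≥ 2/3`. -/
theorem s0457_of (C : ℝ) (hC : 1 ≤ C) (V : Raw → Prop) (dec : Raw → List Bool)
    (hdec : PT (fun a : {a : Raw // V a} => dec a.1))
    (hV : ∀ n : ℕ, 2 ≤ n → ∀ p : ℚ, 0 < p → p < 1 → ∀ (x : Fin n → Bool)
      (keeps : Fin (traceBudget C n p) → Fin n → Bool),
      V (n, p, List.ofFn fun k => traceOf x (keeps k)))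
    (hcorr : ∀ n : ℕ, 2 ≤ n → ∀ p : ℚ, 0 < p → p < 1 → ∀ x : Fin n → Bool,
      2 / 3 ≤ detSuccess (traceBudget C n p) p dec x) :
    ∃ C : ℝ, 1 ≤ C ∧ ∃ (A : List Bool × List Bool → List Bool) (r : Polynomial ℕ), RandPolyTime A ∧
      ∀ n : ℕ, 2 ≤ n → ∀ p : ℚ, 0 < p → p < 1 → ∀ x : Fin n → Bool,
        2 / 3 ≤ decoderSuccessProb (traceBudget C n p) p A r x := by
  obtain ⟨A, hA, h⟩ := exists_alg V dec hdec
  refine ⟨C, hC, A, 0, hA, fun n hn p hp hp1 x => (hcorr n hn p hp hp1 x).trans (le_of_eq ?_)⟩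
  unfold detSuccess decoderSuccessProb
  refine Finset.sum_congr rfl fun keeps _ => ?_
  congr 1
  rw [← uniformProb_const (Ω := Fin ((0 : Polynomial ℕ).eval
    (decoderInput n p fun k => traceOf x (keeps k)).length) → Bool)]
  congr 1
  ext ω
  have := h _ (hV n hn p hp hp1 x keeps) (List.ofFn ω)
  simp only [Set.mem_ofPred_eq]
  rw [← this]
  rfl

lemma length_traceOf_le {n : ℕ} (x keep : Fin n → Bool) : (traceOf x keep).length ≤ n := by
  unfold traceOf
  rw [List.length_map]
  exact (List.length_filter_le _ _).trans (by simp)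

/-- The budget is at least `n` (and at least `exp (C log n / p)`). -/
lemma exp_le_traceBudget {C : ℝ} (hC : 0 ≤ C) {n : ℕ} (hn : 1 ≤ n) {p : ℝ} (hp : 0 < p)
    (hp1 : p < 1) : Real.exp (C * (p⁻¹ * Real.log n)) ≤ traceBudget C n p := by
  refine le_trans ?_ (Nat.le_ceil _)
  refine Real.exp_le_exp.2 (mul_le_mul_of_nonneg_left ?_ hC)
  have hL : 0 ≤ Real.log n := Real.log_nonneg (by exact_mod_cast hn)
  have hq : 0 ≤ Real.log (1 / (1 - p)) :=
    Real.log_nonneg (by rw [le_div_iff₀ (by linarith)]; linarith)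
  set X := 1 + Real.log n / (1 + Real.log (1 / (1 - p))) with hX
  have hX1 : 1 ≤ X := by
    have : 0 ≤ Real.log n / (1 + Real.log (1 / (1 - p))) := by positivity
    linarith
  have h1 : 1 ≤ X ^ 2 := one_le_pow₀ hX1
  have h2 : 1 ≤ (1 + Real.log X) ^ 6 := one_le_pow₀ (by linarith [Real.log_nonneg hX1])
  have h0 : 0 ≤ p⁻¹ * Real.log n := by positivity
  calc p⁻¹ * Real.log n = p⁻¹ * Real.log n * 1 * 1 := by ring
    _ ≤ _ := by gcongr

lemma le_traceBudget {C : ℝ} (hC : 1 ≤ C) {n : ℕ} (hn : 1 ≤ n) {p : ℝ} (hp : 0 < p)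
    (hp1 : p < 1) : n ≤ traceBudget C n p := by
  have h := exp_le_traceBudget (by linarith : 0 ≤ C) hn hp hp1
  have hL : 0 ≤ Real.log n := Real.log_nonneg (by exact_mod_cast hn)
  have hp' : 1 ≤ p⁻¹ := (one_le_inv₀ hp).2 hp1.le
  have h1 : Real.log n ≤ C * (p⁻¹ * Real.log n) := by
    calc Real.log n = 1 * (1 * Real.log n) := by ring
      _ ≤ _ := by gcongr
  have h2 : (n : ℝ) ≤ traceBudget C n p := by
    calc (n : ℝ) = Real.exp (Real.log n) := (Real.exp_log (by exact_mod_cast hn)).symm
      _ ≤ _ := (Real.exp_le_exp.2 h1).trans h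
  exact_mod_cast h2

end Crest.Agent.R300.PTW
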