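import Mathlib

/-!
# Row 300, upper bound: deformation of a Gaussian contour
-/

set_option autoImplicit false

noncomputable section

open MeasureTheory Filter Topology Set Complex

namespace Crest.Agent.R300.Rep

/-- the deformed contour -/
def repL (τ y : ℝ) : ℂ := -((τ * |y| : ℝ) : ℂ) + y * I

/-- its derivative -/
def repL' (τ y : ℝ) : ℂ := if 0 < y then -τ + I else τ + I

theorem measurable_repL (τ : ℝ) : Measurable (repL τ) := by
  unfold repL
  fun_prop

theorem measurable_repL' (τ : ℝ) : Measurable (repL' τ) :=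
  Measurable.ite measurableSet_Ioi measurable_const measurable_const

theorem norm_repL' {τ : ℝ} (h0 : 0 ≤ τ) (h1 : τ ≤ 1) (y : ℝ) : ‖repL' τ y‖ ≤ 2 := by
  unfold repL'
  split_ifs
  · refine (norm_add_le _ _).trans ?_
    rw [norm_neg, Complex.norm_real, Complex.norm_I, Real.norm_eq_abs, abs_of_nonneg h0]
    linarith
  · refine (norm_add_le _ _).trans ?_
    rw [Complex.norm_real, Complex.norm_I, Real.norm_eq_abs, abs_of_nonneg h0]
    linarith

theorem repL_of_nonneg (τ : ℝ) {y : ℝ} (h : 0 ≤ y) : repL τ y = (-τ + I) * y := by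
  rw [repL, abs_of_nonneg h]
  push_cast
  ring

theorem repL_of_nonpos (τ : ℝ) {y : ℝ} (h : y ≤ 0) : repL τ y = (τ + I) * y := by
  rw [repL, abs_of_nonpos h]
  push_cast
  ring

theorem rep_contour {H : ℂ → ℂ} (hH : Differentiable ℂ H) {τ C : ℝ} (h0 : 0 ≤ τ) (h1 : τ ≤ 1)
    (hb : ∀ t y : ℝ, 0 ≤ t → t ≤ τ * |y| → ‖H (-t + y * I)‖ ≤ C * Real.exp (-(1 / 8) * y ^ 2)) :
    ∫ y : ℝ, H (repL τ y) * repL' τ y = ∫ y : ℝ, H (y * I) * I := by
  obtain ⟨Φ, hΦ⟩ := hH.isExactOn_univ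
  have hΦ' : ∀ z, HasDerivAt Φ (H z) z := fun z => hΦ z (mem_univ z)
  have hm : Measurable H := hH.continuous.measurable
  have hg : Integrable fun y : ℝ => C * Real.exp (-(1 / 8) * y ^ 2) :=
    (integrable_exp_neg_mul_sq (by norm_num)).const_mul C
  have i1 : Integrable fun y : ℝ => H (repL τ y) * repL' τ y := by
    refine (hg.mul_const 2).mono' ((hm.comp (measurable_repL τ)).mul
      (measurable_repL' τ)).aestronglyMeasurable (Eventually.of_forall fun y => ?_)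
    rw [norm_mul]
    have h2 := hb (τ * |y|) y (by positivity) le_rfl
    exact mul_le_mul h2 (norm_repL' h0 h1 y) (norm_nonneg _) ((norm_nonneg _).trans h2)
  have i2 : Integrable fun y : ℝ => H (y * I) * I := by
    refine hg.mono' (by fun_prop : Measurable fun y : ℝ => H (y * I) * I).aestronglyMeasurable
      (Eventually.of_forall fun y => ?_)
    rw [norm_mul, Complex.norm_I, mul_one]
    simpa using hb 0 y le_rfl (by positivity)
  have hT : Tendsto (fun y : ℝ => Φ (repL τ y) - Φ (y * I)) (cocompact ℝ) (𝓝 0) := by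
    have h2 := (tendsto_rpow_abs_mul_exp_neg_mul_sq_cocompact (a := 1 / 8) (by norm_num) 1).const_mul
      (C * τ)
    rw [mul_zero] at h2
    refine squeeze_zero_norm (fun y => ?_) h2
    have hd : ∀ t ∈ Icc (0 : ℝ) (τ * |y|), HasDerivWithinAt (fun t : ℝ => Φ (-(t : ℂ) + y * I))
        (H (-(t : ℂ) + y * I) * (-1)) (Icc (0 : ℝ) (τ * |y|)) t := fun t _ =>
      (((hΦ' _).comp (t : ℂ) ((hasDerivAt_neg (t : ℂ)).add_const (y * I))).comp_ofReal).hasDerivWithinAt
    have h3 := (convex_Icc (0 : ℝ) (τ * |y|)).norm_image_sub_le_of_norm_hasDerivWithin_le hd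
      (C := C * Real.exp (-(1 / 8) * y ^ 2))
      (fun t ht => by rw [mul_neg_one, norm_neg]; exact hb t y ht.1 ht.2)
      (left_mem_Icc.2 (by positivity)) (right_mem_Icc.2 (by positivity))
    simp only [ofReal_zero, neg_zero, zero_add, sub_zero] at h3
    refine h3.trans (le_of_eq ?_)
    rw [Real.norm_eq_abs, abs_of_nonneg (by positivity), Real.rpow_one]
    ring
  have hD : ∀ (ω : ℂ) (y : ℝ), HasDerivAt (fun y : ℝ => Φ (ω * y) - Φ (y * I))
      (H (ω * y) * ω - H (y * I) * I) y := fun ω y => by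
    have a1 := ((hΦ' _).comp (y : ℂ) ((hasDerivAt_id (y : ℂ)).const_mul ω)).comp_ofReal
    have a2 := ((hΦ' _).comp (y : ℂ) ((hasDerivAt_id (y : ℂ)).mul_const I)).comp_ofReal
    simp only [id, mul_one, one_mul] at a1 a2
    exact a1.sub a2
  rw [cocompact_eq_atBot_atTop, tendsto_sup] at hT
  have e1 : ∀ y ∈ Ioi (0 : ℝ), H ((-τ + I) * y) * (-τ + I) - H (y * I) * I =
      H (repL τ y) * repL' τ y - H (y * I) * I := fun y hy => by
    rw [repL_of_nonneg τ (le_of_lt hy), repL', if_pos (mem_Ioi.1 hy)]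
  have e2 : ∀ y ∈ Iic (0 : ℝ), H ((τ + I) * y) * (τ + I) - H (y * I) * I =
      H (repL τ y) * repL' τ y - H (y * I) * I := fun y hy => by
    rw [repL_of_nonpos τ hy, repL', if_neg (not_lt.2 hy)]
  have j1 := integral_Ioi_of_hasDerivAt_of_tendsto' (a := 0) (m := 0) (fun y _ => hD (-τ + I) y)
    (((i1.sub i2).integrableOn).congr_fun (fun y hy => (e1 y hy).symm) measurableSet_Ioi)
    (hT.2.congr' ((eventually_ge_atTop 0).mono fun y hy => by rw [repL_of_nonneg τ hy]))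
  have j2 := integral_Iic_of_hasDerivAt_of_tendsto' (a := 0) (m := 0) (fun y _ => hD (τ + I) y)
    (((i1.sub i2).integrableOn).congr_fun (fun y hy => (e2 y hy).symm) measurableSet_Iic)
    (hT.1.congr' ((eventually_le_atBot 0).mono fun y hy => by rw [repL_of_nonpos τ hy]))
  rw [setIntegral_congr_fun measurableSet_Ioi e1] at j1
  rw [setIntegral_congr_fun measurableSet_Iic e2] at j2
  have i3 : Integrable fun y : ℝ => H (repL τ y) * repL' τ y - H (y * I) * I := i1.sub i2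
  rw [← sub_eq_zero, ← integral_sub i1 i2,
    ← intervalIntegral.integral_Iic_add_Ioi (b := 0) i3.integrableOn i3.integrableOn, j1, j2]
  simp

/-- the Gaussian normalisation constant -/
def gC (q : ℝ) : ℂ := (Real.pi / -(-(q / 2 : ℝ) : ℂ)) ^ (1 / 2 : ℂ)

theorem norm_gC {q : ℝ} (h0 : 0 < q) (h1 : q ≤ 2) : 1 ≤ ‖gC q‖ := by
  have e : (Real.pi / -(-(q / 2 : ℝ) : ℂ)) = ((Real.pi / (q / 2) : ℝ) : ℂ) := by
    push_cast
    ring
  have h2 : 1 ≤ Real.pi / (q / 2) := by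
    rw [le_div_iff₀ (by positivity)]
    linarith [Real.pi_gt_three]
  rw [gC, e, Complex.norm_cpow_eq_rpow_re_of_pos (by positivity)]
  exact Real.one_le_rpow h2 (by norm_num)

theorem gC_ne {q : ℝ} (h0 : 0 < q) (h1 : q ≤ 2) : gC q ≠ 0 :=
  norm_pos_iff.1 (one_pos.trans_le (norm_gC h0 h1))

theorem norm_gC_inv {q : ℝ} (h0 : 0 < q) (h1 : q ≤ 2) : ‖(gC q)⁻¹‖ ≤ 1 := by
  rw [norm_inv]
  exact inv_le_one_of_one_le₀ (norm_gC h0 h1)

/-- Gaussian shift -/
theorem rep_shift (β t : ℝ) :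
    ∫ x : ℝ, (gC 1)⁻¹ * cexp (-(x - β * I) ^ 2 / 2 + x * t * I) = cexp (-t ^ 2 / 2 - β * t) := by
  have h := integral_cexp_quadratic (b := (-(1 / 2 : ℝ) : ℂ)) (by simp) ((β + t) * I) (β ^ 2 / 2)
  have e : ∀ x : ℝ, -((x : ℂ) - β * I) ^ 2 / 2 + x * t * I =
      (-(1 / 2 : ℝ) : ℂ) * x ^ 2 + (β + t) * I * x + β ^ 2 / 2 := fun x => by
    push_cast
    linear_combination (-(β : ℂ) ^ 2 / 2) * I_sq
  simp only [e]
  rw [integral_const_mul, h]
  change (gC 1)⁻¹ * (gC 1 * _) = _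
  rw [inv_mul_cancel_left₀ (gC_ne one_pos one_le_two)]
  congr 1
  push_cast
  linear_combination (((β : ℂ) + t) ^ 2 / 2) * I_sq

/-- Gaussian representation along the deformed contour -/
theorem rep_last {q τ b s : ℝ} (hq : 1 ≤ q) (hq2 : q ≤ 2) (h0 : 0 ≤ τ) (h1 : τ ≤ 1 / 2)
    (hb : 0 ≤ b) (hb1 : b ≤ 1 / 2) (hs : 0 ≤ s) (Θ : ℝ) :
    ∫ y : ℝ, (gC q)⁻¹ * (-I) * (cexp (q / 2 * (b + Θ * I - repL τ y) ^ 2 + repL τ y * s) *
      repL' τ y) = cexp (-s ^ 2 / (2 * q) + (b + Θ * I) * s) := by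
  have hq0 : 0 < q := by linarith
  rw [integral_const_mul, rep_contour (H := fun z => cexp (q / 2 * (b + Θ * I - z) ^ 2 + z * s))
    (by fun_prop) (C := Real.exp (1 / 2 + 3 * Θ ^ 2)) h0 (by linarith)]
  · have h := integral_cexp_quadratic (b := (-(q / 2 : ℝ) : ℂ)) (by simp [hq0])
      ((s - q * (b + Θ * I)) * I) (q / 2 * (b + Θ * I) ^ 2)
    have e : ∀ y : ℝ, (q : ℂ) / 2 * (b + Θ * I - y * I) ^ 2 + y * I * s =
        (-(q / 2 : ℝ) : ℂ) * y ^ 2 + (s - q * (b + Θ * I)) * I * y + q / 2 * (b + Θ * I) ^ 2 :=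
      fun y => by
      push_cast
      linear_combination ((q : ℂ) / 2 * y ^ 2) * I_sq
    simp only [e]
    rw [integral_mul_const, h]
    change (gC q)⁻¹ * (-I) * (gC q * _ * I) = _
    have hc := gC_ne hq0 hq2
    have hq' : (q : ℂ) ≠ 0 := by exact_mod_cast hq0.ne'
    have e2 : (q : ℂ) / 2 * (b + Θ * I) ^ 2 -
        ((s - q * (b + Θ * I)) * I) ^ 2 / (4 * (-(q / 2 : ℝ) : ℂ)) =
        -s ^ 2 / (2 * q) + (b + Θ * I) * s := by
      rw [mul_pow, I_sq]
      push_cast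
      field_simp
      ring
    rw [e2]
    field_simp
    linear_combination (-1 : ℂ) * I_sq
  · intro t y ht hty
    rw [Complex.norm_exp, ← Real.exp_add, Real.exp_le_exp]
    have e : ((q : ℂ) / 2 * (b + Θ * I - (-t + y * I)) ^ 2 + (-t + y * I) * s).re =
        q / 2 * ((b + t) ^ 2 - (Θ - y) ^ 2) - t * s := by
      simp [pow_two]
      ring
    rw [e]
    have h2 : b + t ≤ (1 + |y|) / 2 := by nlinarith [abs_nonneg y]
    have h3 : (b + t) ^ 2 ≤ (1 + y ^ 2) / 2 := by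
      have := pow_le_pow_left₀ (by positivity) h2 2
      nlinarith [sq_abs y, sq_nonneg (1 - |y|)]
    have h4 : (b + t) ^ 2 - (Θ - y) ^ 2 ≤ 1 / 2 + 3 * Θ ^ 2 - y ^ 2 / 4 := by
      nlinarith [sq_nonneg (y / 2 - 2 * Θ)]
    have h5 := mul_le_mul_of_nonneg_left h4 (show 0 ≤ q / 2 by positivity)
    nlinarith [mul_nonneg ht hs, sq_nonneg Θ, sq_nonneg y]

end Crest.Agent.R300.Rep
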