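import Crest.Agent.R300.Rep0

/-!
# Row 300, upper bound: the exact integral representation of four-fold Gaussian kernels
-/

set_option autoImplicit false

noncomputable section

open MeasureTheory Filter Topology Set Complex

namespace Crest.Agent.R300.Rep

/-- the parameter space -/
abbrev X4 := (ℝ × ℝ × ℝ) × ℝ

/-- shifted Gaussian -/
def g1 (β x : ℝ) : ℂ := (gC 1)⁻¹ * cexp (-(x - β * I) ^ 2 / 2)

/-- the density -/
def repD (q τ β θ : ℝ) (p : X4) : ℂ :=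
  g1 β p.1.1 * (g1 β p.1.2.1 * g1 β p.1.2.2) * ((gC q)⁻¹ * (-I) *
    (cexp (q / 2 * ((4 * β : ℝ) + (θ + p.1.1 + p.1.2.1 + p.1.2.2 : ℝ) * I - repL τ p.2) ^ 2) *
      repL' τ p.2))

/-- the kernel -/
def repE (τ s d₁ d₂ d₃ : ℝ) (p : X4) : ℂ :=
  cexp (repL τ p.2 * s - (p.1.1 * d₁ + p.1.2.1 * d₂ + p.1.2.2 * d₃) * I)

/-- Gaussian majorant -/
def G4 (c : ℝ) (p : X4) : ℝ :=
  Real.exp (-c * p.1.1 ^ 2) * (Real.exp (-c * p.1.2.1 ^ 2) * Real.exp (-c * p.1.2.2 ^ 2)) *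
    Real.exp (-c * p.2 ^ 2)

theorem G4_eq (c : ℝ) (p : X4) :
    G4 c p = Real.exp (-c * (p.1.1 ^ 2 + p.1.2.1 ^ 2 + p.1.2.2 ^ 2 + p.2 ^ 2)) := by
  simp only [G4, ← Real.exp_add]
  congr 1
  ring

theorem integrable_G4 {c : ℝ} (hc : 0 < c) : Integrable (G4 c) := by
  have h := integrable_exp_neg_mul_sq hc
  exact (h.mul_prod (h.mul_prod h)).mul_prod h

theorem integral_G4 {c : ℝ} (hc : 0 < c) : ∫ p, G4 c p = (Real.pi / c) ^ 2 := by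
  have h1 := integral_prod_mul (μ := (volume : Measure (ℝ × ℝ × ℝ))) (ν := (volume : Measure ℝ))
    (fun p : ℝ × ℝ × ℝ => Real.exp (-c * p.1 ^ 2) * (Real.exp (-c * p.2.1 ^ 2) *
      Real.exp (-c * p.2.2 ^ 2))) (fun y : ℝ => Real.exp (-c * y ^ 2))
  have h2 := integral_prod_mul (μ := (volume : Measure ℝ)) (ν := (volume : Measure (ℝ × ℝ)))
    (fun y : ℝ => Real.exp (-c * y ^ 2))
    (fun p : ℝ × ℝ => Real.exp (-c * p.1 ^ 2) * Real.exp (-c * p.2 ^ 2))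
  have h3 := integral_prod_mul (μ := (volume : Measure ℝ)) (ν := (volume : Measure ℝ))
    (fun y : ℝ => Real.exp (-c * y ^ 2)) (fun y : ℝ => Real.exp (-c * y ^ 2))
  rw [← Measure.volume_eq_prod] at h1 h2 h3
  rw [h3] at h2
  rw [h2, integral_gaussian] at h1
  refine h1.trans ?_
  have h4 : √(Real.pi / c) ^ 2 = Real.pi / c := Real.sq_sqrt (by positivity)
  linear_combination (√(Real.pi / c) ^ 2 + Real.pi / c) * h4

theorem measurable_repD (q τ β θ : ℝ) : Measurable (repD q τ β θ) := by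
  have h1 := measurable_repL τ
  have h2 := measurable_repL' τ
  unfold repD g1
  fun_prop

theorem measurable_repE (τ s d₁ d₂ d₃ : ℝ) : Measurable (repE τ s d₁ d₂ d₃) := by
  have h1 := measurable_repL τ
  unfold repE
  fun_prop

theorem norm_g1 (β x : ℝ) : ‖g1 β x‖ ≤ Real.exp (-x ^ 2 / 2 + β ^ 2 / 2) := by
  rw [g1, norm_mul, Complex.norm_exp]
  have e : (-((x : ℂ) - β * I) ^ 2 / 2).re = -x ^ 2 / 2 + β ^ 2 / 2 := by
    simp [pow_two]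
    ring
  rw [e]
  exact mul_le_of_le_one_left (Real.exp_pos _).le (norm_gC_inv one_pos one_le_two)

theorem rep_ineq {q τ β θ : ℝ} (hq : 1 ≤ q) (hq2 : q ≤ 64 / 63) (h0 : 0 ≤ τ) (h1 : τ ≤ 0.4767)
    (hβ : β ≤ 1 / 8) (hθ : |θ| ≤ β) (x₁ x₂ x₃ y : ℝ) :
    (-x₁ ^ 2 / 2 + β ^ 2 / 2) + ((-x₂ ^ 2 / 2 + β ^ 2 / 2) + (-x₃ ^ 2 / 2 + β ^ 2 / 2)) +
      q / 2 * ((4 * β + τ * |y|) ^ 2 - (θ + x₁ + x₂ + x₃ - y) ^ 2) ≤
      8 + -(1 / 256) * (x₁ ^ 2 + x₂ ^ 2 + x₃ ^ 2 + y ^ 2) := by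
  have hβ0 : 0 ≤ β := (abs_nonneg θ).trans hθ
  have a1 : 4 * β + τ * |y| ≤ 1 / 2 + 0.4767 * |y| := by nlinarith [abs_nonneg y]
  have a2 : (4 * β + τ * |y|) ^ 2 ≤ 51 / 4 + 0.2318 * y ^ 2 := by
    have := pow_le_pow_left₀ (by positivity) a1 2
    nlinarith [sq_abs y, sq_nonneg (25 - 0.4767 * |y|), sq_nonneg y]
  have a3 : q / 2 * (4 * β + τ * |y|) ^ 2 ≤ 32 / 63 * (51 / 4 + 0.2318 * y ^ 2) :=
    mul_le_mul (by linarith) a2 (by positivity) (by norm_num)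
  have a4 : θ ^ 2 ≤ 1 / 64 := by nlinarith [sq_abs θ, abs_nonneg θ]
  have a5 : β ^ 2 ≤ 1 / 64 := by nlinarith
  set u := x₁ + x₂ + x₃ with hu
  have a6 : 0.99 * (u - y) ^ 2 - 99 / 64 ≤ (θ + x₁ + x₂ + x₃ - y) ^ 2 := by
    have e : θ + x₁ + x₂ + x₃ - y = θ + (u - y) := by rw [hu]; ring
    rw [e]
    nlinarith [sq_nonneg (10 * θ + (u - y) / 10)]
  have a7 : 1 / 2 * (θ + x₁ + x₂ + x₃ - y) ^ 2 ≤ q / 2 * (θ + x₁ + x₂ + x₃ - y) ^ 2 :=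
    mul_le_mul_of_nonneg_right (by linarith) (sq_nonneg _)
  have a8 : u ^ 2 / 3 ≤ x₁ ^ 2 + x₂ ^ 2 + x₃ ^ 2 := by
    rw [hu]
    nlinarith [sq_nonneg (x₁ - x₂), sq_nonneg (x₁ - x₃), sq_nonneg (x₂ - x₃)]
  have a9 : 0.1239 * y ^ 2 ≤ 127 / 256 * (u ^ 2 / 3) + 0.495 * (u - y) ^ 2 := by
    nlinarith [sq_nonneg (u - 0.75 * y), sq_nonneg y, sq_nonneg u]
  nlinarith [sq_nonneg y]

theorem norm_repD {q τ β θ : ℝ} (hq : 1 ≤ q) (hq2 : q ≤ 64 / 63) (h0 : 0 ≤ τ) (h1 : τ ≤ 0.4767)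
    (hβ : β ≤ 1 / 8) (hθ : |θ| ≤ β) (p : X4) : ‖repD q τ β θ p‖ ≤ 2 ^ 14 * G4 (1 / 256) p := by
  obtain ⟨⟨x₁, x₂, x₃⟩, y⟩ := p
  have e : ((q : ℂ) / 2 * ((4 * β : ℝ) + (θ + x₁ + x₂ + x₃ : ℝ) * I - repL τ y) ^ 2).re =
      q / 2 * ((4 * β + τ * |y|) ^ 2 - (θ + x₁ + x₂ + x₃ - y) ^ 2) := by
    simp [pow_two, repL]
  have h2 : ‖(gC q)⁻¹ * (-I) * (cexp (q / 2 * ((4 * β : ℝ) + (θ + x₁ + x₂ + x₃ : ℝ) * I -
      repL τ y) ^ 2) * repL' τ y)‖ ≤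
      Real.exp (q / 2 * ((4 * β + τ * |y|) ^ 2 - (θ + x₁ + x₂ + x₃ - y) ^ 2)) * 2 := by
    rw [norm_mul, norm_mul, norm_neg, Complex.norm_I, mul_one, norm_mul, Complex.norm_exp, e]
    refine (mul_le_of_le_one_left (by positivity) (norm_gC_inv (by linarith) (by linarith))).trans ?_
    exact mul_le_mul_of_nonneg_left (norm_repL' h0 (by linarith) y) (Real.exp_pos _).le
  have h3 : Real.exp 8 ≤ 2 ^ 13 := by
    have := Real.exp_one_lt_d9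
    calc Real.exp 8 = Real.exp 1 ^ 8 := by rw [← Real.exp_nat_mul]; norm_num
      _ ≤ 3 ^ 8 := pow_le_pow_left₀ (Real.exp_pos _).le (by linarith) 8
      _ ≤ 2 ^ 13 := by norm_num
  have h4 := Real.exp_le_exp.2 (rep_ineq hq hq2 h0 h1 hβ hθ x₁ x₂ x₃ y)
  simp only [Real.exp_add (_ + (_ + _ : ℝ)), Real.exp_add 8,
    Real.exp_add (-x₁ ^ 2 / 2 + β ^ 2 / 2), Real.exp_add (-x₂ ^ 2 / 2 + β ^ 2 / 2)] at h4
  rw [G4_eq, repD, norm_mul, norm_mul, norm_mul]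
  refine (mul_le_mul (mul_le_mul (norm_g1 β x₁) (mul_le_mul (norm_g1 β x₂) (norm_g1 β x₃)
    (norm_nonneg _) (by positivity)) (by positivity) (by positivity)) h2 (norm_nonneg _)
    (by positivity)).trans ?_
  have h5 := mul_le_mul_of_nonneg_right h3
    (Real.exp_pos (-(1 / 256) * (x₁ ^ 2 + x₂ ^ 2 + x₃ ^ 2 + y ^ 2))).le
  simp only
  linarith

theorem norm_repE {τ s : ℝ} (h0 : 0 ≤ τ) (hs : 0 ≤ s) (d₁ d₂ d₃ : ℝ) (p : X4) :
    ‖repE τ s d₁ d₂ d₃ p‖ ≤ 1 := by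
  rw [repE, Complex.norm_exp, Real.exp_le_one_iff]
  simp only [repL]
  simp
  positivity

theorem rep_shift' (β t : ℝ) :
    ∫ x : ℝ, g1 β x * cexp (x * t * I) = cexp (-t ^ 2 / 2 - β * t) := by
  rw [← rep_shift]
  simp only [g1, Complex.exp_add, mul_assoc]

/-- the exact representation -/
theorem rep_exact {q ρ τ β θ s : ℝ} (hq : 1 ≤ q) (hq2 : q ≤ 64 / 63) (hρ : q * (1 - 2 * ρ) = 1)
    (h0 : 0 ≤ τ) (h1 : τ ≤ 0.4767) (hβ : β ≤ 1 / 8) (hθ : |θ| ≤ β) (hs : 0 ≤ s) (d₁ d₂ d₃ : ℝ) :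
    ∫ p, repD q τ β θ p * repE τ s d₁ d₂ d₃ p =
      cexp (-(s ^ 2 + (s - d₁) ^ 2 + (s - d₂) ^ 2 + (s - d₃) ^ 2) / 2 + ρ * s ^ 2 +
        β * (s + d₁ + d₂ + d₃) + θ * s * I) := by
  have hβ0 : 0 ≤ β := (abs_nonneg θ).trans hθ
  have hi : Integrable fun p => repD q τ β θ p * repE τ s d₁ d₂ d₃ p := by
    refine ((integrable_G4 (c := 1 / 256) (by norm_num)).const_mul (2 ^ 14)).mono'
      ((measurable_repD q τ β θ).mul (measurable_repE τ s d₁ d₂ d₃)).aestronglyMeasurable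
      (Eventually.of_forall fun p => ?_)
    rw [norm_mul]
    exact (mul_le_of_le_one_right (norm_nonneg _) (norm_repE h0 hs _ _ _ p)).trans
      (norm_repD hq hq2 h0 h1 hβ hθ p)
  rw [Measure.volume_eq_prod] at hi ⊢
  rw [integral_prod _ hi]
  have e1 : ∀ x : ℝ × ℝ × ℝ, ∫ y, repD q τ β θ (x, y) * repE τ s d₁ d₂ d₃ (x, y) =
      cexp (-s ^ 2 / (2 * q) + (4 * β + θ * I) * s) * (g1 β x.1 * cexp (x.1 * (s - d₁ : ℝ) * I) *
        (g1 β x.2.1 * cexp (x.2.1 * (s - d₂ : ℝ) * I) *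
          (g1 β x.2.2 * cexp (x.2.2 * (s - d₃ : ℝ) * I)))) := by
    rintro ⟨x₁, x₂, x₃⟩
    have h := rep_last (b := 4 * β) hq (by linarith) h0 (by linarith) (by positivity) (by linarith)
      hs (θ + x₁ + x₂ + x₃)
    have e : ∀ y, repD q τ β θ ((x₁, x₂, x₃), y) * repE τ s d₁ d₂ d₃ ((x₁, x₂, x₃), y) =
        (g1 β x₁ * (g1 β x₂ * g1 β x₃) * cexp (-((x₁ * d₁ + x₂ * d₂ + x₃ * d₃) * I))) *
        ((gC q)⁻¹ * (-I) * (cexp (q / 2 * ((4 * β : ℝ) + (θ + x₁ + x₂ + x₃ : ℝ) * I - repL τ y) ^ 2 +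
          repL τ y * s) * repL' τ y)) := fun y => by
      simp only [repD, repE, sub_eq_add_neg (repL τ y * s), Complex.exp_add]
      ring
    simp only [e]
    rw [integral_const_mul, h]
    have e2 : cexp (-((x₁ * d₁ + x₂ * d₂ + x₃ * d₃) * I)) *
        cexp (-s ^ 2 / (2 * q) + ((4 * β : ℝ) + (θ + x₁ + x₂ + x₃ : ℝ) * I) * s) =
        cexp (-s ^ 2 / (2 * q) + (4 * β + θ * I) * s) * (cexp (x₁ * (s - d₁ : ℝ) * I) *
          (cexp (x₂ * (s - d₂ : ℝ) * I) * cexp (x₃ * (s - d₃ : ℝ) * I))) := by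
      simp only [← Complex.exp_add]
      congr 1
      push_cast
      ring
    linear_combination (g1 β x₁ * (g1 β x₂ * g1 β x₃)) * e2
  simp only [e1]
  have h2 := integral_prod_mul (μ := (volume : Measure ℝ)) (ν := (volume : Measure (ℝ × ℝ)))
    (fun x : ℝ => g1 β x * cexp (x * (s - d₁ : ℝ) * I))
    (fun p : ℝ × ℝ => g1 β p.1 * cexp (p.1 * (s - d₂ : ℝ) * I) *
      (g1 β p.2 * cexp (p.2 * (s - d₃ : ℝ) * I)))
  have h3 := integral_prod_mul (μ := (volume : Measure ℝ)) (ν := (volume : Measure ℝ))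
    (fun x : ℝ => g1 β x * cexp (x * (s - d₂ : ℝ) * I))
    (fun x : ℝ => g1 β x * cexp (x * (s - d₃ : ℝ) * I))
  rw [← Measure.volume_eq_prod] at h2 h3
  rw [integral_const_mul, h2, h3, rep_shift', rep_shift', rep_shift']
  simp only [← Complex.exp_add]
  congr 1
  have hq' : (q : ℂ) ≠ 0 := by exact_mod_cast (show q ≠ 0 by linarith)
  have hρ' : (q : ℂ) * (1 - 2 * ρ) = 1 := by exact_mod_cast hρ
  have e3 : -(s : ℂ) ^ 2 / (2 * q) = -s ^ 2 / 2 + ρ * s ^ 2 := by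
    field_simp
    linear_combination (s : ℂ) ^ 2 * hρ'
  rw [e3]
  push_cast
  ring

end Crest.Agent.R300.Rep
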