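import Crest.Agent.R300.Rep1

/-!
# Row 300, upper bound: discretisation of the integral representation (REP lemma)
-/

set_option autoImplicit false

noncomputable section

open MeasureTheory Filter Topology Set Complex

namespace Crest.Agent.R300.Rep

theorem disc {X K : Type*} [MeasurableSpace X] {μ : Measure X} [DecidableEq K] (k : X → K)
    (hk : ∀ j, MeasurableSet {x | k x = j}) (B : Finset K) {D E : X → ℂ} (hD : Integrable D μ)
    (hDE : Integrable (fun x => D x * E x) μ) (F : K → ℂ) {g : X → ℝ} (hg : Integrable g μ)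
    (h1 : ∀ x, k x ∈ B → ‖D x‖ * ‖F (k x) - E x‖ ≤ g x)
    (h2 : ∀ x, k x ∉ B → ‖D x * E x‖ ≤ g x) :
    ‖∑ j ∈ B, (∫ x in {x | k x = j}, D x ∂μ) * F j - ∫ x, D x * E x ∂μ‖ ≤ ∫ x, g x ∂μ := by
  have hi : ∀ j ∈ B, Integrable (fun x => ({x | k x = j}.indicator D x) * F j) μ := fun j _ =>
    (hD.indicator (hk j)).mul_const _
  have e : ∑ j ∈ B, (∫ x in {x | k x = j}, D x ∂μ) * F j =
      ∫ x, ∑ j ∈ B, ({x | k x = j}.indicator D x) * F j ∂μ := by
    rw [integral_finsetSum _ hi]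
    refine Finset.sum_congr rfl fun j _ => ?_
    rw [integral_mul_const, integral_indicator (hk j)]
  rw [e, ← integral_sub (integrable_finsetSum _ hi) hDE]
  refine norm_integral_le_of_norm_le hg (Eventually.of_forall fun x => ?_)
  have e2 : ∑ j ∈ B, ({x | k x = j}.indicator D x) * F j = if k x ∈ B then D x * F (k x) else 0 := by
    simp only [indicator, mem_ofPred_eq, ite_mul, zero_mul]
    exact Finset.sum_ite_eq B (k x) fun j => D x * F j
  rw [e2]
  split_ifs with h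
  · rw [← mul_sub, norm_mul]
    exact h1 x h
  · rw [zero_sub, norm_neg]
    exact h2 x h

theorem norm_exp_sub_le {z w : ℂ} (hz : z.re ≤ 0) (hw : w.re ≤ 0) :
    ‖cexp z - cexp w‖ ≤ ‖z - w‖ := by
  have h := (convex_halfSpace_re_le 0).norm_image_sub_le_of_norm_hasDerivWithin_le
    (f := cexp) (f' := cexp) (C := 1) (fun x _ => (Complex.hasDerivAt_exp x).hasDerivWithinAt)
    (fun x hx => by rw [Complex.norm_exp]; exact Real.exp_le_one_iff.2 hx) hw hz
  rwa [one_mul] at h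

theorem round_near {h : ℝ} (hh : 0 < h) (x : ℝ) : |(round (x / h) : ℝ) * h - x| ≤ h / 2 := by
  have h1 := abs_sub_round (x / h)
  have e : (round (x / h) : ℝ) * h - x = -((x / h - round (x / h)) * h) := by field_simp; ring
  rw [e, abs_neg, abs_mul, abs_of_pos hh]
  nlinarith

theorem round_far {h : ℝ} (hh : 0 < h) {x : ℝ} {K : ℕ}
    (hx : round (x / h) ∉ Finset.Icc (-(K : ℤ)) K) : (K * h) ^ 2 ≤ x ^ 2 := by
  have h1 := abs_le.1 (round_near hh x)
  rw [Finset.mem_Icc, not_and_or, not_le, not_le] at hx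
  rw [← sq_abs x]
  refine pow_le_pow_left₀ (by positivity) ?_ 2
  rcases hx with hx | hx
  · have : (round (x / h) : ℝ) + 1 ≤ -(K : ℝ) := by exact_mod_cast hx
    nlinarith [neg_le_abs x]
  · have : (K : ℝ) + 1 ≤ (round (x / h) : ℝ) := by exact_mod_cast hx
    nlinarith [le_abs_self x]

/-- the cell of a point -/
def cellOf (h : ℝ) (p : X4) : (ℤ × ℤ × ℤ) × ℤ :=
  ((round (p.1.1 / h), round (p.1.2.1 / h), round (p.1.2.2 / h)), round (p.2 / h))

theorem measurable_round' : Measurable (round : ℝ → ℤ) := by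
  have : (round : ℝ → ℤ) = fun x => ⌊x + 1 / 2⌋ := funext round_eq
  rw [this]
  exact Int.measurable_floor.comp (measurable_id.add_const _)

theorem measurableSet_cell (h : ℝ) (j : (ℤ × ℤ × ℤ) × ℤ) : MeasurableSet {p | cellOf h p = j} := by
  have h1 := measurable_round'
  have : Measurable (cellOf h) := by
    unfold cellOf
    fun_prop
  exact this (measurableSet_singleton j)

theorem volume_cell {h : ℝ} (hh : 0 < h) (j : (ℤ × ℤ × ℤ) × ℤ) :
    volume {p | cellOf h p = j} ≤ ENNReal.ofReal (h ^ 4) := by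
  let J : ℤ → Set ℝ := fun m => Icc (m * h - h / 2) (m * h + h / 2)
  have hJ : ∀ m, volume (J m) = ENNReal.ofReal h := fun m => by
    rw [Real.volume_Icc]
    congr 1
    ring
  have hm : ∀ x, x ∈ J (round (x / h)) := fun x => by
    have := abs_le.1 (round_near hh x)
    constructor <;> linarith [this.1, this.2]
  have hs : {p | cellOf h p = j} ⊆ (J j.1.1 ×ˢ (J j.1.2.1 ×ˢ J j.1.2.2)) ×ˢ J j.2 := by
    rintro p rfl
    exact ⟨⟨hm _, hm _, hm _⟩, hm _⟩
  refine (measure_mono hs).trans (le_of_eq ?_)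
  simp only [Measure.volume_eq_prod, Measure.prod_prod, hJ]
  rw [ENNReal.ofReal_pow hh.le]
  ring

/-- the box of frequencies -/
def box (K : ℕ) : Finset ((ℤ × ℤ × ℤ) × ℤ) :=
  (Finset.Icc (-(K : ℤ)) K ×ˢ Finset.Icc (-(K : ℤ)) K ×ˢ Finset.Icc (-(K : ℤ)) K) ×ˢ
    Finset.Icc (-(K : ℤ)) K

theorem slope_near {h α : ℝ} (hh : 0 < h) (hα : 0 ≤ α) (y : ℝ) :
    |10 / 21 * (α / h) * |y| - ((10 * (round (y / h)).natAbs + 20) / 21 : ℕ) * α| ≤ 2 * α := by
  set κ := round (y / h) with hκ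
  set m := (10 * κ.natAbs + 20) / 21 with hm
  have h1 : (21 * m : ℝ) ≤ 10 * κ.natAbs + 20 := by exact_mod_cast (by omega : 21 * m ≤ _)
  have h2 : (10 * κ.natAbs : ℝ) ≤ 21 * m := by exact_mod_cast (by omega : _ ≤ 21 * m)
  have h3 : |(|y| / h - κ.natAbs)| ≤ 1 / 2 := by
    rw [Nat.cast_natAbs, Int.cast_abs, ← abs_of_pos hh, ← abs_div]
    exact (abs_abs_sub_abs_le_abs_sub _ _).trans (abs_sub_round _)
  have e : 10 / 21 * (α / h) * |y| - m * α = (10 / 21 * (|y| / h) - m) * α := by ring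
  rw [e, abs_mul, abs_of_nonneg hα]
  refine mul_le_mul_of_nonneg_right (abs_le.2 ⟨?_, ?_⟩) hα <;> linarith [abs_le.1 h3]

/-- the discretised representation in normalised units -/
theorem rep_disc {q ρ β θ h α : ℝ} (hq : 1 ≤ q) (hq2 : q ≤ 64 / 63) (hρ : q * (1 - 2 * ρ) = 1)
    (hh : 0 < h) (h1 : h ≤ α) (h2 : α ≤ 1.001 * h) (hβ : β ≤ 1 / 8) (hθ : |θ| ≤ β) (K : ℕ) :
    ∃ γ : (ℤ × ℤ × ℤ) × ℤ → ℂ, (∀ j, ‖γ j‖ ≤ 2 ^ 14 * h ^ 4) ∧
      ∀ s d₁ d₂ d₃ N : ℝ, 0 ≤ s → s ≤ N → 0 ≤ d₁ → d₁ ≤ N → 0 ≤ d₂ → d₂ ≤ N → 0 ≤ d₃ → d₃ ≤ N →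
        ‖∑ j ∈ box K, γ j * cexp ((-(((10 * j.2.natAbs + 20) / 21 : ℕ) * α) + j.2 * h * I) * s -
            (j.1.1 * h * d₁ + j.1.2.1 * h * d₂ + j.1.2.2 * h * d₃) * I) -
          cexp (-(s ^ 2 + (s - d₁) ^ 2 + (s - d₂) ^ 2 + (s - d₃) ^ 2) / 2 + ρ * s ^ 2 +
            β * (s + d₁ + d₂ + d₃) + θ * s * I)‖ ≤
          2 ^ 40 * (Real.exp (-(K * h) ^ 2 / 512) + α * N) := by
  set τ : ℝ := 10 / 21 * (α / h) with hτ
  have hα : 0 ≤ α := by linarith
  have h0 : 0 ≤ τ := by positivity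
  have hτ1 : τ ≤ 0.4767 := by
    have : α / h ≤ 1.001 := by rwa [div_le_iff₀ hh]
    linarith
  have hb := norm_repD hq hq2 h0 hτ1 hβ hθ
  have hG : ∀ p, G4 (1 / 256) p = G4 (1 / 512) p * G4 (1 / 512) p := fun p => by
    rw [G4_eq, G4_eq, ← Real.exp_add]
    congr 1
    ring
  have hG0 : ∀ c p, 0 ≤ G4 c p := fun c p => by rw [G4_eq]; positivity
  have hG1 : ∀ c, 0 ≤ c → ∀ p, G4 c p ≤ 1 := fun c hc p => by
    rw [G4_eq, Real.exp_le_one_iff, neg_mul, neg_nonpos]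
    positivity
  have hD : Integrable (repD q τ β θ) :=
    ((integrable_G4 (c := 1 / 256) (by norm_num)).const_mul (2 ^ 14)).mono'
      (measurable_repD q τ β θ).aestronglyMeasurable (Eventually.of_forall hb)
  refine ⟨fun j => ∫ p in {p | cellOf h p = j}, repD q τ β θ p, fun j => ?_,
    fun s d₁ d₂ d₃ N s0 s1 a0 a1 b0 b1 c0 c1 => ?_⟩
  · refine (norm_setIntegral_le_of_norm_le_const (C := 2 ^ 14)
      ((volume_cell hh j).trans_lt ENNReal.ofReal_lt_top) fun p _ => ?_).trans ?_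
    · exact (hb p).trans (mul_le_of_le_one_right (by positivity) (hG1 _ (by norm_num) p))
    · exact mul_le_mul_of_nonneg_left
        (ENNReal.toReal_le_of_le_ofReal (by positivity) (volume_cell hh j)) (by positivity)
  have hN : 0 ≤ α * N := mul_nonneg hα (s0.trans s1)
  have hDE : ∀ p, ‖repD q τ β θ p * repE τ s d₁ d₂ d₃ p‖ ≤ 2 ^ 14 * G4 (1 / 256) p := fun p => by
    rw [norm_mul]
    exact (mul_le_of_le_one_right (norm_nonneg _) (norm_repE h0 s0 _ _ _ p)).trans (hb p)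
  rw [← rep_exact hq hq2 hρ h0 hτ1 hβ hθ s0 d₁ d₂ d₃]
  refine (disc (cellOf h) (measurableSet_cell h) (box K) hD
    (((integrable_G4 (c := 1 / 256) (by norm_num)).const_mul (2 ^ 14)).mono'
      ((measurable_repD q τ β θ).mul (measurable_repE τ s d₁ d₂ d₃)).aestronglyMeasurable
      (Eventually.of_forall hDE)) _
    ((integrable_G4 (c := 1 / 512) (by norm_num)).const_mul
      (2 ^ 14 * (Real.exp (-(K * h) ^ 2 / 512) + 4 * (α * N)))) (fun p _ => ?_) fun p hp => ?_).trans ?_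
  · obtain ⟨⟨x₁, x₂, x₃⟩, y⟩ := p
    have e1 : ‖cexp ((-(((10 * (round (y / h)).natAbs + 20) / 21 : ℕ) * α) +
        (round (y / h) : ℤ) * h * I) * s - ((round (x₁ / h) : ℤ) * h * d₁ +
          (round (x₂ / h) : ℤ) * h * d₂ + (round (x₃ / h) : ℤ) * h * d₃) * I) -
        repE τ s d₁ d₂ d₃ ((x₁, x₂, x₃), y)‖ ≤ 4 * (α * N) := by
      refine (norm_exp_sub_le ?_ ?_).trans ((Complex.norm_le_abs_re_add_abs_im _).trans ?_)
      · simp only [← Complex.ofReal_natCast, ← Complex.ofReal_intCast]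
        generalize ((10 * (round (y / h)).natAbs + 20) / 21 : ℕ) = m
        simp
        positivity
      · simp only [repL]
        simp
        positivity
      · have k0 := slope_near hh hα y
        have k1 := round_near hh x₁
        have k2 := round_near hh x₂
        have k3 := round_near hh x₃
        have k4 := round_near hh y
        rw [← hτ] at k0
        generalize ((10 * (round (y / h)).natAbs + 20) / 21 : ℕ) = m at k0 ⊢
        have ere : ((-((m : ℂ) * α) + (round (y / h) : ℤ) * h * I) * s - ((round (x₁ / h) : ℤ) * h * d₁ +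
            (round (x₂ / h) : ℤ) * h * d₂ + (round (x₃ / h) : ℤ) * h * d₃) * I -
            (repL τ y * s - (x₁ * d₁ + x₂ * d₂ + x₃ * d₃) * I)).re = (τ * |y| - m * α) * s := by
          simp [repL]
          ring
        have eim : ((-((m : ℂ) * α) + (round (y / h) : ℤ) * h * I) * s - ((round (x₁ / h) : ℤ) * h * d₁ +
            (round (x₂ / h) : ℤ) * h * d₂ + (round (x₃ / h) : ℤ) * h * d₃) * I -
            (repL τ y * s - (x₁ * d₁ + x₂ * d₂ + x₃ * d₃) * I)).im =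
            ((round (y / h) : ℝ) * h - y) * s - ((round (x₁ / h) : ℝ) * h - x₁) * d₁ -
              ((round (x₂ / h) : ℝ) * h - x₂) * d₂ - ((round (x₃ / h) : ℝ) * h - x₃) * d₃ := by
          simp [repL]
          ring
        rw [ere, eim]
        have key : ∀ u d c : ℝ, |u| ≤ c → 0 ≤ d → d ≤ N → |u * d| ≤ c * N := fun u d c hu a b => by
          rw [abs_mul, abs_of_nonneg a]
          exact mul_le_mul hu b a ((abs_nonneg u).trans hu)
        have m0 := key _ _ _ k0 s0 s1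
        have m1 := abs_le.1 (key _ _ _ k1 a0 a1)
        have m2 := abs_le.1 (key _ _ _ k2 b0 b1)
        have m3 := abs_le.1 (key _ _ _ k3 c0 c1)
        have m4 := abs_le.1 (key _ _ _ k4 s0 s1)
        have m5 : h * N ≤ α * N := mul_le_mul_of_nonneg_right h1 (s0.trans s1)
        have m6 : |((round (y / h) : ℝ) * h - y) * s - ((round (x₁ / h) : ℝ) * h - x₁) * d₁ -
            ((round (x₂ / h) : ℝ) * h - x₂) * d₂ - ((round (x₃ / h) : ℝ) * h - x₃) * d₃| ≤
            2 * (α * N) := abs_le.2 ⟨by linarith [m1.2, m2.2, m3.2, m4.1],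
              by linarith [m1.1, m2.1, m3.1, m4.2]⟩
        linarith
    refine (mul_le_mul (hb _) e1 (norm_nonneg _) (by have := hG0 (1 / 256) ((x₁, x₂, x₃), y); positivity)).trans ?_
    have k1 := mul_le_of_le_one_right (hG0 (1 / 512) ((x₁, x₂, x₃), y))
      (hG1 (1 / 512) (by norm_num) ((x₁, x₂, x₃), y))
    rw [← hG] at k1
    have k2 := mul_le_mul_of_nonneg_left k1 hN
    have k3 := mul_nonneg (Real.exp_pos (-(K * h) ^ 2 / 512)).le (hG0 (1 / 512) ((x₁, x₂, x₃), y))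
    nlinarith
  · refine (hDE p).trans ?_
    have k1 : G4 (1 / 512) p ≤ Real.exp (-(K * h) ^ 2 / 512) := by
      rw [G4_eq, Real.exp_le_exp]
      have : (K * h) ^ 2 ≤ p.1.1 ^ 2 + p.1.2.1 ^ 2 + p.1.2.2 ^ 2 + p.2 ^ 2 := by
        simp only [box, cellOf, Finset.mem_product, not_and_or] at hp
        have := sq_nonneg p.1.1
        have := sq_nonneg p.1.2.1
        have := sq_nonneg p.1.2.2
        have := sq_nonneg p.2
        rcases hp with (hp | hp | hp) | hp <;> linarith [round_far hh hp]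
      linarith
    have k2 := mul_le_mul_of_nonneg_right k1 (hG0 (1 / 512) p)
    have k3 := mul_nonneg hN (hG0 (1 / 512) p)
    rw [hG]
    nlinarith
  · rw [integral_const_mul, integral_G4 (by norm_num)]
    have k1 : (Real.pi / (1 / 512)) ^ 2 ≤ 2 ^ 22 := by
      have := Real.pi_le_four
      have := Real.pi_pos
      nlinarith
    have k2 := Real.exp_pos (-(K * h) ^ 2 / 512)
    refine (mul_le_mul_of_nonneg_left k1 (by positivity)).trans ?_
    nlinarith

/-- **REP lemma**. -/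
theorem rep_main {A ϑ σ r r' lb k₀ : ℝ} (hϑ : 0 < ϑ) (h1 : ϑ ≤ A) (h2 : A ≤ 1.001 * ϑ) (hσ : 0 < σ)
    (hr : 2 * r * A * σ ^ 2 = 1) (hr0 : 0 ≤ r') (hr' : 64 * r' ≤ r) (hlb : lb * A * σ ≤ 1 / 8)
    (hk : |k₀| ≤ lb) (K : ℕ) :
    ∃ γ : (ℤ × ℤ × ℤ) × ℤ → ℂ, (∀ j, ‖γ j‖ ≤ 2 ^ 14 * (σ * ϑ) ^ 4) ∧
      ∀ s d₁ d₂ d₃ N : ℝ, 0 ≤ s → s ≤ N → 0 ≤ d₁ → d₁ ≤ N → 0 ≤ d₂ → d₂ ≤ N → 0 ≤ d₃ → d₃ ≤ N →
        ‖∑ j ∈ box K, γ j * cexp (-(r' * A * s ^ 2) +
            (-((lb + ((10 * j.2.natAbs + 20) / 21 : ℕ)) * A) + j.2 * ϑ * I) * s +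
            (-(lb * A) - j.1.1 * ϑ * I) * d₁ + (-(lb * A) - j.1.2.1 * ϑ * I) * d₂ +
            (-(lb * A) - j.1.2.2 * ϑ * I) * d₃) -
          cexp (-(r * A * (s ^ 2 + (s - d₁) ^ 2 + (s - d₂) ^ 2 + (s - d₃) ^ 2)) + k₀ * ϑ * s * I)‖ ≤
          2 ^ 40 * (Real.exp (-(σ * K * ϑ) ^ 2 / 512) + A * N) *
            Real.exp (-(lb * A * (s + d₁ + d₂ + d₃))) := by
  have hA : 0 < A := by linarith
  have hρ0 : 0 ≤ r' * A * σ ^ 2 := by positivity
  have hρ1 : r' * A * σ ^ 2 ≤ 1 / 128 := by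
    have := mul_le_mul_of_nonneg_right hr' (show 0 ≤ A * σ ^ 2 by positivity)
    nlinarith
  have hq0 : 0 < 1 - 2 * (r' * A * σ ^ 2) := by linarith
  obtain ⟨γ, hγ, H⟩ := rep_disc (q := (1 - 2 * (r' * A * σ ^ 2))⁻¹) (ρ := r' * A * σ ^ 2)
    (β := lb * A * σ) (θ := k₀ * ϑ * σ) (h := σ * ϑ) (α := σ * A)
    ((one_le_inv₀ hq0).2 (by linarith)) ((inv_le_comm₀ hq0 (by norm_num)).2 (by norm_num; linarith))
    (inv_mul_cancel₀ hq0.ne') (by positivity) (mul_le_mul_of_nonneg_left h1 hσ.le) (by nlinarith)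
    hlb (by
      rw [abs_mul, abs_mul, abs_of_pos hϑ, abs_of_pos hσ]
      exact mul_le_mul_of_nonneg_right (mul_le_mul hk h1 hϑ.le ((abs_nonneg _).trans hk)) hσ.le) K
  refine ⟨γ, hγ, fun s d₁ d₂ d₃ N s0 s1 a0 a1 b0 b1 c0 c1 => ?_⟩
  have H' := H (s / σ) (d₁ / σ) (d₂ / σ) (d₃ / σ) (N / σ) (by positivity) (by gcongr)
    (by positivity) (by gcongr) (by positivity) (by gcongr) (by positivity) (by gcongr)
  have hσ' : (σ : ℂ) ≠ 0 := by exact_mod_cast hσ.ne'
  have hr2 : (2 * r * A * σ ^ 2 : ℂ) = 1 := by exact_mod_cast hr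
  have hw : ‖cexp (-(r' * A * s ^ 2) - lb * A * (s + d₁ + d₂ + d₃))‖ ≤
      Real.exp (-(lb * A * (s + d₁ + d₂ + d₃))) := by
    rw [Complex.norm_exp, Real.exp_le_exp]
    have : 0 ≤ r' * A * (s * s) := by positivity
    simp [pow_two]
    linarith
  have e1 : (K * (σ * ϑ)) ^ 2 = (σ * K * ϑ) ^ 2 := by ring
  have e2 : σ * A * (N / σ) = A * N := by field_simp
  rw [e1, e2] at H'
  refine le_trans (le_of_eq ?_) (mul_le_mul H' hw (norm_nonneg _) ((norm_nonneg _).trans H'))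
  rw [← norm_mul, sub_mul, Finset.sum_mul]
  congr 2
  · refine Finset.sum_congr rfl fun j _ => ?_
    rw [mul_assoc (γ j), ← Complex.exp_add]
    congr 2
    generalize ((10 * j.2.natAbs + 20) / 21 : ℕ) = m
    push_cast
    field_simp
    ring
  · rw [← Complex.exp_add]
    congr 1
    push_cast
    field_simp
    linear_combination (-(s ^ 2 + (s - d₁) ^ 2 + (s - d₂) ^ 2 + (s - d₃) ^ 2) : ℂ) * hr2

end Crest.Agent.R300.Rep
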