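import Crest.Agent.R300.UBNum

/-! Row 300 upper bound: proofs for the chain step (part A). -/

set_option autoImplicit false

noncomputable section

namespace Crest.Agent.R300.UB

open Complex Finset

variable {P : P4} {X : ℤ → ℂ} {V ε M : ℝ} {kT kA η : ℕ}

theorem ch_div_sq {p x : ℂ} (hV : 1 ≤ V) (h : ‖p - x * V * V‖ ≤ ε) : ‖p / (V : ℂ) ^ 2 - x‖ ≤ ε := by
  have h0 : (V : ℂ) ≠ 0 := by exact_mod_cast (show V ≠ 0 by linarith)
  have h1 : p / (V : ℂ) ^ 2 - x = (p - x * V * V) / (V : ℂ) ^ 2 := by field_simp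
  rw [h1, norm_div, norm_pow, Complex.norm_real, Real.norm_of_nonneg (by linarith)]
  exact (div_le_self (norm_nonneg _) (one_le_pow₀ hV)).trans h

theorem ch_sHat (hV : 1 ≤ V) (hε : 0 < ε) {k : ℤ}
    (h : ‖P (some false, k) (some true, -k) (none, 0) (none, 0) -
      X k * (starRingEnd ℂ) (X k) * V * V‖ ≤ ε) :
    ‖X k‖ ^ 2 ≤ sHat P V ε k ∧ sHat P V ε k ≤ ‖X k‖ ^ 2 + 2 * ε ∧ ε ≤ sHat P V ε k := by
  have h1 := (Complex.abs_re_le_norm _).trans (ch_div_sq hV h)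
  rw [Complex.mul_conj, Complex.normSq_eq_norm_sq, Complex.sub_re, Complex.ofReal_re,
    ← Complex.ofReal_pow, Complex.div_ofReal_re] at h1
  unfold sHat
  generalize (P (some false, k) (some true, -k) (none, 0) (none, 0)).re / V ^ 2 = a at h1
  have h2 := sq_nonneg ‖X k‖
  obtain ⟨h3, h4⟩ := abs_le.1 h1
  refine ⟨by linarith [le_abs_self a], ?_, by linarith [abs_nonneg a]⟩
  have : |a| ≤ ‖X k‖ ^ 2 + ε := abs_le.2 ⟨by linarith, by linarith⟩
  linarith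

theorem ch_mem_cand {kT h : ℕ} {k : ℤ} :
    k ∈ cand kT h ↔ k.natAbs ≤ kT ∧ (k + h).natAbs ≤ kT := by
  rw [cand, List.mem_filter, mem_intRange, decide_eq_true_iff]
  omega

theorem ch_thetaH (P : P4) (V ε : ℝ) {kT h : ℕ} (hh : h ≤ kT) :
    (thetaH P V ε kT h).natAbs ≤ kT ∧ (thetaH P V ε kT h + h).natAbs ≤ kT ∧
      ∀ k : ℤ, k.natAbs ≤ kT → (k + h).natAbs ≤ kT →
        sHat P V ε k * sHat P V ε (k + h) ≤ tauH P V ε kT h := by
  have hne : (0 : ℤ) ∈ cand kT h := ch_mem_cand.2 (by omega)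
  cases hm : (cand kT h).argmax fun k => sHat P V ε k * sHat P V ε (k + h) with
  | none =>
    rw [List.argmax_eq_none] at hm
    rw [hm] at hne
    simp at hne
  | some θ =>
    have hθ : thetaH P V ε kT h = θ := by rw [thetaH, hm]; rfl
    have h1 := ch_mem_cand.1 (List.argmax_mem hm)
    rw [tauH, hθ]
    exact ⟨h1.1, h1.2, fun k hk hk' => List.le_of_mem_argmax
      (f := fun k => sHat P V ε k * sHat P V ε (k + h)) (ch_mem_cand.2 ⟨hk, hk'⟩) hm⟩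

theorem ch_hStar (P : P4) (V ε : ℝ) (kT kA : ℕ) :
    hStar P V ε kT kA ≤ kA ∧ ∀ h ≤ kA, tau2 P V ε kT kA ≤ tauH P V ε kT h := by
  cases hm : (List.range (kA + 1)).argmin (tauH P V ε kT) with
  | none =>
    rw [List.argmin_eq_none] at hm
    simp at hm
  | some θ =>
    have hθ : hStar P V ε kT kA = θ := by rw [hStar, hm]; rfl
    have h1 := List.mem_range.1 (List.argmin_mem hm)
    rw [tau2, hθ]
    exact ⟨by omega, fun h hh => List.le_of_mem_argmin (List.mem_range.2 (by omega)) hm⟩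

theorem ch_Qt_small {j : ℕ} (hη : 1 ≤ η) (hj : j ≤ η) : Qt P V ε kT η j = PP P V ε kT η j := by
  have : (j - 1) / η = 0 := Nat.div_eq_of_lt (by omega)
  simp [Qt, this]

theorem ch_div_big {j : ℕ} (hη : 1 ≤ η) (hj : η < j) : (j - 1) / η = (j - η - 1) / η + 1 := by
  have : j - 1 = (j - η - 1) + η := by omega
  rw [this, Nat.add_div_right _ hη]

theorem ch_Qt_big {j : ℕ} (hη : 1 ≤ η) (hj : η < j) :
    Qt P V ε kT η j = PP P V ε kT η j * ((starRingEnd ℂ) (Qt P V ε kT η (j - η)))⁻¹ := by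
  rw [Qt, ch_div_big hη hj, Finset.prod_range_succ', mul_comm, Qt, map_prod,
    ← Finset.prod_inv_distrib]
  congr 1
  · simp
  · refine Finset.prod_congr rfl fun i _ => ?_
    have e : j - (i + 1) * η = j - η - i * η := by rw [add_mul, one_mul]; omega
    rw [e]
    rcases Nat.mod_two_eq_zero_or_one i with h | h
    · rw [if_neg (by omega), if_pos h]
    · rw [if_pos (by omega), if_neg (by omega)]
      simp

theorem ch_mul_sub_one {x y : ℂ} {a b : ℝ} (hx : ‖x - 1‖ ≤ a) (hy : ‖y - 1‖ ≤ b) :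
    ‖x * y - 1‖ ≤ (1 + a) * (1 + b) - 1 := by
  have e : x * y - 1 = (x - 1) * (y - 1) + (x - 1) + (y - 1) := by ring
  rw [e]
  refine (norm_add_le _ _).trans ((add_le_add (norm_add_le _ _) le_rfl).trans ?_)
  rw [norm_mul]
  have := mul_le_mul hx hy (norm_nonneg _) ((norm_nonneg _).trans hx)
  linarith

theorem ch_half_le {u : ℂ} {r : ℝ} (hu : ‖u - 1‖ ≤ r) (hr : r ≤ 1 / 2) : 1 / 2 ≤ ‖u‖ := by
  have := abs_norm_sub_norm_le u 1
  rw [norm_one] at this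
  linarith [(abs_le.1 this).1]

/-- relative error -/
theorem ch_rel {p q : ℂ} {e : ℝ} (hq : q ≠ 0) (he : e ≤ 1 / 2) (h : ‖p - q‖ ≤ e * ‖q‖) :
    ∃ u : ℂ, p = q * u ∧ ‖u - 1‖ ≤ 2 * e ∧ ‖u⁻¹ - 1‖ ≤ 2 * e := by
  have hq' : 0 < ‖q‖ := norm_pos_iff.2 hq
  have h1 : ‖p / q - 1‖ ≤ e := by
    rw [div_sub_one hq, norm_div, div_le_iff₀ hq']; exact h
  have he0 : 0 ≤ e := (norm_nonneg _).trans h1
  refine ⟨p / q, by field_simp, by linarith, ?_⟩
  generalize p / q = u at h1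
  have h2 := ch_half_le h1 he
  have h3 : u ≠ 0 := norm_pos_iff.1 (by linarith)
  have h4 : u⁻¹ - 1 = -(u - 1) / u := by field_simp; ring
  rw [h4, norm_div, norm_neg, div_le_iff₀ (by linarith)]
  nlinarith

theorem ch_pow_le {a : ℝ} (ha : 0 ≤ a) (k : ℕ) (hk : k * a ≤ 1) : (1 + a) ^ k - 1 ≤ 2 * k * a := by
  have h1 : (1 + a) ^ k ≤ Real.exp (k * a) := by
    rw [Real.exp_nat_mul]
    refine pow_le_pow_left₀ (by linarith) ?_ k
    linarith [Real.add_one_le_exp a]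
  have h0 : 0 ≤ (k : ℝ) * a := by positivity
  have h2 := Real.abs_exp_sub_one_le (x := k * a) (by rw [abs_of_nonneg h0]; exact hk)
  rw [abs_of_nonneg h0] at h2
  have h3 := le_abs_self (Real.exp (k * a) - 1)
  linarith

theorem ch_div_est {p x q u : ℂ} {e r : ℝ} (hV : 1 ≤ V) (hq : q ≠ 0) (h : ‖p - x * q * V‖ ≤ e * ‖q‖)
    (hu : ‖u - 1‖ ≤ r) (hr : r ≤ 1 / 2) (hx : ‖x‖ ≤ M) :
    ‖p / ((V : ℂ) * (q * u)) - x‖ ≤ 2 * e + 2 * M * r := by
  have hq' : 0 < ‖q‖ := norm_pos_iff.2 hq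
  have h0 : (V : ℂ) ≠ 0 := by exact_mod_cast (show V ≠ 0 by linarith)
  have h2 := ch_half_le hu hr
  have h3 : u ≠ 0 := norm_pos_iff.1 (by linarith)
  have he : 0 ≤ e := by
    have := (norm_nonneg _).trans h
    exact nonneg_of_mul_nonneg_left this hq'
  have hM : 0 ≤ M := (norm_nonneg _).trans hx
  have hr0 : 0 ≤ r := (norm_nonneg _).trans hu
  have e1 : p / ((V : ℂ) * (q * u)) - x =
      ((p - x * q * V) - x * (u - 1) * (V * q)) / ((V : ℂ) * q * u) := by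
    field_simp; ring
  have hn : ‖(V : ℂ) * q‖ = V * ‖q‖ := by
    rw [norm_mul, Complex.norm_real, Real.norm_of_nonneg (by linarith)]
  have hVq : 0 < V * ‖q‖ := by positivity
  rw [e1, norm_div, norm_mul (V * q : ℂ), hn, div_le_iff₀ (by positivity)]
  refine (norm_sub_le _ _).trans ?_
  rw [norm_mul, norm_mul, hn]
  have h4 : ‖x‖ * ‖u - 1‖ ≤ M * r := mul_le_mul hx hu (norm_nonneg _) hM
  have h5 : e * ‖q‖ ≤ e * (V * ‖q‖) := mul_le_mul_of_nonneg_left (by nlinarith) he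
  have h6 := mul_le_mul_of_nonneg_right h4 hVq.le
  have h7 : (2 * e + 2 * M * r) * (V * ‖q‖ * (1 / 2)) ≤ (2 * e + 2 * M * r) * (V * ‖q‖ * ‖u‖) :=
    mul_le_mul_of_nonneg_left (mul_le_mul_of_nonneg_left h2 hVq.le) (by positivity)
  nlinarith

section main

variable (hV : 1 ≤ V) (hM : 1 ≤ M) (hε : 0 < ε) (hε' : ε ≤ 1 / 2) (hη : 1 ≤ η)
  (hX : ∀ k, ‖X k‖ ≤ M)
  (h2 : ∀ i j : ℤ, i.natAbs ≤ kT → j.natAbs ≤ kT → (i - j).natAbs ≤ η →
    ‖P (some false, i) (some true, -j) (none, 0) (none, 0) -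
      X i * (starRingEnd ℂ) (X j) * V * V‖ ≤ ε)
  (h4 : ∀ i j i' j' : ℤ, i.natAbs ≤ kT → j.natAbs ≤ kT → i'.natAbs ≤ kT → j'.natAbs ≤ kT →
    (i - j - i' + j').natAbs ≤ η →
    ‖P (some false, i) (some true, -j) (some true, -i') (some false, j') -
      X i * (starRingEnd ℂ) (X j) * (starRingEnd ℂ) (X i') * X j'‖ ≤ ε)

include hV hM hε hε' hX h2

theorem ch_Q (hA : kA ≤ kT)
    (hc : 16 * ((kA / η + 1 : ℕ) : ℝ) * ε * (M ^ 2 + 1) ≤ tau2 P V ε kT kA) {j : ℕ} (hj : j ≤ kA) :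
    tau2 P V ε kT kA / 2 ≤
        ‖X (thetaH P V ε kT j + j) * (starRingEnd ℂ) (X (thetaH P V ε kT j))‖ ^ 2 ∧
      ε ≤ 2 * ε * (M ^ 2 + 1) / tau2 P V ε kT kA *
        ‖X (thetaH P V ε kT j + j) * (starRingEnd ℂ) (X (thetaH P V ε kT j))‖ := by
  obtain ⟨t1, t2, -⟩ := ch_thetaH P V ε (hj.trans hA)
  obtain ⟨-, a2, a3⟩ := ch_sHat hV hε (h2 _ _ t1 t1 (by simp))
  obtain ⟨-, b2, b3⟩ := ch_sHat hV hε (h2 _ _ t2 t2 (by simp))
  have h1 := (ch_hStar P V ε kT kA).2 j hj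
  rw [tauH] at h1
  have h3 := h1.trans (mul_le_mul a2 b2 (by linarith) (by positivity))
  have hN : (1 : ℝ) ≤ ((kA / η + 1 : ℕ) : ℝ) := by exact_mod_cast Nat.le_add_left 1 _
  have ha := pow_le_pow_left₀ (norm_nonneg _) (hX (thetaH P V ε kT j)) 2
  have hb := pow_le_pow_left₀ (norm_nonneg _) (hX (thetaH P V ε kT j + j)) 2
  have hn : ‖X (thetaH P V ε kT j + j) * (starRingEnd ℂ) (X (thetaH P V ε kT j))‖ ^ 2 =
      ‖X (thetaH P V ε kT j)‖ ^ 2 * ‖X (thetaH P V ε kT j + j)‖ ^ 2 := by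
    rw [norm_mul, Complex.norm_conj]; ring
  have hq0 := norm_nonneg (X (thetaH P V ε kT j + j) * (starRingEnd ℂ) (X (thetaH P V ε kT j)))
  have ha0 := sq_nonneg ‖X (thetaH P V ε kT j)‖
  have hb0 := sq_nonneg ‖X (thetaH P V ε kT j + j)‖
  generalize ‖X (thetaH P V ε kT j + j) * (starRingEnd ℂ) (X (thetaH P V ε kT j))‖ = c at hn hq0 ⊢
  generalize ‖X (thetaH P V ε kT j)‖ ^ 2 = a at ha hn h3 ha0
  generalize ‖X (thetaH P V ε kT j + j)‖ ^ 2 = b at hb hn h3 hb0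
  generalize tau2 P V ε kT kA = τ at hc h3 ⊢
  generalize ((kA / η + 1 : ℕ) : ℝ) = N at hc hN
  have hm : 0 < ε * (M ^ 2 + 1) := by positivity
  have h5 : 16 * (ε * (M ^ 2 + 1)) ≤ τ := by nlinarith
  have hτ : 0 < τ := by linarith
  have h6 : τ / 2 ≤ c ^ 2 := by nlinarith
  refine ⟨h6, ?_⟩
  have h7 : τ ≤ (M ^ 2 + 1) ^ 2 := by
    refine h3.trans ?_
    rw [sq (M ^ 2 + 1)]
    exact mul_le_mul (by linarith) (by linarith) (by linarith) (by positivity)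
  have h8 : τ ≤ 2 * (M ^ 2 + 1) * c := by
    refine abs_le_of_sq_le_sq' ?_ (by positivity) |>.2
    have h9 := mul_le_mul h7 h6 (by linarith) (by positivity)
    nlinarith [mul_nonneg (sq_nonneg (M ^ 2 + 1)) (sq_nonneg c)]
  rw [div_mul_eq_mul_div, le_div_iff₀ hτ]
  nlinarith

include hη h4

theorem ch_Qt_ind (hA : kA ≤ kT)
    (hc : 16 * ((kA / η + 1 : ℕ) : ℝ) * ε * (M ^ 2 + 1) ≤ tau2 P V ε kT kA) (j : ℕ) (hj : j ≤ kA) :
    ∃ u : ℂ, Qt P V ε kT η j =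
        X (thetaH P V ε kT j + j) * (starRingEnd ℂ) (X (thetaH P V ε kT j)) * u ∧
      ‖u - 1‖ ≤ (1 + 2 * (2 * ε * (M ^ 2 + 1) / tau2 P V ε kT kA)) ^ ((j - 1) / η + 1) - 1 ∧
      ‖u⁻¹ - 1‖ ≤ (1 + 2 * (2 * ε * (M ^ 2 + 1) / tau2 P V ε kT kA)) ^ ((j - 1) / η + 1) - 1 := by
  have hN : (1 : ℝ) ≤ ((kA / η + 1 : ℕ) : ℝ) := by exact_mod_cast Nat.le_add_left 1 _
  have hm : 0 < ε * (M ^ 2 + 1) := by positivity
  have h5 : 16 * (ε * (M ^ 2 + 1)) ≤ tau2 P V ε kT kA := by nlinarith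
  have hτ : 0 < tau2 P V ε kT kA := by linarith
  have he : 2 * ε * (M ^ 2 + 1) / tau2 P V ε kT kA ≤ 1 / 2 := by
    rw [div_le_iff₀ hτ]; linarith
  have hne : ∀ i ≤ kA, X (thetaH P V ε kT i + i) * (starRingEnd ℂ) (X (thetaH P V ε kT i)) ≠ 0 := by
    intro i hi h0
    have := (ch_Q hV hM hε hε' hX h2 hA hc hi).1
    rw [h0, norm_zero] at this
    linarith
  induction j using Nat.strong_induction_on with
  | _ j ih =>
  obtain ⟨t1, t2, -⟩ := ch_thetaH P V ε (hj.trans hA)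
  obtain ⟨q1, q2⟩ := ch_Q hV hM hε hε' hX h2 hA hc hj
  rcases le_or_gt j η with hjη | hjη
  · have h0 : (j - 1) / η = 0 := Nat.div_eq_of_lt (by omega)
    rw [ch_Qt_small hη hjη, PP, if_pos hjη, h0]
    obtain ⟨u, hu1, hu2, hu3⟩ := ch_rel (hne j hj) he
      ((ch_div_sq hV (h2 _ _ t2 t1 (by omega))).trans q2)
    exact ⟨u, hu1, by simpa using hu2, by simpa using hu3⟩
  · have hj' : j - η ≤ kA := by omega
    obtain ⟨v, hv1, hv2, hv3⟩ := ih (j - η) (by omega) hj'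
    obtain ⟨s1, s2, -⟩ := ch_thetaH P V ε (hj'.trans hA)
    obtain ⟨r1, -⟩ := ch_Q hV hM hε hε' hX h2 hA hc hj'
    have h6 := h4 _ _ _ _ t2 t1 s2 s1 (by omega)
    have hQ := hne j hj
    have hQ' := hne _ hj'
    rw [ch_Qt_big hη hjη, PP, if_neg (by omega), hv1, ch_div_big hη hjη, pow_succ' _ (_ + 1)]
    have e1 : X (thetaH P V ε kT j + j) * (starRingEnd ℂ) (X (thetaH P V ε kT j)) *
        (starRingEnd ℂ) (X (thetaH P V ε kT (j - η) + (j - η : ℕ))) * X (thetaH P V ε kT (j - η)) =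
        X (thetaH P V ε kT j + j) * (starRingEnd ℂ) (X (thetaH P V ε kT j)) *
        (starRingEnd ℂ) (X (thetaH P V ε kT (j - η) + (j - η : ℕ)) *
          (starRingEnd ℂ) (X (thetaH P V ε kT (j - η)))) := by
      rw [map_mul, Complex.conj_conj]; ring
    rw [e1] at h6
    generalize X (thetaH P V ε kT j + j) * (starRingEnd ℂ) (X (thetaH P V ε kT j)) = Q
      at h6 hQ q1 ⊢
    generalize X (thetaH P V ε kT (j - η) + (j - η : ℕ)) *
      (starRingEnd ℂ) (X (thetaH P V ε kT (j - η))) = Q' at h6 hQ' r1 ⊢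
    have hQc : (starRingEnd ℂ) Q' ≠ 0 := (map_ne_zero _).2 hQ'
    have h7 : tau2 P V ε kT kA / 2 ≤ ‖Q * (starRingEnd ℂ) Q'‖ := by
      rw [norm_mul, Complex.norm_conj]
      refine abs_le_of_sq_le_sq' ?_ (by positivity) |>.2
      rw [mul_pow, sq]
      exact mul_le_mul q1 r1 (by linarith) (by positivity)
    have h8 : ε ≤ 2 * ε * (M ^ 2 + 1) / tau2 P V ε kT kA * ‖Q * (starRingEnd ℂ) Q'‖ := by
      refine le_trans ?_ (mul_le_mul_of_nonneg_left h7 (by positivity))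
      have : 2 * ε * (M ^ 2 + 1) / tau2 P V ε kT kA * (tau2 P V ε kT kA / 2) = ε * (M ^ 2 + 1) := by
        field_simp
      rw [this]
      nlinarith [sq_nonneg M]
    obtain ⟨u, hu1, hu2, hu3⟩ := ch_rel (mul_ne_zero hQ hQc) he (h6.trans h8)
    have hcj : ∀ w : ℂ, ‖(starRingEnd ℂ) w - 1‖ = ‖w - 1‖ := fun w => by
      rw [← Complex.norm_conj (w - 1), map_sub, map_one]
    refine ⟨u * (starRingEnd ℂ) v⁻¹, ?_,
      (ch_mul_sub_one hu2 ((hcj _).trans_le hv3)).trans (le_of_eq (by ring)), ?_⟩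
    · rw [hu1, map_mul, mul_inv, map_inv₀]
      field_simp
    · rw [mul_inv, ← map_inv₀, inv_inv]
      exact (ch_mul_sub_one hu3 ((hcj _).trans_le hv2)).trans (le_of_eq (by ring))

theorem ch_Qt (hA : kA ≤ kT)
    (hc : 16 * ((kA / η + 1 : ℕ) : ℝ) * ε * (M ^ 2 + 1) ≤ tau2 P V ε kT kA) {j : ℕ} (hj : j ≤ kA) :
    ∃ ρ : ℂ, ‖ρ‖ ≤ 8 * ((kA / η + 1 : ℕ) : ℝ) * ε * (M ^ 2 + 1) / tau2 P V ε kT kA ∧
      Qt P V ε kT η j =
        X (thetaH P V ε kT j + j) * (starRingEnd ℂ) (X (thetaH P V ε kT j)) * (1 + ρ) ∧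
      tau2 P V ε kT kA / 2 ≤
        ‖X (thetaH P V ε kT j + j) * (starRingEnd ℂ) (X (thetaH P V ε kT j))‖ ^ 2 := by
  obtain ⟨u, hu1, hu2, -⟩ := ch_Qt_ind hV hM hε hε' hη hX h2 h4 hA hc j hj
  refine ⟨u - 1, hu2.trans ?_, by rw [hu1]; ring, (ch_Q hV hM hε hε' hX h2 hA hc hj).1⟩
  have hN : (1 : ℝ) ≤ ((kA / η + 1 : ℕ) : ℝ) := by exact_mod_cast Nat.le_add_left 1 _
  have hm : 0 < ε * (M ^ 2 + 1) := by positivity
  have h5 : 16 * (ε * (M ^ 2 + 1)) ≤ tau2 P V ε kT kA := by nlinarith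
  have hτ : 0 < tau2 P V ε kT kA := by linarith
  have he : 0 ≤ 2 * (2 * ε * (M ^ 2 + 1) / tau2 P V ε kT kA) := by positivity
  have h6 : (j - 1) / η + 1 ≤ kA / η + 1 :=
    Nat.succ_le_succ (Nat.div_le_div_right (by omega))
  refine (sub_le_sub_right (pow_le_pow_right₀ (by linarith) h6) 1).trans
    ((ch_pow_le he _ ?_).trans (le_of_eq (by ring)))
  rw [← mul_div_assoc, ← mul_div_assoc, div_le_one hτ]
  nlinarith

theorem ch_Xt
    (h3 : ∀ k i j : ℤ, k.natAbs ≤ kT → i.natAbs ≤ kT → j.natAbs ≤ kT → k - i + j = 0 →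
      ‖P (some false, k) (some true, -i) (some false, j) (none, 0) -
        X k * (starRingEnd ℂ) (X i) * X j * V‖ ≤ ε)
    (h3' : ∀ k i j : ℤ, k.natAbs ≤ kT → i.natAbs ≤ kT → j.natAbs ≤ kT → k + i - j = 0 →
      ‖P (some false, k) (some false, i) (some true, -j) (none, 0) -
        X k * X i * (starRingEnd ℂ) (X j) * V‖ ≤ ε)
    (hA : kA ≤ kT) {k : ℤ} (hk : useX P V ε M kT kA η k) :
    ‖Xt P V ε kT η k - X k‖ ≤ delta P V ε M kT kA η := by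
  obtain ⟨hc, hj⟩ := hk
  obtain ⟨ρ, hρ, hQt, q1⟩ := ch_Qt hV hM hε hε' hη hX h2 h4 hA hc hj
  obtain ⟨-, q2⟩ := ch_Q hV hM hε hε' hX h2 hA hc hj
  obtain ⟨t1, t2, -⟩ := ch_thetaH P V ε (hj.trans hA)
  have hN : (1 : ℝ) ≤ ((kA / η + 1 : ℕ) : ℝ) := by exact_mod_cast Nat.le_add_left 1 _
  have hm : 0 < ε * (M ^ 2 + 1) := by positivity
  have h5 : 16 * (ε * (M ^ 2 + 1)) ≤ tau2 P V ε kT kA := by nlinarith
  have hτ : 0 < tau2 P V ε kT kA := by linarith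
  have hr : 8 * ((kA / η + 1 : ℕ) : ℝ) * ε * (M ^ 2 + 1) / tau2 P V ε kT kA ≤ 1 / 2 := by
    rw [div_le_iff₀ hτ]; linarith
  have hQ : X (thetaH P V ε kT k.natAbs + k.natAbs) *
      (starRingEnd ℂ) (X (thetaH P V ε kT k.natAbs)) ≠ 0 := by
    intro h0
    rw [h0, norm_zero] at q1
    linarith
  have hfin : 2 * (2 * ε * (M ^ 2 + 1) / tau2 P V ε kT kA) +
      2 * M * (8 * ((kA / η + 1 : ℕ) : ℝ) * ε * (M ^ 2 + 1) / tau2 P V ε kT kA) ≤
      delta P V ε M kT kA η := by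
    rw [delta, ← mul_div_assoc, ← mul_div_assoc, ← add_div]
    refine div_le_div_of_nonneg_right ?_ hτ.le
    generalize ((kA / η + 1 : ℕ) : ℝ) = N at hN
    have : 1 ≤ M * N := by nlinarith
    nlinarith
  refine le_trans ?_ hfin
  unfold Xt
  split_ifs with h0
  · have h6 := h3 _ _ _ (hj.trans hA) t2 t1 (by omega)
    rw [hQt, map_mul]
    refine ch_div_est hV ((map_ne_zero _).2 hQ) ?_ ?_ hr (hX k)
    · rw [Complex.norm_conj, map_mul, Complex.conj_conj, ← mul_assoc]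
      exact h6.trans q2
    · rw [← map_one (starRingEnd ℂ), ← map_sub, Complex.norm_conj, map_one]
      simpa using hρ
  · have h6 := h3' _ _ _ (hj.trans hA) t2 t1 (by omega)
    rw [hQt]
    refine ch_div_est hV hQ ?_ ?_ hr (hX k)
    · rw [← mul_assoc]
      exact h6.trans q2
    · simpa using hρ

end main

end Crest.Agent.R300.UB
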