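import Crest.Agent.R300.UBNum
import Crest.Agent.R300.UBChAuxA

set_option autoImplicit false

noncomputable section

namespace Crest.Agent.R300.UB

open Complex Finset Crest.Agent.Lib.PT Crest.TraceRecon Crest.FinProb

/-! The chain step. `X k` are the true values, `P` approximates products of `X k`, `conj (X k)`
and `V`. -/

/-- The product oracle is accurate on admissible inputs. -/
structure POK (P : P4) (X : ℤ → ℂ) (V ε M : ℝ) (kT η : ℕ) : Prop where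
  hV : 1 ≤ V
  hM : 1 ≤ M
  hε : 0 < ε
  hε' : ε ≤ 1 / 2
  hη : 1 ≤ η
  hX : ∀ k, ‖X k‖ ≤ M
  h2 : ∀ i j : ℤ, i.natAbs ≤ kT → j.natAbs ≤ kT → (i - j).natAbs ≤ η →
    ‖P (some false, i) (some true, -j) (none, 0) (none, 0) -
      X i * (starRingEnd ℂ) (X j) * V * V‖ ≤ ε
  h4 : ∀ i j i' j' : ℤ, i.natAbs ≤ kT → j.natAbs ≤ kT → i'.natAbs ≤ kT → j'.natAbs ≤ kT →
    (i - j - i' + j').natAbs ≤ η →
    ‖P (some false, i) (some true, -j) (some true, -i') (some false, j') -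
      X i * (starRingEnd ℂ) (X j) * (starRingEnd ℂ) (X i') * X j'‖ ≤ ε
  h3 : ∀ k i j : ℤ, k.natAbs ≤ kT → i.natAbs ≤ kT → j.natAbs ≤ kT → k - i + j = 0 →
    ‖P (some false, k) (some true, -i) (some false, j) (none, 0) -
      X k * (starRingEnd ℂ) (X i) * X j * V‖ ≤ ε
  h3' : ∀ k i j : ℤ, k.natAbs ≤ kT → i.natAbs ≤ kT → j.natAbs ≤ kT → k + i - j = 0 →
    ‖P (some false, k) (some false, i) (some true, -j) (none, 0) -
      X k * X i * (starRingEnd ℂ) (X j) * V‖ ≤ ε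

variable {P : P4} {X : ℤ → ℂ} {V ε M : ℝ} {kT kA η : ℕ}

theorem sHat_spec (h : POK P X V ε M kT η) {k : ℤ} (hk : k.natAbs ≤ kT) :
    ‖X k‖ ^ 2 ≤ sHat P V ε k ∧ sHat P V ε k ≤ ‖X k‖ ^ 2 + 2 * ε ∧ ε ≤ sHat P V ε k := by
  exact ch_sHat h.hV h.hε (h.h2 k k hk hk (by simp))

theorem thetaH_spec (P : P4) (V ε : ℝ) {kT h : ℕ} (hh : h ≤ kT) :
    (thetaH P V ε kT h).natAbs ≤ kT ∧ (thetaH P V ε kT h + h).natAbs ≤ kT ∧
      ∀ k : ℤ, k.natAbs ≤ kT → (k + h).natAbs ≤ kT →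
        sHat P V ε k * sHat P V ε (k + h) ≤ tauH P V ε kT h := by
  exact ch_thetaH P V ε hh

theorem hStar_spec (P : P4) (V ε : ℝ) (kT kA : ℕ) :
    hStar P V ε kT kA ≤ kA ∧ ∀ h ≤ kA, tau2 P V ε kT kA ≤ tauH P V ε kT h := by
  exact ch_hStar P V ε kT kA

/-- Relative accuracy of the chain. -/
theorem Qt_spec (h : POK P X V ε M kT η) (hA : kA ≤ kT)
    (hc : 16 * ((kA / η + 1 : ℕ) : ℝ) * ε * (M ^ 2 + 1) ≤ tau2 P V ε kT kA) {j : ℕ} (hj : j ≤ kA) :
    ∃ ρ : ℂ, ‖ρ‖ ≤ 8 * ((kA / η + 1 : ℕ) : ℝ) * ε * (M ^ 2 + 1) / tau2 P V ε kT kA ∧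
      Qt P V ε kT η j =
        X (thetaH P V ε kT j + j) * (starRingEnd ℂ) (X (thetaH P V ε kT j)) * (1 + ρ) ∧
      tau2 P V ε kT kA / 2 ≤
        ‖X (thetaH P V ε kT j + j) * (starRingEnd ℂ) (X (thetaH P V ε kT j))‖ ^ 2 := by
  exact ch_Qt h.hV h.hM h.hε h.hε' h.hη h.hX h.h2 h.h4 hA hc hj

theorem Xt_spec (h : POK P X V ε M kT η) (hA : kA ≤ kT) {k : ℤ} (hk : useX P V ε M kT kA η k) :
    ‖Xt P V ε kT η k - X k‖ ≤ delta P V ε M kT kA η := by
  exact ch_Xt h.hV h.hM h.hε h.hε' h.hη h.hX h.h2 h.h4 h.h3 h.h3' hA hk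

theorem cw_sHat (h : POK P X V ε M kT η) {k : ℤ} (hk : k.natAbs ≤ kT) :
    0 < sHat P V ε k ∧ sHat P V ε k ≤ M ^ 2 + 1 := by
  obtain ⟨-, h2, h3⟩ := sHat_spec h hk
  have := pow_le_pow_left₀ (norm_nonneg _) (h.hX k) 2
  exact ⟨h.hε.trans_le h3, by linarith [h.hε']⟩

theorem cw_tau (h : POK P X V ε M kT η) (hA : kA ≤ kT) :
    0 < tau2 P V ε kT kA ∧ tau2 P V ε kT kA ≤ (M ^ 2 + 1) * (M ^ 2 + 1) := by
  obtain ⟨h1, h2, -⟩ := thetaH_spec P V ε ((hStar_spec P V ε kT kA).1.trans hA)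
  exact ⟨mul_pos (cw_sHat h h1).1 (cw_sHat h h2).1,
    mul_le_mul (cw_sHat h h1).2 (cw_sHat h h2).2 (cw_sHat h h2).1.le (by positivity)⟩

theorem cw_delta (h : POK P X V ε M kT η) (hA : kA ≤ kT)
    (hc : 16 * ((kA / η + 1 : ℕ) : ℝ) * ε * (M ^ 2 + 1) ≤ tau2 P V ε kT kA) :
    ε / M ≤ delta P V ε M kT kA η ∧ delta P V ε M kT kA η ≤ 3 * M := by
  obtain ⟨h1, h2⟩ := cw_tau h hA
  have hM := h.hM
  have hε := h.hε
  have hN : (1 : ℝ) ≤ ((kA / η + 1 : ℕ) : ℝ) := by exact_mod_cast Nat.le_add_left 1 _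
  unfold delta
  generalize ((kA / η + 1 : ℕ) : ℝ) = N at *
  generalize tau2 P V ε kT kA = τ at *
  have h3 : 1 ≤ M ^ 2 := one_le_pow₀ hM
  constructor
  · rw [div_le_div_iff₀ (by linarith) h1]
    have h4 : M ^ 2 + 1 ≤ 20 * M ^ 2 * N := by nlinarith
    have h5 := mul_le_mul_of_nonneg_left (h2.trans (mul_le_mul_of_nonneg_left h4 (by linarith))) hε.le
    linarith
  · rw [div_le_iff₀ h1]
    have h4 := mul_le_mul_of_nonneg_left hc (by linarith : 0 ≤ 3 * M)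
    have h5 : 0 ≤ M * (M ^ 2 + 1) * N * ε := by positivity
    linarith

/-- Accuracy and range of the targets. -/
theorem wsq_spec (h : POK P X V ε M kT η) (hA : kA ≤ kT) {k : ℤ} (hk : k.natAbs ≤ kT) :
    ‖tgt P V ε M kT kA η k - X k‖ ^ 2 ≤ wsq P V ε M kT kA η k ∧
      (ε / M) ^ 2 ≤ wsq P V ε M kT kA η k ∧ wsq P V ε M kT kA η k ≤ (3 * M) ^ 2 := by
  have hM := h.hM
  have hε := h.hε
  unfold wsq tgt
  split_ifs with hu
  · obtain ⟨h1, h2⟩ := cw_delta h hA hu.1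
    have h3 : 0 ≤ ε / M := by positivity
    exact ⟨pow_le_pow_left₀ (norm_nonneg _) (Xt_spec h hA hu) 2, pow_le_pow_left₀ h3 h1 2,
      pow_le_pow_left₀ (h3.trans h1) h2 2⟩
  · obtain ⟨h1, -, h3⟩ := sHat_spec h hk
    have h4 := pow_le_pow_left₀ (by positivity) (div_le_self hε.le hM) 2
    refine ⟨by rwa [zero_sub, norm_neg], by nlinarith [h.hε'], ?_⟩
    nlinarith [(cw_sHat h hk).2, one_le_pow₀ hM (n := 2)]

/-- The logarithmic gain of the weights. -/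
theorem wsq_mass (h : POK P X V ε M kT η) (hA : kA ≤ kT) {a c ϑ χ : ℝ} (hχ : 0 ≤ χ)
    (hm : MassOK a c ϑ kA kT χ) :
    χ * Real.log (1 / (((kA / η + 1 : ℕ) : ℝ) * ε)) ≤
      ∑ k ∈ Icc (-(kT : ℤ)) kT,
        cellMass a c ϑ k * Real.log (3 * M / Real.sqrt (wsq P V ε M kT kA η k)) := by
  have hM := h.hM
  have hε := h.hε
  have hM2 : 1 ≤ M ^ 2 := one_le_pow₀ hM
  have hN : (1 : ℝ) ≤ ((kA / η + 1 : ℕ) : ℝ) := by exact_mod_cast Nat.le_add_left 1 _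
  obtain ⟨hτ, hτ'⟩ := cw_tau h hA
  have hs := Real.sqrt_pos.2 hτ
  let f : ℤ → ℝ := fun k =>
    if k.natAbs ≤ kT then Real.log (3 * M / Real.sqrt (wsq P V ε M kT kA η k)) else 0
  have hf : ∀ k, 0 ≤ f k := fun k => by
    simp only [f]
    split_ifs with hk
    · obtain ⟨-, h1, h2⟩ := wsq_spec h hA hk
      refine Real.log_nonneg ((one_le_div (Real.sqrt_pos.2 (lt_of_lt_of_le (by positivity) h1))).2 ?_)
      exact Real.sqrt_le_iff.2 ⟨by linarith, h2⟩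
    · exact le_rfl
  have ht : 2 * Real.log (9 * M ^ 2 / Real.sqrt (tau2 P V ε kT kA)) =
      Real.log (81 * M ^ 4 / tau2 P V ε kT kA) := by
    rw [← Nat.cast_ofNat, ← Real.log_pow, div_pow, Real.sq_sqrt hτ.le]
    congr 2
    ring
  obtain ⟨α, h0, h1, h2⟩ : ∃ α, 0 ≤ α ∧ (∀ k : ℤ, k.natAbs ≤ kA → α ≤ f k) ∧
      Real.log (1 / (((kA / η + 1 : ℕ) : ℝ) * ε)) ≤ α + Real.log (81 * M ^ 4 / tau2 P V ε kT kA) := by
    by_cases hc : 16 * ((kA / η + 1 : ℕ) : ℝ) * ε * (M ^ 2 + 1) ≤ tau2 P V ε kT kA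
    · obtain ⟨h1, h2⟩ := cw_delta h hA hc
      have h3 : 0 < delta P V ε M kT kA η := lt_of_lt_of_le (by positivity) h1
      refine ⟨Real.log (3 * M / delta P V ε M kT kA η), Real.log_nonneg ((one_le_div h3).2 h2),
        fun k hk => ?_, ?_⟩
      · simp only [f, wsq]
        rw [if_pos (hk.trans hA), if_pos ⟨hc, hk⟩, Real.sqrt_sq h3.le]
      · rw [← Real.log_mul (by positivity) (by positivity)]
        refine Real.log_le_log (by positivity) ?_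
        unfold delta
        generalize ((kA / η + 1 : ℕ) : ℝ) = N at *
        generalize tau2 P V ε kT kA = τ at *
        have e : 3 * M / (20 * M * (M ^ 2 + 1) * N * ε / τ) * (81 * M ^ 4 / τ) =
            243 * M ^ 4 / (20 * (M ^ 2 + 1)) * (1 / (N * ε)) := by
          field_simp
          ring
        rw [e]
        refine le_mul_of_one_le_left (by positivity) ((one_le_div (by positivity)).2 ?_)
        nlinarith
    · refine ⟨0, le_rfl, fun k _ => hf k, ?_⟩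
      rw [zero_add]
      refine Real.log_le_log (by positivity) ?_
      rw [div_le_div_iff₀ (by positivity) hτ]
      have h3 : 16 * (M ^ 2 + 1) ≤ 81 * M ^ 4 := by nlinarith
      have h4 := mul_le_mul_of_nonneg_right h3 (by positivity : 0 ≤ ((kA / η + 1 : ℕ) : ℝ) * ε)
      linarith [not_le.1 hc]
  have h3 := hm f (hStar P V ε kT kA) α (Real.log (9 * M ^ 2 / Real.sqrt (tau2 P V ε kT kA)))
    (hStar_spec P V ε kT kA).1 h0
    (Real.log_nonneg ((one_le_div hs).2 (Real.sqrt_le_iff.2 ⟨by positivity, by nlinarith⟩))) hf h1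
    fun k a1 a2 a3 a4 => by
      have b1 := (cw_sHat h a3).1
      have b2 := (cw_sHat h a4).1
      have b3 := (thetaH_spec P V ε ((hStar_spec P V ε kT kA).1.trans hA)).2.2 k a3 a4
      simp only [f, wsq]
      rw [if_pos a3, if_pos a4, if_neg fun hu => absurd hu.2 (not_le.2 a1),
        if_neg fun hu => absurd hu.2 (not_le.2 a2), ← Real.log_mul (by positivity) (by positivity),
        div_mul_div_comm, ← Real.sqrt_mul b1.le]
      refine Real.log_le_log (by positivity) ?_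
      exact div_le_div₀ (by positivity) (by linarith) (by positivity) (Real.sqrt_le_sqrt b3)
  refine le_trans ?_ (h3.trans (le_of_eq (Finset.sum_congr rfl fun k hk => ?_)))
  · have h4 := mul_le_mul_of_nonneg_left h2 hχ
    rw [← ht] at h4
    linarith
  · simp only [f]
    rw [if_pos (by have := Finset.mem_Icc.1 hk; omega)]

end Crest.Agent.R300.UB
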