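import Crest.Agent.R300.UBNum

set_option autoImplicit false

noncomputable section

namespace Crest.Agent.R300.UB

open Complex Finset Crest.Agent.Lib.PT Crest.TraceRecon Crest.FinProb

/-! Sizes of the expansions (auxiliary file for `UBComb`). -/

theorem cb_length_of_mem_shuf (c c' : Chain) :
    ∀ d ∈ shuf c c', d.length + 1 ≤ c.length + c'.length := by
  induction c, c' using shuf.induct with
  | case1 c' => simp [shuf]
  | case2 s r => simp [shuf]
  | case3 s r s' r' ih1 ih2 ih3 =>
    intro d hd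
    rw [shuf] at hd
    simp only [List.mem_append, List.mem_map] at hd
    simp only [List.length_cons] at ih1 ih2 ⊢
    rcases hd with hd | ⟨e, he, rfl⟩ | ⟨e, he, rfl⟩ | ⟨e, he, rfl⟩
    · split_ifs at hd
      · rw [List.mem_singleton] at hd
        subst hd
        simp only [List.length_singleton]
        omega
      · simp at hd
    · have := ih1 e he
      simp only [List.length_cons]
      omega
    · have := ih2 e he
      simp only [List.length_cons]
      omega
    · have := ih3 e he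
      simp only [List.length_cons]
      omega

theorem cb_length_shuf_le (c c' : Chain) : (shuf c c').length ≤ 3 ^ (c.length + c'.length) := by
  induction c, c' using shuf.induct with
  | case1 c' => simp [shuf]
  | case2 s r => simp [shuf]
  | case3 s r s' r' ih1 ih2 ih3 =>
    rw [shuf]
    simp only [List.length_append, List.length_map, List.length_cons] at ih1 ih2 ⊢
    have h0 : (if r = [] ∧ r' = [] then [[(s.1 + s'.1, s.2.1 || s'.2.1, s.2.2 + s'.2.2)]]
        else ([] : Ser)).length ≤ 1 := by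
      split_ifs <;> simp
    have h1 : 1 ≤ 3 ^ (r.length + r'.length) := Nat.one_le_pow _ _ (by norm_num)
    rw [show r.length + (r'.length + 1) = r.length + r'.length + 1 by omega, pow_succ] at ih1
    rw [show r.length + 1 + r'.length = r.length + r'.length + 1 by omega, pow_succ] at ih2
    rw [show r.length + 1 + (r'.length + 1) = r.length + r'.length + 1 + 1 by omega, pow_succ,
      pow_succ]
    omega

theorem cb_gap_of_mem_shuf (c c' : Chain) :
    ∀ d ∈ shuf c c', ∀ s ∈ d, ∃ u ∈ c, ∃ u' ∈ c', s.1 = u.1 + u'.1 := by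
  induction c, c' using shuf.induct with
  | case1 c' => simp [shuf]
  | case2 s r => simp [shuf]
  | case3 s r s' r' ih1 ih2 ih3 =>
    intro d hd x hx
    rw [shuf] at hd
    simp only [List.mem_append, List.mem_map] at hd
    rcases hd with hd | ⟨e, he, rfl⟩ | ⟨e, he, rfl⟩ | ⟨e, he, rfl⟩
    · split_ifs at hd
      · rw [List.mem_singleton] at hd
        subst hd
        rw [List.mem_singleton] at hx
        subst hx
        exact ⟨s, by simp, s', by simp, rfl⟩
      · simp at hd
    · rcases List.mem_cons.1 hx with rfl | hx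
      · exact ⟨s, by simp, s', by simp, rfl⟩
      · obtain ⟨u, hu, u', hu', e⟩ := ih1 e he x hx
        exact ⟨u, List.mem_cons_of_mem _ hu, u', hu', e⟩
    · rcases List.mem_cons.1 hx with rfl | hx
      · exact ⟨s, by simp, s', by simp, rfl⟩
      · obtain ⟨u, hu, u', hu', e⟩ := ih2 e he x hx
        exact ⟨u, hu, u', List.mem_cons_of_mem _ hu', e⟩
    · rcases List.mem_cons.1 hx with rfl | hx
      · exact ⟨s, by simp, s', by simp, rfl⟩
      · obtain ⟨u, hu, u', hu', e⟩ := ih3 e he x hx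
        exact ⟨u, List.mem_cons_of_mem _ hu, u', List.mem_cons_of_mem _ hu', e⟩

theorem cb_good_add {D t t' : ℝ} {μ ν : Mono} (ht : 0 ≤ t) (ht' : 0 ≤ t')
    (h : Good D t μ) (h' : Good D t' ν) : Good D (t + t') (μ + ν) := by
  obtain ⟨a, b, ha, hb, h1, h2, h3⟩ := h
  obtain ⟨a', b', ha', hb', h1', h2', h3'⟩ := h'
  refine ⟨a + a', b + b', add_nonneg ha ha', add_nonneg hb hb', ?_, ?_, ?_⟩
  · simp only [Prod.snd_add, Int.cast_add]
    exact (abs_add_le _ _).trans (by linarith)
  · simp only [Prod.fst_add, Nat.cast_add]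
    linarith
  · simp only [Prod.fst_add, Nat.cast_add]
    have hl : (0 : ℝ) ≤ μ.1 := Nat.cast_nonneg _
    have hl' : (0 : ℝ) ≤ ν.1 := Nat.cast_nonneg _
    have h4 : (2 * (b * b')) ^ 2 ≤ (t * ν.1 + t' * μ.1) ^ 2 := by
      have h5 : b ^ 2 * b' ^ 2 ≤ (t * μ.1) * (t' * ν.1) :=
        mul_le_mul h3 h3' (sq_nonneg _) (mul_nonneg ht hl)
      nlinarith [sq_nonneg (t * ν.1 - t' * μ.1)]
    have h6 : 2 * (b * b') ≤ t * ν.1 + t' * μ.1 :=
      (pow_le_pow_iff_left₀ (by positivity) (by positivity) two_ne_zero).1 h4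
    nlinarith

/-- at most `N` chains of length at most `h` -/
def cbBd (S : Ser) (N h : ℕ) : Prop := S.length ≤ N ∧ ∀ c ∈ S, c.length ≤ h

theorem cb_length_flatMap {α β : Type*} (l : List α) (f : α → List β) {K : ℕ}
    (h : ∀ a ∈ l, (f a).length ≤ K) : (l.flatMap f).length ≤ l.length * K := by
  induction l with
  | nil => simp
  | cons a l ih =>
    rw [List.flatMap_cons, List.length_append, List.length_cons, add_mul, one_mul, add_comm]
    exact add_le_add (ih fun b hb => h b (List.mem_cons_of_mem _ hb)) (h a (by simp))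

theorem cb_serMul {S S' : Ser} {N N' h h' : ℕ} (H : cbBd S N (h + 1)) (H' : cbBd S' N' h') :
    cbBd (serMul S S') (N * (N' * 3 ^ (h + 1 + h'))) (h + h') := by
  constructor
  · refine (cb_length_flatMap S _ (K := N' * 3 ^ (h + 1 + h')) fun c hc => ?_).trans
      (Nat.mul_le_mul_right _ H.1)
    refine (cb_length_flatMap S' _ (K := 3 ^ (h + 1 + h')) fun c' hc' => ?_).trans
      (Nat.mul_le_mul_right _ H'.1)
    exact (cb_length_shuf_le c c').trans
      (Nat.pow_le_pow_right (by norm_num) (add_le_add (H.2 c hc) (H'.2 c' hc')))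
  · intro d hd
    simp only [serMul, List.mem_flatMap] at hd
    obtain ⟨c, hc, c', hc', hd⟩ := hd
    have h1 := cb_length_of_mem_shuf c c' d hd
    have h2 := H.2 c hc
    have h3 := H'.2 c' hc'
    omega

theorem cb_kindSer {S : Ser} {N h : ℕ} (H : cbBd S N h) (hN : 1 ≤ N) (hh : 1 ≤ h) (κ : Kind) :
    cbBd (kindSer κ S) N h := by
  rcases κ with _ | _ | _
  · exact ⟨hN, fun c hc => by
      simp only [kindSer, Option.elim, serOne, List.mem_singleton] at hc
      subst hc
      exact hh⟩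
  · exact H
  · refine ⟨by simpa [kindSer, serCj] using H.1, fun c hc => ?_⟩
    simp only [kindSer, Option.elim, serCj, cond_true, List.mem_map] at hc
    obtain ⟨d, hd, rfl⟩ := hc
    simpa using H.2 d hd

theorem cb_slotSer {S : Ser} {N h : ℕ} (H : cbBd S N h) (hN : 1 ≤ N) (hh : 1 ≤ h) (sl : Slot) :
    cbBd (slotSer S sl) (2 * N) (h + 1) := by
  have H' := cb_kindSer H hN hh sl.1
  constructor
  · have := H'.1
    rw [slotSer, List.length_append, List.length_map]
    cases sl.2.1
    · simp only [cond_false]; omega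
    · simp only [cond_true, List.length_nil]; omega
  · intro c hc
    rw [slotSer, List.mem_append, List.mem_map] at hc
    rcases hc with hc | ⟨d, hd, rfl⟩
    · cases hs : sl.2.1
      · rw [hs, cond_false] at hc
        exact (H'.2 c hc).trans (Nat.le_succ _)
      · rw [hs, cond_true] at hc
        simp at hc
    · simpa using H'.2 d hd

theorem cb_single (s : Stp) : cbBd [[s]] 1 1 := ⟨le_rfl, fun c hc => by
  rw [List.mem_singleton] at hc
  subst hc
  exact le_rfl⟩

theorem cb_pow3 (a b : ℕ) (h : 2 * a ≤ b) : 3 ^ a ≤ 2 ^ b :=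
  calc 3 ^ a ≤ 4 ^ a := Nat.pow_le_pow_left (by norm_num) _
    _ = 2 ^ (2 * a) := by rw [pow_mul]; norm_num
    _ ≤ 2 ^ b := Nat.pow_le_pow_right (by norm_num) h

theorem cb_nodeSer {S : Ser} {N h : ℕ} (H : cbBd S N h) (hN : 1 ≤ N) (hh : 1 ≤ h) {ν : Node}
    (hν : ν.2.2.length = 3) : cbBd (nodeSer ν S) (N ^ 4 * 2 ^ (44 * h)) (4 * h) := by
  obtain ⟨κ, μ, l⟩ := ν
  obtain ⟨s1, s2, s3, rfl⟩ := List.length_eq_three.1 hν
  obtain ⟨g, rfl⟩ : ∃ g, h = g + 1 := ⟨h - 1, by omega⟩
  have h0 := cb_serMul (cb_kindSer H hN hh κ) (cb_single ((0, 0), false, μ))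
  have h1 := cb_serMul (cb_slotSer H hN hh s3) h0
  have h2 := cb_serMul (cb_slotSer H hN hh s2) h1
  have h3 := cb_serMul (cb_slotSer H hN hh s1) h2
  refine ⟨h3.1.trans ?_, fun c hc => (h3.2 c hc).trans (by omega)⟩
  calc _ = N ^ 4 * (2 ^ 3 * 3 ^ (10 * g + 14)) := by ring
    _ ≤ N ^ 4 * (2 ^ 3 * 2 ^ (44 * g + 41)) :=
      Nat.mul_le_mul_left _ (Nat.mul_le_mul_left _ (cb_pow3 _ _ (by omega)))
    _ = _ := by ring

theorem cb_expand_length {ls : List Lev} {νs : List Node} (h : νs ∈ feats ls) :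
    (expand νs).length ≤ 2 ^ (11 * ls.length * 4 ^ ls.length) ∧
      ∀ c ∈ expand νs, c.length ≤ 4 ^ ls.length := by
  induction ls generalizing νs with
  | nil =>
    simp only [feats, List.foldr_nil, List.mem_singleton] at h
    subst h
    exact cb_single _
  | cons L ls ih =>
    obtain ⟨ν, hν, νs', hνs', rfl⟩ := mem_feats_cons.1 h
    have h1 := cb_nodeSer (ih hνs') Nat.one_le_two_pow (Nat.one_le_pow _ _ (by norm_num))
      (mem_nodeSet.1 hν).2.1
    refine ⟨h1.1.trans (le_of_eq ?_), fun c hc => (h1.2 c hc).trans (le_of_eq ?_)⟩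
    · rw [← pow_mul, ← pow_add, List.length_cons]
      congr 1
      ring
    · rw [List.length_cons, pow_succ']

theorem cb_qSer_length {ls : List Lev} {q : Query} (h : q.1 ∈ feats ls) :
    (qSer q).length ≤ 2 ^ ((11 * ls.length + 4) * 4 ^ ls.length) ∧
      ∀ c ∈ qSer q, c.length ≤ 4 ^ ls.length := by
  have h0 := cb_expand_length h
  obtain ⟨g, hg⟩ : ∃ g, 4 ^ ls.length = g + 1 :=
    ⟨4 ^ ls.length - 1, by have : 1 ≤ 4 ^ ls.length := Nat.one_le_pow _ _ (by norm_num); omega⟩
  rw [hg] at h0 ⊢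
  have h1 := cb_serMul (h := g) h0 (cb_single (q.2, false, (0, 0)))
  refine ⟨h1.1.trans ?_, h1.2⟩
  rw [add_mul, pow_add 2, one_mul]
  exact Nat.mul_le_mul_left _ (cb_pow3 (g + 1 + 1) (4 * (g + 1)) (by omega))

end Crest.Agent.R300.UB
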