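import Crest.Agent.R300.UBNum

set_option autoImplicit false

noncomputable section

namespace Crest.Agent.R300.UB

open Complex Finset Crest.Agent.Lib.PT Crest.TraceRecon Crest.FinProb

/-! Invariants of the gap variables, number of queries. -/

/-- The invariant of all gap variables of a series. -/
def cg_Inv (D t : ℝ) (b n : ℕ) (S : Ser) : Prop :=
  ∀ c ∈ S, ∀ s ∈ c, Good D (n * t) s.1 ∧ s.1.1 ≤ n * b

theorem cg_mono {D t t' : ℝ} {μ : Mono} (h : Good D t μ) (ht : t ≤ t') : Good D t' μ := by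
  obtain ⟨a, b, h1, h2, h3, h4, h5⟩ := h
  exact ⟨a, b, h1, h2, h3, h4, h5.trans (mul_le_mul_of_nonneg_right ht (Nat.cast_nonneg _))⟩

theorem cg_zero (D t : ℝ) : Good D t (0, 0) := ⟨0, 0, le_rfl, le_rfl, by simp, by simp, by simp⟩

section
variable {D t : ℝ} {b : ℕ}

theorem cg_Inv.mono (ht : 0 ≤ t) {n n' : ℕ} {S : Ser} (h : cg_Inv D t b n S) (hn : n ≤ n') :
    cg_Inv D t b n' S := fun c hc s hs =>
  ⟨cg_mono (h c hc s hs).1 (mul_le_mul_of_nonneg_right (Nat.cast_le.2 hn) ht),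
    (h c hc s hs).2.trans (Nat.mul_le_mul_right _ hn)⟩

theorem cg_single (n : ℕ) (x : Bool × Mono) : cg_Inv D t b n [[((0, 0), x)]] := by
  intro c hc s hs
  rw [List.mem_singleton.1 hc] at hs
  rw [List.mem_singleton.1 hs]
  exact ⟨cg_zero _ _, Nat.zero_le _⟩

theorem cg_Inv.cj {n : ℕ} {S : Ser} (h : cg_Inv D t b n S) : cg_Inv D t b n (serCj S) := by
  intro c hc s hs
  obtain ⟨c', hc', rfl⟩ := List.mem_map.1 hc
  obtain ⟨s', hs', rfl⟩ := List.mem_map.1 hs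
  obtain ⟨⟨a, a', h1, h2, h3, h4, h5⟩, h6⟩ := h c' hc' s' hs'
  exact ⟨⟨a, a', h1, h2, by simpa [UB.cj] using h3, h4, h5⟩, h6⟩

theorem cg_Inv.kind {n : ℕ} {S : Ser} (h : cg_Inv D t b n S) (κ : Kind) :
    cg_Inv D t b n (kindSer κ S) := by
  rcases κ with _ | _ | _
  exacts [cg_single _ _, h, h.cj]

theorem cg_Inv.slot (ht : 0 ≤ t) {n : ℕ} {S : Ser} (h : cg_Inv D t b n S) {sl : Slot}
    (h1 : Good D t sl.2.2) (h2 : sl.2.2.1 ≤ b) : cg_Inv D t b (n + 1) (slotSer S sl) := by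
  have hk := (h.kind sl.1).mono ht n.le_succ
  intro c hc s hs
  rcases List.mem_append.1 hc with hc | hc
  · refine hk c ?_ s hs
    cases e : sl.2.1 <;> rw [e] at hc
    · exact hc
    · exact absurd hc List.not_mem_nil
  · obtain ⟨c', hc', rfl⟩ := List.mem_map.1 hc
    rcases List.mem_append.1 hs with hs | hs
    · exact hk c' hc' s hs
    · rw [List.mem_singleton.1 hs]
      refine ⟨cg_mono h1 (le_mul_of_one_le_left ht ?_), h2.trans (Nat.le_mul_of_pos_left _ n.succ_pos)⟩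
      exact_mod_cast n.succ_pos

variable
  (hsh : ∀ c c' : Chain, ∀ d ∈ shuf c c', ∀ s ∈ d, ∃ u ∈ c, ∃ u' ∈ c', s.1 = u.1 + u'.1)
  (hadd : ∀ {t t' : ℝ} {μ ν : Mono}, 0 ≤ t → 0 ≤ t' → Good D t μ → Good D t' ν →
    Good D (t + t') (μ + ν))
include hsh

theorem cg_mem_mul {S S' : Ser} {d : Chain} (hd : d ∈ serMul S S') {s : Stp} (hs : s ∈ d) :
    ∃ c ∈ S, ∃ c' ∈ S', ∃ u ∈ c, ∃ u' ∈ c', s.1 = u.1 + u'.1 := by
  obtain ⟨c, hc, hd⟩ := List.mem_flatMap.1 hd
  obtain ⟨c', hc', hd⟩ := List.mem_flatMap.1 hd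
  exact ⟨c, hc, c', hc', hsh c c' d hd s hs⟩

include hadd

theorem cg_mul (ht : 0 ≤ t) {n n' : ℕ} {S S' : Ser} (h : cg_Inv D t b n S)
    (h' : cg_Inv D t b n' S') : cg_Inv D t b (n + n') (serMul S S') := by
  intro d hd s hs
  obtain ⟨c, hc, c', hc', u, hu, u', hu', e⟩ := cg_mem_mul hsh hd hs
  rw [e, Nat.cast_add, add_mul, add_mul]
  exact ⟨hadd (by positivity) (by positivity) (h c hc u hu).1 (h' c' hc' u' hu').1,
    Nat.add_le_add (h c hc u hu).2 (h' c' hc' u' hu').2⟩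

theorem cg_foldr (ht : 0 ≤ t) {n n' : ℕ} {S S' : Ser} (h : cg_Inv D t b n S)
    (h' : cg_Inv D t b n' S') (l : List Slot) (hl : ∀ sl ∈ l, Good D t sl.2.2 ∧ sl.2.2.1 ≤ b) :
    cg_Inv D t b (l.length * (n + 1) + n') (l.foldr (fun sl acc => serMul (slotSer S sl) acc) S') := by
  induction l with
  | nil => simpa using h'
  | cons sl l ih =>
    have h1 := hl sl List.mem_cons_self
    have h2 := cg_mul hsh hadd ht (h.slot ht h1.1 h1.2)
      (ih fun s hs => hl s (List.mem_cons_of_mem _ hs))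
    exact h2.mono ht (le_of_eq (by rw [List.length_cons]; ring))

theorem cg_expand (hD : 0 ≤ D) (ht : 0 ≤ t) {ls : List Lev} (hb : ∀ L ∈ ls, L.lb ≤ b)
    (hls : ∀ L ∈ ls, (L.kF : ℝ) ≤ D * L.lb ∨ (L.kF : ℝ) ^ 2 ≤ t * L.lb) {νs : List Node}
    (h : νs ∈ feats ls) : cg_Inv D t b (4 ^ ls.length - 1) (expand νs) := by
  induction ls generalizing νs with
  | nil =>
    rw [List.mem_singleton.1 h]
    exact cg_single _ _
  | cons L ls ih =>
    obtain ⟨ν, hν, νs', hνs', rfl⟩ := mem_feats_cons.1 h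
    obtain ⟨-, h3, hsl⟩ := mem_nodeSet.1 hν
    have h1 := ih (fun L' hL' => hb L' (List.mem_cons_of_mem _ hL'))
      (fun L' hL' => hls L' (List.mem_cons_of_mem _ hL')) hνs'
    have h2 := cg_foldr hsh hadd ht h1
      (cg_mul hsh hadd ht (h1.kind ν.1) (cg_single 0 (false, ν.2.1))) ν.2.2 fun sl hs => by
        obtain ⟨e, hk⟩ := hsl sl hs
        have hk' : |(sl.2.2.2 : ℝ)| ≤ L.kF := by
          rw [← Int.cast_abs, ← Int.natCast_natAbs]
          exact_mod_cast hk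
        refine ⟨?_, e ▸ hb L List.mem_cons_self⟩
        rcases hls L List.mem_cons_self with h4 | h4
        · exact ⟨L.kF, 0, Nat.cast_nonneg _, le_rfl, by simpa using hk', e ▸ h4, by
            rw [zero_pow two_ne_zero]; positivity⟩
        · exact ⟨0, L.kF, le_rfl, Nat.cast_nonneg _, by simpa using hk', by positivity, e ▸ h4⟩
    refine cg_Inv.mono ht h2 ?_
    have h4 : 0 < 4 ^ ls.length := by positivity
    rw [h3, List.length_cons, pow_succ]
    omega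

theorem cg_qSer_gap {ls : List Lev} {q : Query} (h : q.1 ∈ feats ls) (hD : 0 ≤ D)
    (ht : 0 ≤ t) (hb : ∀ L ∈ ls, L.lb ≤ b)
    (hls : ∀ L ∈ ls, (L.kF : ℝ) ≤ D * L.lb ∨ (L.kF : ℝ) ^ 2 ≤ t * L.lb)
    (hz : |(q.2.2 : ℝ)| ≤ D * q.2.1) :
    ∀ c ∈ qSer q, ∀ s ∈ c, Good D (4 ^ ls.length * t) s.1 ∧ q.2.1 ≤ s.1.1 ∧
      s.1.1 ≤ (4 ^ ls.length - 1) * b + q.2.1 := by
  intro d hd s hs
  obtain ⟨c, hc, c', hc', u, hu, u', hu', e⟩ := cg_mem_mul hsh hd hs
  rw [List.mem_singleton.1 hc'] at hu'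
  rw [List.mem_singleton.1 hu'] at e
  obtain ⟨h1, h2⟩ := cg_expand hsh hadd hD ht hb hls h c hc u hu
  have h3 : Good D 0 q.2 := ⟨_, 0, abs_nonneg _, le_rfl, by rw [add_zero], hz, by simp⟩
  rw [e]
  refine ⟨cg_mono (hadd (by positivity) le_rfl h1 h3) ?_, Nat.le_add_left _ _,
    Nat.add_le_add_right h2 _⟩
  rw [add_zero]
  refine mul_le_mul_of_nonneg_right ?_ ht
  exact_mod_cast Nat.sub_le _ _

end

theorem cg_flatMap {α β : Type} (l : List α) (f : α → List β) {n : ℕ}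
    (h : ∀ a ∈ l, (f a).length ≤ n) : (l.flatMap f).length ≤ l.length * n := by
  induction l with
  | nil => simp
  | cons a l ih =>
    rw [List.flatMap_cons, List.length_append, List.length_cons, add_mul, one_mul, add_comm]
    exact Nat.add_le_add (ih fun b hb => h b (List.mem_cons_of_mem _ hb)) (h a List.mem_cons_self)

theorem cg_nodeSet {Y eY : ℕ} {L : Lev} (hY : 1 ≤ Y) (hY' : Y ≤ 2 ^ eY) (hF : L.kF ≤ 2 * Y) :
    (nodeSet L).length ≤ 2 ^ (17 + 3 * eY) := by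
  have h1 : (slotSet L).length ≤ 32 * 2 ^ eY := by
    refine (cg_flatMap _ _ fun _ _ => cg_flatMap _ _ (n := 2 * L.kF + 1) fun _ _ => by
      rw [List.length_map, length_intRange]).trans ?_
    change 3 * (2 * (2 * L.kF + 1)) ≤ _
    omega
  refine (cg_flatMap _ _ fun _ _ => cg_flatMap _ _ fun _ _ =>
    cg_flatMap _ _ (n := (slotSet L).length) fun _ _ => by rw [List.length_map]).trans ?_
  calc 3 * ((slotSet L).length * ((slotSet L).length * (slotSet L).length))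
      ≤ 4 * (32 * 2 ^ eY * (32 * 2 ^ eY * (32 * 2 ^ eY))) := by gcongr; norm_num
    _ = 2 ^ (17 + 3 * eY) := by ring

theorem cg_feats {Y eY : ℕ} {ls : List Lev} (hY : 1 ≤ Y) (hY' : Y ≤ 2 ^ eY)
    (hF : ∀ L ∈ ls, L.kF ≤ 2 * Y) : (feats ls).length ≤ 2 ^ ((17 + 3 * eY) * ls.length) := by
  induction ls with
  | nil => exact le_rfl
  | cons L ls ih =>
    refine (cg_flatMap (nodeSet L) _ (n := (feats ls).length) fun _ _ =>
      (List.length_map _).le).trans ?_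
    rw [List.length_cons, mul_add_one, add_comm, pow_add]
    exact Nat.mul_le_mul (cg_nodeSet hY hY' (hF L List.mem_cons_self))
      (ih fun L' hL' => hF L' (List.mem_cons_of_mem _ hL'))

theorem cg_qlist_length {Y eY l0 : ℕ} {ls : List Lev} (hY : 1 ≤ Y) (hY' : Y ≤ 2 ^ eY)
    (hF : ∀ L ∈ ls, L.kF ≤ 2 * Y) (hS : ∀ L ∈ ls, L.kS ≤ Y) :
    (qlist l0 ls).length ≤ 2 ^ ((17 + 3 * eY) * ls.length + eY + 2) := by
  have h1 : (zsOf l0 ls).length ≤ 2 ^ (eY + 2) := by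
    cases ls with
    | nil => exact Nat.one_le_two_pow
    | cons L ls =>
      have := hS L List.mem_cons_self
      change (contour L.lb L.kS).length ≤ _
      rw [contour, List.length_map, length_intRange, pow_add]
      omega
  refine (cg_flatMap _ _ (n := (zsOf l0 ls).length) fun _ _ => (List.length_map _).le).trans ?_
  rw [add_assoc, pow_add]
  exact Nat.mul_le_mul (cg_feats hY hY' hF) h1

end Crest.Agent.R300.UB
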