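import Crest.Agent.R300.UBNum
import Crest.Agent.R300.UBCombAuxA
import Crest.Agent.R300.UBCombAuxG

set_option autoImplicit false

noncomputable section

namespace Crest.Agent.R300.UB

open Complex Finset Crest.Agent.Lib.PT Crest.TraceRecon Crest.FinProb

/-! Sizes and invariants of the expansions. -/

theorem length_of_mem_shuf (c c' : Chain) : ∀ d ∈ shuf c c', d.length + 1 ≤ c.length + c'.length :=
  cb_length_of_mem_shuf c c'

theorem length_shuf_le (c c' : Chain) : (shuf c c').length ≤ 3 ^ (c.length + c'.length) :=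
  cb_length_shuf_le c c'

/-- Gap variables of a shuffle are sums of gap variables. -/
theorem gap_of_mem_shuf (c c' : Chain) :
    ∀ d ∈ shuf c c', ∀ s ∈ d, ∃ u ∈ c, ∃ u' ∈ c', s.1 = u.1 + u'.1 :=
  cb_gap_of_mem_shuf c c'

theorem Good.add {D t t' : ℝ} {μ ν : Mono} (hD : 0 ≤ D) (ht : 0 ≤ t) (ht' : 0 ≤ t')
    (h : Good D t μ) (h' : Good D t' ν) : Good D (t + t') (μ + ν) :=
  cb_good_add ht ht' h h'

theorem expand_length {ls : List Lev} {νs : List Node} (h : νs ∈ feats ls) :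
    (expand νs).length ≤ 2 ^ (11 * ls.length * 4 ^ ls.length) ∧
      ∀ c ∈ expand νs, c.length ≤ 4 ^ ls.length :=
  cb_expand_length h

theorem qSer_length {ls : List Lev} {q : Query} (h : q.1 ∈ feats ls) :
    (qSer q).length ≤ 2 ^ ((11 * ls.length + 4) * 4 ^ ls.length) ∧
      ∀ c ∈ qSer q, c.length ≤ 4 ^ ls.length :=
  cb_qSer_length h

/-- Invariants of the gap variables of a query. -/
theorem qSer_gap {ls : List Lev} {q : Query} (h : q.1 ∈ feats ls) {D t : ℝ} {b : ℕ} (hD : 0 ≤ D)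
    (ht : 0 ≤ t) (hb : ∀ L ∈ ls, L.lb ≤ b)
    (hls : ∀ L ∈ ls, (L.kF : ℝ) ≤ D * L.lb ∨ (L.kF : ℝ) ^ 2 ≤ t * L.lb)
    (hz : |(q.2.2 : ℝ)| ≤ D * q.2.1) :
    ∀ c ∈ qSer q, ∀ s ∈ c, Good D (4 ^ ls.length * t) s.1 ∧ q.2.1 ≤ s.1.1 ∧
      s.1.1 ≤ (4 ^ ls.length - 1) * b + q.2.1 :=
  cg_qSer_gap gap_of_mem_shuf (Good.add hD) h hD ht hb hls hz

theorem qlist_length {Y eY l0 : ℕ} {ls : List Lev} (hY : 1 ≤ Y) (hY' : Y ≤ 2 ^ eY)
    (hF : ∀ L ∈ ls, L.kF ≤ 2 * Y) (hS : ∀ L ∈ ls, L.kS ≤ Y) :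
    (qlist l0 ls).length ≤ 2 ^ ((17 + 3 * eY) * ls.length + eY + 2) :=
  cg_qlist_length hY hY' hF hS

end Crest.Agent.R300.UB
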