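import Crest.Agent.R300.UBStep

set_option autoImplicit false

noncomputable section

namespace Crest.Agent.R300.UB

open Complex Finset Crest.Agent.Lib.PT Crest.TraceRecon Crest.FinProb

/-! Correctness of the decoder on the good event. -/

theorem dc_geom (N : ℕ) : ∑ k ∈ range N, (1 / 4 : ℝ) ^ (k + 1) = 1 / 3 - 1 / 3 * (1 / 4) ^ N := by
  induction N with
  | zero => simp
  | succ N ih => rw [sum_range_succ, ih]; ring

theorem dc_full {Y n : ℕ} {x : List Bool} (hx : x.length = n) {m : ℕ} (hm : m < n) (q : Query) :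
    full Y x q - full Y (x.take m) q = ev Y q.2 ^ m * Lam Y n x m 0 q := by
  have hl : (x.take m).length = m := by rw [List.length_take]; omega
  unfold full Lam
  rw [hl, hx, ← sum_range_add_sum_Ico _ hm.le, mul_sum]
  have e : ∑ T ∈ range m, feat (ev Y) (x.take m) q.1 T * ev Y q.2 ^ T =
      ∑ T ∈ range m, feat (ev Y) x q.1 T * ev Y q.2 ^ T :=
    sum_congr rfl fun T hT => by rw [feat_take _ _ _ (mem_range.1 hT)]
  rw [e, add_sub_cancel_left]
  refine sum_congr rfl fun T hT => ?_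
  have h1 : ev Y q.2 ^ T = ev Y q.2 ^ m * ev Y q.2 ^ (T - m) := by
    rw [← pow_add, Nat.add_sub_cancel' (mem_Ico.1 hT).1]
  rw [Wt_zero_left, h1]
  push_cast
  ring

theorem dc_exp (k : ℕ) : Real.exp (2001 / 1000 * k) ≤ 2 ^ (3 * k) := by
  have h := Real.log_two_gt_d9
  have hk : (0 : ℝ) ≤ k := Nat.cast_nonneg k
  calc Real.exp (2001 / 1000 * k) ≤ Real.exp (((3 * k : ℕ) : ℝ) * Real.log 2) := by
        refine Real.exp_le_exp.2 ?_
        push_cast
        nlinarith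
    _ = 2 ^ (3 * k) := by rw [Real.exp_nat_mul, Real.exp_log two_pos]

theorem stepTable_acc {Y n l0 : ℕ} {L : Lev} {ls : List Lev} {E' : ℕ}
    (h : LevOK Y n L (zsOf l0 ls) E') (hls : ∀ L ∈ ls, ∃ zs E', LevOK Y n L zs E') {x : List Bool}
    (hx : x.length = n) {m : ℕ} (hm : m < n) {t : Table} (ht : Acc Y n x m l0 (L :: ls) L.r' t E') :
    Acc Y n x m l0 ls L.r (stepTable Y n l0 (x.take m) L ls t) L.E := by
  intro q hq
  have hY : 100 ≤ Y := le_trans (by norm_num) h.hY100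
  unfold stepTable
  rw [look_map _ (fun q => rnd L.K (stepVal Y n L (x.take m) (look t) q)) hq]
  have hK := h.hK
  have h1 : ‖Lam Y n x m L.r q‖ ≤ 2 ^ L.K :=
    ((norm_Lam_le hY hls x m L.r hq).1.trans (Vz_le hY h.hr m n)).trans
      (pow_le_pow_right₀ one_le_two (by omega))
  refine (rnd_spec _ _ _ h1).trans ?_
  have h2 := stepVal_spec h hls hx hm ht hq
  have h3 : (2 : ℝ) / 2 ^ L.K ≤ 2 / 2 ^ (L.E + 2) :=
    div_le_div_of_nonneg_left (by norm_num) (by positivity) (pow_le_pow_right₀ one_le_two (by omega))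
  have h4 : (1 : ℝ) / 2 ^ (L.E + 1) + 2 / 2 ^ (L.E + 2) = 1 / 2 ^ L.E := by
    field_simp
    ring
  linarith

theorem descend_acc {Y n l0 : ℕ} {ls : List Lev} {r E : ℕ} (h : ChainOK Y n l0 ls r E)
    {x : List Bool} (hx : x.length = n) {m : ℕ} (hm : m < n) {t : Table}
    (ht : Acc Y n x m l0 ls r t E) :
    ∃ r₀, Acc Y n x m l0 [] r₀ (descend Y n l0 (x.take m) ls t) 2 := by
  induction ls generalizing r E t with
  | nil =>
    refine ⟨r, fun q hq => (ht q hq).trans ?_⟩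
    exact one_div_le_one_div_of_le (by positivity) (pow_le_pow_right₀ one_le_two h)
  | cons L ls ih =>
    obtain ⟨h1, h2, h3⟩ := h
    subst h1
    exact ih h3 (stepTable_acc h2 h3.mem hx hm ht)

theorem topTable_acc {n : ℕ} {p : ℝ} {P : Par} (hP : ParOK n p P) {x : List Bool}
    (hx : x.length = n) {m : ℕ} (hm : m < n) {τ : List (List Bool)}
    (hτ : ∀ q ∈ qlist P.l0 P.ls,
      ‖estAvg P.Y p P.T P.N P.H (qSer q) τ - full P.Y x q‖ ≤ 1 / 2 ^ P.Et) :
    Acc P.Y n x m P.l0 P.ls 0 (topTable P p τ (x.take m)) P.Ek := by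
  intro q hq
  obtain ⟨L, ls, hL, hn, hEt⟩ := hP.htop
  have hch := hP.hch
  have hmem := hch.mem
  have hlev : LevOK P.Y n L (zsOf P.l0 ls) P.Ek := by
    rw [hL] at hch
    exact hch.2.1
  have hY : 100 ≤ P.Y := le_trans (by norm_num) hlev.hY100
  have hY0 : (0 : ℝ) < P.Y := by exact_mod_cast (by omega : 0 < P.Y)
  have hz : q.2 ∈ contour L.lb L.kS := by
    have := (mem_qlist.1 hq).2
    rw [hL] at this
    exact this
  have hz1 := (hlev.contour_mem hz).2.1
  have hl : (x.take m).length = m := by rw [List.length_take]; omega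
  unfold topTable
  rw [look_map _ (fun q => rnd P.Kt ((estAvg P.Y p P.T P.N P.H (qSer q) τ -
    full P.Y (x.take m) q) / ev P.Y q.2 ^ (x.take m).length)) hq, hl]
  have hKt := hP.hKt
  have h1 : ‖Lam P.Y n x m 0 q‖ ≤ 2 ^ P.Kt := by
    refine (norm_Lam_le hY hmem x m 0 hq).2.trans ?_
    have a1 : (n : ℝ) ≤ 2 ^ Nat.size n := by exact_mod_cast (Nat.lt_size_self n).le
    exact a1.trans (pow_le_pow_right₀ one_le_two (by omega))
  refine (rnd_spec _ _ _ h1).trans ?_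
  have hnorm : ‖ev P.Y q.2‖ = Real.exp (-(q.2.1 * a0 P.Y)) := by rw [ev_eq hY, norm_val]
  have hne : ev P.Y q.2 ^ m ≠ 0 := by
    refine pow_ne_zero _ (norm_pos_iff.1 ?_)
    rw [hnorm]; exact Real.exp_pos _
  have e : (estAvg P.Y p P.T P.N P.H (qSer q) τ - full P.Y (x.take m) q) / ev P.Y q.2 ^ m -
      Lam P.Y n x m 0 q = (estAvg P.Y p P.T P.N P.H (qSer q) τ - full P.Y x q) / ev P.Y q.2 ^ m := by
    rw [eq_div_iff hne, sub_mul, div_mul_cancel₀ _ hne]
    linear_combination dc_full (Y := P.Y) hx hm q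
  have h2 : (m : ℝ) * (q.2.1 * a0 P.Y) ≤ 2001 / 1000 * ((2 ^ L.om : ℕ) : ℝ) := by
    have a1 : m * q.2.1 ≤ 2 ^ L.om * P.Y := by
      rw [← hlev.hkS, mul_comm]
      exact Nat.mul_le_mul hz1 (by omega)
    have a2 : (m : ℝ) * q.2.1 ≤ ((2 ^ L.om : ℕ) : ℝ) * P.Y := by exact_mod_cast a1
    calc (m : ℝ) * (q.2.1 * a0 P.Y) = (m * q.2.1) * a0 P.Y := by ring
      _ ≤ (((2 ^ L.om : ℕ) : ℝ) * P.Y) * (2001 / 1000 / (P.Y : ℝ)) :=
        mul_le_mul a2 (a0_le hY) (a0_pos hY).le (by positivity)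
      _ = _ := by field_simp
  have h3 : ‖ev P.Y q.2 ^ m‖⁻¹ ≤ 2 ^ (3 * 2 ^ L.om) := by
    rw [norm_pow, hnorm, ← Real.exp_nat_mul, ← Real.exp_neg]
    refine le_trans (Real.exp_le_exp.2 ?_) (dc_exp (2 ^ L.om))
    linarith
  have h4 : ‖(estAvg P.Y p P.T P.N P.H (qSer q) τ - full P.Y x q) / ev P.Y q.2 ^ m‖ ≤
      1 / 2 ^ (P.Ek + 2) := by
    rw [norm_div, div_eq_mul_inv]
    calc _ ≤ 1 / 2 ^ P.Et * (2 : ℝ) ^ (3 * 2 ^ L.om) :=
          mul_le_mul (hτ q hq) h3 (by positivity) (by positivity)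
      _ ≤ 1 / 2 ^ (P.Ek + 2 + 3 * 2 ^ L.om) * (2 : ℝ) ^ (3 * 2 ^ L.om) :=
          mul_le_mul_of_nonneg_right (one_div_le_one_div_of_le (by positivity)
            (pow_le_pow_right₀ one_le_two (by omega))) (by positivity)
      _ = _ := by rw [pow_add _ (P.Ek + 2)]; field_simp
  have h5 : (2 : ℝ) / 2 ^ P.Kt ≤ 2 / 2 ^ (P.Ek + 2) :=
    div_le_div_of_nonneg_left (by norm_num) (by positivity) (pow_le_pow_right₀ one_le_two (by omega))
  have h6 : (1 : ℝ) / 2 ^ (P.Ek + 2) + 2 / 2 ^ (P.Ek + 2) + 1 / 2 ^ (P.Ek + 2) = 1 / 2 ^ P.Ek := by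
    field_simp
    ring
  have h7 : (0 : ℝ) ≤ 1 / 2 ^ (P.Ek + 2) := by positivity
  rw [e]
  linarith

/-- The level-0 value decides the letter. -/
theorem level0 {Y n : ℕ} (hY : 32000 ≤ Y) {x : List Bool} {m : ℕ} (hm : m < n) (r : ℕ) {v : ℂ}
    (hv : ‖v - Lam Y n x m r ([], (7 * Y / 10, 0))‖ ≤ 1 / 2 ^ 2) :
    decide (2 / 3 < v.re) = x.getD m false := by
  have hY' : 100 ≤ Y := le_trans (by norm_num) hY
  have hY0 : (32000 : ℝ) ≤ Y := by exact_mod_cast hY
  obtain ⟨ρ, hρ⟩ : ∃ ρ, ρ = alpha Y ^ (7 * Y / 10) := ⟨_, rfl⟩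
  have hρ' : ρ = Real.exp (-(((7 * Y / 10 : ℕ) : ℝ) * a0 Y)) := by
    rw [hρ, alpha_eq hY', ← Real.exp_nat_mul, mul_neg]
  have hρ0 : 0 ≤ ρ := by rw [hρ']; exact (Real.exp_pos _).le
  have hρ1 : ρ ≤ 1 / 4 := by
    have a1 : 7 * Y ≤ 10 * (7 * Y / 10) + 9 := by omega
    have a2 : 7 * (Y : ℝ) ≤ 10 * ((7 * Y / 10 : ℕ) : ℝ) + 9 := by exact_mod_cast a1
    have a3 : 139 / 100 ≤ ((7 * Y / 10 : ℕ) : ℝ) * (2 / (Y : ℝ)) := by
      rw [mul_div_assoc', le_div_iff₀ (by linarith)]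
      linarith
    have a4 := mul_le_mul_of_nonneg_left (le_a0 hY') (Nat.cast_nonneg (α := ℝ) (7 * Y / 10))
    have a5 := Real.log_two_lt_d9
    rw [hρ']
    calc Real.exp (-(((7 * Y / 10 : ℕ) : ℝ) * a0 Y)) ≤ Real.exp (-(((2 : ℕ) : ℝ) * Real.log 2)) := by
          refine Real.exp_le_exp.2 ?_
          push_cast
          linarith
      _ = 1 / 4 := by rw [Real.exp_neg, Real.exp_nat_mul, Real.exp_log two_pos]; norm_num
  obtain ⟨f, hf⟩ : ∃ f : ℕ → ℝ, f = fun T => (if x.getD T false then 1 else 0) *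
      Wt Y r ((T : ℤ) - m) * ρ ^ (T - m) := ⟨_, rfl⟩
  have hLam : Lam Y n x m r ([], (7 * Y / 10, 0)) = ((∑ T ∈ Ico m n, f T : ℝ) : ℂ) := by
    unfold Lam
    rw [ofReal_sum]
    refine sum_congr rfl fun T _ => ?_
    simp only [hf, hρ, feat, List.foldr_nil, bit, ev, zpow_zero, mul_one]
    split_ifs <;> push_cast <;> ring
  have hf0 : ∀ T, 0 ≤ f T := fun T => by
    rw [hf]
    have := Wt_pos hY' r ((T : ℤ) - m)
    dsimp only
    split_ifs <;> positivity
  have hre : |v.re - ∑ T ∈ Ico m n, f T| ≤ 1 / 4 := by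
    have := (abs_re_le_norm _).trans hv
    rw [hLam, sub_re, ofReal_re] at this
    linarith
  have hre' := abs_le.1 hre
  rw [sum_eq_sum_Ico_succ_bot hm] at hre'
  cases hb : x.getD m false
  · have e1 : f m = 0 := by simp only [hf, hb]; simp
    have e2 : ∑ T ∈ Ico (m + 1) n, f T ≤ 1 / 3 := by
      rw [sum_Ico_eq_sum_range]
      calc ∑ k ∈ range (n - (m + 1)), f (m + 1 + k) ≤
            ∑ k ∈ range (n - (m + 1)), (1 / 4 : ℝ) ^ (k + 1) := by
            refine sum_le_sum fun k _ => ?_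
            have b1 : m + 1 + k - m = k + 1 := by omega
            have b2 := Wt_pos hY' r (((m + 1 + k : ℕ) : ℤ) - m)
            have b3 := Wt_le_one hY' r (((m + 1 + k : ℕ) : ℤ) - m)
            have b4 : ρ ^ (k + 1) ≤ (1 / 4) ^ (k + 1) := pow_le_pow_left₀ hρ0 hρ1 _
            rw [hf]
            dsimp only
            rw [b1]
            split_ifs
            · rw [one_mul]
              exact (mul_le_of_le_one_left (by positivity) b3).trans b4
            · rw [zero_mul, zero_mul]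
              positivity
        _ ≤ 1 / 3 := by
            rw [dc_geom]
            have : (0 : ℝ) ≤ 1 / 3 * (1 / 4) ^ (n - (m + 1)) := by positivity
            linarith
    rw [decide_eq_false_iff_not, not_lt]
    linarith [hre'.2]
  · have e1 : f m = 1 := by simp only [hf, hb]; simp [Wt_zero]
    have e2 : 0 ≤ ∑ T ∈ Ico (m + 1) n, f T := sum_nonneg fun T _ => hf0 T
    rw [decide_eq_true_eq]
    linarith [hre'.1]

theorem decodeP_eq {n : ℕ} {p : ℝ} {P : Par} (hP : ParOK n p P) {x : List Bool}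
    (hx : x.length = n) {τ : List (List Bool)}
    (hτ : ∀ q ∈ qlist P.l0 P.ls,
      ‖estAvg P.Y p P.T P.N P.H (qSer q) τ - full P.Y x q‖ ≤ 1 / 2 ^ P.Et) :
    decodeP P n p τ = x := by
  obtain ⟨L, ls, hL, -, -⟩ := hP.htop
  obtain ⟨zs, E', hlev⟩ := hP.hch.mem L (by rw [hL]; exact List.mem_cons_self)
  have hbit : ∀ i < n, nextBit P n p τ (x.take i) = x.getD i false := by
    intro i hi
    obtain ⟨r₀, h⟩ := descend_acc hP.hch hx hi (topTable_acc hP hx hi hτ)
    have h1 := h ([], (P.l0, 0)) (mem_qlist.2 ⟨by simp [feats], by simp [zsOf]⟩)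
    unfold nextBit
    refine level0 hlev.hY100 hi r₀ ?_
    rw [← hP.hl0]
    exact h1
  have key : ∀ i ≤ n,
      (List.range i).foldl (fun w _ => w ++ [nextBit P n p τ w]) [] = x.take i := by
    intro i hi
    induction i with
    | zero => simp
    | succ i ih =>
      rw [List.range_succ, List.foldl_append, ih (by omega), List.foldl_cons, List.foldl_nil,
        hbit i (by omega), List.take_succ_eq_append_getElem (by omega),
        List.getD_eq_getElem _ _ (by omega)]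
  unfold decodeP
  rw [key n le_rfl, ← hx, List.take_length]

end Crest.Agent.R300.UB
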