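import Crest.Agent.R300.UBEst
import Crest.Agent.R300.UBDec
import Crest.Agent.R300.UBSched

set_option autoImplicit false

noncomputable section

namespace Crest.Agent.R300.UB

open Complex Finset Crest.Agent.Lib.PT Crest.TraceRecon Crest.FinProb

/-- The decoder fails with probability at most `1/(4(n+1))`. -/
theorem core {n m : ℕ} {p : ℚ} (hn : 2 ≤ n) (hp : 0 < p) (hp1 : p < 1) (hm : 2 ^ eNeed n p ≤ m)
    (x : Fin n → Bool) :
    prK (p : ℝ) (fun keeps : Fin m → Fin n → Bool =>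
      decode (n, p, traces x keeps) ≠ List.ofFn x) ≤ 1 / (4 * (n + 1)) := by
  have hp' : (0 : ℝ) < p := by exact_mod_cast hp
  have hp1' : (p : ℝ) < 1 := by exact_mod_cast hp1
  have hP := par_ok hn hp hp1
  have hI : 1 / (p : ℝ) ≤ 2 ^ Nat.size ⌈1 / p⌉₊ := by
    have h1 : (1 / p : ℚ) ≤ ((2 ^ Nat.size ⌈1 / p⌉₊ : ℕ) : ℚ) :=
      (Nat.le_ceil _).trans (by exact_mod_cast (Nat.lt_size_self _).le)
    exact_mod_cast h1
  refine le_trans (prK_mono hp'.le hp1'.le fun keeps hk => ?_)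
    (est_prob (eY := eY n p) hn hp' hp1' hP le_rfl hI hm x)
  by_contra hc
  refine hk (decodeP_eq hP (by simp) fun q hq => not_lt.1 fun h => hc ⟨q, hq, h⟩)

end Crest.Agent.R300.UB
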