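import Crest.Agent.R300.UBSched

set_option autoImplicit false

noncomputable section

namespace Crest.Agent.R300.UB

open Complex Finset Crest.Agent.Lib.PT Crest.TraceRecon Crest.FinProb

variable {n : ℕ} {p : ℚ}

theorem cost_pow (x : ℕ) : 2 ^ ((x + 63) / 64) * 39 ^ x ≤ 2 * 40 ^ x := by
  have h0 : 2 * 39 ^ 64 ≤ 40 ^ 64 := by norm_num
  obtain ⟨a, b, rfl, hb⟩ : ∃ a b, x = 64 * a + b ∧ b < 64 :=
    ⟨x / 64, x % 64, (Nat.div_add_mod x 64).symm, Nat.mod_lt _ (by norm_num)⟩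
  have h1 : 2 ^ ((64 * a + b + 63) / 64) ≤ 2 ^ (a + 1) :=
    Nat.pow_le_pow_right (by norm_num) (by omega)
  have h2 : (2 * 39 ^ 64) ^ a ≤ (40 ^ 64) ^ a := Nat.pow_le_pow_left h0 a
  have h3 : 39 ^ b ≤ 40 ^ b := Nat.pow_le_pow_left (by norm_num) b
  rw [pow_add, pow_add, pow_mul, pow_mul]
  generalize 39 ^ 64 = u at *
  generalize 40 ^ 64 = v at *
  calc 2 ^ ((64 * a + b + 63) / 64) * (u ^ a * 39 ^ b) ≤ 2 ^ (a + 1) * (u ^ a * 39 ^ b) :=
        Nat.mul_le_mul_right _ h1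
    _ = 2 * ((2 * u) ^ a * 39 ^ b) := by ring
    _ ≤ 2 * (v ^ a * 40 ^ b) := by gcongr

theorem cost_Ek : 2 ^ ((xx n p + 63) / 64) * Es n p (kk n p) ≤ 14 * (8 ^ kk n p * G0 n p) := by
  obtain ⟨j, hj⟩ : ∃ j, kk n p = j + 1 := ⟨kk n p - 1, by unfold kk; omega⟩
  have h1 := sch_Es_le (n := n) (p := p) sch_G0_ge j fun i _ => sch_gs_le' i
  rw [← hj] at h1
  obtain ⟨c, hc⟩ : ∃ c, kk n p = c + xx n p := ⟨J0 + 3, by unfold kk; omega⟩
  have h2 := cost_pow (xx n p)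
  have h3 : 39 ^ c ≤ 40 ^ c := Nat.pow_le_pow_left (by norm_num) c
  have h4 : 2 ^ ((xx n p + 63) / 64) * 39 ^ kk n p ≤ 2 * (5 ^ kk n p * 8 ^ kk n p) := by
    rw [← mul_pow, hc, pow_add, pow_add]
    calc 2 ^ ((xx n p + 63) / 64) * (39 ^ c * 39 ^ xx n p)
        = 39 ^ c * (2 ^ ((xx n p + 63) / 64) * 39 ^ xx n p) := by ring
      _ ≤ 40 ^ c * (2 * 40 ^ xx n p) := Nat.mul_le_mul h3 h2
      _ = 2 * ((5 * 8) ^ c * (5 * 8) ^ xx n p) := by norm_num; ring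
  refine Nat.le_of_mul_le_mul_left (c := 5 ^ kk n p) ?_ (by positivity)
  calc 5 ^ kk n p * (2 ^ ((xx n p + 63) / 64) * Es n p (kk n p))
      = 2 ^ ((xx n p + 63) / 64) * (5 ^ kk n p * Es n p (kk n p)) := by ring
    _ ≤ 2 ^ ((xx n p + 63) / 64) * (7 * 39 ^ kk n p * G0 n p) :=
        Nat.mul_le_mul_left _ ((Nat.mul_le_mul_left _ (Nat.le_add_right _ _)).trans h1)
    _ = 7 * (2 ^ ((xx n p + 63) / 64) * 39 ^ kk n p) * G0 n p := by ring
    _ ≤ 7 * (2 * (5 ^ kk n p * 8 ^ kk n p)) * G0 n p := by gcongr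
    _ = 5 ^ kk n p * (14 * (8 ^ kk n p * G0 n p)) := by ring

theorem cost_om (j : ℕ) : 2 ^ oms n p j ≤ 512 * Es n p (j + 1) := by
  have h1 := sch_four_pow_om (gs n p j) (ePs n p j)
  have h2 : 2 ^ oms n p j ≤ 4 ^ oms n p j := Nat.pow_le_pow_left (by norm_num) _
  rw [sch_Es_succ]
  unfold oms at h2 ⊢
  omega

theorem cost_eG (j : ℕ) : eG (levs n p j) + 3 * (2 ^ j * G0 n p) ≤ 3 * (4 ^ j * G0 n p) := by
  induction j with
  | zero => simp [levs, eG]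
  | succ j ih =>
    have e : eG (levs n p (j + 1)) = 4 * eG (levs n p j) + 3 * (5 + gs n p j) := by
      rw [sch_levs_succ]; rfl
    have h1 := sch_gs_le' (n := n) (p := p) j
    have h2 := sch_gs_ge (n := n) (p := p) j
    rw [e, pow_succ, pow_succ, mul_right_comm _ 2, mul_right_comm _ 4]
    omega

theorem cost_DD : ∃ c : ℕ, ∀ (n : ℕ) (p : ℚ),
    2 + 2 * DD n p ≤ c * (xx n p + 1) * 2 ^ ((xx n p + 63) / 64) := by
  refine ⟨4 * 2 ^ 28 * (512 * (7 * 8 ^ (J0 + 1) * 23)), fun n p => ?_⟩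
  have h1 := cost_om (n := n) (p := p) J0
  have h2 := sch_Es_le8 (n := n) (p := p) (G := 16 + dl n p)
    (by have := sch_dl (n := n) (p := p); omega) J0 fun i hi => sch_gs_le_low hi
  have h3 : 16 + dl n p ≤ 23 * (xx n p + 1) := by unfold dl; omega
  have h4 : DD n p = 2 ^ 28 * 2 ^ ((xx n p + 63) / 64) * 2 ^ oms n p J0 := by
    rw [DD, ← pow_add, ← pow_add]; congr 1; unfold dl; omega
  have h5 : 1 ≤ DD n p := Nat.one_le_two_pow
  generalize 8 ^ (J0 + 1) = K at *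
  calc 2 + 2 * DD n p ≤ 4 * DD n p := by omega
    _ = 4 * (2 ^ 28 * 2 ^ ((xx n p + 63) / 64) * 2 ^ oms n p J0) := by rw [h4]
    _ ≤ 4 * (2 ^ 28 * 2 ^ ((xx n p + 63) / 64) * (512 * (7 * K * (23 * (xx n p + 1))))) := by
        gcongr
        exact h1.trans (Nat.mul_le_mul_left _ (h2.trans (Nat.mul_le_mul_left _ h3)))
    _ = _ := by ring

theorem cost_TT (hp : 0 < p) : TT n p ≤ (2 + 2 * DD n p) * ⌈1 / p⌉₊ := by
  refine Nat.ceil_le.2 ?_
  have h : 1 / p ≤ ⌈1 / p⌉₊ := Nat.le_ceil _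
  push_cast
  rw [div_eq_mul_one_div]
  gcongr

/-- the pure arithmetic of the cost -/
theorem cost_arith {s x k c G W I eI E eg Et T N eY K cD e : ℕ} (hk : k ≤ 387 * (x + 1))
    (hc : c ≤ 2 ^ x) (hc1 : 1 ≤ c) (hW : W ≤ G) (hG : 1 ≤ G) (hs : s ≤ 2 ^ x * W)
    (hx : 2 ^ x ≤ K) (hI : 1 ≤ I) (heI : eI ≤ I) (hE : c * E ≤ 14 * (K ^ 3 * G)) (hE1 : 1 ≤ E)
    (heg : eg ≤ 3 * (K ^ 2 * G)) (hEt : Et ≤ 1539 * E) (hT : T ≤ cD * (x + 1) * c * I)
    (hN : N = 2 * T * (s + K ^ 2 * (2 * k + 6) + eg + Et + 1)) (heY : eY = E + s)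
    (he : e = (s + 3) + ((17 + 3 * eY) * k + eY + 2) +
      2 * (6 * N + 1 + (11 * k + 4) * K ^ 2 + K ^ 2 * (s + eI)) + 2 * (Et + 1)) :
    e ≤ (24 * 30000 * cD + 100000) * (I * (x + 1) ^ 2 * (K ^ 3 * G)) := by
  have hK : 1 ≤ K := Nat.one_le_two_pow.trans hx
  have hcK : c ≤ K := hc.trans hx
  set A := K ^ 3 * G with hA
  have hKA : K ^ 3 ≤ A := Nat.le_mul_of_pos_right _ hG
  have hK2 : K ^ 2 ≤ K ^ 3 := Nat.pow_le_pow_right hK (by norm_num)
  have hK1 : K ≤ K ^ 2 := by nlinarith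
  have hsK : s ≤ K * G := hs.trans (Nat.mul_le_mul hx hW)
  have a1 : K ^ 2 * s ≤ A := by
    calc K ^ 2 * s ≤ K ^ 2 * (K * G) := Nat.mul_le_mul_left _ hsK
      _ = A := by rw [hA]; ring
  have a2 : c * s ≤ A := (Nat.mul_le_mul_right _ (hcK.trans hK1)).trans a1
  have a3 : s ≤ A := (Nat.le_mul_of_pos_left _ hc1).trans a2
  have a4 : c * K ^ 2 ≤ A := by
    calc c * K ^ 2 ≤ K * K ^ 2 := Nat.mul_le_mul_right _ hcK
      _ = K ^ 3 := by ring
      _ ≤ A := hKA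
  have a5 : c * eg ≤ 3 * A := by
    calc c * eg ≤ K * (3 * (K ^ 2 * G)) := Nat.mul_le_mul hcK heg
      _ = 3 * A := by rw [hA]; ring
  have a6 : c * Et ≤ 21546 * A := by
    calc c * Et ≤ c * (1539 * E) := Nat.mul_le_mul_left _ hEt
      _ = 1539 * (c * E) := by ring
      _ ≤ 1539 * (14 * A) := Nat.mul_le_mul_left _ hE
      _ = 21546 * A := by ring
  have a7 : E ≤ 14 * A := (Nat.le_mul_of_pos_left _ hc1).trans hE
  have a8 : 1 ≤ A := (hK.trans (hK1.trans hK2)).trans hKA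
  set B := (x + 1) * A with hB
  have b0 : A ≤ B := Nat.le_mul_of_pos_left _ (Nat.succ_pos _)
  have b1 : k * A ≤ 387 * B := by
    calc k * A ≤ 387 * (x + 1) * A := Nat.mul_le_mul_right _ hk
      _ = 387 * B := by rw [hB]; ring
  have b2 : c * (s + K ^ 2 * (2 * k + 6) + eg + Et + 1) ≤ 30000 * B := by
    have e1 : c * (s + K ^ 2 * (2 * k + 6) + eg + Et + 1) =
        c * s + 2 * (k * (c * K ^ 2)) + 6 * (c * K ^ 2) + c * eg + c * Et + c := by ring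
    have e2 : k * (c * K ^ 2) ≤ k * A := Nat.mul_le_mul_left _ a4
    have e3 : c ≤ A := (hcK.trans (hK1.trans hK2)).trans hKA
    omega
  set Z := I * (x + 1) ^ 2 * A with hZ
  have z0 : I * B ≤ Z := by
    rw [hZ, hB, ← mul_assoc]
    gcongr
    nlinarith
  have z1 : B ≤ I * B := Nat.le_mul_of_pos_left _ hI
  have c1 : N ≤ 2 * 30000 * cD * Z := by
    calc N ≤ 2 * (cD * (x + 1) * c * I) * (s + K ^ 2 * (2 * k + 6) + eg + Et + 1) := by
          rw [hN]; gcongr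
      _ = 2 * cD * (x + 1) * I * (c * (s + K ^ 2 * (2 * k + 6) + eg + Et + 1)) := by ring
      _ ≤ 2 * cD * (x + 1) * I * (30000 * B) := Nat.mul_le_mul_left _ b2
      _ = 2 * 30000 * cD * Z := by rw [hZ, hB]; ring
  have c2 : (17 + 3 * eY) * k ≤ 62 * (k * A) := by
    calc (17 + 3 * eY) * k ≤ (62 * A) * k := Nat.mul_le_mul_right _ (by omega)
      _ = 62 * (k * A) := by ring
  have c3 : (11 * k + 4) * K ^ 2 ≤ 11 * (k * A) + 4 * A := by
    calc (11 * k + 4) * K ^ 2 ≤ (11 * k + 4) * A := Nat.mul_le_mul_left _ (hK2.trans hKA)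
      _ = _ := by ring
  have c4 : K ^ 2 * (s + eI) ≤ A + I * B := by
    rw [mul_add]
    refine Nat.add_le_add a1 ?_
    rw [mul_comm]
    exact Nat.mul_le_mul heI ((hK2.trans hKA).trans b0)
  have c5 : Et ≤ 21546 * A := (Nat.le_mul_of_pos_left _ hc1).trans a6
  have c6 : (24 * 30000 * cD + 100000) * Z = 12 * (2 * 30000 * cD * Z) + 100000 * Z := by ring
  rw [c6]
  omega

theorem cost_nat : ∃ c : ℕ, ∀ (n : ℕ) (p : ℚ), 2 ≤ n → 0 < p →
    eNeed n p ≤ c * (⌈1 / p⌉₊ * (xx n p + 1) ^ 3 * (8 ^ xx n p * (gQ n p + 1))) := by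
  obtain ⟨cD, hcD⟩ := cost_DD
  refine ⟨(24 * 30000 * cD + 100000) * (23 * 8 ^ (J0 + 3)), fun n p hn hp => ?_⟩
  have e4 : 4 ^ kk n p = (2 ^ kk n p) ^ 2 := by rw [← pow_mul, mul_comm, sch_four_pow]
  have e8 : 8 ^ kk n p = (2 ^ kk n p) ^ 3 := by rw [← pow_mul, mul_comm, pow_mul]; norm_num
  have hI : 1 ≤ ⌈1 / p⌉₊ := Nat.ceil_pos.2 (by positivity)
  have hE1 : 2 ≤ Es n p (kk n p) := sch_Es_mono (n := n) (p := p) (Nat.zero_le _)
  have h := cost_arith (s := Nat.size n) (x := xx n p) (k := kk n p)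
    (c := 2 ^ ((xx n p + 63) / 64)) (G := G0 n p) (W := gQ n p + 1) (I := ⌈1 / p⌉₊)
    (eI := Nat.size ⌈1 / p⌉₊) (E := Es n p (kk n p)) (eg := eG (levs n p (kk n p)))
    (Et := Ets n p) (T := TT n p) (N := (par n p).N) (eY := eY n p) (K := 2 ^ kk n p) (cD := cD)
    (e := eNeed n p) (by unfold kk J0; omega) (Nat.pow_le_pow_right (by norm_num) (by omega))
    Nat.one_le_two_pow (by unfold G0; omega) (by unfold G0; omega) sch_size_lt.le
    (Nat.pow_le_pow_right (by norm_num) (by unfold kk; omega)) hI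
    (Nat.size_le.2 Nat.lt_two_pow_self) (e8 ▸ cost_Ek) (by omega)
    (by have := cost_eG (n := n) (p := p) (kk n p); rw [e4] at this; omega)
    (by
      have h1 := cost_om (n := n) (p := p) (kk n p - 1)
      rw [show kk n p - 1 + 1 = kk n p by unfold kk; omega] at h1
      unfold Ets; omega)
    ((cost_TT hp).trans (Nat.mul_le_mul_right _ (hcD n p))) (by rw [← e4]; rfl) rfl
    (by rw [← e4]; simp only [eNeed, eNeedP, par, sch_levs_length])
  refine h.trans ?_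
  have hG : G0 n p ≤ 23 * ((xx n p + 1) * (gQ n p + 1)) := by
    have : G0 n p ≤ 23 + xx n p + gQ n p := by unfold G0 dl; omega
    nlinarith [Nat.zero_le (xx n p * gQ n p)]
  rw [← e8, show kk n p = (J0 + 3) + xx n p by unfold kk; omega, pow_add]
  generalize 8 ^ (J0 + 3) = K0
  calc (24 * 30000 * cD + 100000) * (⌈1 / p⌉₊ * (xx n p + 1) ^ 2 * (K0 * 8 ^ xx n p * G0 n p))
      ≤ (24 * 30000 * cD + 100000) * (⌈1 / p⌉₊ * (xx n p + 1) ^ 2 *
        (K0 * 8 ^ xx n p * (23 * ((xx n p + 1) * (gQ n p + 1))))) := by gcongr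
    _ = _ := by ring

theorem cost_size (hn : 2 ≤ n) : (Nat.size n : ℝ) ≤ 3 * Real.log n := by
  have h0 : 0 < Nat.size n := Nat.size_pos.2 (by omega)
  obtain ⟨k, hk⟩ : ∃ k, Nat.size n = k + 1 := ⟨_, (Nat.succ_pred_eq_of_pos h0).symm⟩
  have h1 : 2 ^ k ≤ n := Nat.lt_size.1 (by omega)
  have h2 : k * Real.log 2 ≤ Real.log n := by
    rw [← Real.log_pow]
    exact Real.log_le_log (by positivity) (by exact_mod_cast h1)
  have h3 : Real.log 2 ≤ Real.log n := Real.log_le_log (by norm_num) (by exact_mod_cast hn)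
  have h4 := Real.log_two_gt_d9
  have h5 : (0 : ℝ) ≤ k := Nat.cast_nonneg k
  rw [hk]; push_cast
  nlinarith

theorem cost_two_pow_xx (hn : 2 ≤ n) (hp : 0 < p) (hp1 : p < 1) :
    (2 : ℝ) ^ xx n p ≤ 12 * (1 + Real.log n / (1 + Real.log (1 / (1 - (p : ℝ))))) := by
  have hq : (0 : ℝ) < 1 - p := by have : (p : ℝ) < 1 := by exact_mod_cast hp1
                                  linarith
  have hp' : (0 : ℝ) < p := by exact_mod_cast hp
  have hL : 0 ≤ Real.log (1 / (1 - (p : ℝ))) :=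
    Real.log_nonneg (by rw [le_div_iff₀ hq]; linarith)
  have hn' : 0 ≤ Real.log n := Real.log_natCast_nonneg n
  have hW : (2 : ℝ) ^ xx n p * (gQ n p + 1) ≤ 2 * Nat.size n := by exact_mod_cast sch_W_le hn
  have hd : 0 ≤ Real.log n / (1 + Real.log (1 / (1 - (p : ℝ)))) := by positivity
  have hlt : min ⌊1 / (1 - p)⌋₊ n < 2 ^ (gQ n p + 1) := Nat.lt_pow_succ_log_self (by norm_num) _
  have hg : (0 : ℝ) < gQ n p + 1 := by positivity
  rcases le_total ⌊1 / (1 - p)⌋₊ n with h | h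
  · rw [min_eq_left h] at hlt
    have h1 : 1 / (1 - p) < ((2 ^ (gQ n p + 1) : ℕ) : ℚ) :=
      (Nat.lt_floor_add_one _).trans_le (by exact_mod_cast hlt)
    have h2 : 1 / (1 - (p : ℝ)) < 2 ^ (gQ n p + 1) := by exact_mod_cast h1
    have h3 : Real.log (1 / (1 - (p : ℝ))) ≤ gQ n p + 1 := by
      refine (Real.log_le_log (by positivity) h2.le).trans ?_
      rw [Real.log_pow]; push_cast
      have := Real.log_two_lt_d9
      nlinarith
    have h4 := cost_size hn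
    have h5 : (2 : ℝ) ^ xx n p ≤ 12 * (Real.log n / (1 + Real.log (1 / (1 - (p : ℝ))))) := by
      rw [← mul_div_assoc, le_div_iff₀ (by positivity)]
      have h6 : (0 : ℝ) < 2 ^ xx n p := by positivity
      have h7 : (0 : ℝ) ≤ gQ n p := Nat.cast_nonneg _
      nlinarith
    linarith
  · rw [min_eq_right h] at hlt
    have h1 : (Nat.size n : ℝ) ≤ gQ n p + 1 := by exact_mod_cast Nat.size_le.2 hlt
    have h2 : (2 : ℝ) ^ xx n p ≤ 2 := le_of_mul_le_mul_right (by linarith) hg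
    linarith

/-- The number of traces needed is within the budget. -/
theorem need_le : ∃ C : ℝ, 1 ≤ C ∧ ∀ n : ℕ, 2 ≤ n → ∀ p : ℚ, 0 < p → p < 1 →
    (2 : ℝ) ^ eNeed n p ≤ Real.exp (C * budget n p) := by
  obtain ⟨c, hc⟩ := cost_nat
  refine ⟨c * (2 * 125 * 144 * 6) + 1, by linarith [show (0 : ℝ) ≤ c * (2 * 125 * 144 * 6) by positivity],
    fun n hn p hp hp1 => ?_⟩
  have h0 : (eNeed n p : ℝ) ≤
      c * (⌈1 / p⌉₊ * ((xx n p : ℝ) + 1) ^ 3 * (8 ^ xx n p * (gQ n p + 1))) := by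
    exact_mod_cast hc n p hn hp
  have hp' : (0 : ℝ) < p := by exact_mod_cast hp
  have hp1' : (p : ℝ) < 1 := by exact_mod_cast hp1
  have hL : 0 ≤ Real.log (1 / (1 - (p : ℝ))) :=
    Real.log_nonneg (by rw [le_div_iff₀ (by linarith)]; linarith)
  have hn' : 0 ≤ Real.log n := Real.log_natCast_nonneg n
  have h2 := cost_two_pow_xx hn hp hp1
  unfold budget
  set X := 1 + Real.log n / (1 + Real.log (1 / (1 - (p : ℝ)))) with hX
  have hX1 : 1 ≤ X := by rw [hX]; exact le_add_of_nonneg_right (by positivity)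
  have hlX : 0 ≤ Real.log X := Real.log_nonneg hX1
  have h1 : (⌈1 / p⌉₊ : ℝ) ≤ 2 * (p : ℝ)⁻¹ := by
    have a1 : (⌈1 / p⌉₊ : ℚ) < 1 / p + 1 := Nat.ceil_lt_add_one (by positivity)
    have a2 : (⌈1 / p⌉₊ : ℝ) < 1 / (p : ℝ) + 1 := by exact_mod_cast a1
    have a3 : 1 ≤ (p : ℝ)⁻¹ := one_le_inv₀ hp' |>.2 hp1'.le
    rw [one_div (p : ℝ)] at a2
    linarith
  have h3 : (xx n p : ℝ) + 1 ≤ 5 * (1 + Real.log X) := by
    have a1 : xx n p * Real.log 2 ≤ Real.log 16 + Real.log X := by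
      rw [← Real.log_pow, ← Real.log_mul (by norm_num) (by linarith)]
      exact Real.log_le_log (by positivity) (by linarith)
    rw [show (16 : ℝ) = 2 ^ 4 by norm_num, Real.log_pow] at a1
    have a2 := Real.log_two_gt_d9
    push_cast at a1
    have a3 : ((xx n p : ℝ) - 4) * Real.log 2 ≤ Real.log X := by linarith
    by_cases a4 : (xx n p : ℝ) ≤ 4
    · linarith
    · nlinarith
  have h4 : ((xx n p : ℝ) + 1) ^ 3 ≤ 125 * (1 + Real.log X) ^ 6 := by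
    calc ((xx n p : ℝ) + 1) ^ 3 ≤ (5 * (1 + Real.log X)) ^ 3 := by gcongr
      _ = 125 * (1 + Real.log X) ^ 3 := by ring
      _ ≤ 125 * (1 + Real.log X) ^ 6 := by gcongr <;> linarith
  have h5 : (8 : ℝ) ^ xx n p * (gQ n p + 1) ≤ 144 * X ^ 2 * (6 * Real.log n) := by
    have hW : (2 : ℝ) ^ xx n p * (gQ n p + 1) ≤ 2 * Nat.size n := by exact_mod_cast sch_W_le hn
    have a1 := cost_size hn
    calc (8 : ℝ) ^ xx n p * (gQ n p + 1) = (2 ^ xx n p) ^ 2 * (2 ^ xx n p * (gQ n p + 1)) := by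
          rw [show (8 : ℝ) = 2 ^ 3 by norm_num, ← pow_mul, mul_comm 3, pow_mul]; ring
      _ ≤ (12 * X) ^ 2 * (6 * Real.log n) :=
          mul_le_mul (by gcongr) (by linarith) (by positivity) (by positivity)
      _ = _ := by ring
  have h6 : (eNeed n p : ℝ) ≤ c * (2 * 125 * 144 * 6) *
      ((p : ℝ)⁻¹ * Real.log n * X ^ 2 * (1 + Real.log X) ^ 6) := by
    refine h0.trans ?_
    calc (c : ℝ) * (⌈1 / p⌉₊ * ((xx n p : ℝ) + 1) ^ 3 * (8 ^ xx n p * (gQ n p + 1)))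
        ≤ c * (2 * (p : ℝ)⁻¹ * (125 * (1 + Real.log X) ^ 6) * (144 * X ^ 2 * (6 * Real.log n))) := by
          gcongr
      _ = _ := by ring
  have h7 : 0 ≤ (p : ℝ)⁻¹ * Real.log n * X ^ 2 * (1 + Real.log X) ^ 6 := by positivity
  calc (2 : ℝ) ^ eNeed n p ≤ Real.exp 1 ^ eNeed n p := by
        gcongr
        linarith [Real.add_one_le_exp 1]
    _ = Real.exp (eNeed n p) := by rw [← Real.exp_nat_mul, mul_one]
    _ ≤ _ := Real.exp_le_exp.2 (by rw [add_mul, one_mul]; linarith)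

end Crest.Agent.R300.UB
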