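import Crest.Agent.R300.PTC
import Crest.Agent.R300.PTWrap

/-!
Row 300, upper bound and decoder (S0456, S0457): all definitions.

All numbers are `ev Y (l,k) = alpha^l * uu^k = exp(-l a0 + i k th)`.
* chains / series: formal expansions of features, used to estimate them from traces;
* `feat`: hierarchical features of the word;
* `lsq`: regularised least squares;
* `prod4`: REP step (four-fold products of windowed Fourier sums from next-level queries);
* `jenOut`: CHAIN + JENSEN step;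
* `est1`, `estAvg`: trace estimator;
* `par`, `decode`: the schedule and the decoder.
-/

set_option autoImplicit false

noncomputable section

namespace Crest.Agent.R300.UB

open Complex Finset Crest.Agent.Lib.PT Crest.TraceRecon Crest.FinProb

/-! ### numbers -/

/-- `alpha = (1-y)/(1+y)` with `y = 1/Y`. -/
def alpha (Y : ℕ) : ℝ := ((Y : ℝ) - 1) / ((Y : ℝ) + 1)
/-- `uu = (1+iy)/(1-iy)` with `y = 1/Y`. -/
def uu (Y : ℕ) : ℂ := ((Y : ℂ) + I) / ((Y : ℂ) - I)
/-- `a0 = -log alpha`. -/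
def a0 (Y : ℕ) : ℝ := Real.log (((Y : ℝ) + 1) / ((Y : ℝ) - 1))
/-- `th = arg uu`. -/
def th (Y : ℕ) : ℝ := 2 * Real.arctan (1 / (Y : ℝ))

/-- Exponent pairs `(l, k)`; multiplication of the values is addition of pairs. -/
abbrev Mono := ℕ × ℤ
/-- Conjugation. -/
def cj (μ : Mono) : Mono := (μ.1, -μ.2)
/-- General valuation `exp(-l A + i k B)`. -/
def val (A B : ℝ) (μ : Mono) : ℂ := Complex.exp (-((μ.1 : ℂ) * A) + (μ.2 : ℂ) * B * I)
/-- The valuation used by the algorithm. -/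
def ev (Y : ℕ) (μ : Mono) : ℂ := (alpha Y : ℂ) ^ μ.1 * uu Y ^ μ.2
/-- Gaussian window `alpha^(r s^2)`. -/
def Wt (Y r : ℕ) (s : ℤ) : ℝ := alpha Y ^ (r * s.natAbs ^ 2)
/-- The integers `-N, …, N`. -/
def intRange (N : ℕ) : List ℤ := (List.range (2 * N + 1)).map fun i : ℕ => (i : ℤ) - N
/-- Clip to `[-2^K, 2^K]` and round down to a multiple of `2^-K`. -/
def rndR (K : ℕ) (x : ℝ) : ℚ :=
  ((max (-(4 ^ K : ℤ)) (min (4 ^ K : ℤ) ⌊x * 2 ^ K⌋) : ℤ) : ℚ) / 2 ^ K
/-- Clip and round a complex number. -/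
def rnd (K : ℕ) (z : ℂ) : ℚ × ℚ := (rndR K z.re, rndR K z.im)

/-! ### chains -/

/-- Mark weight: a marked step needs the letter `true`. -/
def mk (e σ : Bool) : ℂ := if e && !σ then 0 else 1

/-- Value of a chain of steps `(gap variable, mark, coefficient)` on a word: the sum over increasing
positions `t₁ < … < t_h` of `∏ gap^(number of skipped letters) * mark * coefficient`. -/
def cval : List Bool → List (ℂ × Bool × ℂ) → ℂ
  | _, [] => 1
  | [], _ :: _ => 0
  | σ :: w, s :: r => s.1 * cval w (s :: r) + mk s.2.1 σ * s.2.2 * cval w r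

/-- The part of `cval` whose last position is `T`. -/
def cend : List Bool → List (ℂ × Bool × ℂ) → ℕ → ℂ
  | _, [], _ => 0
  | [], _ :: _, _ => 0
  | σ :: _, s :: r, 0 => if r = [] then mk s.2.1 σ * s.2.2 else 0
  | σ :: w, s :: r, T + 1 => s.1 * cend w (s :: r) T + mk s.2.1 σ * s.2.2 * cend w r T

/-- A formal step. -/
abbrev Stp := Mono × Bool × Mono
/-- A formal chain. -/
abbrev Chain := List Stp
/-- A formal sum of chains. -/
abbrev Ser := List Chain

/-- Evaluate a formal chain. -/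
def evC (e : Mono → ℂ) (c : Chain) : List (ℂ × Bool × ℂ) := c.map fun s => (e s.1, s.2.1, e s.2.2)

/-- Quasi-shuffle product of two chains with a common last point. -/
def shuf : Chain → Chain → Ser
  | [], _ => []
  | _ :: _, [] => []
  | s :: r, s' :: r' =>
    (if r = [] ∧ r' = [] then [[(s.1 + s'.1, s.2.1 || s'.2.1, s.2.2 + s'.2.2)]] else []) ++
      ((shuf r (s' :: r')).map (fun c => (s.1 + s'.1, s.2.1, s.2.2 + s'.1) :: c) ++
      ((shuf (s :: r) r').map (fun c => (s.1 + s'.1, s'.2.1, s.1 + s'.2.2) :: c) ++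
      (shuf r r').map (fun c => (s.1 + s'.1, s.2.1 || s'.2.1, s.2.2 + s'.2.2) :: c)))
termination_by c c' => c.length + c'.length

/-- Product of series. -/
def serMul (S S' : Ser) : Ser := S.flatMap fun c => S'.flatMap fun c' => shuf c c'
/-- Conjugate series. -/
def serCj (S : Ser) : Ser := S.map fun c => c.map fun s => (cj s.1, s.2.1, cj s.2.2)
/-- The series of the constant `1`. -/
def serOne : Ser := [[((0, 0), false, (0, 0))]]
/-- The series of the letters. -/
def serBit : Ser := [[((0, 0), true, (0, 0))]]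
/-- The series of a constant. -/
def serConst (μ : Mono) : Ser := [[((0, 0), false, μ)]]
/-- The series of `T ↦ z^T`. -/
def serGeo (z : Mono) : Ser := [[(z, false, (0, 0))]]
/-- Value of a series at the position `T`. -/
def serEnd (e : Mono → ℂ) (w : List Bool) (S : Ser) (T : ℕ) : ℂ :=
  (S.map fun c => cend w (evC e c) T).sum

/-- `none` = the constant one, `some false` = `g`, `some true` = `conj g`. -/
abbrev Kind := Option Bool
/-- A slot: kind, strictness, geometric ratio. -/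
abbrev Slot := Kind × Bool × Mono
/-- A node: kind of the last point, constant, slots. -/
abbrev Node := Kind × Mono × List Slot
/-- A query: feature (list of nodes, head = last node applied) and evaluation point. -/
abbrev Query := List Node × Mono

/-- Series of a kind. -/
def kindSer (κ : Kind) (S : Ser) : Ser := κ.elim serOne fun b => cond b (serCj S) S
/-- Series of a slot. -/
def slotSer (S : Ser) (sl : Slot) : Ser :=
  cond sl.2.1 [] (kindSer sl.1 S) ++ (kindSer sl.1 S).map fun c => c ++ [(sl.2.2, false, sl.2.2)]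
/-- Series of a node. -/
def nodeSer (ν : Node) (S : Ser) : Ser :=
  ν.2.2.foldr (fun sl acc => serMul (slotSer S sl) acc) (serMul (kindSer ν.1 S) (serConst ν.2.1))
/-- Series of a feature. -/
def expand (νs : List Node) : Ser := νs.foldr nodeSer serBit
/-- Series of a top-level query `T ↦ g T * z^T`. -/
def qSer (q : Query) : Ser := serMul (expand q.1) (serGeo q.2)

/-! ### features -/

/-- The letters as complex numbers. -/
def bit (x : List Bool) (t : ℕ) : ℂ := if x.getD t false then 1 else 0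
/-- Apply a kind. -/
def kindApp (κ : Kind) (g : ℕ → ℂ) (t : ℕ) : ℂ :=
  κ.elim 1 fun b => cond b ((starRingEnd ℂ) (g t)) (g t)
/-- A slot: geometric partial sum over `t < T` (strict) or `t ≤ T`. -/
def slotApp (e : Mono → ℂ) (g : ℕ → ℂ) (sl : Slot) (T : ℕ) : ℂ :=
  ∑ t ∈ range (cond sl.2.1 T (T + 1)), kindApp sl.1 g t * e sl.2.2 ^ (T - t)
/-- A node. -/
def nodeApp (e : Mono → ℂ) (ν : Node) (g : ℕ → ℂ) (T : ℕ) : ℂ :=
  e ν.2.1 * kindApp ν.1 g T * (ν.2.2.map fun sl => slotApp e g sl T).prod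
/-- The feature of the word `x` given by a list of nodes. -/
def feat (e : Mono → ℂ) (x : List Bool) (νs : List Node) : ℕ → ℂ := νs.foldr (nodeApp e) (bit x)

/-! ### least squares -/

/-- Minimiser of `∑_j ω_j ‖∑_i γ_i a_{ji} - c_j‖² + ∑_i ρ_i ‖γ_i‖²` (normal equations). -/
def lsq {ι κ : Type} (I : List ι) (J : List κ) (a : κ → ι → ℂ) (ω : κ → ℝ) (c : κ → ℂ)
    (ρ : ι → ℝ) : Fin I.length → ℂ :=
  (Matrix.of fun i i' : Fin I.length =>
      (J.map fun j => (ω j : ℂ) * (starRingEnd ℂ) (a j I[i]) * a j I[i']).sum +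
        if i = i' then (ρ I[i] : ℂ) else 0)⁻¹.mulVec
    fun i => (J.map fun j => (ω j : ℂ) * (starRingEnd ℂ) (a j I[i]) * c j).sum

/-- The least squares objective. -/
def lsObj {ι κ : Type} (I : List ι) (J : List κ) (a : κ → ι → ℂ) (ω : κ → ℝ) (c : κ → ℂ)
    (ρ : ι → ℝ) (γ : Fin I.length → ℂ) : ℝ :=
  (J.map fun j => ω j * ‖∑ i, γ i * a j I[i] - c j‖ ^ 2).sum + ∑ i : Fin I.length, ρ I[i] * ‖γ i‖ ^ 2

/-! ### levels and queries -/

/-- Parameters of one level (one descent step). -/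
structure Lev where
  /-- window scale `2^g` -/
  g : ℕ
  /-- box width `2^om` -/
  om : ℕ
  /-- Gaussian exponent of this level -/
  r : ℕ
  /-- Gaussian exponent of the next level -/
  r' : ℕ
  /-- damping exponent (also the chain step) -/
  lb : ℕ
  /-- normalising exponent -/
  lc : ℕ
  /-- frequency box -/
  kS : ℕ
  /-- frequency bound of the nodes -/
  kF : ℕ
  /-- bound for the mass of the window -/
  M : ℕ
  /-- accuracy `2^-eP` of the products -/
  eP : ℕ
  /-- regulariser exponent -/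
  eR : ℕ
  /-- accuracy `2^-E` of the output -/
  E : ℕ
  /-- rounding precision of the output -/
  K : ℕ

/-- The evaluation points of the next level. -/
def contour (lb kS : ℕ) : List Mono :=
  (intRange kS).map fun κ => (lb + (10 * κ.natAbs + 20) / 21, κ)
/-- All kinds. -/
def kinds : List Kind := [none, some false, some true]
/-- All slots of a level. -/
def slotSet (L : Lev) : List Slot :=
  kinds.flatMap fun κ => [true, false].flatMap fun st => (intRange L.kF).map fun k => (κ, st, (L.lb, k))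
/-- All nodes of a level. -/
def nodeSet (L : Lev) : List Node :=
  kinds.flatMap fun f => (slotSet L).flatMap fun s1 => (slotSet L).flatMap fun s2 =>
    (slotSet L).map fun s3 => (f, (L.lc, 0), [s1, s2, s3])
/-- All features; the list of levels is given with the last level first. -/
def feats (ls : List Lev) : List (List Node) :=
  ls.foldr (fun L F => (nodeSet L).flatMap fun ν => F.map fun νs => ν :: νs) [[]]
/-- The evaluation points above the levels `ls`. -/
def zsOf (l0 : ℕ) (ls : List Lev) : List Mono :=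
  ls.head?.elim [(l0, 0)] fun L => contour L.lb L.kS
/-- All queries above the levels `ls`. -/
def qlist (l0 : ℕ) (ls : List Lev) : List Query :=
  (feats ls).flatMap fun νs => (zsOf l0 ls).map fun z => (νs, z)
/-- Tables of query values. -/
abbrev Table := List (Query × ℚ × ℚ)
/-- Table lookup. -/
def look (t : Table) (q : Query) : ℂ := toC ((t.lookup q).getD (0, 0))

/-- True value of a query at the position `m` with Gaussian exponent `r`. -/
def Lam (Y n : ℕ) (x : List Bool) (m r : ℕ) (q : Query) : ℂ :=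
  ∑ T ∈ Ico m n, feat (ev Y) x q.1 T * (Wt Y r ((T : ℤ) - m) : ℂ) * ev Y q.2 ^ (T - m)

/-! ### REP: four-fold products -/

/-- Windowed Fourier sum over `t < N`, centred at `m`. With `N = n` this is the true value, with
`N = m` the known left part. -/
def XX (Y r m N : ℕ) (g : ℕ → ℂ) (a : Kind × ℤ) : ℂ :=
  ∑ t ∈ range N, kindApp a.1 g t * (Wt Y r ((t : ℤ) - m) : ℂ) * uu Y ^ (a.2 * ((t : ℤ) - m))

/-- Unknowns of the REP least squares problem. -/
def repI (L : Lev) : List ((ℤ × ℤ × ℤ) × Mono) :=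
  (intRange L.kS).flatMap fun p1 => (intRange L.kS).flatMap fun p2 =>
    (intRange L.kS).flatMap fun p3 => (contour L.lb L.kS).map fun z => ((p1, p2, p3), z)
/-- Equations of the REP least squares problem. -/
def repJ (n : ℕ) : List (ℕ × ℕ × ℕ × ℕ) :=
  (List.range n).flatMap fun s => (List.range n).flatMap fun d1 =>
    (List.range n).flatMap fun d2 => (List.range n).map fun d3 => (s, d1, d2, d3)
/-- Query kernels. -/
def repA (Y : ℕ) (L : Lev) (j : ℕ × ℕ × ℕ × ℕ) (i : (ℤ × ℤ × ℤ) × Mono) : ℂ :=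
  (Wt Y L.r' j.1 : ℂ) * ev Y i.2 ^ j.1 * ev Y (L.lb, -i.1.1) ^ j.2.1 *
    ev Y (L.lb, -i.1.2.1) ^ j.2.2.1 * ev Y (L.lb, -i.1.2.2) ^ j.2.2.2
/-- Target kernel with total frequency `kT`. -/
def repC (Y : ℕ) (L : Lev) (kT : ℤ) (j : ℕ × ℕ × ℕ × ℕ) : ℂ :=
  ((Wt Y L.r j.1 * Wt Y L.r ((j.1 : ℤ) - j.2.1) * Wt Y L.r ((j.1 : ℤ) - j.2.2.1) *
    Wt Y L.r ((j.1 : ℤ) - j.2.2.2) : ℝ) : ℂ) * uu Y ^ (kT * j.1)
/-- Weights. -/
def repW (Y : ℕ) (L : Lev) (j : ℕ × ℕ × ℕ × ℕ) : ℝ :=
  (alpha Y ^ (L.lb * (j.1 + j.2.1 + j.2.2.1 + j.2.2.2)))⁻¹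
/-- The REP coefficients. -/
def repCoef (Y n : ℕ) (L : Lev) (kT : ℤ) : Fin (repI L).length → ℂ :=
  lsq (repI L) (repJ n) (repA Y L) (repW Y L) (repC Y L kT) fun _ => (repI L).length / 2 ^ L.eR
/-- The node queried for the last point `f` and the other points `a b c` (with strictness). -/
def repNode (L : Lev) (f : Kind) (a b c : (Kind × ℤ) × Bool) (ψ : ℤ × ℤ × ℤ) : Node :=
  (f, (L.lc, 0), [(a.1.1, a.2, (L.lb, -(a.1.2 + ψ.1))), (b.1.1, b.2, (L.lb, -(b.1.2 + ψ.2.1))),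
    (c.1.1, c.2, (L.lb, -(c.1.2 + ψ.2.2)))])
/-- Estimate of the part of the product in which the point of `f` is the last one (and `≥ m`). -/
def part (Y n : ℕ) (L : Lev) (O : Query → ℂ) (νs : List Node) (f : Kind × ℤ)
    (a b c : (Kind × ℤ) × Bool) : ℂ :=
  (∑ i : Fin (repI L).length, repCoef Y n L (f.2 + a.1.2 + b.1.2 + c.1.2) i *
    O (repNode L f.1 a b c (repI L)[i].1 :: νs, (repI L)[i].2)) / (alpha Y : ℂ) ^ L.lc
/-- The true value of such a part. -/
def partTrue (Y n m r : ℕ) (g : ℕ → ℂ) (f : Kind × ℤ) (a b c : (Kind × ℤ) × Bool) : ℂ :=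
  ∑ T ∈ Ico m n, kindApp f.1 g T * (Wt Y r ((T : ℤ) - m) : ℂ) * uu Y ^ (f.2 * ((T : ℤ) - m)) *
    XX Y r m (cond a.2 T (T + 1)) g a.1 * XX Y r m (cond b.2 T (T + 1)) g b.1 *
    XX Y r m (cond c.2 T (T + 1)) g c.1
/-- Estimate of `XX a * XX b * XX c * XX d` from the prefix `w` and the next-level oracle `O`. -/
def prod4 (Y n : ℕ) (L : Lev) (w : List Bool) (O : Query → ℂ) (νs : List Node)
    (a b c d : Kind × ℤ) : ℂ :=
  XX Y L.r w.length w.length (feat (ev Y) w νs) a * XX Y L.r w.length w.length (feat (ev Y) w νs) b *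
    XX Y L.r w.length w.length (feat (ev Y) w νs) c * XX Y L.r w.length w.length (feat (ev Y) w νs) d +
  part Y n L O νs a (b, true) (c, true) (d, true) + part Y n L O νs b (a, false) (c, true) (d, true) +
  part Y n L O νs c (a, false) (b, false) (d, true) + part Y n L O νs d (a, false) (b, false) (c, false)

/-! ### CHAIN and JENSEN -/

/-- Product oracles. -/
abbrev P4 := Kind × ℤ → Kind × ℤ → Kind × ℤ → Kind × ℤ → ℂ

/-- Half-width of the band. -/
def kTh (Y : ℕ) (z : Mono) : ℕ := min (100 * z.1) Y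
/-- Half-width of the arc. -/
def kH (z : Mono) : ℕ := (22 * z.1 + 37 * z.2.natAbs + 99) / 100

/-- Upper estimate of `|X k|²`. -/
def sHat (P : P4) (V ε : ℝ) (k : ℤ) : ℝ :=
  |(P (some false, k) (some true, -k) (none, 0) (none, 0)).re / V ^ 2| + ε
/-- Base points of pairs at distance `h` inside the band. -/
def cand (kT h : ℕ) : List ℤ := (intRange kT).filter fun k => decide (k + h ≤ kT)
/-- The best base point for the distance `h`. -/
def thetaH (P : P4) (V ε : ℝ) (kT h : ℕ) : ℤ :=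
  ((cand kT h).argmax fun k => sHat P V ε k * sHat P V ε (k + h)).getD 0
/-- The best pair value for the distance `h`. -/
def tauH (P : P4) (V ε : ℝ) (kT h : ℕ) : ℝ :=
  sHat P V ε (thetaH P V ε kT h) * sHat P V ε (thetaH P V ε kT h + h)
/-- The worst distance. -/
def hStar (P : P4) (V ε : ℝ) (kT kA : ℕ) : ℕ := ((List.range (kA + 1)).argmin (tauH P V ε kT)).getD 0
/-- `τ²`. -/
def tau2 (P : P4) (V ε : ℝ) (kT kA : ℕ) : ℝ := tauH P V ε kT (hStar P V ε kT kA)
/-- Links of the chain (step `η`). -/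
def PP (P : P4) (V ε : ℝ) (kT η h : ℕ) : ℂ :=
  if h ≤ η then
    P (some false, thetaH P V ε kT h + h) (some true, -thetaH P V ε kT h) (none, 0) (none, 0) / (V : ℂ) ^ 2
  else
    P (some false, thetaH P V ε kT h + h) (some true, -thetaH P V ε kT h)
      (some true, -(thetaH P V ε kT (h - η) + (h - η : ℕ))) (some false, thetaH P V ε kT (h - η))
/-- Estimate of `X(θ_h + h) conj X(θ_h)`. -/
def Qt (P : P4) (V ε : ℝ) (kT η h : ℕ) : ℂ :=
  ∏ i ∈ range ((h - 1) / η + 1),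
    if i % 2 = 0 then PP P V ε kT η (h - i * η) else ((starRingEnd ℂ) (PP P V ε kT η (h - i * η)))⁻¹
/-- Estimate of `X k` on the arc. -/
def Xt (P : P4) (V ε : ℝ) (kT η : ℕ) (k : ℤ) : ℂ :=
  if 0 ≤ k then
    P (some false, k) (some true, -(thetaH P V ε kT k.natAbs + k.natAbs))
      (some false, thetaH P V ε kT k.natAbs) (none, 0) /
      ((V : ℂ) * (starRingEnd ℂ) (Qt P V ε kT η k.natAbs))
  else
    P (some false, k) (some false, thetaH P V ε kT k.natAbs + k.natAbs)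
      (some true, -thetaH P V ε kT k.natAbs) (none, 0) / ((V : ℂ) * Qt P V ε kT η k.natAbs)
/-- Accuracy of `Xt`. -/
def delta (P : P4) (V ε M : ℝ) (kT kA η : ℕ) : ℝ :=
  20 * M * (M ^ 2 + 1) * ((kA / η + 1 : ℕ) : ℝ) * ε / tau2 P V ε kT kA
/-- `Xt k` is used. -/
def useX (P : P4) (V ε M : ℝ) (kT kA η : ℕ) (k : ℤ) : Prop :=
  16 * ((kA / η + 1 : ℕ) : ℝ) * ε * (M ^ 2 + 1) ≤ tau2 P V ε kT kA ∧ k.natAbs ≤ kA
open Classical in
/-- Squared accuracy of the target at `k`. -/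
def wsq (P : P4) (V ε M : ℝ) (kT kA η : ℕ) (k : ℤ) : ℝ :=
  if useX P V ε M kT kA η k then delta P V ε M kT kA η ^ 2 else sHat P V ε k
open Classical in
/-- Target for `X k`. -/
def tgt (P : P4) (V ε M : ℝ) (kT kA η : ℕ) (k : ℤ) : ℂ :=
  if useX P V ε M kT kA η k then Xt P V ε kT η k else 0

/-- Least squares continuation: unknowns `s < N`, data `c k` with squared accuracies `w2 k`. -/
def jenLS (Y r N : ℕ) (M : ℝ) (kT : ℕ) (c : ℤ → ℂ) (w2 : ℤ → ℝ) (z : Mono) : ℂ :=
  ∑ i : Fin (List.range N).length,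
    lsq (List.range N) (intRange kT) (fun k s => (Wt Y r s : ℂ) * uu Y ^ (k * s))
      (fun k => 1 / ((2 * kT + 1) * w2 k)) c (fun s => Wt Y r s / M) i *
    (Wt Y r (i : ℕ) : ℂ) * ev Y z ^ (i : ℕ)

/-- Output of the CHAIN + JENSEN step; `lf k` is the known left part of `X k`. -/
def jenOut (Y r N : ℕ) (P : P4) (V ε M : ℝ) (η : ℕ) (lf : ℤ → ℂ) (z : Mono) : ℂ :=
  jenLS Y r N M (kTh Y z) (fun k => tgt P V ε M (kTh Y z) (kH z) η k - lf k)
    (wsq P V ε M (kTh Y z) (kH z) η) z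

/-- Mass of the window on `[0, n)`. -/
def Vz (Y r m n : ℕ) : ℝ := ∑ t ∈ range n, Wt Y r ((t : ℤ) - m)

/-- Estimate of a query from the prefix `w` and the next-level oracle. -/
def stepVal (Y n : ℕ) (L : Lev) (w : List Bool) (O : Query → ℂ) (q : Query) : ℂ :=
  jenOut Y L.r (n - w.length) (prod4 Y n L w O q.1) (Vz Y L.r w.length n) (1 / 2 ^ L.eP) L.M L.lb
    (fun k => XX Y L.r w.length w.length (feat (ev Y) w q.1) (some false, k)) q.2
/-- One descent step on tables. -/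
def stepTable (Y n l0 : ℕ) (w : List Bool) (L : Lev) (ls : List Lev) (t : Table) : Table :=
  (qlist l0 ls).map fun q => (q, rnd L.K (stepVal Y n L w (look t) q))
/-- Descent through all levels. -/
def descend (Y n l0 : ℕ) (w : List Bool) : List Lev → Table → Table
  | [], t => t
  | L :: ls, t => descend Y n l0 w ls (stepTable Y n l0 w L ls t)

/-- Poisson density at `θ` of the point `exp(-a + i c)`. -/
def pk (a c θ : ℝ) : ℝ := Real.sinh a / (Real.cosh a - Real.cos (θ - c)) / (2 * Real.pi)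
/-- Poisson mass of the `k`-th cell of the grid with spacing `ϑ`. -/
def cellMass (a c ϑ : ℝ) (k : ℤ) : ℝ := ∫ θ in ((k : ℝ) - 1 / 2) * ϑ..((k : ℝ) + 1 / 2) * ϑ, pk a c θ
/-- The arc and the pairs outside the arc carry masses `χ` and `2χ`. -/
def MassOK (a c ϑ : ℝ) (kA kT : ℕ) (χ : ℝ) : Prop :=
  ∀ (f : ℤ → ℝ) (h : ℕ) (α t : ℝ), h ≤ kA → 0 ≤ α → 0 ≤ t → (∀ k, 0 ≤ f k) →
    (∀ k : ℤ, k.natAbs ≤ kA → α ≤ f k) →
    (∀ k : ℤ, kA < k.natAbs → kA < (k + h).natAbs → k.natAbs ≤ kT → (k + h).natAbs ≤ kT →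
      t ≤ f k + f (k + h)) →
    χ * α + 2 * χ * t ≤ ∑ k ∈ Icc (-(kT : ℤ)) kT, cellMass a c ϑ k * f k

/-! ### trace estimator -/

/-- Möbius deformation of `z` (`mob z 0 = z`); `λ = 1/(1-v)` scales the real part of `(1+z)/(1-z)`. -/
def mob (z v : ℂ) : ℂ :=
  (((1 - normSq z : ℝ) : ℂ) + (2 * (z.im : ℂ) * I - (normSq (1 - z) : ℝ)) * (1 - v)) /
    (((1 - normSq z : ℝ) : ℂ) + (2 * (z.im : ℂ) * I + (normSq (1 - z) : ℝ)) * (1 - v))
/-- Interpolation nodes. -/
def vnode (T N j : ℕ) : ℝ := 1 - (1 + (j : ℝ) / N) / (2 * T)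
/-- Blaschke–Lagrange extrapolation weights. -/
def bcoef (T N j : ℕ) : ℝ :=
  (∏ i ∈ range (N + 1), if i = j then 1 else vnode T N i / (vnode T N i - vnode T N j)) *
    ∏ i ∈ range (N + 1), (1 - vnode T N i * vnode T N j)
/-- Extrapolation weights including the multiplier `(1-v)^(2H)`. -/
def acoef (T N H j : ℕ) : ℝ := bcoef T N j * (1 - vnode T N j) ^ (2 * H)
/-- A chain with deformed gap variables. -/
def mobChain (Y : ℕ) (v : ℂ) (c : Chain) : List (ℂ × Bool × ℂ) :=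
  c.map fun s => (mob (ev Y s.1) v, s.2.1, ev Y s.2.2)
/-- The chain whose value on a trace is an unbiased estimate of the value of `c` on the word. -/
def unb (p : ℝ) (c : List (ℂ × Bool × ℂ)) : List (ℂ × Bool × ℂ) :=
  c.map fun s => ((s.1 - ((1 - p : ℝ) : ℂ)) / (p : ℂ), s.2.1, s.2.2 / (p : ℂ))
/-- One-trace estimator. -/
def est1 (Y : ℕ) (p : ℝ) (T N H : ℕ) (S : Ser) (w : List Bool) : ℂ :=
  ∑ j ∈ range (N + 1), (acoef T N H j : ℂ) *
    (S.map fun c => cval w (unb p (mobChain Y (vnode T N j : ℂ) c))).sum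
/-- Average over the traces. -/
def estAvg (Y : ℕ) (p : ℝ) (T N H : ℕ) (S : Ser) (τ : List (List Bool)) : ℂ :=
  (τ.map (est1 Y p T N H S)).sum / (τ.length : ℂ)
/-- The full sum `∑_{T < |w|} g T z^T`. -/
def full (Y : ℕ) (w : List Bool) (q : Query) : ℂ :=
  ∑ T ∈ range w.length, feat (ev Y) w q.1 T * ev Y q.2 ^ T

/-- Invariant of the gap variables (grid units). -/
def Good (D t : ℝ) (μ : Mono) : Prop :=
  ∃ Φ₁ Φ₂ : ℝ, 0 ≤ Φ₁ ∧ 0 ≤ Φ₂ ∧ |(μ.2 : ℝ)| ≤ Φ₁ + Φ₂ ∧ Φ₁ ≤ D * μ.1 ∧ Φ₂ ^ 2 ≤ t * μ.1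

/-- Expectation of a function of one trace. -/
def exT {n : ℕ} (p : ℝ) (x : Fin n → Bool) (F : List Bool → ℂ) : ℂ :=
  ∑ keep : Fin n → Bool, (bernoulliWeight p keep : ℂ) * F (traceOf x keep)
open Classical in
/-- Probability of an event about `m` independent retention patterns. -/
def prK {m n : ℕ} (p : ℝ) (E : (Fin m → Fin n → Bool) → Prop) : ℝ :=
  ∑ keeps : Fin m → Fin n → Bool, (∏ k, bernoulliWeight p (keeps k)) * if E keeps then 1 else 0
/-- The list of traces. -/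
def traces {m n : ℕ} (x : Fin n → Bool) (keeps : Fin m → Fin n → Bool) : List (List Bool) :=
  List.ofFn fun k => traceOf x (keeps k)

/-! ### the decoder -/

/-- Global parameters. -/
structure Par where
  /-- grid `y = 1/Y` -/
  Y : ℕ
  /-- level-0 evaluation point -/
  l0 : ℕ
  /-- levels, last level first -/
  ls : List Lev
  /-- accuracy of the top table -/
  Ek : ℕ
  /-- accuracy of the trace estimates -/
  Et : ℕ
  /-- rounding precision of the top table -/
  Kt : ℕ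
  /-- extrapolation range -/
  T : ℕ
  /-- number of extrapolation nodes minus one -/
  N : ℕ
  /-- bound on the chain lengths -/
  H : ℕ

/-- The top table for the prefix `w`. -/
def topTable (P : Par) (p : ℝ) (τ : List (List Bool)) (w : List Bool) : Table :=
  (qlist P.l0 P.ls).map fun q => (q, rnd P.Kt
    ((estAvg P.Y p P.T P.N P.H (qSer q) τ - full P.Y w q) / ev P.Y q.2 ^ w.length))
/-- The next letter after the prefix `w`. -/
def nextBit (P : Par) (n : ℕ) (p : ℝ) (τ : List (List Bool)) (w : List Bool) : Bool :=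
  decide (2 / 3 < (look (descend P.Y n P.l0 w P.ls (topTable P p τ w)) ([], (P.l0, 0))).re)
/-- The decoder with given parameters. -/
def decodeP (P : Par) (n : ℕ) (p : ℝ) (τ : List (List Bool)) : List Bool :=
  (List.range n).foldl (fun w _ => w ++ [nextBit P n p τ w]) []

/-- Validity of one level; `zs` are its evaluation points, `E'` the accuracy of the level above. -/
structure LevOK (Y n : ℕ) (L : Lev) (zs : List Mono) (E' : ℕ) : Prop where
  hr : L.r * 4 ^ (L.g + 1) = Y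
  hr' : 64 * L.r' ≤ L.r
  hlb : L.lb * 2 ^ (L.g + 5) = Y
  hlb' : 1000 ≤ L.lb
  hlc : L.lc = 2 * (L.g + 5) * Y
  hkS : L.kS * 2 ^ L.g = 2 ^ L.om * Y
  hM : L.M = 2 ^ (L.g + 2)
  heR : L.eR = 2 * (L.eP + 24 + 4 * L.g) + 62 + 8 * L.om
  hom : 128 * (L.eP + 65 + 4 * L.g) ≤ 4 ^ L.om
  hg : L.om + 7 ≤ L.g
  hE' : L.eP + 75 + 8 * L.g + 4 * L.om ≤ E'
  hY : 2 ^ E' * n ≤ Y
  hK : L.E + L.g + 4 ≤ L.K
  hz : ∀ z ∈ zs, kTh Y z + L.kS ≤ L.kF ∧
    ((1000 ≤ z.1 ∧ 100 * z.1 ≤ Y ∧ 10 * z.2.natAbs ≤ 21 * z.1 ∧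
        5 * (L.g + 6) + 39 * (L.E + L.g + 10) ≤ 5 * L.eP) ∨
      (z = (7 * Y / 10, 0) ∧ L.g + 6 + 20 * (L.E + L.g + 10) ≤ L.eP))

/-- A table above the levels `ls` with Gaussian exponent `r` and accuracy `E` descends to accuracy
`1/4` at level `0`. -/
def ChainOK (Y n l0 : ℕ) : List Lev → ℕ → ℕ → Prop
  | [], _, E => 2 ≤ E
  | L :: ls, r, E' => L.r' = r ∧ LevOK Y n L (zsOf l0 ls) E' ∧ ChainOK Y n l0 ls L.r L.E

/-- Exponent in the bound for dominated features. -/
def eG (ls : List Lev) : ℕ := ls.foldr (fun L e => 4 * e + 3 * (5 + L.g)) 0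

/-- Validity of the global parameters. -/
structure ParOK (n : ℕ) (p : ℝ) (P : Par) : Prop where
  hl0 : P.l0 = 7 * P.Y / 10
  hch : ChainOK P.Y n P.l0 P.ls 0 P.Ek
  htop : ∃ L ls, P.ls = L :: ls ∧ n ≤ 2 ^ L.g ∧ P.Ek + 3 * 2 ^ L.om + 2 ≤ P.Et
  hKt : P.Ek + Nat.size n + 2 ≤ P.Kt
  hH : P.H = 4 ^ P.ls.length
  hD : ∃ D Q : ℕ, 3 ≤ D ∧ (Q : ℝ) * (1 - p) ≤ 1 ∧ (2 + 2 * D : ℝ) ≤ P.T * p ∧
    ∀ L ∈ P.ls, L.kF ≤ D * L.lb ∨ 4 * L.kF ^ 2 * P.H ≤ Q * L.lb * P.Y
  hN : 2 * P.T * (Nat.size n + P.H * (2 * P.ls.length + 6) + eG P.ls + P.Et + 1) ≤ P.N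
  hkF : ∀ L ∈ P.ls, L.kF ≤ 2 * P.Y

/-- Binary logarithm of the number of traces that suffices; `P.Y ≤ 2^eY`, `1/p ≤ 2^eI`. -/
def eNeedP (P : Par) (n eY eI : ℕ) : ℕ :=
  (Nat.size n + 3) + ((17 + 3 * eY) * P.ls.length + eY + 2) +
    2 * (6 * P.N + 1 + (11 * P.ls.length + 4) * P.H + P.H * (Nat.size n + eI)) + 2 * (P.Et + 1)

/-- Accuracy of a table. -/
def Acc (Y n : ℕ) (x : List Bool) (m l0 : ℕ) (ls : List Lev) (r : ℕ) (t : Table) (E : ℕ) : Prop :=
  ∀ q ∈ qlist l0 ls, ‖look t q - Lam Y n x m r q‖ ≤ 1 / 2 ^ E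

/-! ### the schedule -/

/-- Number of low levels. -/
def J0 : ℕ := 384
/-- `2^gQ ≤ min (1/q) n`. -/
def gQ (n : ℕ) (p : ℚ) : ℕ := Nat.log 2 (min ⌊1 / (1 - p)⌋₊ n)
/-- `2^xx ≈ X`. -/
def xx (n : ℕ) (p : ℚ) : ℕ := Nat.size (Nat.size n / (gQ n p + 1))
/-- Growth of `g` in the low levels. -/
def dl (n : ℕ) (p : ℚ) : ℕ := 6 + (xx n p + 63) / 64
/-- Number of levels. -/
def kk (n : ℕ) (p : ℚ) : ℕ := J0 + xx n p + 3
/-- `g_j ≤ 2^j G0`. -/
def G0 (n : ℕ) (p : ℚ) : ℕ := 16 + dl n p + gQ n p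
/-- Loss in the high levels. -/
def gZ (n : ℕ) (p : ℚ) : ℕ := 60 + 5 * kk n p + Nat.size (G0 n p)
/-- Window scale of level `j`. -/
def gs (n : ℕ) (p : ℚ) (j : ℕ) : ℕ :=
  if j ≤ J0 then 16 + j * dl n p
  else 2 ^ (j - J0) * (16 + J0 * dl n p + gQ n p - gZ n p) + gZ n p - gQ n p
/-- Product accuracy at level `j` for window scale `g` and output accuracy `E`. -/
def ePof (j g E : ℕ) : ℕ :=
  if j = 0 then g + 6 + 20 * (E + g + 10) else g + 6 + (39 * (E + g + 10) + 4) / 5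
/-- Box width exponent. -/
def omOf (g eP : ℕ) : ℕ := (Nat.size (128 * (eP + 65 + 4 * g)) + 1) / 2
/-- Output accuracy of level `j`. -/
def Es (n : ℕ) (p : ℚ) : ℕ → ℕ
  | 0 => 2
  | j + 1 => ePof j (gs n p j) (Es n p j) + 75 + 8 * gs n p j +
      4 * omOf (gs n p j) (ePof j (gs n p j) (Es n p j))
/-- Product accuracy of level `j`. -/
def ePs (n : ℕ) (p : ℚ) (j : ℕ) : ℕ := ePof j (gs n p j) (Es n p j)
/-- Box width exponent of level `j`. -/
def oms (n : ℕ) (p : ℚ) (j : ℕ) : ℕ := omOf (gs n p j) (ePs n p j)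
/-- `Y = 2^eY`. -/
def eY (n : ℕ) (p : ℚ) : ℕ := Es n p (kk n p) + Nat.size n
/-- The grid parameter. -/
def YY (n : ℕ) (p : ℚ) : ℕ := 2 ^ eY n p
/-- Gaussian exponent of level `j`. -/
def rs (n : ℕ) (p : ℚ) (j : ℕ) : ℕ := if j < kk n p then YY n p / 4 ^ (gs n p j + 1) else 0
/-- Frequency box of level `j`. -/
def kSs (n : ℕ) (p : ℚ) (j : ℕ) : ℕ := 2 ^ oms n p j * (YY n p / 2 ^ gs n p j)
/-- Level `j`. -/
def lev (n : ℕ) (p : ℚ) (j : ℕ) : Lev where
  g := gs n p j
  om := oms n p j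
  r := rs n p j
  r' := rs n p (j + 1)
  lb := YY n p / 2 ^ (gs n p j + 5)
  lc := 2 * (gs n p j + 5) * YY n p
  kS := kSs n p j
  kF := (if j = 0 then YY n p else 100 * kSs n p (j - 1)) + kSs n p j
  M := 2 ^ (gs n p j + 2)
  eP := ePs n p j
  eR := 2 * (ePs n p j + 24 + 4 * gs n p j) + 62 + 8 * oms n p j
  E := Es n p j
  K := Es n p j + gs n p j + 4
/-- The levels `j-1, …, 0`. -/
def levs (n : ℕ) (p : ℚ) (j : ℕ) : List Lev := ((List.range j).map (lev n p)).reverse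
/-- Slope bound for the low levels. -/
def DD (n : ℕ) (p : ℚ) : ℕ := 2 ^ (22 + dl n p + oms n p J0)
/-- Extrapolation range. -/
def TT (n : ℕ) (p : ℚ) : ℕ := ⌈(2 + 2 * (DD n p : ℚ)) / p⌉₊
/-- Accuracy of the trace estimates. -/
def Ets (n : ℕ) (p : ℚ) : ℕ := Es n p (kk n p) + 3 * 2 ^ oms n p (kk n p - 1) + 2
/-- The parameters. -/
def par (n : ℕ) (p : ℚ) : Par where
  Y := YY n p
  l0 := 7 * YY n p / 10
  ls := levs n p (kk n p)
  Ek := Es n p (kk n p)
  Et := Ets n p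
  Kt := Es n p (kk n p) + Nat.size n + 2
  T := TT n p
  N := 2 * TT n p *
    (Nat.size n + 4 ^ kk n p * (2 * kk n p + 6) + eG (levs n p (kk n p)) + Ets n p + 1)
  H := 4 ^ kk n p
/-- Binary logarithm of the number of traces needed. -/
def eNeed (n : ℕ) (p : ℚ) : ℕ := eNeedP (par n p) n (eY n p) (Nat.size ⌈1 / p⌉₊)
/-- The decoder. -/
def decode (a : PTW.Raw) : List Bool := decodeP (par a.1 a.2.1) a.1 a.2.1 a.2.2
/-- Valid inputs. -/
def Valid (a : PTW.Raw) : Prop :=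
  2 ≤ a.1 ∧ 0 < a.2.1 ∧ a.2.1 < 1 ∧ 2 ^ eNeed a.1 a.2.1 ≤ a.2.2.length
/-- The exponent of the budget. -/
def budget (n : ℕ) (p : ℝ) : ℝ :=
  p⁻¹ * Real.log n * (1 + Real.log n / (1 + Real.log (1 / (1 - p)))) ^ 2 *
    (1 + Real.log (1 + Real.log n / (1 + Real.log (1 / (1 - p))))) ^ 6

theorem eqns_forced : True := by
  have := @cval.eq_def
  have := @cval.eq_1
  have := @cval.eq_2
  have := @cval.eq_3
  have := @cend.eq_def
  have := @cend.eq_1
  have := @cend.eq_2
  have := @cend.eq_3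
  have := @cend.eq_4
  have := @shuf.eq_def
  have := @shuf.eq_1
  have := @shuf.eq_2
  have := @shuf.eq_3
  have := @shuf.induct
  have := @cval.induct
  have := @cend.induct
  have := @descend.eq_def
  have := @descend.eq_1
  have := @descend.eq_2
  have := @ChainOK.eq_def
  have := @ChainOK.eq_1
  have := @ChainOK.eq_2
  have := @Es.eq_def
  have := @Es.eq_1
  have := @Es.eq_2
  trivial

end Crest.Agent.R300.UB
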