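import Crest.Agent.R300.UBDefs

set_option autoImplicit false

noncomputable section

namespace Crest.Agent.R300.UB

open Complex Finset Crest.Agent.Lib.PT Crest.TraceRecon Crest.FinProb

/-! Blaschke–Lagrange extrapolation. -/

theorem ip_div {a : ℕ → ℝ} (s : Finset ℕ) (ha : ∀ i ∈ s, |a i| < 1) (hi : Set.InjOn a s) {F : ℂ → ℂ}
    (hF : DifferentiableOn ℂ F (Metric.closedBall 0 1)) (h0 : ∀ i ∈ s, F (a i) = 0) :
    ∃ K : ℂ → ℂ, DifferentiableOn ℂ K (Metric.closedBall 0 1) ∧
      ∀ v, F v = K v * ∏ i ∈ s, (v - a i) := by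
  induction s using Finset.induction_on generalizing F with
  | empty => exact ⟨F, hF, by simp⟩
  | insert j s hj ih =>
    have e : ∀ v, F v = (v - a j) * dslope F (a j) v := fun v => by
      rw [← smul_eq_mul, sub_smul_dslope, h0 j (mem_insert_self _ _), sub_zero]
    obtain ⟨K, h1, h2⟩ := ih (fun i h => ha i (mem_insert_of_mem h))
      (hi.mono (by simp)) (F := dslope F (a j))
      ((differentiableOn_dslope (Metric.closedBall_mem_nhds_of_mem (by
        simpa using ha j (mem_insert_self _ _)))).2 hF) fun i h => by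
        have h3 := e (a i)
        rw [h0 i (mem_insert_of_mem h)] at h3
        refine (mul_eq_zero.1 h3.symm).resolve_left fun h4 => hj ?_
        have h5 : a i = a j := by exact_mod_cast sub_eq_zero.1 h4
        rwa [← hi (by simp [h]) (by simp) h5]
    refine ⟨K, h1, fun v => ?_⟩
    rw [prod_insert hj, e, h2]
    ring

theorem ip_main {a : ℕ → ℝ} (s : Finset ℕ) (ha : ∀ i ∈ s, |a i| < 1) (hi : Set.InjOn a s)
    {Φ : ℂ → ℂ} {M : ℝ} (hΦ : ∀ v : ℂ, ‖v‖ ≤ 1 → DifferentiableAt ℂ Φ v)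
    (hM : ∀ v : ℂ, ‖v‖ = 1 → ‖Φ v‖ ≤ M) :
    ‖Φ 0 - ∑ j ∈ s, (((∏ i ∈ s.erase j, a i / (a i - a j)) * ∏ i ∈ s, (1 - a i * a j) : ℝ) : ℂ) *
      Φ (a j)‖ ≤ M * ∏ i ∈ s, |a i| := by
  set G : ℂ → ℂ := fun v => Φ v * ∏ i ∈ s, (1 - a i * v) with hG
  set c : ℕ → ℂ := fun j => G (a j) / ∏ i ∈ s.erase j, ((a j : ℂ) - a i) with hc
  have hne : ∀ j ∈ s, ∀ i ∈ s.erase j, (a j : ℂ) - a i ≠ 0 := fun j hj i h h1 => by
    have h2 : a j = a i := by exact_mod_cast sub_eq_zero.1 h1
    exact ne_of_mem_erase h (hi hj (mem_of_mem_erase h) h2).symm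
  obtain ⟨K, hK, e⟩ := ip_div s ha hi
    (F := fun v => G v - ∑ j ∈ s, c j * ∏ i ∈ s.erase j, (v - a i))
    (fun v hv => ((hΦ v (by simpa using hv)).mul (by fun_prop)).differentiableWithinAt.sub
      (DifferentiableAt.differentiableWithinAt (by fun_prop))) fun k hk => by
      rw [sum_eq_single_of_mem k hk fun j _ hjk => by
        rw [prod_eq_zero (mem_erase.2 ⟨hjk.symm, hk⟩) (sub_self _), mul_zero],
        hc, div_mul_cancel₀ _ (prod_ne_zero_iff.2 (hne k hk)), sub_self]
  set H : ℂ → ℂ := fun v => ∑ j ∈ s, c j * (v / (1 - a j * v)) with hH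
  have h1 : ∀ j ∈ s, ∀ v : ℂ, ‖v‖ ≤ 1 → 1 - a j * v ≠ 0 := fun j hj v hv h => by
    have h2 := congrArg norm (sub_eq_zero.1 h)
    rw [norm_one, norm_mul, norm_real, Real.norm_eq_abs] at h2
    nlinarith [ha j hj, abs_nonneg (a j)]
  have dH : DifferentiableOn ℂ H (Metric.closedBall 0 1) := fun v hv =>
    (DifferentiableAt.fun_sum fun j hj => by
      have := h1 j hj v (by simpa using hv)
      fun_prop (disch := assumption)).differentiableWithinAt
  have av : ∀ {f : ℂ → ℂ}, DifferentiableOn ℂ f (Metric.closedBall 0 1) →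
      Real.circleAverage f 0 1 = f 0 := fun hf =>
    DiffContOnCl.circleAverage (DifferentiableOn.diffContOnCl (by
      rwa [abs_one, closure_ball _ one_ne_zero]))
  have e1 : Real.circleAverage (fun v => K v + H v⁻¹) 0 1 = K 0 := by
    rw [Real.circleAverage_fun_add (f₂ := fun v => H v⁻¹)
      ((hK.continuousOn.mono Metric.sphere_subset_closedBall).circleIntegrable zero_le_one)
      (ContinuousOn.circleIntegrable zero_le_one (dH.continuousOn.comp
        (continuousOn_inv₀.mono fun v hv h => by simp_all) fun v hv => by simp_all)),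
      Real.circleAverage_zero_one_congr_inv, av hK, av dH]
    simp [hH]
  have e2 : ∀ v : ℂ, ‖v‖ = 1 → ‖K v + H v⁻¹‖ ≤ M := fun v hv => by
    have v0 : v ≠ 0 := by
      rintro rfl
      simp at hv
    have n1 : ∀ i, ‖1 - a i * v‖ = ‖v - a i‖ := fun i => by
      have : 1 - a i * v = v * (starRingEnd ℂ) (v - a i) := by
        rw [map_sub, conj_ofReal, mul_sub, mul_conj', hv]
        push_cast
        ring
      rw [this, norm_mul, hv, one_mul, norm_conj]
    have n2 : 0 < ∏ i ∈ s, ‖v - a i‖ := prod_pos fun i hi => by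
      rw [← n1]
      exact norm_pos_iff.2 (h1 i hi v hv.le)
    have n3 : (K v + H v⁻¹) * ∏ i ∈ s, (v - a i) = G v := by
      rw [add_mul, ← e, hH, sum_mul, sub_add, sub_eq_self, ← sum_sub_distrib]
      refine sum_eq_zero fun j hj => ?_
      have := h1 j hj v⁻¹ (by simp [hv])
      rw [← mul_prod_erase s _ hj, mul_assoc, ← mul_sub, ← mul_assoc (_ / _),
        show v⁻¹ / (1 - a j * v⁻¹) * (v - a j) = 1 by
          rw [div_mul_eq_mul_div, div_eq_one_iff_eq this]
          field_simp, one_mul, sub_self, mul_zero]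
    have n4 := congrArg norm n3
    simp only [hG, norm_mul, norm_prod, n1] at n4
    rw [mul_right_cancel₀ n2.ne' n4]
    exact hM v hv
  have e3 : ‖K 0‖ ≤ M := by
    rw [← e1, Real.circleAverage_def, norm_smul]
    have h2 := intervalIntegral.norm_integral_le_of_norm_le_const (a := 0) (b := 2 * Real.pi)
      (f := fun θ => K (circleMap 0 1 θ) + H (circleMap 0 1 θ)⁻¹) fun θ _ => e2 _ (by simp)
    rw [sub_zero, abs_of_pos Real.two_pi_pos] at h2
    rw [Real.norm_eq_abs, abs_of_pos (inv_pos.2 Real.two_pi_pos),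
      inv_mul_le_iff₀ Real.two_pi_pos]
    linarith
  have e4 := e 0
  calc _ = ‖K 0 * ∏ i ∈ s, (0 - a i : ℂ)‖ := by
        rw [← e4]
        congr 2
        · simp [hG]
        · refine sum_congr rfl fun j hj => ?_
          simp only [hc, hG]
          push_cast
          rw [div_mul_eq_mul_div, mul_div_assoc, ← prod_div_distrib, mul_comm, mul_assoc,
            mul_comm (∏ i ∈ s.erase j, _)]
          congr 2
          refine prod_congr rfl fun i _ => ?_
          rw [← neg_div_neg_eq, neg_sub, zero_sub]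
    _ ≤ _ := by
        simp only [norm_mul, norm_prod, zero_sub, norm_neg, norm_real, Real.norm_eq_abs]
        exact mul_le_mul_of_nonneg_right e3 (prod_nonneg fun _ _ => abs_nonneg _)

theorem ip_fact {N j : ℕ} (hj : j ≤ N) :
    ∏ i ∈ (range (N + 1)).erase j, |(i : ℝ) - j| = j.factorial * (N - j).factorial := by
  induction N, hj using Nat.le_induction with
  | base =>
    rw [range_add_one, erase_insert notMem_range_self, ← Nat.descFactorial_self,
      Nat.descFactorial_eq_prod_range, Nat.sub_self, Nat.factorial_zero, Nat.cast_one, mul_one,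
      Nat.cast_prod]
    refine prod_congr rfl fun i hi => ?_
    have h := (mem_range.1 hi).le
    rw [Nat.cast_sub h, abs_sub_comm, abs_of_nonneg (sub_nonneg.2 (Nat.cast_le.2 h))]
  | succ N h ih =>
    rw [range_add_one, erase_insert_of_ne (by omega), prod_insert (by simp), ih,
      Nat.succ_sub h, Nat.factorial_succ, abs_of_nonneg (sub_nonneg.2 (Nat.cast_le.2 (by omega)))]
    push_cast [Nat.cast_sub h]
    ring

theorem ip_bcoef (T N j : ℕ) : bcoef T N j =
    (∏ i ∈ (range (N + 1)).erase j, vnode T N i / (vnode T N i - vnode T N j)) *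
      ∏ i ∈ range (N + 1), (1 - vnode T N i * vnode T N j) := by
  rw [bcoef, ← prod_erase (a := j) (range (N + 1))
    (f := fun i => if i = j then 1 else vnode T N i / (vnode T N i - vnode T N j)) (if_pos rfl)]
  congr 1
  exact prod_congr rfl fun i hi => if_neg (ne_of_mem_erase hi)

theorem vnode_bounds {T N j : ℕ} (hT : 1 ≤ T) (hN : 1 ≤ N) (hj : j ≤ N) :
    0 ≤ vnode T N j ∧ 1 / (2 * (T : ℝ)) ≤ 1 - vnode T N j ∧ 1 - vnode T N j ≤ 1 / (T : ℝ) := by
  have h1 : (1 : ℝ) ≤ T := by exact_mod_cast hT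
  have h2 : (j : ℝ) / N ≤ 1 := div_le_one_of_le₀ (by exact_mod_cast hj) (by positivity)
  have h3 : 0 ≤ (j : ℝ) / N := by positivity
  have h4 : (1 + (j : ℝ) / N) / (2 * T) ≤ 1 / T := by
    rw [div_le_div_iff₀ (by positivity) (by positivity)]
    nlinarith
  have h5 : 1 / (T : ℝ) ≤ 1 := div_le_one_of_le₀ h1 (by positivity)
  simp only [vnode, sub_sub_cancel]
  exact ⟨by linarith, div_le_div_of_nonneg_right (by linarith) (by positivity), h4⟩

theorem abs_bcoef_le {T N j : ℕ} (hT : 1 ≤ T) (hN : 1 ≤ N) (hj : j ≤ N) :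
    |bcoef T N j| ≤ 32 ^ N := by
  have hj' : j ∈ range (N + 1) := mem_range.2 (Nat.lt_succ_of_le hj)
  have T0 : (0 : ℝ) < T := by exact_mod_cast hT
  have N0 : (0 : ℝ) < N := by exact_mod_cast hN
  have b : ∀ i ∈ range (N + 1), 0 ≤ vnode T N i ∧ vnode T N i ≤ 1 ∧ 1 - vnode T N i ≤ 1 / T :=
    fun i hi => by
      obtain ⟨h1, h2, h3⟩ := vnode_bounds hT hN (Nat.lt_succ_iff.1 (mem_range.1 hi))
      have : (0 : ℝ) < 1 / (2 * T) := by positivity
      exact ⟨h1, by linarith, h3⟩
  obtain ⟨j0, j1, j2⟩ := b j hj'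
  rw [ip_bcoef, ← mul_prod_erase _ _ hj', mul_left_comm, ← prod_mul_distrib, abs_mul, abs_prod]
  have h1 : |1 - vnode T N j * vnode T N j| ≤ 1 := abs_le.2 ⟨by nlinarith, by nlinarith⟩
  have h2 : ∏ i ∈ (range (N + 1)).erase j, |vnode T N i / (vnode T N i - vnode T N j) *
      (1 - vnode T N i * vnode T N j)| ≤ ∏ i ∈ (range (N + 1)).erase j, 4 * N / |(i : ℝ) - j| := by
    refine prod_le_prod (fun _ _ => abs_nonneg _) fun i hi => ?_
    obtain ⟨i0, i1, i2⟩ := b i (mem_of_mem_erase hi)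
    have d : 0 < |(i : ℝ) - j| := abs_pos.2 (sub_ne_zero.2 (Nat.cast_injective.ne (ne_of_mem_erase hi)))
    have e : |vnode T N i - vnode T N j| = |(i : ℝ) - j| / (2 * T * N) := by
      rw [show vnode T N i - vnode T N j = ((j : ℝ) - i) / (2 * T * N) by
        simp only [vnode]
        field_simp
        ring, abs_div, abs_sub_comm, abs_of_pos (a := 2 * (T : ℝ) * N) (by positivity)]
    have h3 : vnode T N i * (1 - vnode T N i * vnode T N j) ≤ 2 * (1 / T) := by
      have h4 : 0 ≤ 1 - vnode T N i * vnode T N j := by nlinarith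
      have h5 : 1 - vnode T N i * vnode T N j ≤ 2 * (1 / T) := by nlinarith
      nlinarith
    rw [abs_mul, abs_div, e, abs_of_nonneg i0,
      abs_of_nonneg (a := 1 - vnode T N i * vnode T N j) (by nlinarith), div_mul_eq_mul_div,
      div_div_eq_mul_div]
    refine div_le_div_of_nonneg_right ?_ d.le
    refine (mul_le_mul_of_nonneg_right h3 (by positivity)).trans (le_of_eq ?_)
    field_simp
    ring
  rw [prod_div_distrib, ip_fact hj, prod_const, card_erase_of_mem hj', card_range,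
    Nat.add_sub_cancel] at h2
  have h3 : (N.choose j : ℝ) * j.factorial * (N - j).factorial = N.factorial := by
    exact_mod_cast Nat.choose_mul_factorial_mul_factorial hj
  have h4 : (N.choose j : ℝ) ≤ 2 ^ N := by exact_mod_cast Nat.choose_le_two_pow N j
  have h5 : (N : ℝ) ^ N / N.factorial ≤ 4 ^ N := (Real.pow_div_factorial_le_exp _ N0.le N).trans (by
    rw [← mul_one (N : ℝ), Real.exp_nat_mul]
    exact pow_le_pow_left₀ (Real.exp_pos _).le (by linarith [Real.exp_one_lt_d9]) _)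
  have h6 : (4 * N : ℝ) ^ N / (j.factorial * (N - j).factorial) =
      4 ^ N * N.choose j * (N ^ N / N.factorial) := by
    have : (N.choose j : ℝ) ≠ 0 := Nat.cast_ne_zero.2 (Nat.choose_pos hj).ne'
    rw [← h3, mul_pow]
    field_simp
  calc _ ≤ 1 * (4 ^ N * 2 ^ N * 4 ^ N : ℝ) := by
        refine mul_le_mul h1 (h2.trans ?_) (prod_nonneg fun _ _ => abs_nonneg _) zero_le_one
        rw [h6]
        gcongr
    _ = _ := by
        rw [one_mul, ← mul_pow, ← mul_pow]
        norm_num

theorem interp {T N : ℕ} (hT : 1 ≤ T) (hN : 1 ≤ N) {Φ : ℂ → ℂ} {M : ℝ}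
    (hΦ : ∀ v : ℂ, ‖v‖ ≤ 1 → DifferentiableAt ℂ Φ v) (hM : ∀ v : ℂ, ‖v‖ = 1 → ‖Φ v‖ ≤ M) :
    ‖Φ 0 - ∑ j ∈ range (N + 1), (bcoef T N j : ℂ) * Φ (vnode T N j)‖ ≤
      M * Real.exp (-((N + 1 : ℝ) / (2 * T))) := by
  have T0 : (0 : ℝ) < T := by exact_mod_cast hT
  have N0 : (0 : ℝ) < N := by exact_mod_cast hN
  have b := fun i (hi : i ∈ range (N + 1)) =>
    vnode_bounds hT hN (Nat.lt_succ_iff.1 (mem_range.1 hi))
  have t : (0 : ℝ) < 1 / (2 * T) := by positivity
  simp only [ip_bcoef]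
  refine (ip_main _ (fun i hi => ?_) (fun i _ j _ h => ?_) hΦ hM).trans
    (mul_le_mul_of_nonneg_left ?_ ((norm_nonneg _).trans (hM 1 norm_one)))
  · rw [abs_of_nonneg (b i hi).1]
    linarith [(b i hi).2.1]
  · simp only [vnode, sub_right_inj, div_left_inj' (show (2 * T : ℝ) ≠ 0 by positivity),
      add_right_inj, div_left_inj' N0.ne'] at h
    exact_mod_cast h
  · calc _ ≤ ∏ _i ∈ range (N + 1), Real.exp (-(1 / (2 * T))) :=
          prod_le_prod (fun _ _ => abs_nonneg _) fun i hi => by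
            rw [abs_of_nonneg (b i hi).1]
            linarith [(b i hi).2.1, Real.add_one_le_exp (-(1 / (2 * T)))]
      _ = _ := by
          rw [prod_const, card_range, ← Real.exp_nat_mul]
          congr 1
          push_cast
          ring

end Crest.Agent.R300.UB
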