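import Crest.Agent.R300.UBNum

set_option autoImplicit false

noncomputable section

namespace Crest.Agent.R300.UB

open Complex Finset Crest.Agent.Lib.PT Crest.TraceRecon Crest.FinProb

/-! The Möbius deformation. -/

/-- numerator of `mob`, for general real parameters -/
def mb_num (d e y : ℝ) (u : ℂ) : ℂ := (d : ℂ) + (2 * (y : ℂ) * I - (e : ℝ)) * u
/-- denominator of `mob`, for general real parameters -/
def mb_den (d e y : ℝ) (u : ℂ) : ℂ := (d : ℂ) + (2 * (y : ℂ) * I + (e : ℝ)) * u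

theorem mb_mob (z v : ℂ) : mob z v = mb_num (1 - normSq z) (normSq (1 - z)) z.im (1 - v) /
    mb_den (1 - normSq z) (normSq (1 - z)) z.im (1 - v) := rfl

theorem mb_diff (d e y : ℝ) (u : ℂ) :
    normSq (mb_num d e y u) = normSq (mb_den d e y u) - 4 * d * e * u.re := by
  simp [mb_num, mb_den, normSq_apply]
  ring

theorem mb_den_ne {d e : ℝ} (hd : 0 < d) (he : 0 < e) (y : ℝ) {u : ℂ} (hu : 0 ≤ u.re) :
    mb_den d e y u ≠ 0 := by
  intro h
  have h1 := mb_diff d e y u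
  rw [h, map_zero] at h1
  have h2 : 0 ≤ 4 * d * e * u.re := by positivity
  have h3 : normSq (mb_num d e y u) = 0 := le_antisymm (by linarith) (normSq_nonneg _)
  rw [normSq_eq_zero] at h3
  have h4 : (2 * e : ℂ) * u = mb_den d e y u - mb_num d e y u := by
    unfold mb_den mb_num; ring
  rw [h, h3, sub_zero, mul_eq_zero] at h4
  have he' : (e : ℂ) ≠ 0 := by exact_mod_cast he.ne'
  have h5 : u = 0 := h4.resolve_left (mul_ne_zero two_ne_zero he')
  rw [h5, mb_den, mul_zero, add_zero] at h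
  exact hd.ne' (by exact_mod_cast h)

theorem mb_d_pos {z : ℂ} (hz : ‖z‖ < 1) : 0 < 1 - normSq z := by
  rw [normSq_eq_norm_sq]
  nlinarith [norm_nonneg z]

theorem mb_e_pos {z : ℂ} (hz : ‖z‖ < 1) : 0 < normSq (1 - z) := by
  rw [normSq_pos]
  intro h
  rw [sub_eq_zero] at h
  rw [← h, norm_one] at hz
  exact lt_irrefl _ hz

theorem mob_zero {z : ℂ} (hz : ‖z‖ < 1) : mob z 0 = z := by
  rw [mb_mob, div_eq_iff (mb_den_ne (mb_d_pos hz) (mb_e_pos hz) _ (by simp))]
  apply Complex.ext <;> simp [mb_num, mb_den, normSq_apply] <;> ring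

theorem mob_differentiableAt {z : ℂ} (hz : ‖z‖ < 1) {v : ℂ} (hv : v.re ≤ 1) :
    DifferentiableAt ℂ (mob z) v := by
  have h := mb_den_ne (mb_d_pos hz) (mb_e_pos hz) z.im (u := 1 - v) (by simpa using hv)
  unfold mob
  refine DifferentiableAt.div ?_ ?_ h
  · fun_prop
  · fun_prop

/-- On the unit circle the deformed point is dominated by a power of `|z|`. -/
theorem norm_mob_le {z v : ℂ} {a A : ℝ} (ha : 0 < a) (haA : a ≤ A) (hz : ‖z‖ = Real.exp (-a))
    (hv : ‖v‖ = 1) : ‖mob z v‖ ≤ Real.exp (-(‖1 - v‖ ^ 2 / (18 * (1 + 2 * A)) * a)) := by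
  have hz1 : ‖z‖ < 1 := by rw [hz]; exact Real.exp_lt_one_iff.2 (by linarith)
  have hd := mb_d_pos hz1
  have he := mb_e_pos hz1
  have hv2 : v.re * v.re + v.im * v.im = 1 := by
    rw [← normSq_apply, normSq_eq_norm_sq, hv]; norm_num
  have hu : ‖1 - v‖ ^ 2 = 2 * (1 - v).re := by
    rw [← normSq_eq_norm_sq, normSq_apply]
    simp
    nlinarith
  have hu0 : 0 ≤ (1 - v).re := by nlinarith [sq_nonneg ‖1 - v‖]
  have hne := mb_den_ne hd he z.im hu0
  have hdiff := mb_diff (1 - normSq z) (normSq (1 - z)) z.im (1 - v)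
  have hden : mb_den (1 - normSq z) (normSq (1 - z)) z.im (1 - v) =
      ((1 - normSq z : ℝ) : ℂ) * v + 2 * (starRingEnd ℂ) (1 - z) * (1 - v) := by
    apply Complex.ext <;> simp [mb_den, normSq_apply] <;> ring
  have hw : 1 - ‖z‖ ≤ ‖1 - z‖ := by
    have := norm_sub_norm_le (1 : ℂ) z
    rwa [norm_one] at this
  have hu2 : ‖1 - v‖ ≤ 2 := by
    have := norm_sub_le (1 : ℂ) v
    rw [norm_one, hv] at this
    linarith
  have hdn : ‖mb_den (1 - normSq z) (normSq (1 - z)) z.im (1 - v)‖ ≤ 6 * ‖1 - z‖ := by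
    rw [hden]
    refine (norm_add_le _ _).trans ?_
    rw [norm_mul, norm_mul, norm_mul, hv, Complex.norm_real, Real.norm_eq_abs, abs_of_pos hd,
      RCLike.norm_conj, Complex.norm_two, normSq_eq_norm_sq]
    nlinarith [norm_nonneg z, norm_nonneg (1 - z)]
  have hdn2 : normSq (mb_den (1 - normSq z) (normSq (1 - z)) z.im (1 - v)) ≤
      36 * normSq (1 - z) := by
    have := pow_le_pow_left₀ (norm_nonneg _) hdn 2
    rw [mul_pow, ← normSq_eq_norm_sq, ← normSq_eq_norm_sq] at this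
    linarith
  have hpos := normSq_pos.2 hne
  have h1 : normSq (mob z v) ≤ 1 - (1 - normSq z) * ‖1 - v‖ ^ 2 / 18 := by
    rw [mb_mob, map_div₀, div_le_iff₀ hpos, hdiff, hu]
    have := mul_le_mul_of_nonneg_left hdn2 (mul_nonneg hd.le hu0)
    nlinarith
  have h2 : 2 * a / (1 + 2 * A) ≤ 1 - normSq z := by
    rw [normSq_eq_norm_sq, hz, ← Real.exp_nat_mul]
    have a1 := Real.add_one_le_exp (2 * a)
    have a2 : Real.exp ((2 : ℕ) * -a) ≤ 1 / (1 + 2 * a) := by
      rw [show ((2 : ℕ) : ℝ) * -a = -(2 * a) by push_cast; ring, Real.exp_neg, one_div]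
      exact inv_anti₀ (by linarith) (by linarith)
    have a3 : 2 * a / (1 + 2 * A) ≤ 2 * a / (1 + 2 * a) :=
      div_le_div_of_nonneg_left (by linarith) (by linarith) (by linarith)
    have a4 : 2 * a / (1 + 2 * a) = 1 - 1 / (1 + 2 * a) := by field_simp; ring
    linarith
  have h3 : ‖mob z v‖ ^ 2 ≤ Real.exp (-(‖1 - v‖ ^ 2 / (18 * (1 + 2 * A)) * a)) ^ 2 := by
    rw [← normSq_eq_norm_sq, ← Real.exp_nat_mul]
    refine h1.trans (le_trans ?_ (Real.add_one_le_exp _))
    have a1 := mul_le_mul_of_nonneg_right h2 (sq_nonneg ‖1 - v‖)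
    have a2 : ((2 : ℕ) : ℝ) * -(‖1 - v‖ ^ 2 / (18 * (1 + 2 * A)) * a) =
        -(2 * a / (1 + 2 * A) * ‖1 - v‖ ^ 2 / 18) := by
      have : 1 + 2 * A ≠ 0 := by linarith
      push_cast
      field_simp
    rw [a2]
    linarith
  exact le_of_sq_le_sq h3 (Real.exp_pos _).le

/-- `|1-z|² / (1-|z|²)` for good gap variables. -/
theorem ratio_le {A B D t : ℝ} {μ : Mono} (hB : 0 ≤ B) (hBA : B ≤ A) (hA : 0 < A) (hμ : 1 ≤ μ.1)
    (hD : 0 ≤ D) (ht : 0 ≤ t) (h : Good D t μ) :
    normSq (1 - val A B μ) ≤ (1 + 2 * D + t * A) * (1 - normSq (val A B μ)) := by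
  obtain ⟨F1, F2, h1, h2, hk, hF1, hF2⟩ := h
  have hl : (1 : ℝ) ≤ μ.1 := by exact_mod_cast hμ
  set s : ℝ := μ.1 * A with hs
  have hs0 : 0 < s := by positivity
  set r : ℝ := Real.exp (-s) with hr
  have hr0 : 0 < r := Real.exp_pos _
  have hr1 : r ≤ 1 := Real.exp_le_one_iff.2 (by linarith)
  have hn : normSq (val A B μ) = r ^ 2 := by rw [normSq_eq_norm_sq, norm_val]
  have hre : (val A B μ).re = r * Real.cos (μ.2 * B) := by
    unfold val
    rw [Complex.exp_re]
    simp [hr, hs]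
  have he : normSq (1 - val A B μ) = (1 - r) ^ 2 + r * (2 * (1 - Real.cos (μ.2 * B))) := by
    rw [normSq_sub, hn]
    simp [hre]
    ring
  have hX : 2 * (1 - Real.cos (μ.2 * B)) ≤ 4 * (F1 * B) + 2 * (F2 * B) ^ 2 := by
    rcases le_total 1 (F1 * B) with hc | hc
    · nlinarith [Real.neg_one_le_cos (μ.2 * B), sq_nonneg (F2 * B)]
    · have a1 := Real.one_sub_sq_div_two_le_cos (x := μ.2 * B)
      have a2 : |μ.2 * B| ≤ F1 * B + F2 * B := by
        rw [abs_mul, abs_of_nonneg hB, ← add_mul]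
        exact mul_le_mul_of_nonneg_right hk hB
      have a3 := pow_le_pow_left₀ (abs_nonneg _) a2 2
      rw [sq_abs] at a3
      have a4 : 0 ≤ F1 * B := mul_nonneg h1 hB
      nlinarith [sq_nonneg (F1 * B - F2 * B)]
  have hX1 : F1 * B ≤ D * s := by
    calc F1 * B ≤ D * μ.1 * A := mul_le_mul hF1 hBA hB (by positivity)
      _ = D * s := by rw [hs]; ring
  have hX2 : (F2 * B) ^ 2 ≤ t * s * A := by
    calc (F2 * B) ^ 2 = F2 ^ 2 * B ^ 2 := by ring
      _ ≤ t * μ.1 * A ^ 2 := mul_le_mul hF2 (pow_le_pow_left₀ hB hBA 2) (by positivity)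
          (by positivity)
      _ = t * s * A := by rw [hs]; ring
  have hsr : 2 * s * r ≤ 1 - r ^ 2 := by
    have a1 := Real.self_le_sinh_iff.2 hs0.le
    rw [Real.sinh_eq] at a1
    have a2 : Real.exp s * r = 1 := by rw [hr, ← Real.exp_add, add_neg_cancel, Real.exp_zero]
    have a3 := mul_le_mul_of_nonneg_right a1 hr0.le
    rw [← hr] at a3
    nlinarith
  rw [he, hn]
  have b1 : r * (2 * (1 - Real.cos (μ.2 * B))) ≤ r * (4 * (D * s) + 2 * (t * s * A)) :=
    mul_le_mul_of_nonneg_left (by linarith) hr0.le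
  have b2 : (2 * D + t * A) * (2 * s * r) ≤ (2 * D + t * A) * (1 - r ^ 2) :=
    mul_le_mul_of_nonneg_left hsr (by positivity)
  nlinarith

/-- For real `v` close to one the deformed point lies in the disc `|z - q| ≤ p`. -/
theorem mob_mem_disc {z : ℂ} (hz : ‖z‖ < 1) {R p v : ℝ} (hp : 0 < p) (hp1 : p < 1) (hR : 0 ≤ R)
    (h : normSq (1 - z) ≤ R * (1 - normSq z)) (hv : v < 1) (hv' : (1 - p) * R * (1 - v) ≤ p) :
    ‖mob z v - ((1 - p : ℝ) : ℂ)‖ ≤ p := by
  have hd := mb_d_pos hz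
  have he := mb_e_pos hz
  have hu : 0 < 1 - v := by linarith
  have hne := mb_den_ne hd he z.im (u := 1 - v) (by simpa using hv.le)
  rw [mb_mob]
  generalize 1 - normSq z = d at *
  generalize normSq (1 - z) = e at *
  generalize z.im = y at *
  have hq : (1 - p) * e * (1 - v) ≤ p * d := by
    calc (1 - p) * e * (1 - v) ≤ (1 - p) * (R * d) * (1 - v) := by gcongr
      _ = (1 - p) * R * (1 - v) * d := by ring
      _ ≤ p * d := mul_le_mul_of_nonneg_right hv' hd.le
  rw [div_sub' hne, norm_div, div_le_iff₀ (norm_pos_iff.2 hne)]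
  refine le_of_sq_le_sq ?_ (by positivity)
  rw [mul_pow, ← normSq_eq_norm_sq, ← normSq_eq_norm_sq]
  have e1 : normSq (mb_num d e y (1 - v) - mb_den d e y (1 - v) * ((1 - p : ℝ) : ℂ)) =
      p ^ 2 * normSq (mb_den d e y (1 - v)) -
        4 * (e * (1 - v)) * (p * d - (1 - p) * e * (1 - v)) := by
    simp [mb_num, mb_den, normSq_apply]
    ring
  rw [e1]
  have : 0 ≤ 4 * (e * (1 - v)) * (p * d - (1 - p) * e * (1 - v)) :=
    mul_nonneg (by positivity) (by linarith)
  linarith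

end Crest.Agent.R300.UB
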