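import Crest.Agent.R300.UBDefs

set_option autoImplicit false

noncomputable section

namespace Crest.Agent.R300.UB

open Complex Finset Crest.Agent.Lib.PT Crest.TraceRecon Crest.FinProb

/-! Chebyshev's inequality for the trace average. -/

theorem p2_sum_cons {Ω : Type} [Fintype Ω] {m : ℕ} (h : (Fin (m + 1) → Ω) → ℝ) :
    ∑ ω, h ω = ∑ a : Ω, ∑ ω : Fin m → Ω, h (Fin.cons a ω) := by
  rw [← (Fin.consEquiv fun _ : Fin (m + 1) => Ω).sum_comp, Fintype.sum_prod_type]
  rfl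

theorem p2_moments {Ω : Type} [Fintype Ω] (w G : Ω → ℝ) (hw : ∑ a, w a = 1)
    (hG : ∑ a, w a * G a = 0) (m : ℕ) :
    (∑ ω : Fin m → Ω, ∏ k, w (ω k)) = 1 ∧
      (∑ ω : Fin m → Ω, (∏ k, w (ω k)) * ∑ k, G (ω k)) = 0 ∧
      (∑ ω : Fin m → Ω, (∏ k, w (ω k)) * (∑ k, G (ω k)) ^ 2) = m * ∑ a, w a * G a ^ 2 := by
  induction m with
  | zero => simp
  | succ m ih =>
    obtain ⟨h0, h1, h2⟩ := ih
    refine ⟨?_, ?_, ?_⟩
    · rw [p2_sum_cons]
      simp only [Fin.prod_univ_succ, Fin.cons_zero, Fin.cons_succ, ← Finset.mul_sum, h0, mul_one, hw]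
    · rw [p2_sum_cons]
      simp only [Fin.prod_univ_succ, Fin.sum_univ_succ, Fin.cons_zero, Fin.cons_succ]
      have : ∀ a, ∑ ω : Fin m → Ω, (w a * ∏ k, w (ω k)) * (G a + ∑ k, G (ω k)) = w a * G a := by
        intro a
        calc _ = ∑ ω : Fin m → Ω, (w a * G a * ∏ k, w (ω k) +
              w a * ((∏ k, w (ω k)) * ∑ k, G (ω k))) := Finset.sum_congr rfl fun ω _ => by ring
          _ = _ := by rw [Finset.sum_add_distrib, ← Finset.mul_sum, ← Finset.mul_sum, h0, h1]; ring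
      simp only [this, hG]
    · rw [p2_sum_cons]
      simp only [Fin.prod_univ_succ, Fin.sum_univ_succ, Fin.cons_zero, Fin.cons_succ]
      have : ∀ a, ∑ ω : Fin m → Ω, (w a * ∏ k, w (ω k)) * (G a + ∑ k, G (ω k)) ^ 2 =
          w a * G a ^ 2 + w a * (m * ∑ a, w a * G a ^ 2) := by
        intro a
        calc _ = ∑ ω : Fin m → Ω, (w a * G a ^ 2 * ∏ k, w (ω k) +
              (2 * w a * G a * ((∏ k, w (ω k)) * ∑ k, G (ω k)) +
              w a * ((∏ k, w (ω k)) * (∑ k, G (ω k)) ^ 2))) :=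
              Finset.sum_congr rfl fun ω _ => by ring
          _ = _ := by
              rw [Finset.sum_add_distrib, Finset.sum_add_distrib, ← Finset.mul_sum,
                ← Finset.mul_sum, ← Finset.mul_sum, h0, h1, h2]
              ring
      simp only [this]
      rw [Finset.sum_add_distrib, ← Finset.sum_mul, hw]
      push_cast
      ring

theorem p2_var_le {Ω : Type} [Fintype Ω] (w f : Ω → ℝ) (hw : ∑ a, w a = 1) :
    ∑ a, w a * (f a - ∑ b, w b * f b) ^ 2 ≤ ∑ a, w a * f a ^ 2 := by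
  set μ := ∑ b, w b * f b with hμ
  have : ∑ a, w a * (f a - μ) ^ 2 = ∑ a, w a * f a ^ 2 - μ ^ 2 := by
    calc _ = ∑ a, (w a * f a ^ 2 - 2 * μ * (w a * f a) + μ ^ 2 * w a) :=
          Finset.sum_congr rfl fun a _ => by ring
      _ = _ := by
          rw [Finset.sum_add_distrib, Finset.sum_sub_distrib, ← Finset.mul_sum, ← Finset.mul_sum,
            hw, ← hμ]
          ring
  rw [this]
  nlinarith [sq_nonneg μ]

theorem p2_mean_zero {Ω : Type} [Fintype Ω] (w f : Ω → ℝ) (hw : ∑ a, w a = 1) :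
    ∑ a, w a * (f a - ∑ b, w b * f b) = 0 := by
  simp only [mul_sub, Finset.sum_sub_distrib, ← Finset.sum_mul, hw]
  ring

open Classical in
theorem p2_cheb {Ω : Type} [Fintype Ω] (w : Ω → ℝ) (hw0 : ∀ a, 0 ≤ w a) (hw : ∑ a, w a = 1)
    (F : Ω → ℂ) {m : ℕ} (hm : 0 < m) {B η : ℝ} (hη : 0 < η) (hB : ∀ a, ‖F a‖ ≤ B) :
    (∑ ω : Fin m → Ω, (∏ k, w (ω k)) *
      if η < ‖(∑ k, F (ω k)) / (m : ℂ) - ∑ a, (w a : ℂ) * F a‖ then 1 else 0) ≤
      B ^ 2 / (m * η ^ 2) := by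
  have hm' : (0 : ℝ) < m := by exact_mod_cast hm
  set E : ℂ := ∑ a, (w a : ℂ) * F a with hE
  have hre : E.re = ∑ a, w a * (F a).re := by simp [hE]
  have him : E.im = ∑ a, w a * (F a).im := by simp [hE]
  let G : Ω → ℝ := fun a => (F a).re - ∑ b, w b * (F b).re
  let H : Ω → ℝ := fun a => (F a).im - ∑ b, w b * (F b).im
  have hG := (p2_moments w G hw (p2_mean_zero w _ hw) m).2.2
  have hH := (p2_moments w H hw (p2_mean_zero w _ hw) m).2.2
  have hG' : ∑ a, w a * G a ^ 2 ≤ ∑ a, w a * (F a).re ^ 2 := p2_var_le w _ hw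
  have hH' : ∑ a, w a * H a ^ 2 ≤ ∑ a, w a * (F a).im ^ 2 := p2_var_le w _ hw
  have hB2 : ∑ a, w a * (F a).re ^ 2 + ∑ a, w a * (F a).im ^ 2 ≤ B ^ 2 := by
    rw [← Finset.sum_add_distrib]
    calc _ ≤ ∑ a, w a * B ^ 2 := by
          refine Finset.sum_le_sum fun a _ => ?_
          rw [← mul_add]
          refine mul_le_mul_of_nonneg_left ?_ (hw0 a)
          have h1 : ‖F a‖ ^ 2 = (F a).re ^ 2 + (F a).im ^ 2 := by
            rw [Complex.sq_norm, Complex.normSq_apply]; ring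
          rw [← h1]
          exact pow_le_pow_left₀ (norm_nonneg _) (hB a) 2
      _ = B ^ 2 := by rw [← Finset.sum_mul, hw, one_mul]
  have key : ∀ ω : Fin m → Ω,
      (if η < ‖(∑ k, F (ω k)) / (m : ℂ) - E‖ then (1 : ℝ) else 0) ≤
        ((∑ k, G (ω k)) ^ 2 + (∑ k, H (ω k)) ^ 2) / (m * η) ^ 2 := by
    intro ω
    split_ifs with h
    · rw [le_div_iff₀ (by positivity), one_mul]
      have h1 : (∑ k, F (ω k)) / (m : ℂ) - E = ((∑ k, F (ω k)) - m * E) / m := by
        have : (m : ℂ) ≠ 0 := by exact_mod_cast hm.ne'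
        field_simp
      rw [h1, norm_div, Complex.norm_natCast, lt_div_iff₀ hm'] at h
      have h2 : ‖(∑ k, F (ω k)) - m * E‖ ^ 2 = (∑ k, G (ω k)) ^ 2 + (∑ k, H (ω k)) ^ 2 := by
        rw [Complex.sq_norm, Complex.normSq_apply]
        have e1 : ((∑ k, F (ω k)) - m * E).re = ∑ k, G (ω k) := by
          simp [G, hre, Finset.sum_sub_distrib]
        have e2 : ((∑ k, F (ω k)) - m * E).im = ∑ k, H (ω k) := by
          simp [H, him, Finset.sum_sub_distrib]
        rw [e1, e2]; ring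
      rw [← h2, mul_comm]
      exact pow_le_pow_left₀ (by positivity) h.le 2
    · positivity
  calc _ ≤ ∑ ω : Fin m → Ω, (∏ k, w (ω k)) *
        (((∑ k, G (ω k)) ^ 2 + (∑ k, H (ω k)) ^ 2) / (m * η) ^ 2) :=
        Finset.sum_le_sum fun ω _ =>
          mul_le_mul_of_nonneg_left (key ω) (Finset.prod_nonneg fun k _ => hw0 _)
    _ = (∑ ω : Fin m → Ω, (∏ k, w (ω k)) * (∑ k, G (ω k)) ^ 2 +
          ∑ ω : Fin m → Ω, (∏ k, w (ω k)) * (∑ k, H (ω k)) ^ 2) / (m * η) ^ 2 := by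
        rw [← Finset.sum_add_distrib, Finset.sum_div]
        exact Finset.sum_congr rfl fun ω _ => by ring
    _ ≤ (m * B ^ 2) / (m * η) ^ 2 := by
        rw [hG, hH, ← mul_add]
        gcongr
        linarith
    _ = B ^ 2 / (m * η ^ 2) := by field_simp

theorem p2_sum_bw {n : ℕ} (p : ℝ) : ∑ keep : Fin n → Bool, bernoulliWeight p keep = 1 := by
  unfold bernoulliWeight
  have := Finset.prod_univ_sum (fun _ : Fin n => (univ : Finset Bool))
    (fun _ b => if b = true then p else 1 - p)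
  rw [Fintype.piFinset_univ] at this
  rw [← this]
  simp

theorem p2_bw_nonneg {n : ℕ} {p : ℝ} (hp : 0 ≤ p) (hp1 : p ≤ 1) (keep : Fin n → Bool) :
    0 ≤ bernoulliWeight p keep := by
  unfold bernoulliWeight
  refine Finset.prod_nonneg fun i _ => ?_
  split_ifs
  · exact hp
  · linarith

theorem p2_chebyshev {m n : ℕ} (hm : 0 < m) {p : ℝ} (hp : 0 ≤ p) (hp1 : p ≤ 1) (x : Fin n → Bool)
    (F : List Bool → ℂ) {B η : ℝ} (hη : 0 < η) (hB : ∀ w : List Bool, w.length ≤ n → ‖F w‖ ≤ B) :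
    prK p (fun keeps : Fin m → Fin n → Bool =>
      η < ‖((traces x keeps).map F).sum / ((traces x keeps).length : ℂ) - exT p x F‖) ≤
      B ^ 2 / (m * η ^ 2) := by
  have := p2_cheb (bernoulliWeight p) (p2_bw_nonneg hp hp1) (p2_sum_bw (n := n) p)
    (fun keep => F (traceOf x keep)) hm hη (fun keep => hB _ (PTW.length_traceOf_le x keep))
  refine le_trans (le_of_eq ?_) this
  unfold prK exT traces
  refine Finset.sum_congr rfl fun keeps _ => ?_
  simp only [List.map_ofFn, List.sum_ofFn, List.length_ofFn, Function.comp_def]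

end Crest.Agent.R300.UB
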