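import Crest.Agent.R300.UBDefs

set_option autoImplicit false

noncomputable section

namespace Crest.Agent.R300.UB

open Complex Finset Crest.Agent.Lib.PT Crest.TraceRecon Crest.FinProb

/-! Probability: unbiasedness, boundedness, union bound (proofs for `UBProb`). -/

theorem p1_traceOf_cons {n : ℕ} (x : Fin (n + 1) → Bool) (b : Bool) (k : Fin n → Bool) :
    traceOf x (Fin.cons b k : Fin (n + 1) → Bool) =
      if b then x 0 :: traceOf (Fin.tail x) k else traceOf (Fin.tail x) k := by
  unfold traceOf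
  rw [List.finRange_succ, List.filter_cons, List.filter_map]
  cases b
  · simp [List.map_map, Function.comp_def, Fin.tail]
  · simp [List.map_map, Function.comp_def, Fin.tail]

theorem p1_weight_cons {n : ℕ} (p : ℝ) (b : Bool) (k : Fin n → Bool) :
    bernoulliWeight p (Fin.cons b k : Fin (n + 1) → Bool) =
      (if b then p else 1 - p) * bernoulliWeight p k := by
  unfold bernoulliWeight
  rw [Fin.prod_univ_succ]
  simp

theorem p1_exT_succ {n : ℕ} (p : ℝ) (x : Fin (n + 1) → Bool) (F : List Bool → ℂ) :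
    exT p x F = (p : ℂ) * exT p (Fin.tail x) (fun w => F (x 0 :: w)) +
      ((1 - p : ℝ) : ℂ) * exT p (Fin.tail x) F := by
  unfold exT
  rw [← (Fin.consEquiv fun _ : Fin (n + 1) => Bool).sum_comp, Fintype.sum_prod_type,
    Fintype.sum_bool, Finset.mul_sum, Finset.mul_sum]
  congr 1
  · refine Finset.sum_congr rfl fun k _ => ?_
    change (bernoulliWeight p (Fin.cons true k : Fin (n + 1) → Bool) : ℂ) *
      F (traceOf x (Fin.cons true k : Fin (n + 1) → Bool)) = _
    rw [p1_weight_cons, p1_traceOf_cons]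
    simp [mul_assoc]
  · refine Finset.sum_congr rfl fun k _ => ?_
    change (bernoulliWeight p (Fin.cons false k : Fin (n + 1) → Bool) : ℂ) *
      F (traceOf x (Fin.cons false k : Fin (n + 1) → Bool)) = _
    rw [p1_weight_cons, p1_traceOf_cons]
    simp [mul_assoc]

theorem p1_exT_add {n : ℕ} (p : ℝ) (x : Fin n → Bool) (F G : List Bool → ℂ) :
    exT p x (fun w => F w + G w) = exT p x F + exT p x G := by
  unfold exT
  simp only [mul_add, Finset.sum_add_distrib]

theorem p1_exT_const_mul {n : ℕ} (p : ℝ) (x : Fin n → Bool) (a : ℂ) (F : List Bool → ℂ) :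
    exT p x (fun w => a * F w) = a * exT p x F := by
  unfold exT
  rw [Finset.mul_sum]
  exact Finset.sum_congr rfl fun k _ => by ring

theorem p1_sum_weight {ι : Type} [Fintype ι] [DecidableEq ι] (p : ℝ) :
    ∑ k : ι → Bool, bernoulliWeight p k = 1 := by
  unfold bernoulliWeight
  have := Finset.prod_univ_sum (fun _ : ι => (univ : Finset Bool))
    (fun _ b => if b then p else 1 - p)
  rw [Fintype.piFinset_univ] at this
  rw [← this]
  simp

theorem p1_exT_one {n : ℕ} (p : ℝ) (x : Fin n → Bool) : exT p x (fun _ => 1) = 1 := by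
  unfold exT
  simp only [mul_one]
  exact_mod_cast p1_sum_weight (ι := Fin n) p

theorem p1_exT_cval {n : ℕ} {p : ℝ} (hp : p ≠ 0) (x : Fin n → Bool) (c : List (ℂ × Bool × ℂ)) :
    exT p x (fun w => cval w (unb p c)) = cval (List.ofFn x) c := by
  induction n generalizing c with
  | zero =>
    have : ∀ k : Fin 0 → Bool, traceOf x k = [] := fun k => by simp [traceOf]
    cases c with
    | nil => simpa [unb, cval] using p1_exT_one p x
    | cons s r => simp [exT, this, unb, cval]
  | succ n ih =>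
    cases c with
    | nil => simpa [unb, cval] using p1_exT_one p x
    | cons s r =>
      have hp' : (p : ℂ) ≠ 0 := by exact_mod_cast hp
      have e1 : ∀ w, cval (x 0 :: w) (unb p (s :: r)) =
          (s.1 - ((1 - p : ℝ) : ℂ)) / (p : ℂ) * cval w (unb p (s :: r)) +
            mk s.2.1 (x 0) * (s.2.2 / (p : ℂ)) * cval w (unb p r) := fun w => by
        simp only [unb, List.map_cons, cval]
      rw [p1_exT_succ]
      simp only [e1]
      rw [p1_exT_add, p1_exT_const_mul, p1_exT_const_mul, ih, ih, List.ofFn_succ]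
      change _ = cval (x 0 :: List.ofFn (Fin.tail x)) (s :: r)
      simp only [cval]
      field_simp
      ring

theorem p1_norm_mk (e σ : Bool) : ‖mk e σ‖ ≤ 1 := by
  unfold mk
  split_ifs <;> simp

theorem p1_norm_cval_le (w : List Bool) (c : List (ℂ × Bool × ℂ)) {K : ℝ} (hK : 0 ≤ K)
    (h : ∀ s ∈ c, ‖s.1‖ ≤ 1 ∧ ‖s.2.2‖ ≤ K) :
    ‖cval w c‖ ≤ (w.length.choose c.length : ℝ) * K ^ c.length := by
  induction w generalizing c with
  | nil =>
    cases c with
    | nil => simp [cval]
    | cons s r => simp [cval]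
  | cons σ w ih =>
    cases c with
    | nil => simp [cval]
    | cons s r =>
      have h1 := ih (s :: r) h
      have h2 := ih r fun t ht => h t (List.mem_cons_of_mem _ ht)
      obtain ⟨h3, h4⟩ := h s List.mem_cons_self
      have h5 := p1_norm_mk s.2.1 σ
      simp only [cval, List.length_cons] at h1 ⊢
      rw [Nat.choose_succ_succ']
      calc ‖s.1 * cval w (s :: r) + mk s.2.1 σ * s.2.2 * cval w r‖
          ≤ ‖s.1‖ * ‖cval w (s :: r)‖ + ‖mk s.2.1 σ‖ * ‖s.2.2‖ * ‖cval w r‖ := by
            refine (norm_add_le _ _).trans (le_of_eq ?_)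
            simp only [norm_mul]
        _ ≤ 1 * ((w.length.choose (r.length + 1) : ℝ) * K ^ (r.length + 1)) +
            1 * K * ((w.length.choose r.length : ℝ) * K ^ r.length) := by gcongr
        _ = _ := by push_cast; ring

theorem p1_weight_nonneg {ι : Type} [Fintype ι] {p : ℝ} (hp : 0 ≤ p) (hp1 : p ≤ 1)
    (k : ι → Bool) : 0 ≤ bernoulliWeight p k :=
  Finset.prod_nonneg fun i _ => by split_ifs <;> linarith

theorem p1_prK_mono {m n : ℕ} {p : ℝ} (hp : 0 ≤ p) (hp1 : p ≤ 1)
    {E F : (Fin m → Fin n → Bool) → Prop} (h : ∀ k, E k → F k) : prK p E ≤ prK p F := by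
  unfold prK
  refine Finset.sum_le_sum fun k _ => mul_le_mul_of_nonneg_left ?_
    (Finset.prod_nonneg fun i _ => p1_weight_nonneg hp hp1 _)
  by_cases h1 : E k
  · simp [h1, h k h1]
  · simp only [h1, if_false]
    split_ifs <;> norm_num

theorem p1_prK_nonneg {m n : ℕ} {p : ℝ} (hp : 0 ≤ p) (hp1 : p ≤ 1)
    (E : (Fin m → Fin n → Bool) → Prop) : 0 ≤ prK p E := by
  unfold prK
  refine Finset.sum_nonneg fun k _ => mul_nonneg
    (Finset.prod_nonneg fun i _ => p1_weight_nonneg hp hp1 _) ?_
  split_ifs <;> norm_num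

theorem p1_prK_not {m n : ℕ} (p : ℝ) (E : (Fin m → Fin n → Bool) → Prop) :
    prK p (fun k => ¬ E k) = 1 - prK p E := by
  have h1 : ∑ keeps : Fin m → Fin n → Bool, ∏ k, bernoulliWeight p (keeps k) = 1 := by
    have := Finset.prod_univ_sum (fun _ : Fin m => (univ : Finset (Fin n → Bool)))
      (fun _ b => bernoulliWeight p b)
    rw [Fintype.piFinset_univ] at this
    rw [← this]
    simp [p1_sum_weight]
  rw [eq_sub_iff_add_eq, ← h1]
  unfold prK
  rw [← Finset.sum_add_distrib]
  refine Finset.sum_congr rfl fun k _ => ?_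
  by_cases h : E k <;> simp [h]

theorem p1_prK_or {m n : ℕ} {p : ℝ} (hp : 0 ≤ p) (hp1 : p ≤ 1)
    (E F : (Fin m → Fin n → Bool) → Prop) :
    prK p (fun k => E k ∨ F k) ≤ prK p E + prK p F := by
  unfold prK
  rw [← Finset.sum_add_distrib]
  refine Finset.sum_le_sum fun k _ => ?_
  rw [← mul_add]
  refine mul_le_mul_of_nonneg_left ?_ (Finset.prod_nonneg fun i _ => p1_weight_nonneg hp hp1 _)
  by_cases h : E k <;> by_cases h' : F k <;> simp [h, h']

theorem p1_prK_exists_le {m n : ℕ} {p : ℝ} (hp : 0 ≤ p) (hp1 : p ≤ 1) {ι : Type} (l : List ι)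
    (E : ι → (Fin m → Fin n → Bool) → Prop) {δ : ℝ} (h : ∀ i ∈ l, prK p (E i) ≤ δ) :
    prK p (fun k => ∃ i ∈ l, E i k) ≤ l.length * δ := by
  induction l with
  | nil => simp [prK]
  | cons a l ih =>
    have h1 := ih fun i hi => h i (List.mem_cons_of_mem _ hi)
    have h2 := h a List.mem_cons_self
    have h3 : prK p (fun k => ∃ i ∈ a :: l, E i k) ≤ prK p (fun k => E a k ∨ ∃ i ∈ l, E i k) :=
      p1_prK_mono hp hp1 fun k hk => by simpa using hk
    have h4 := p1_prK_or hp hp1 (E a) fun k => ∃ i ∈ l, E i k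
    simp only [List.length_cons]
    push_cast
    linarith

end Crest.Agent.R300.UB
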