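import Crest.Agent.R300.UBDefs
import Crest.Agent.R300.UBProbAuxA
import Crest.Agent.R300.UBProbAux2

set_option autoImplicit false

noncomputable section

namespace Crest.Agent.R300.UB

open Complex Finset Crest.Agent.Lib.PT Crest.TraceRecon Crest.FinProb

/-! Probability: unbiasedness, boundedness, Chebyshev, union bound. -/

theorem exT_cval {n : ℕ} {p : ℝ} (hp : p ≠ 0) (x : Fin n → Bool) (c : List (ℂ × Bool × ℂ)) :
    exT p x (fun w => cval w (unb p c)) = cval (List.ofFn x) c := p1_exT_cval hp x c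

theorem norm_cval_le (w : List Bool) (c : List (ℂ × Bool × ℂ)) {K : ℝ} (hK : 0 ≤ K)
    (h : ∀ s ∈ c, ‖s.1‖ ≤ 1 ∧ ‖s.2.2‖ ≤ K) :
    ‖cval w c‖ ≤ (w.length.choose c.length : ℝ) * K ^ c.length := p1_norm_cval_le w c hK h

theorem exT_add {n : ℕ} (p : ℝ) (x : Fin n → Bool) (F G : List Bool → ℂ) :
    exT p x (fun w => F w + G w) = exT p x F + exT p x G := p1_exT_add p x F G

theorem exT_const_mul {n : ℕ} (p : ℝ) (x : Fin n → Bool) (a : ℂ) (F : List Bool → ℂ) :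
    exT p x (fun w => a * F w) = a * exT p x F := p1_exT_const_mul p x a F

theorem prK_nonneg {m n : ℕ} {p : ℝ} (hp : 0 ≤ p) (hp1 : p ≤ 1)
    (E : (Fin m → Fin n → Bool) → Prop) : 0 ≤ prK p E := p1_prK_nonneg hp hp1 E

theorem prK_mono {m n : ℕ} {p : ℝ} (hp : 0 ≤ p) (hp1 : p ≤ 1)
    {E F : (Fin m → Fin n → Bool) → Prop} (h : ∀ k, E k → F k) : prK p E ≤ prK p F :=
  p1_prK_mono hp hp1 h

theorem prK_not {m n : ℕ} (p : ℝ) (E : (Fin m → Fin n → Bool) → Prop) :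
    prK p (fun k => ¬ E k) = 1 - prK p E := p1_prK_not p E

theorem prK_exists_le {m n : ℕ} {p : ℝ} (hp : 0 ≤ p) (hp1 : p ≤ 1) {ι : Type} (l : List ι)
    (E : ι → (Fin m → Fin n → Bool) → Prop) {δ : ℝ} (h : ∀ i ∈ l, prK p (E i) ≤ δ) :
    prK p (fun k => ∃ i ∈ l, E i k) ≤ l.length * δ := p1_prK_exists_le hp hp1 l E h

theorem chebyshev {m n : ℕ} (hm : 0 < m) {p : ℝ} (hp : 0 ≤ p) (hp1 : p ≤ 1) (x : Fin n → Bool)
    (F : List Bool → ℂ) {B η : ℝ} (hη : 0 < η) (hB : ∀ w : List Bool, w.length ≤ n → ‖F w‖ ≤ B) :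
    prK p (fun keeps : Fin m → Fin n → Bool =>
      η < ‖((traces x keeps).map F).sum / ((traces x keeps).length : ℂ) - exT p x F‖) ≤
      B ^ 2 / (m * η ^ 2) := p2_chebyshev hm hp hp1 x F hη hB

end Crest.Agent.R300.UB
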