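import Crest.Agent.R300.UBComb
import Crest.Agent.R300.UBMob
import Crest.Agent.R300.UBInterp
import Crest.Agent.R300.UBProb

set_option autoImplicit false

noncomputable section

namespace Crest.Agent.R300.UB

open Complex Finset Crest.Agent.Lib.PT Crest.TraceRecon Crest.FinProb

theorem es_norm_list_sum {α : Type} (S : List α) (f : α → ℂ) {B : ℝ} (h : ∀ c ∈ S, ‖f c‖ ≤ B) :
    ‖(S.map f).sum‖ ≤ S.length * B := by
  induction S with
  | nil => simp
  | cons a S ih =>
    rw [List.map_cons, List.sum_cons, List.length_cons]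
    have h1 := h a List.mem_cons_self
    have h2 := ih fun c hc => h c (List.mem_cons_of_mem _ hc)
    refine (norm_add_le _ _).trans ?_
    push_cast
    linarith

/-- Size of the one-trace estimator. -/
theorem norm_est1_le {n eI : ℕ} {p : ℝ} {P : Par} (hn : 2 ≤ n) (hp : 0 < p) (hp1 : p < 1)
    (hP : ParOK n p P) (hI : 1 / p ≤ 2 ^ eI) {q : Query} (hq : q ∈ qlist P.l0 P.ls)
    (w : List Bool) (hw : w.length ≤ n) :
    ‖est1 P.Y p P.T P.N P.H (qSer q) w‖ ≤
      2 ^ (6 * P.N + 1 + (11 * P.ls.length + 4) * P.H + P.H * (Nat.size n + eI)) := by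
  obtain ⟨L, ls, hls, -, -⟩ := hP.htop
  obtain ⟨D, Q, hD3, hQ, hT, hDQ⟩ := hP.hD
  have hch := hP.hch
  obtain ⟨hq1, hq2⟩ := mem_qlist.1 hq
  have hL : LevOK P.Y n L (zsOf P.l0 ls) P.Ek := by
    rw [hls] at hch
    exact hch.2.1
  have hY : 100 ≤ P.Y := le_trans (by norm_num) hL.hY100
  have hY0 : (0 : ℝ) < P.Y := by exact_mod_cast (by omega : 0 < P.Y)
  have hq3 : q.2 ∈ contour L.lb L.kS := by
    rw [hls] at hq2
    exact hq2
  obtain ⟨c1, -, -, c4, -⟩ := hL.contour_mem hq3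
  have hlb := hL.hlb'
  have hD3' : (3 : ℝ) ≤ D := by exact_mod_cast hD3
  have hT0 : (0 : ℝ) < P.T := by
    by_contra hc
    have : (P.T : ℝ) * p ≤ 0 := mul_nonpos_of_nonpos_of_nonneg (not_lt.1 hc) hp.le
    linarith
  have hT1 : 1 ≤ P.T := by exact_mod_cast hT0
  have hN1 : 1 ≤ P.N := le_trans (Nat.mul_pos (by omega) (by omega)) hP.hN
  have hH : (P.H : ℝ) = 4 ^ P.ls.length := by rw [hP.hH]; push_cast; rfl
  have hH0 : (0 : ℝ) < P.H := by rw [hH]; positivity
  have hQ0 : (0 : ℝ) ≤ Q := Nat.cast_nonneg _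
  have hz : |(q.2.2 : ℝ)| ≤ (D : ℝ) * q.2.1 := by
    have h1 : (10 : ℝ) * (q.2.2.natAbs : ℝ) ≤ 21 * q.2.1 := by exact_mod_cast c4
    have h2 : (q.2.2.natAbs : ℝ) = |(q.2.2 : ℝ)| := by
      rw [Nat.cast_natAbs, Int.cast_abs]
    have h3 : (0 : ℝ) ≤ q.2.1 := Nat.cast_nonneg _
    rw [h2] at h1
    nlinarith
  have hgap := qSer_gap hq1 (D := D) (t := Q * P.Y / (4 * P.H)) (b := P.Y) (by linarith)
    (by positivity) (fun L' hL' => by
      obtain ⟨zs, E', h⟩ := hP.hch.mem L' hL'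
      rw [← h.hlb]
      exact Nat.le_mul_of_pos_right _ (by positivity)) (fun L' hL' => by
      rcases hDQ L' hL' with h | h
      · left; exact_mod_cast h
      · right
        have h' : (4 : ℝ) * (L'.kF : ℝ) ^ 2 * P.H ≤ Q * L'.lb * P.Y := by exact_mod_cast h
        rw [div_mul_eq_mul_div, le_div_iff₀ (by positivity)]
        linarith) hz
  have ht : (4 : ℝ) ^ P.ls.length * (Q * P.Y / (4 * P.H)) = Q * P.Y / 4 := by
    rw [← hH]; field_simp
  rw [ht] at hgap
  obtain ⟨hlen, hlen'⟩ := qSer_length hq1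
  rw [← hP.hH] at hlen hlen'
  have ha0 := a0_pos hY
  have hK1 : (1 : ℝ) ≤ 2 ^ eI := one_le_pow₀ (by norm_num)
  have hB1 : (1 : ℝ) ≤ 2 ^ (Nat.size n + eI) := one_le_pow₀ (by norm_num)
  have hpn : ‖(p : ℂ)‖ = p := by rw [Complex.norm_real, Real.norm_eq_abs, abs_of_pos hp]
  have hchain : ∀ j ∈ range (P.N + 1), ∀ c ∈ qSer q,
      ‖cval w (unb p (mobChain P.Y (vnode P.T P.N j : ℂ) c))‖ ≤ 2 ^ (P.H * (Nat.size n + eI)) := by
    intro j hj c hc
    obtain ⟨v0, v1, v2⟩ := vnode_bounds hT1 hN1 (Nat.lt_succ_iff.1 (mem_range.1 hj))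
    have v3 : vnode P.T P.N j < 1 := by
      have : (0 : ℝ) < 1 / (2 * (P.T : ℝ)) := by positivity
      linarith
    refine (norm_cval_le w _ (K := 2 ^ eI) (by positivity) ?_).trans ?_
    · intro s hs
      obtain ⟨s1, hs1, rfl⟩ := List.mem_map.1 hs
      obtain ⟨s0, hs0, rfl⟩ := List.mem_map.1 hs1
      obtain ⟨g1, g2, -⟩ := hgap c hc s0 hs0
      have hμ : 1 ≤ s0.1.1 := by omega
      constructor
      · simp only
        rw [norm_div, hpn, div_le_one hp, ev_eq hY]
        have hr := ratio_le (th_pos hY).le (th_le_a0 hY) ha0 hμ (by linarith) (by positivity) g1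
        have hR : Q * P.Y / 4 * a0 P.Y ≤ Q := by
          have h1 := a0_le hY
          have h2 : Q * P.Y / 4 * a0 P.Y ≤ Q * P.Y / 4 * (2001 / 1000 / (P.Y : ℝ)) :=
            mul_le_mul_of_nonneg_left h1 (by positivity)
          have h3 : (Q : ℝ) * P.Y / 4 * (2001 / 1000 / (P.Y : ℝ)) = Q * (2001 / 4000) := by
            field_simp; ring
          nlinarith
        refine mob_mem_disc ?_ hp hp1 (by positivity) hr v3 ?_
        · rw [norm_val]
          have : (1 : ℝ) ≤ s0.1.1 := by exact_mod_cast hμ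
          exact Real.exp_lt_one_iff.2 (by nlinarith)
        · have h1 : (1 - p) * (1 + 2 * D + Q * P.Y / 4 * a0 P.Y) ≤ 2 + 2 * D := by nlinarith
          have h2 : (1 - p) * (1 + 2 * D + Q * P.Y / 4 * a0 P.Y) * (1 - vnode P.T P.N j) ≤
              (2 + 2 * D) * (1 / (P.T : ℝ)) :=
            mul_le_mul h1 v2 (by linarith) (by linarith)
          refine h2.trans ?_
          rw [mul_one_div, div_le_iff₀ hT0]
          linarith
      · simp only
        rw [norm_div, hpn, ev_eq hY, norm_val]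
        refine le_trans (div_le_div_of_nonneg_right ?_ hp.le) hI
        exact Real.exp_le_one_iff.2 (neg_nonpos.2 (by positivity))
    · have e : (unb p (mobChain P.Y (vnode P.T P.N j : ℂ) c)).length = c.length := by
        simp [unb, mobChain]
      rw [e]
      have h1 : (w.length.choose c.length : ℝ) ≤ (2 ^ Nat.size n) ^ c.length := by
        have := (Nat.choose_le_pow w.length c.length).trans
          (Nat.pow_le_pow_left (hw.trans (Nat.lt_size_self n).le) c.length)
        exact_mod_cast this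
      calc (w.length.choose c.length : ℝ) * (2 ^ eI) ^ c.length
          ≤ (2 ^ Nat.size n) ^ c.length * (2 ^ eI) ^ c.length :=
            mul_le_mul_of_nonneg_right h1 (by positivity)
        _ = (2 ^ (Nat.size n + eI)) ^ c.length := by rw [← mul_pow, ← pow_add]
        _ ≤ (2 ^ (Nat.size n + eI)) ^ P.H := pow_le_pow_right₀ hB1 (hlen' c hc)
        _ = _ := by rw [← pow_mul, mul_comm]
  have hterm : ∀ j ∈ range (P.N + 1), ‖(acoef P.T P.N P.H j : ℂ) *
      ((qSer q).map fun c => cval w (unb p (mobChain P.Y (vnode P.T P.N j : ℂ) c))).sum‖ ≤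
      32 ^ P.N * (2 ^ ((11 * P.ls.length + 4) * P.H) * 2 ^ (P.H * (Nat.size n + eI))) := by
    intro j hj
    have hj' := Nat.lt_succ_iff.1 (mem_range.1 hj)
    obtain ⟨v0, v1, v2⟩ := vnode_bounds hT1 hN1 hj'
    have v3 : 0 ≤ 1 - vnode P.T P.N j := le_trans (by positivity) v1
    rw [norm_mul]
    refine mul_le_mul ?_ ?_ (norm_nonneg _) (by positivity)
    · rw [Complex.norm_real, Real.norm_eq_abs, acoef, abs_mul, abs_of_nonneg (pow_nonneg v3 _)]
      exact (mul_le_of_le_one_right (abs_nonneg _) (pow_le_one₀ v3 (by linarith))).trans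
        (abs_bcoef_le hT1 hN1 hj')
    · refine (es_norm_list_sum _ _ (hchain j hj)).trans
        (mul_le_mul_of_nonneg_right ?_ (by positivity))
      exact_mod_cast hlen
  unfold est1
  refine (norm_sum_le_of_le _ hterm).trans ?_
  rw [sum_const, card_range, nsmul_eq_mul, pow_add, pow_add, mul_assoc, ← mul_assoc]
  refine mul_le_mul_of_nonneg_right ?_ (by positivity)
  have h1 : ((P.N + 1 : ℕ) : ℝ) ≤ 2 ^ (P.N + 1) := by exact_mod_cast (Nat.lt_two_pow_self).le
  have h2 : (2 : ℝ) ^ (6 * P.N + 1) = 2 ^ (P.N + 1) * 32 ^ P.N := by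
    rw [show (32 : ℝ) = 2 ^ 5 by norm_num, ← pow_mul, ← pow_add]
    congr 1
    ring
  rw [h2]
  exact mul_le_mul_of_nonneg_right h1 (by positivity)

end Crest.Agent.R300.UB
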