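import Crest.Agent.R300.UBEstDet
import Crest.Agent.R300.UBEstB

set_option autoImplicit false

noncomputable section

namespace Crest.Agent.R300.UB

open Complex Finset Crest.Agent.Lib.PT Crest.TraceRecon Crest.FinProb

theorem ep_kS {Y n : ℕ} {L : Lev} {zs : List Mono} {E' : ℕ} (h : LevOK Y n L zs E') :
    L.kS ≤ Y := by
  have h1 := h.hkS
  have h2 : 2 ^ L.om ≤ 2 ^ L.g := Nat.pow_le_pow_right (by norm_num) (by have := h.hg; omega)
  have h3 : L.kS * 2 ^ L.g ≤ Y * 2 ^ L.g := by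
    rw [h1, mul_comm]
    exact Nat.mul_le_mul_left _ h2
  exact Nat.le_of_mul_le_mul_right h3 (by positivity)

theorem ep_arith {n m a b e l : ℕ} (hl : l ≤ 2 ^ a)
    (hm : 2 ^ ((Nat.size n + 3) + a + 2 * b + 2 * e) ≤ m) :
    (l : ℝ) * (((2 : ℝ) ^ b) ^ 2 / (m * (1 / 2 ^ e) ^ 2)) ≤ 1 / (4 * (n + 1)) := by
  have h1 : ((n : ℝ) + 1) ≤ 2 ^ Nat.size n := by exact_mod_cast Nat.lt_size_self n
  have h2 : (l : ℝ) ≤ 2 ^ a := by exact_mod_cast hl
  have h3 : (2 : ℝ) ^ ((Nat.size n + 3) + a + 2 * b + 2 * e) ≤ m := by exact_mod_cast hm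
  have hm0 : (0 : ℝ) < m := lt_of_lt_of_le (by positivity) h3
  have e1 : (l : ℝ) * (((2 : ℝ) ^ b) ^ 2 / (m * (1 / 2 ^ e) ^ 2)) =
      l * ((2 ^ b) ^ 2 * (2 ^ e) ^ 2) / m := by
    field_simp
  rw [e1, div_le_div_iff₀ hm0 (by positivity), one_mul]
  refine le_trans ?_ h3
  have e2 : (2 : ℝ) ^ ((Nat.size n + 3) + a + 2 * b + 2 * e) =
      2 ^ a * ((2 ^ b) ^ 2 * (2 ^ e) ^ 2) * (8 * 2 ^ Nat.size n) := by ring
  rw [e2]
  gcongr
  norm_num

/-- With high probability all top-level queries are estimated accurately. -/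
theorem est_prob {n m eY eI : ℕ} {p : ℝ} {P : Par} (hn : 2 ≤ n) (hp : 0 < p) (hp1 : p < 1)
    (hP : ParOK n p P) (hY : P.Y ≤ 2 ^ eY) (hI : 1 / p ≤ 2 ^ eI) (hm : 2 ^ eNeedP P n eY eI ≤ m)
    (x : Fin n → Bool) :
    prK p (fun keeps : Fin m → Fin n → Bool => ∃ q ∈ qlist P.l0 P.ls,
      1 / 2 ^ P.Et < ‖estAvg P.Y p P.T P.N P.H (qSer q) (traces x keeps) -
        full P.Y (List.ofFn x) q‖) ≤ 1 / (4 * (n + 1)) := by
  have hm0 : 0 < m := lt_of_lt_of_le (by positivity) hm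
  have hY1 : 1 ≤ P.Y := by
    obtain ⟨L, ls, hL, -⟩ := hP.htop
    obtain ⟨zs, E', h⟩ := hP.hch.mem L (by rw [hL]; exact List.mem_cons_self)
    have := h.hY100
    omega
  have hlen := qlist_length (l0 := P.l0) hY1 hY hP.hkF fun L hL => by
    obtain ⟨zs, E', h⟩ := hP.hch.mem L hL
    exact ep_kS h
  refine le_trans (prK_exists_le hp.le hp1.le _ _ fun q hq => ?_) (ep_arith hlen hm)
  refine le_trans (prK_mono hp.le hp1.le fun keeps hk => ?_)
    (chebyshev hm0 hp.le hp1.le x (est1 P.Y p P.T P.N P.H (qSer q)) (by positivity)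
      (norm_est1_le hn hp hp1 hP hI hq))
  have h1 := est1_bias hn hp hp1 hP x hq
  have h2 := norm_sub_le_norm_sub_add_norm_sub (estAvg P.Y p P.T P.N P.H (qSer q) (traces x keeps))
    (exT p x (est1 P.Y p P.T P.N P.H (qSer q))) (full P.Y (List.ofFn x) q)
  have h3 : (1 : ℝ) / 2 ^ P.Et = 1 / 2 ^ (P.Et + 1) + 1 / 2 ^ (P.Et + 1) := by
    field_simp
    ring
  change _ < ‖estAvg P.Y p P.T P.N P.H (qSer q) (traces x keeps) - _‖
  linarith

end Crest.Agent.R300.UB
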