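import Crest.Agent.R300.UBNum

set_option autoImplicit false

noncomputable section

namespace Crest.Agent.R300.UB

open Complex Finset Crest.Agent.Lib.PT Crest.TraceRecon Crest.FinProb

/-! Bounds for features. -/

theorem norm_kindApp_le {κ : Kind} {g : ℕ → ℂ} {G : ℝ} (hG : 1 ≤ G) {t : ℕ} (hg : ‖g t‖ ≤ G) :
    ‖kindApp κ g t‖ ≤ G := by
  unfold kindApp
  rcases κ with _ | b
  · simpa using hG
  · cases b
    · simpa using hg
    · simpa using hg

theorem ft_slot_le {A B G : ℝ} {sl : Slot} {g : ℕ → ℂ} (hG : 1 ≤ G) (hg : ∀ t, ‖g t‖ ≤ G) (T : ℕ)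
    (hβ : Real.exp (-(sl.2.2.1 * A)) < 1) :
    ‖slotApp (val A B) g sl T‖ ≤ G / (1 - Real.exp (-(sl.2.2.1 * A))) := by
  set β := Real.exp (-(sl.2.2.1 * A)) with hβdef
  have hβ0 : 0 ≤ β := (Real.exp_pos _).le
  have hG0 : 0 ≤ G := by linarith
  unfold slotApp
  calc _ ≤ ∑ t ∈ range (cond sl.2.1 T (T + 1)), G * β ^ (T - t) := by
        refine (norm_sum_le _ _).trans (sum_le_sum fun t _ => ?_)
        rw [norm_mul, norm_pow, norm_val]
        exact mul_le_mul_of_nonneg_right (norm_kindApp_le hG (hg t)) (by positivity)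
    _ ≤ ∑ t ∈ range (T + 1), G * β ^ (T - t) := by
        refine sum_le_sum_of_subset_of_nonneg ?_ fun _ _ _ => by positivity
        apply range_subset_range.2
        cases sl.2.1 <;> simp
    _ = G * ∑ t ∈ range (T + 1), β ^ t := by
        rw [← mul_sum, ← sum_range_reflect (fun t => β ^ t) (T + 1)]
        rfl
    _ ≤ G * (1 - β)⁻¹ := by
        refine mul_le_mul_of_nonneg_left ?_ hG0
        rw [← tsum_geometric_of_lt_one hβ0 hβ]
        exact (summable_geometric_of_lt_one hβ0 hβ).sum_le_tsum _ fun _ _ => by positivity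
    _ = _ := by rw [div_eq_mul_inv]

theorem norm_nodeApp_le {A B G : ℝ} {L : Lev} {ν : Node} (hν : ν ∈ nodeSet L) (hA : 0 < A)
    (hlb : 1 ≤ L.lb) {g : ℕ → ℂ} (hG : 1 ≤ G) (hg : ∀ t, ‖g t‖ ≤ G) (T : ℕ) :
    ‖nodeApp (val A B) ν g T‖ ≤
      Real.exp (-(L.lc * A)) * G ^ 4 / (1 - Real.exp (-(L.lb * A))) ^ 3 := by
  obtain ⟨h1, h2, h3⟩ := mem_nodeSet.1 hν
  obtain ⟨s1, s2, s3, hs⟩ := List.length_eq_three.1 h2
  have hpos : 0 < (L.lb : ℝ) * A := mul_pos (by exact_mod_cast hlb) hA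
  have hβ : Real.exp (-(L.lb * A)) < 1 := by
    rw [← Real.exp_zero]; exact Real.exp_lt_exp.2 (by linarith)
  have hd : 0 < 1 - Real.exp (-(L.lb * A)) := by linarith
  have hsl : ∀ sl ∈ ν.2.2, ‖slotApp (val A B) g sl T‖ ≤ G / (1 - Real.exp (-(L.lb * A))) := by
    intro sl hsl
    have := ft_slot_le (A := A) (B := B) (sl := sl) hG hg T (by rw [(h3 sl hsl).1]; exact hβ)
    rwa [(h3 sl hsl).1] at this
  unfold nodeApp
  rw [norm_mul, norm_mul, h1, norm_val, hs]
  simp only [List.map_cons, List.map_nil, List.prod_cons, List.prod_nil, mul_one, norm_mul]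
  have a1 := hsl s1 (by rw [hs]; simp)
  have a2 := hsl s2 (by rw [hs]; simp)
  have a3 := hsl s3 (by rw [hs]; simp)
  have a0 := norm_kindApp_le (κ := ν.1) hG (hg T)
  have hG0 : 0 ≤ G := by linarith
  calc _ ≤ Real.exp (-(L.lc * A)) * G * (G / (1 - Real.exp (-(L.lb * A))) *
        (G / (1 - Real.exp (-(L.lb * A))) * (G / (1 - Real.exp (-(L.lb * A)))))) := by
        gcongr
    _ = _ := by field_simp

theorem ft_bit_le (x : List Bool) (T : ℕ) : ‖bit x T‖ ≤ 1 := by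
  unfold bit
  split_ifs <;> simp

theorem ft_one_sub_exp {b : ℝ} (h0 : 0 ≤ b) (h1 : b ≤ 1) : b / 2 ≤ 1 - Real.exp (-b) := by
  have h := Real.add_one_le_exp b
  have h2 : Real.exp (-b) ≤ 1 / (b + 1) := by
    rw [Real.exp_neg, ← one_div]
    exact one_div_le_one_div_of_le (by linarith) h
  have h3 : 1 / (b + 1) ≤ 1 - b / 2 := by
    rw [div_le_iff₀ (by linarith)]
    nlinarith
  linarith

theorem ft_gap {Y n : ℕ} {L : Lev} {zs : List Mono} {E' : ℕ} (hL : LevOK Y n L zs E') {θ : ℝ}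
    (hθ : 0 < θ) (hθ1 : θ ≤ 1) :
    θ / 2 ^ (L.g + 5) ≤ 1 - Real.exp (-(L.lb * (θ * a0 Y))) := by
  have hY : 100 ≤ Y := le_trans (by norm_num) hL.hY100
  have hY0 : (0 : ℝ) < Y := by exact_mod_cast (by omega : 0 < Y)
  have hlb : (L.lb : ℝ) = Y / 2 ^ (L.g + 5) := by
    rw [eq_div_iff (by positivity)]
    exact_mod_cast hL.hlb
  have ha := a0_pos hY
  have h32 : (32 : ℝ) ≤ 2 ^ (L.g + 5) := by
    rw [pow_add]
    have : (1 : ℝ) ≤ 2 ^ L.g := one_le_pow₀ (by norm_num)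
    nlinarith
  refine le_trans ?_ (ft_one_sub_exp (by positivity) ?_)
  · rw [hlb]
    calc θ / 2 ^ (L.g + 5) = Y / 2 ^ (L.g + 5) * (θ * (2 / Y)) / 2 := by field_simp
      _ ≤ _ := by gcongr; exact le_a0 hY
  · rw [hlb]
    calc (Y : ℝ) / 2 ^ (L.g + 5) * (θ * a0 Y) ≤ Y / 32 * (1 * (2001 / 1000 / Y)) := by
          gcongr; exact a0_le hY
      _ = 2001 / 1000 / 32 := by field_simp
      _ ≤ 1 := by norm_num

/-- Features of valid levels are bounded by one. -/
theorem norm_feat_le_one {Y n : ℕ} {ls : List Lev} (hls : ∀ L ∈ ls, ∃ zs E', LevOK Y n L zs E')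
    (x : List Bool) {νs : List Node} (h : νs ∈ feats ls) (T : ℕ) : ‖feat (ev Y) x νs T‖ ≤ 1 := by
  induction ls generalizing νs T with
  | nil =>
    have : νs = [] := by simpa [feats] using h
    subst this
    exact ft_bit_le x T
  | cons L ls ih =>
    obtain ⟨ν, hν, νs', hνs', rfl⟩ := mem_feats_cons.1 h
    obtain ⟨zs, E', hL⟩ := hls L (by simp)
    have hY : 100 ≤ Y := le_trans (by norm_num) hL.hY100
    have ih' := fun T => ih (fun L' hL' => hls L' (by simp [hL'])) hνs' T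
    have hfe : feat (ev Y) x (ν :: νs') = nodeApp (ev Y) ν (feat (ev Y) x νs') := rfl
    rw [hfe]
    have key := norm_nodeApp_le (A := a0 Y) (B := th Y) hν (a0_pos hY)
      (le_trans (by norm_num) hL.hlb') le_rfl ih' T
    rw [← ev_eq hY] at key
    refine key.trans ?_
    have h1 := ft_gap hL one_pos le_rfl
    rw [one_mul] at h1
    have hp : (0 : ℝ) < 1 / 2 ^ (L.g + 5) := by positivity
    rw [div_le_one (pow_pos (hp.trans_le h1) 3), one_pow, mul_one]
    refine le_trans ?_ (pow_le_pow_left₀ hp.le h1 3)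
    have hY0 : (0 : ℝ) < Y := by exact_mod_cast (by omega : 0 < Y)
    have h2 : 4 * ((L.g + 5 : ℕ) : ℝ) ≤ L.lc * a0 Y := by
      rw [hL.hlc]
      push_cast
      calc 4 * ((L.g : ℝ) + 5) = 2 * (L.g + 5) * Y * (2 / Y) := by field_simp; ring
        _ ≤ _ := by gcongr; exact le_a0 hY
    have h3 : (2 : ℝ) ≤ Real.exp 1 := by linarith [Real.add_one_le_exp 1]
    calc Real.exp (-(L.lc * a0 Y)) ≤ Real.exp (-((((L.g + 5) * 3 : ℕ) : ℝ) * 1)) := by
          apply Real.exp_le_exp.2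
          push_cast at h2 ⊢
          have : (0 : ℝ) ≤ L.g := Nat.cast_nonneg _
          linarith
      _ = 1 / Real.exp 1 ^ ((L.g + 5) * 3) := by rw [Real.exp_neg, Real.exp_nat_mul, one_div]
      _ ≤ 1 / 2 ^ ((L.g + 5) * 3) := by gcongr
      _ = _ := by rw [div_pow, one_pow, ← pow_mul]

/-- Features with the slowed-down valuation. -/
theorem norm_feat_dom {Y n : ℕ} {ls : List Lev} (hls : ∀ L ∈ ls, ∃ zs E', LevOK Y n L zs E')
    (x : List Bool) {νs : List Node} (h : νs ∈ feats ls) {θ : ℝ} (hθ : 0 < θ) (hθ1 : θ ≤ 1) (T : ℕ) :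
    ‖feat (val (θ * a0 Y) 0) x νs T‖ ≤ θ⁻¹ ^ (4 ^ ls.length - 1) * 2 ^ eG ls := by
  have hθi : 1 ≤ θ⁻¹ := (one_le_inv₀ hθ).2 hθ1
  induction ls generalizing νs T with
  | nil =>
    have : νs = [] := by simpa [feats] using h
    subst this
    simpa [eG, feat] using ft_bit_le x T
  | cons L ls ih =>
    obtain ⟨ν, hν, νs', hνs', rfl⟩ := mem_feats_cons.1 h
    obtain ⟨zs, E', hL⟩ := hls L (by simp)
    have hY : 100 ≤ Y := le_trans (by norm_num) hL.hY100
    have ih' := fun T => ih (fun L' hL' => hls L' (by simp [hL'])) hνs' T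
    have hfe : feat (val (θ * a0 Y) 0) x (ν :: νs') =
      nodeApp (val (θ * a0 Y) 0) ν (feat (val (θ * a0 Y) 0) x νs') := rfl
    rw [hfe]
    have ha := a0_pos hY
    have hG : 1 ≤ θ⁻¹ ^ (4 ^ ls.length - 1) * 2 ^ eG ls :=
      one_le_mul_of_one_le_of_one_le (one_le_pow₀ hθi) (one_le_pow₀ (by norm_num))
    have key := norm_nodeApp_le (A := θ * a0 Y) (B := 0) hν (by positivity)
      (le_trans (by norm_num) hL.hlb') hG ih' T
    refine key.trans ?_
    have h1 := ft_gap hL hθ hθ1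
    have hp : (0 : ℝ) < θ / 2 ^ (L.g + 5) := by positivity
    have h2 : Real.exp (-(L.lc * (θ * a0 Y))) ≤ 1 := by
      apply Real.exp_le_one_iff.2
      have : (0 : ℝ) ≤ L.lc * (θ * a0 Y) := by positivity
      linarith
    have he : 4 ^ (L :: ls).length - 1 = (4 ^ ls.length - 1) * 4 + 3 := by
      have : 1 ≤ 4 ^ ls.length := Nat.one_le_pow _ _ (by norm_num)
      rw [List.length_cons, pow_succ]
      omega
    have hg : eG (L :: ls) = eG ls * 4 + (L.g + 5) * 3 := by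
      show 4 * eG ls + 3 * (5 + L.g) = _
      ring
    calc _ ≤ 1 * (θ⁻¹ ^ (4 ^ ls.length - 1) * 2 ^ eG ls) ^ 4 / (θ / 2 ^ (L.g + 5)) ^ 3 := by
          gcongr
      _ = _ := by
          rw [he, hg, pow_add θ⁻¹, pow_add _ (eG ls * 4), pow_mul, pow_mul, pow_mul]
          generalize θ⁻¹ ^ (4 ^ ls.length - 1) = u
          generalize (2 : ℝ) ^ eG ls = v
          have : (0 : ℝ) < 2 ^ (L.g + 5) := by positivity
          generalize (2 : ℝ) ^ (L.g + 5) = w at this
          field_simp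

end Crest.Agent.R300.UB
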