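import Crest.Agent.R300.UBChain
import Crest.Agent.R300.UBComb
import Crest.Agent.R300.UBFeat
import Crest.Agent.R300.UBMob
import Crest.Agent.R300.UBInterp
import Crest.Agent.R300.UBProb

set_option autoImplicit false

noncomputable section

namespace Crest.Agent.R300.UB

open Complex Finset Crest.Agent.Lib.PT Crest.TraceRecon Crest.FinProb

/-! The bias and the size of the one-trace estimator. -/

theorem eb_dom {α : Type} (a b : α → ℂ) (A B : α → ℝ) (e : α → Bool) (w : List Bool) :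
    ∀ c : List α, (∀ s ∈ c, ‖a s‖ ≤ A s ∧ ‖b s‖ ≤ B s) →
      ‖cval w (c.map fun s => (a s, e s, b s))‖ ≤
        (cval w (c.map fun s => ((A s : ℂ), e s, (B s : ℂ)))).re := by
  induction w with
  | nil =>
    intro c _
    cases c <;> simp [cval]
  | cons σ w ih =>
    intro c hc
    cases c with
    | nil => simp [cval]
    | cons s r =>
      have h1 := ih (s :: r) hc
      have h2 := ih r fun t ht => hc t (List.mem_cons_of_mem _ ht)
      obtain ⟨ha, hb⟩ := hc s List.mem_cons_self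
      simp only [List.map_cons] at h1 ⊢
      simp only [cval]
      refine (norm_add_le _ _).trans ?_
      rw [Complex.add_re, Complex.re_ofReal_mul, norm_mul]
      refine add_le_add (mul_le_mul ha h1 (norm_nonneg _) ((norm_nonneg _).trans ha)) ?_
      unfold mk
      split_ifs
      · simp
      · rw [one_mul, one_mul, Complex.re_ofReal_mul, norm_mul]
        exact mul_le_mul hb h2 (norm_nonneg _) ((norm_nonneg _).trans hb)

theorem eb_diff {α : Type} (a : α → ℂ → ℂ) (b : α → ℂ) (e : α → Bool) (v₀ : ℂ) (w : List Bool) :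
    ∀ c : List α, (∀ s ∈ c, DifferentiableAt ℂ (a s) v₀) →
      DifferentiableAt ℂ (fun v => cval w (c.map fun s => (a s v, e s, b s))) v₀ := by
  induction w with
  | nil =>
    intro c _
    cases c <;> simp [cval]
  | cons σ w ih =>
    intro c hc
    cases c with
    | nil => simp [cval]
    | cons s r =>
      have h1 := ih (s :: r) hc
      have h2 := ih r fun t ht => hc t (List.mem_cons_of_mem _ ht)
      have ha := hc s List.mem_cons_self
      simp only [List.map_cons] at h1 ⊢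
      simp only [cval]
      exact (ha.mul h1).add (h2.const_mul _)

theorem eb_diff_sum {α : Type} (F : α → ℂ → ℂ) (v₀ : ℂ) :
    ∀ S : List α, (∀ c ∈ S, DifferentiableAt ℂ (F c) v₀) →
      DifferentiableAt ℂ (fun v => (S.map fun c => F c v).sum) v₀ := by
  intro S
  induction S with
  | nil => simp
  | cons c S ih =>
    intro h
    simp only [List.map_cons, List.sum_cons]
    exact (h c List.mem_cons_self).add (ih fun t ht => h t (List.mem_cons_of_mem _ ht))

theorem eb_norm_sum {α : Type} (F G : α → ℂ) :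
    ∀ S : List α, (∀ c ∈ S, ‖F c‖ ≤ (G c).re) → ‖(S.map F).sum‖ ≤ ((S.map G).sum).re := by
  intro S
  induction S with
  | nil => simp
  | cons c S ih =>
    intro h
    simp only [List.map_cons, List.sum_cons, Complex.add_re]
    exact (norm_add_le _ _).trans
      (add_le_add (h c List.mem_cons_self) (ih fun t ht => h t (List.mem_cons_of_mem _ ht)))

theorem eb_exT_list {n : ℕ} (p : ℝ) (x : Fin n → Bool) {α : Type} (F : α → List Bool → ℂ)
    (S : List α) : exT p x (fun w => (S.map fun c => F c w).sum) = (S.map fun c => exT p x (F c)).sum := by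
  induction S with
  | nil => simp [exT]
  | cons c S ih =>
    simp only [List.map_cons, List.sum_cons]
    rw [exT_add, ih]

theorem eb_exT_sum {n : ℕ} (p : ℝ) (x : Fin n → Bool) {α : Type} (F : α → List Bool → ℂ)
    (s : Finset α) : exT p x (fun w => ∑ j ∈ s, F j w) = ∑ j ∈ s, exT p x (F j) := by
  simp only [exT, Finset.mul_sum]
  exact Finset.sum_comm

/-- the gap variables of a top-level query -/
theorem eb_gap {n : ℕ} {p : ℝ} {P : Par} (hP : ParOK n p P) {q : Query}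
    (hq : q ∈ qlist P.l0 P.ls) :
    100 ≤ P.Y ∧ ∀ c ∈ qSer q, ∀ s ∈ c, 0 < (s.1.1 : ℝ) * a0 P.Y ∧ (s.1.1 : ℝ) * a0 P.Y ≤ P.H := by
  obtain ⟨L, ls, hls, -, -⟩ := hP.htop
  have hmem := hP.hch.mem
  have hch := hP.hch
  rw [hls] at hch
  have hL : LevOK P.Y n L (zsOf P.l0 ls) P.Ek := hch.2.1
  have hY : 100 ≤ P.Y := le_trans (by norm_num) hL.hY100
  obtain ⟨hq1, hq2⟩ := mem_qlist.1 hq
  have hq2' : q.2 ∈ contour L.lb L.kS := by
    rw [hls] at hq2; exact hq2
  obtain ⟨z1, z2, z3, z4, -⟩ := hL.contour_mem hq2'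
  have hlb := hL.hlb'
  refine ⟨hY, fun c hc s hs => ?_⟩
  have hYr : (100 : ℝ) ≤ P.Y := by exact_mod_cast hY
  obtain ⟨-, g1, g2⟩ := qSer_gap hq1 (D := 2 * P.Y) (t := 0) (b := P.Y / 32) (by positivity) le_rfl
    (fun L' hL' => by
      obtain ⟨zs, E', h'⟩ := hmem L' hL'
      have := h'.hlb
      rw [Nat.le_div_iff_mul_le (by norm_num), ← this, pow_add]
      exact Nat.mul_le_mul_left _ (Nat.le_mul_of_pos_left _ (by positivity)))
    (fun L' hL' => by
      obtain ⟨zs, E', h'⟩ := hmem L' hL'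
      left
      have h1 : (L'.kF : ℝ) ≤ 2 * P.Y := by exact_mod_cast hP.hkF L' hL'
      have h2 : (1000 : ℝ) ≤ L'.lb := by exact_mod_cast h'.hlb'
      nlinarith)
    (by
      have h1 : (10 : ℝ) * (q.2.2.natAbs : ℝ) ≤ 21 * q.2.1 := by exact_mod_cast z4
      rw [Nat.cast_natAbs, Int.cast_abs] at h1
      have h2 : (0 : ℝ) ≤ q.2.1 := by positivity
      nlinarith) c hc s hs
  have ha := a0_pos hY
  have ha' := a0_le hY
  have hs1 : (1 : ℝ) ≤ s.1.1 := by exact_mod_cast (by omega : 1 ≤ s.1.1)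
  refine ⟨by positivity, ?_⟩
  have hH1 : 1 ≤ 4 ^ P.ls.length := Nat.one_le_pow _ _ (by norm_num)
  have g3 : 32 * s.1.1 ≤ P.H * P.Y := by
    rw [hP.hH]
    obtain ⟨k, hk⟩ : ∃ k, 4 ^ P.ls.length = k + 1 := ⟨4 ^ P.ls.length - 1, by omega⟩
    rw [hk] at g2 ⊢
    rw [Nat.add_sub_cancel] at g2
    have h1 : k * (32 * (P.Y / 32)) ≤ k * P.Y := Nat.mul_le_mul_left _ (Nat.mul_div_le _ _)
    nlinarith
  have g4 : (32 : ℝ) * s.1.1 ≤ P.H * P.Y := by exact_mod_cast g3
  have g5 : a0 P.Y * P.Y ≤ 2001 / 1000 := by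
    rwa [le_div_iff₀ (by linarith)] at ha'
  have hH0 : (0 : ℝ) ≤ P.H := by positivity
  nlinarith [mul_le_mul_of_nonneg_right g4 ha.le, mul_le_mul_of_nonneg_left g5 hH0]

/-- the bound on the unit circle -/
theorem eb_circle {n : ℕ} {p : ℝ} {P : Par} (hP : ParOK n p P) (x : Fin n → Bool) {q : Query}
    (hq : q ∈ qlist P.l0 P.ls) {v : ℂ} (hv : ‖v‖ = 1) :
    ‖(1 - v) ^ (2 * P.H) * ((qSer q).map fun c => cval (List.ofFn x) (mobChain P.Y v c)).sum‖ ≤
      2 ^ (Nat.size n + P.H * (2 * P.ls.length + 6) + eG P.ls) := by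
  obtain ⟨hY, hgap⟩ := eb_gap hP hq
  have hH1 : 1 ≤ P.H := by rw [hP.hH]; exact Nat.one_le_pow _ _ (by norm_num)
  have hH1r : (1 : ℝ) ≤ P.H := by exact_mod_cast hH1
  by_cases h1 : v = 1
  · subst h1
    rw [sub_self, zero_pow (by omega), zero_mul, norm_zero]
    positivity
  have hv0 : 0 < ‖1 - v‖ := norm_pos_iff.2 (sub_ne_zero.2 (Ne.symm h1))
  have hv2 : ‖1 - v‖ ≤ 2 := by
    refine (norm_sub_le _ _).trans ?_
    rw [norm_one, hv]; norm_num
  set C : ℝ := 18 * (1 + 2 * P.H) with hC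
  have hC0 : 0 < C := by positivity
  set θ : ℝ := ‖1 - v‖ ^ 2 / C with hθ
  have hθ0 : 0 < θ := by positivity
  have hθ1 : θ ≤ 1 := by
    rw [hθ, div_le_one hC0]
    nlinarith
  have ha := a0_pos hY
  have hS : ‖((qSer q).map fun c => cval (List.ofFn x) (mobChain P.Y v c)).sum‖ ≤
      n * (θ⁻¹ ^ (P.H - 1) * 2 ^ eG P.ls) := by
    refine (eb_norm_sum _ (fun c => cval (List.ofFn x) (evC (val (θ * a0 P.Y) 0) c)) _
      fun c hc => ?_).trans ?_
    · have e : evC (val (θ * a0 P.Y) 0) c = c.map fun s =>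
          (((Real.exp (-(s.1.1 * (θ * a0 P.Y))) : ℝ) : ℂ), s.2.1,
            ((Real.exp (-(s.2.2.1 * (θ * a0 P.Y))) : ℝ) : ℂ)) := by
        simp only [evC, val_real]
      rw [e]
      refine eb_dom (fun s : Stp => mob (ev P.Y s.1) v) (fun s => ev P.Y s.2.2) _ _ (fun s => s.2.1) _ c
        fun s hs => ⟨?_, ?_⟩
      · have := norm_mob_le (z := ev P.Y s.1) (hgap c hc s hs).1 (hgap c hc s hs).2
          (by rw [ev_eq hY, norm_val]) hv
        convert this using 3
        rw [hθ, hC]; ring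
      · rw [ev_eq hY, norm_val, Real.exp_le_exp, neg_le_neg_iff]
        refine mul_le_mul_of_nonneg_left ?_ (Nat.cast_nonneg _)
        nlinarith
    · rw [qSer_spec]
      refine (Complex.re_le_norm _).trans ((norm_sum_le _ _).trans ?_)
      refine (Finset.sum_le_card_nsmul _ _ (θ⁻¹ ^ (P.H - 1) * 2 ^ eG P.ls) fun T _ => ?_).trans ?_
      · rw [norm_mul, norm_pow]
        have f1 := norm_feat_dom hP.hch.mem (List.ofFn x) (mem_qlist.1 hq).1 hθ0 hθ1 T
        rw [← hP.hH] at f1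
        have f2 : ‖val (θ * a0 P.Y) 0 q.2‖ ^ T ≤ 1 := by
          refine pow_le_one₀ (norm_nonneg _) ?_
          rw [norm_val, Real.exp_le_one_iff, neg_nonpos]
          positivity
        exact (mul_le_of_le_one_right (norm_nonneg _) f2).trans f1
      · simp
  have e1 : ‖1 - v‖ ^ (2 * P.H) = θ ^ (P.H - 1) * θ * C ^ P.H := by
    rw [← pow_succ, Nat.sub_add_cancel hH1, ← mul_pow, pow_mul, hθ, div_mul_cancel₀ _ hC0.ne']
  have e2 : θ ^ (P.H - 1) * θ⁻¹ ^ (P.H - 1) = 1 := by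
    rw [← mul_pow, mul_inv_cancel₀ hθ0.ne', one_pow]
  have hn : (n : ℝ) ≤ 2 ^ Nat.size n := by exact_mod_cast (Nat.lt_size_self n).le
  have hC2 : C ≤ 2 ^ (2 * P.ls.length + 6) := by
    have : (P.H : ℝ) = 2 ^ (2 * P.ls.length) := by
      rw [hP.hH, pow_mul]; norm_num
    rw [pow_add, ← this, hC]
    linarith
  have hC3 : C ^ P.H ≤ 2 ^ (P.H * (2 * P.ls.length + 6)) := by
    rw [mul_comm P.H, pow_mul]
    exact pow_le_pow_left₀ hC0.le hC2 _
  rw [norm_mul, norm_pow, e1]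
  calc θ ^ (P.H - 1) * θ * C ^ P.H * _
      ≤ θ ^ (P.H - 1) * θ * C ^ P.H * (n * (θ⁻¹ ^ (P.H - 1) * 2 ^ eG P.ls)) := by gcongr
    _ = (θ ^ (P.H - 1) * θ⁻¹ ^ (P.H - 1)) * θ * (n * C ^ P.H * 2 ^ eG P.ls) := by ring
    _ ≤ 1 * 1 * (2 ^ Nat.size n * 2 ^ (P.H * (2 * P.ls.length + 6)) * 2 ^ eG P.ls) := by
        rw [e2]; gcongr
    _ = _ := by rw [pow_add, pow_add, one_mul, one_mul]

/-- Bias. -/
theorem est1_bias {n : ℕ} {p : ℝ} {P : Par} (hn : 2 ≤ n) (hp : 0 < p) (hp1 : p < 1)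
    (hP : ParOK n p P) (x : Fin n → Bool) {q : Query} (hq : q ∈ qlist P.l0 P.ls) :
    ‖exT p x (est1 P.Y p P.T P.N P.H (qSer q)) - full P.Y (List.ofFn x) q‖ ≤ 1 / 2 ^ (P.Et + 1) := by
  obtain ⟨hY, hgap⟩ := eb_gap hP hq
  have hlt : ∀ c ∈ qSer q, ∀ s ∈ c, ‖ev P.Y s.1‖ < 1 := fun c hc s hs => by
    rw [ev_eq hY, norm_val, Real.exp_lt_one_iff, neg_lt_zero]
    exact (hgap c hc s hs).1
  obtain ⟨D, Q, -, -, hT, -⟩ := hP.hD
  have hT1 : 1 ≤ P.T := by
    rcases Nat.eq_zero_or_pos P.T with h0 | h0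
    · rw [h0] at hT
      have : (0 : ℝ) ≤ D := Nat.cast_nonneg _
      simp only [Nat.cast_zero, zero_mul] at hT
      linarith
    · exact h0
  have hN := hP.hN
  set E := Nat.size n + P.H * (2 * P.ls.length + 6) + eG P.ls with hE
  have hN1 : 1 ≤ P.N := le_trans (Nat.mul_pos (by omega) (by omega)) hN
  have key := interp hT1 hN1
    (Φ := fun v => (1 - v) ^ (2 * P.H) *
      ((qSer q).map fun c => cval (List.ofFn x) (mobChain P.Y v c)).sum) (M := 2 ^ E)
    (fun v hv => by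
      refine DifferentiableAt.mul (by fun_prop) ?_
      refine eb_diff_sum (fun c v => cval (List.ofFn x) (mobChain P.Y v c)) v _ fun c hc => ?_
      exact eb_diff (fun s : Stp => mob (ev P.Y s.1)) (fun s => ev P.Y s.2.2) (fun s => s.2.1) v _ c
        fun s hs => mob_differentiableAt (hlt c hc s hs) ((Complex.re_le_norm v).trans hv))
    (fun v hv => eb_circle hP x hq hv)
  have e0 : ((qSer q).map fun c => cval (List.ofFn x) (mobChain P.Y 0 c)).sum =
      full P.Y (List.ofFn x) q := by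
    rw [full, ev_eq hY, ← qSer_spec, ← ev_eq hY]
    congr 1
    refine List.map_congr_left fun c hc => ?_
    congr 1
    refine List.map_congr_left fun s hs => ?_
    rw [mob_zero (hlt c hc s hs)]
  have e1 : exT p x (est1 P.Y p P.T P.N P.H (qSer q)) =
      ∑ j ∈ range (P.N + 1), (bcoef P.T P.N j : ℂ) * ((1 - (vnode P.T P.N j : ℂ)) ^ (2 * P.H) *
        ((qSer q).map fun c => cval (List.ofFn x) (mobChain P.Y (vnode P.T P.N j : ℂ) c)).sum) := by
    unfold est1
    rw [eb_exT_sum]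
    refine Finset.sum_congr rfl fun j _ => ?_
    rw [exT_const_mul, eb_exT_list]
    simp only [exT_cval hp.ne', acoef]
    push_cast
    ring
  simp only [sub_zero, one_pow, one_mul] at key
  rw [e0, ← e1, norm_sub_rev] at key
  refine key.trans ?_
  have hTr : (0 : ℝ) < P.T := by exact_mod_cast hT1
  have hNr : (2 : ℝ) * P.T * ((E + P.Et + 1 : ℕ) : ℝ) ≤ P.N := by exact_mod_cast hN
  have h1 : ((E + P.Et + 1 : ℕ) : ℝ) ≤ (P.N + 1 : ℝ) / (2 * P.T) := by
    rw [le_div_iff₀ (by positivity)]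
    linarith
  have h2 : (2 : ℝ) ^ (E + P.Et + 1) ≤ Real.exp ((P.N + 1 : ℝ) / (2 * P.T)) := by
    refine le_trans ?_ (Real.exp_le_exp.2 h1)
    rw [← mul_one ((E + P.Et + 1 : ℕ) : ℝ), Real.exp_nat_mul]
    refine pow_le_pow_left₀ (by norm_num) ?_ _
    have := Real.add_one_le_exp 1
    linarith
  rw [Real.exp_neg, ← div_eq_mul_inv, div_le_div_iff₀ (Real.exp_pos _) (by positivity), one_mul,
    ← pow_add, ← add_assoc]
  exact h2

end Crest.Agent.R300.UB
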