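import Crest.Agent.R300.UBJenAux

set_option autoImplicit false

noncomputable section

namespace Crest.Agent.R300.UB

open Complex Finset Crest.Agent.Lib.PT Crest.TraceRecon Crest.FinProb

/-- Poisson–Jensen inequality with step weights. -/
theorem jensen_core {N kT : ℕ} {D : ℕ → ℂ} {a c ϑ B : ℝ} {w : ℤ → ℝ} (ha : 0 < a) (ha' : a ≤ 3 / 2)
    (hϑ : 0 < ϑ) (hϑa : ϑ ≤ a) (hk : kT * ϑ ≤ 100 * a) (hπ : (kT + 1 / 2) * ϑ ≤ Real.pi)
    (hB : 0 < B) (hD : ∑ s ∈ range N, ‖D s‖ ≤ B)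
    (hw : ∀ k : ℤ, k.natAbs ≤ kT → 0 < w k ∧ w k ≤ B ∧ N * B * ϑ ≤ w k)
    (hL : ∑ k ∈ Icc (-(kT : ℤ)) kT,
      ‖∑ s ∈ range N, D s * Complex.exp ((k : ℂ) * (ϑ : ℂ) * (s : ℂ) * I)‖ ^ 2 / w k ^ 2 ≤
        6 * (2 * kT + 1)) :
    ‖∑ s ∈ range N, D s * Complex.exp (-(a : ℂ) + (c : ℂ) * I) ^ s‖ ≤
      40 * B * Real.exp (-∑ k ∈ Icc (-(kT : ℤ)) kT, cellMass a c ϑ k * Real.log (B / w k)) := by
  by_cases h0 : ∑ s ∈ range N, D s * Complex.exp (-(a : ℂ) + (c : ℂ) * I) ^ s = 0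
  · rw [h0, norm_zero]; positivity
  obtain ⟨Λ, h1, h2, h3⟩ := jn_sub ha c N D h0
  have hpk : ∀ u v, IntervalIntegrable (pk a c) MeasureTheory.volume u v :=
    fun u v => (jn_pk_cont ha c).intervalIntegrable _ _
  set e : ℝ := (kT + 1 / 2) * ϑ with he
  set X : ℤ → ℝ := fun k =>
    ‖∑ s ∈ range N, D s * Complex.exp ((k : ℂ) * (ϑ : ℂ) * (s : ℂ) * I)‖ ^ 2 / w k ^ 2 with hX
  have hout : ∀ u v, u ≤ v → ∫ θ in u..v, pk a c θ * Λ θ ≤
      (∫ θ in u..v, pk a c θ) * (Real.log B + (1 / 1600 - 1) / 2 + Real.log 40) := fun u v huv =>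
    jn_piece ha h1 h2 huv hB one_pos fun θ _ => by
      rw [one_mul]; exact pow_le_pow_left₀ (norm_nonneg _) (jn_sup N D hD θ) 2
  have hmass : ∀ k : ℤ, 0 ≤ cellMass a c ϑ k ∧ cellMass a c ϑ k ≤ ϑ * ((1 + 2 / a) / (2 * Real.pi)) := by
    intro k
    have hle : ((k : ℝ) - 1 / 2) * ϑ ≤ ((k : ℝ) + 1 / 2) * ϑ := by nlinarith
    refine ⟨intervalIntegral.integral_nonneg hle fun θ _ => jn_pk_nonneg ha c θ, ?_⟩
    have := intervalIntegral.integral_mono_on hle (hpk _ _)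
      (intervalIntegrable_const (c := (1 + 2 / a) / (2 * Real.pi))) fun θ _ => jn_pk_le ha c θ
    rw [intervalIntegral.integral_const, smul_eq_mul] at this
    refine this.trans (le_of_eq ?_)
    ring
  have hcell : ∀ k ∈ Icc (-(kT : ℤ)) kT,
      ∫ θ in ((k : ℝ) - 1 / 2) * ϑ..((k : ℝ) + 1 / 2) * ϑ, pk a c θ * Λ θ ≤
        cellMass a c ϑ k * (Real.log B + (1 / 1600 - 1) / 2 + Real.log 40) -
          cellMass a c ϑ k * Real.log (B / w k) +
          ϑ * ((1 + 2 / a) / (2 * Real.pi)) / 1600 * X k := by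
    intro k hk
    obtain ⟨w1, w2, w3⟩ := hw k (by rw [mem_Icc] at hk; omega)
    have hle : ((k : ℝ) - 1 / 2) * ϑ ≤ ((k : ℝ) + 1 / 2) * ϑ := by nlinarith
    have hX0 : 0 ≤ X k := by simp only [hX]; positivity
    have := jn_piece ha h1 h2 hle w1 (show 0 < 2 * X k + 1 by positivity) fun θ hθ => by
      have l1 := jn_lip N D hD θ (k * ϑ)
      have l2 : |θ - k * ϑ| ≤ ϑ / 2 := abs_le.2 ⟨by linarith [hθ.1], by linarith [hθ.2]⟩
      have l3 : (N : ℝ) * B * |θ - k * ϑ| ≤ w k / 2 := by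
        calc _ ≤ (N : ℝ) * B * (ϑ / 2) := by gcongr
          _ ≤ _ := by linarith
      push_cast at l1
      set y := ‖∑ s ∈ range N, D s * Complex.exp ((k : ℂ) * (ϑ : ℂ) * (s : ℂ) * I)‖ with hy
      have l4 : X k * w k ^ 2 = y ^ 2 := div_mul_cancel₀ _ (pow_pos w1 2).ne'
      have l5 := pow_le_pow_left₀ (norm_nonneg _) (l1.trans (add_le_add_right l3 y)) 2
      nlinarith [sq_nonneg (y - w k / 2), sq_nonneg (w k)]
    refine this.trans ?_
    rw [Real.log_div hB.ne' w1.ne']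
    have m1 := mul_le_mul_of_nonneg_right (hmass k).2 hX0
    change cellMass a c ϑ k * _ ≤ _
    nlinarith
  have hsum := sum_le_sum hcell
  rw [jn_cells kT ϑ h1, sum_add_distrib, sum_sub_distrib, ← sum_mul, ← mul_sum] at hsum
  have hcm : ∑ k ∈ Icc (-(kT : ℤ)) kT, cellMass a c ϑ k = ∫ θ in -e..e, pk a c θ :=
    jn_cells kT ϑ hpk
  have s1 := intervalIntegral.integral_add_adjacent_intervals (h1 (-Real.pi) (-e)) (h1 (-e) e)
  have s2 := intervalIntegral.integral_add_adjacent_intervals (h1 (-Real.pi) e) (h1 e Real.pi)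
  have t1 := intervalIntegral.integral_add_adjacent_intervals (hpk (-Real.pi) (-e)) (hpk (-e) e)
  have t2 := intervalIntegral.integral_add_adjacent_intervals (hpk (-Real.pi) e) (hpk e Real.pi)
  have o1 := hout (-Real.pi) (-e) (by linarith)
  have o2 := hout e Real.pi hπ
  have tot := jn_total ha c
  have hP : ϑ * ((1 + 2 / a) / (2 * Real.pi)) / 1600 * ∑ k ∈ Icc (-(kT : ℤ)) kT, X k ≤
      (1 - 1 / 1600) / 2 := by
    have hpi := Real.pi_gt_d2
    have b1 : (2 * kT + 1) * ϑ ≤ 201 * a := by linarith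
    calc _ ≤ ϑ * ((1 + 2 / a) / (2 * Real.pi)) / 1600 * (6 * (2 * kT + 1)) := by gcongr
      _ = ((2 * kT + 1) * ϑ) * (1 + 2 / a) * (6 / (3200 * Real.pi)) := by field_simp; norm_num
      _ ≤ (201 * a) * (1 + 2 / a) * (6 / (3200 * 3.14)) := by gcongr
      _ = 201 * (a + 2) * (6 / (3200 * 3.14)) := by field_simp
      _ ≤ _ := by nlinarith
  rw [hcm] at hsum
  have fin : Real.log ‖∑ s ∈ range N, D s * Complex.exp (-(a : ℂ) + (c : ℂ) * I) ^ s‖ ≤
      Real.log 40 + Real.log B - ∑ k ∈ Icc (-(kT : ℤ)) kT, cellMass a c ϑ k * Real.log (B / w k) := by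
    set K := Real.log B + (1 / 1600 - 1) / 2 + Real.log 40 with hK
    have : (∫ θ in -Real.pi..-e, pk a c θ) * K + (∫ θ in -e..e, pk a c θ) * K +
        (∫ θ in e..Real.pi, pk a c θ) * K = K := by
      rw [← add_mul, ← add_mul, t1, t2, tot, one_mul]
    linarith
  have := Real.exp_le_exp.2 fin
  rwa [Real.exp_log (norm_pos_iff.2 h0), sub_eq_add_neg, Real.exp_add, Real.exp_add,
    Real.exp_log (by norm_num), Real.exp_log hB] at this

end Crest.Agent.R300.UB
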