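import Crest.Agent.R300.UBDefs

set_option autoImplicit false

noncomputable section

namespace Crest.Agent.R300.UB

open Complex Finset Crest.Agent.Lib.PT Crest.TraceRecon Crest.FinProb

open MeasureTheory

lemma jn_den_pos {a : ℝ} (ha : 0 < a) (φ : ℝ) : 0 < Real.cosh a - Real.cos φ := by
  have h1 := Real.cos_le_one φ
  have h2 : 1 < Real.cosh a := Real.one_lt_cosh.2 ha.ne'
  linarith

lemma jn_pk_cont {a : ℝ} (ha : 0 < a) (c : ℝ) : Continuous (pk a c) := by
  unfold pk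
  exact Continuous.div_const (continuous_const.div (by fun_prop) fun θ => (jn_den_pos ha _).ne') _

lemma jn_pk_nonneg {a : ℝ} (ha : 0 < a) (c θ : ℝ) : 0 ≤ pk a c θ := by
  unfold pk
  have := jn_den_pos ha (θ - c)
  have := Real.sinh_nonneg_iff.2 ha.le
  have := Real.pi_pos
  positivity

lemma jn_pk_le {a : ℝ} (ha : 0 < a) (c θ : ℝ) : pk a c θ ≤ (1 + 2 / a) / (2 * Real.pi) := by
  unfold pk
  refine div_le_div_of_nonneg_right ?_ (by have := Real.pi_pos; positivity)
  have h1 := Real.cos_le_one (θ - c)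
  have h3 := Real.sinh_nonneg_iff.2 ha.le
  rw [div_le_iff₀ (jn_den_pos ha _)]
  have h4 : a * Real.sinh a ≤ (a + 2) * (Real.cosh a - 1) := by
    rw [Real.sinh_eq, Real.cosh_eq, Real.exp_neg]
    have e1 := Real.add_one_le_exp a
    have e2 := Real.exp_pos a
    set e := Real.exp a
    have : (a + 2) * ((e + e⁻¹) / 2 - 1) - a * ((e - e⁻¹) / 2) = (e - 1) * (e - 1 - a) / e := by
      field_simp; ring
    have h5 : 0 ≤ (e - 1) * (e - 1 - a) / e := by
      apply div_nonneg (mul_nonneg (by linarith) (by linarith)) e2.le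
    linarith
  have h5 : (1 + 2 / a) = (a + 2) / a := by field_simp
  rw [h5, div_mul_eq_mul_div, le_div_iff₀ ha]
  nlinarith

lemma jn_norm_z0 (a c : ℝ) : ‖Complex.exp (-(a : ℂ) + (c : ℂ) * I)‖ = Real.exp (-a) := by
  rw [Complex.norm_exp]; simp

lemma jn_kernel {a : ℝ} (ha : 0 < a) (c θ : ℝ) :
    (Complex.re ∘ herglotzRieszKernel 0 (Complex.exp (-(a : ℂ) + (c : ℂ) * I))) (circleMap 0 1 θ) =
      2 * Real.pi * pk a c θ := by
  rw [← poissonKernel_eq_re_herglotzRieszKernel, poissonKernel_def]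
  simp only [sub_zero]
  rw [jn_norm_z0, norm_circleMap_zero]
  have h1 : ‖circleMap 0 1 θ - Complex.exp (-(a : ℂ) + (c : ℂ) * I)‖ ^ 2 =
      1 + Real.exp (-a) ^ 2 - 2 * Real.exp (-a) * Real.cos (θ - c) := by
    rw [← Complex.normSq_eq_norm_sq, Complex.normSq_apply]
    simp only [circleMap, sub_re, sub_im, Complex.exp_re, Complex.exp_im]
    simp [Complex.exp_re, Complex.exp_im, Real.cos_sub]
    nlinarith [Real.sin_sq_add_cos_sq θ, Real.sin_sq_add_cos_sq c]
  rw [h1]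
  unfold pk
  have h2 := jn_den_pos ha (θ - c)
  have h3 := Real.pi_pos
  have e2 := Real.exp_pos a
  have h4 : 1 + Real.exp (-a) ^ 2 - 2 * Real.exp (-a) * Real.cos (θ - c) =
      2 * Real.exp (-a) * (Real.cosh a - Real.cos (θ - c)) := by
    rw [Real.cosh_eq, Real.exp_neg]; field_simp
  have h5 : |(1 : ℝ)| ^ 2 - Real.exp (-a) ^ 2 = 2 * Real.exp (-a) * Real.sinh a := by
    rw [Real.sinh_eq, Real.exp_neg, abs_one]; field_simp
  rw [h4, h5]
  have := Real.exp_pos (-a)
  field_simp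

lemma jn_avg {a : ℝ} (ha : 0 < a) (c : ℝ) (g : ℂ → ℝ) :
    Real.circleAverage ((Complex.re ∘ herglotzRieszKernel 0
      (Complex.exp (-(a : ℂ) + (c : ℂ) * I))) • g) 0 1 =
      ∫ θ in -Real.pi..Real.pi, pk a c θ * g (circleMap 0 1 θ) := by
  rw [Real.circleAverage_eq_integral_add (-Real.pi),
    intervalIntegral.integral_comp_add_right
      (fun θ => ((Complex.re ∘ herglotzRieszKernel 0 (Complex.exp (-(a : ℂ) + (c : ℂ) * I))) • g)
        (circleMap 0 1 θ))]
  simp only [Pi.smul_apply', jn_kernel ha, smul_eq_mul, mul_assoc]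
  rw [intervalIntegral.integral_const_mul, intervalIntegral.integral_const_mul, zero_add,
    show 2 * Real.pi + -Real.pi = Real.pi by ring]
  have := Real.pi_pos
  field_simp

lemma jn_mem {a : ℝ} (ha : 0 < a) (c : ℝ) :
    Complex.exp (-(a : ℂ) + (c : ℂ) * I) ∈ Metric.ball (0 : ℂ) 1 := by
  rw [mem_ball_zero_iff, jn_norm_z0, Real.exp_lt_one_iff]
  linarith

lemma jn_total {a : ℝ} (ha : 0 < a) (c : ℝ) : ∫ θ in -Real.pi..Real.pi, pk a c θ = 1 := by
  have h1 := jn_avg ha c (fun _ => 1)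
  have h2 := InnerProductSpace.HarmonicOnNhd.circleAverage_re_herglotzRieszKernel_smul
    (f := fun _ => (1 : ℝ)) (c := 0) (R := 1)
    (fun x _ => InnerProductSpace.harmonicAt_const 1) (jn_mem ha c)
  rw [h1] at h2
  simpa using h2

lemma jn_int_log (ρ : ℂ) (u v : ℝ) :
    IntervalIntegrable (fun θ => Real.log ‖circleMap 0 1 θ - ρ‖) volume u v := by
  have h : IntervalIntegrable (fun θ => Real.log ‖circleMap 0 1 θ - ρ‖) volume 0 (2 * Real.pi) :=
    circleIntegrable_log_norm_sub_const (a := ρ) (c := 0) 1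
  have hp : Function.Periodic (fun θ => Real.log ‖circleMap 0 1 θ - ρ‖) (2 * Real.pi) :=
    fun x => by simp only [periodic_circleMap 0 1 x]
  exact hp.intervalIntegrable₀ (by have := Real.pi_pos; positivity) h u v

lemma jn_root {a : ℝ} (ha : 0 < a) (c : ℝ) {ρ : ℂ} (hρ : Complex.exp (-(a : ℂ) + (c : ℂ) * I) ≠ ρ) :
    Real.log ‖Complex.exp (-(a : ℂ) + (c : ℂ) * I) - ρ‖ ≤
      ∫ θ in -Real.pi..Real.pi, pk a c θ * Real.log ‖circleMap 0 1 θ - ρ‖ := by
  have hz := jn_mem ha c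
  set z := Complex.exp (-(a : ℂ) + (c : ℂ) * I) with hzd
  rw [← jn_avg ha c (fun w => Real.log ‖w - ρ‖)]
  rcases lt_trichotomy ‖ρ‖ 1 with h | h | h
  · have hne : ∀ w : ℂ, ‖w‖ ≤ 1 → 1 - (starRingEnd ℂ) ρ * w ≠ 0 := by
      intro w hw h0
      have h1 : (starRingEnd ℂ) ρ * w = 1 := by linear_combination -h0
      have h2 := congrArg norm h1
      rw [norm_mul, Complex.norm_conj, norm_one] at h2
      nlinarith [norm_nonneg ρ, norm_nonneg w]
    have h2 := InnerProductSpace.HarmonicOnNhd.circleAverage_re_herglotzRieszKernel_smul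
      (f := fun w => Real.log ‖1 - (starRingEnd ℂ) ρ * w‖) (c := 0) (R := 1)
      (fun x hx => AnalyticAt.harmonicAt_log_norm (f := fun w => 1 - (starRingEnd ℂ) ρ * w)
        (by fun_prop) (hne x (mem_closedBall_zero_iff.1 hx))) hz
    have h3 : Real.circleAverage ((Complex.re ∘ herglotzRieszKernel 0 z) •
        fun w => Real.log ‖w - ρ‖) 0 1 = Real.circleAverage ((Complex.re ∘ herglotzRieszKernel 0 z) •
        fun w => Real.log ‖1 - (starRingEnd ℂ) ρ * w‖) 0 1 := by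
      apply Real.circleAverage_congr_sphere
      intro w hw
      rw [abs_one, mem_sphere_zero_iff_norm] at hw
      have e : 1 - (starRingEnd ℂ) ρ * w = w * (starRingEnd ℂ) (w - ρ) := by
        rw [map_sub, mul_sub, Complex.mul_conj, Complex.normSq_eq_norm_sq, hw]
        push_cast; ring
      simp only [Pi.smul_apply', e, norm_mul, hw, one_mul, Complex.norm_conj]
    rw [h3, h2]
    apply Real.log_le_log (norm_pos_iff.2 (sub_ne_zero.2 hρ))
    have hz1 : ‖z‖ < 1 := mem_ball_zero_iff.1 hz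
    rw [← sq_le_sq₀ (norm_nonneg _) (norm_nonneg _), ← Complex.normSq_eq_norm_sq,
      ← Complex.normSq_eq_norm_sq]
    have e1 : normSq z < 1 := by rw [Complex.normSq_eq_norm_sq]; nlinarith [norm_nonneg z]
    have e2 : normSq ρ < 1 := by rw [Complex.normSq_eq_norm_sq]; nlinarith [norm_nonneg ρ]
    have e3 : normSq (1 - (starRingEnd ℂ) ρ * z) - normSq (z - ρ) =
        (1 - normSq z) * (1 - normSq ρ) := by
      simp only [normSq_apply, sub_re, sub_im, mul_re, mul_im, one_re, one_im, conj_re, conj_im]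
      ring
    nlinarith [mul_pos (sub_pos.2 e1) (sub_pos.2 e2)]
  · exact (circleAverage_re_herglotzRieszKernel_mul_log₀ (mem_sphere_zero_iff_norm.2 h) hz).ge
  · refine (InnerProductSpace.HarmonicOnNhd.circleAverage_re_herglotzRieszKernel_smul
      (f := fun w => Real.log ‖w - ρ‖) (c := 0) (R := 1)
      (fun x hx => AnalyticAt.harmonicAt_log_norm (f := fun w => w - ρ) (by fun_prop) ?_) hz).ge
    intro h0
    have := mem_closedBall_zero_iff.1 hx
    rw [sub_eq_zero.1 h0] at this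
    linarith

lemma jn_factor (N : ℕ) (D : ℕ → ℂ) :
    ∃ (C : ℂ) (l : List ℂ), ∀ z : ℂ, ∑ s ∈ range N, D s * z ^ s = C * (l.map fun ρ => z - ρ).prod := by
  set P : Polynomial ℂ := ∑ s ∈ range N, Polynomial.C (D s) * Polynomial.X ^ s with hP
  refine ⟨P.leadingCoeff, P.roots.toList, fun z => ?_⟩
  have h1 := Polynomial.C_leadingCoeff_mul_prod_multiset_X_sub_C
    (IsAlgClosed.card_roots_eq_natDegree (p := P))
  have h2 := congrArg (Polynomial.eval z) h1
  rw [Polynomial.eval_mul, Polynomial.eval_C, Polynomial.eval_multiset_prod, Multiset.map_map] at h2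
  have h3 : Polynomial.eval z P = ∑ s ∈ range N, D s * z ^ s := by
    rw [hP, Polynomial.eval_finsetSum]; simp
  rw [← h3, ← h2, ← Multiset.prod_coe, ← Multiset.map_coe, Multiset.coe_toList]
  simp

lemma jn_log_prod (l : List ℂ) {z : ℂ} (hz : z ∉ l) :
    Real.log ‖(l.map fun ρ => z - ρ).prod‖ = (l.map fun ρ => Real.log ‖z - ρ‖).sum ∧
      (l.map fun ρ => z - ρ).prod ≠ 0 := by
  induction l with
  | nil => simp
  | cons ρ l ih =>
    simp only [List.mem_cons, not_or] at hz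
    obtain ⟨h1, h2⟩ := ih hz.2
    have h3 : z - ρ ≠ 0 := sub_ne_zero.2 hz.1
    simp only [List.map_cons, List.prod_cons, List.sum_cons, norm_mul]
    exact ⟨by rw [Real.log_mul (norm_ne_zero_iff.2 h3) (norm_ne_zero_iff.2 h2), h1],
      mul_ne_zero h3 h2⟩

/-- Poisson–Jensen inequality with an integrable version `Λ` of `log |F|`. -/
lemma jn_sub {a : ℝ} (ha : 0 < a) (c : ℝ) (N : ℕ) (D : ℕ → ℂ)
    (h0 : ∑ s ∈ range N, D s * Complex.exp (-(a : ℂ) + (c : ℂ) * I) ^ s ≠ 0) :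
    ∃ Λ : ℝ → ℝ, (∀ u v, IntervalIntegrable (fun θ => pk a c θ * Λ θ) volume u v) ∧
      (∀ᵐ θ, ∑ s ∈ range N, D s * circleMap 0 1 θ ^ s ≠ 0 ∧
        Λ θ = Real.log ‖∑ s ∈ range N, D s * circleMap 0 1 θ ^ s‖) ∧
      Real.log ‖∑ s ∈ range N, D s * Complex.exp (-(a : ℂ) + (c : ℂ) * I) ^ s‖ ≤
        ∫ θ in -Real.pi..Real.pi, pk a c θ * Λ θ := by
  obtain ⟨C, l, hF⟩ := jn_factor N D
  set z := Complex.exp (-(a : ℂ) + (c : ℂ) * I) with hzd
  rw [hF] at h0
  have hC : C ≠ 0 := left_ne_zero_of_mul h0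
  have hzl : z ∉ l := fun h => right_ne_zero_of_mul h0
    (List.prod_eq_zero (List.mem_map.2 ⟨z, h, sub_self z⟩))
  have hpk := jn_pk_cont ha c
  have key : ∀ l : List ℂ, z ∉ l →
      (∀ u v, IntervalIntegrable
        (fun θ => pk a c θ * (l.map fun ρ => Real.log ‖circleMap 0 1 θ - ρ‖).sum) volume u v) ∧
      (l.map fun ρ => Real.log ‖z - ρ‖).sum ≤ ∫ θ in -Real.pi..Real.pi,
        pk a c θ * (l.map fun ρ => Real.log ‖circleMap 0 1 θ - ρ‖).sum := by
    intro l
    induction l with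
    | nil => intro _; simp
    | cons ρ l ih =>
      intro hz
      simp only [List.mem_cons, not_or] at hz
      obtain ⟨h1, h2⟩ := ih hz.2
      have h3 := fun u v => (jn_int_log ρ u v).continuousOn_mul hpk.continuousOn
      simp only [List.map_cons, List.sum_cons, mul_add]
      refine ⟨fun u v => (h3 u v).add (h1 u v), ?_⟩
      rw [intervalIntegral.integral_add (h3 _ _) (h1 _ _)]
      exact add_le_add (jn_root ha c hz.1) h2
  obtain ⟨k1, k2⟩ := key l hzl
  have k3 : ∀ u v, IntervalIntegrable (fun θ => pk a c θ * Real.log ‖C‖) volume u v :=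
    fun u v => (hpk.mul continuous_const).intervalIntegrable _ _
  refine ⟨fun θ => Real.log ‖C‖ + (l.map fun ρ => Real.log ‖circleMap 0 1 θ - ρ‖).sum, ?_, ?_, ?_⟩
  · intro u v
    simp only [mul_add]
    exact (k3 u v).add (k1 u v)
  · have hc : (circleMap 0 1 ⁻¹' {ρ | ρ ∈ l}).Countable :=
      (List.finite_toSet l).countable.preimage_circleMap 0 one_ne_zero
    filter_upwards [hc.measure_zero volume |> measure_eq_zero_iff_ae_notMem.1] with θ hθ
    have := jn_log_prod l (z := circleMap 0 1 θ) hθ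
    rw [hF]
    exact ⟨mul_ne_zero hC this.2, by
      rw [norm_mul, Real.log_mul (norm_ne_zero_iff.2 hC) (norm_ne_zero_iff.2 this.2), this.1]⟩
  · have := jn_log_prod l hzl
    rw [hF, norm_mul, Real.log_mul (norm_ne_zero_iff.2 hC) (norm_ne_zero_iff.2 this.2), this.1]
    simp only [mul_add]
    rw [intervalIntegral.integral_add (k3 _ _) (k1 _ _), intervalIntegral.integral_mul_const,
      jn_total ha c, one_mul]
    linarith
lemma jn_piece {a c : ℝ} (ha : 0 < a) {F : ℝ → ℂ} {Λ : ℝ → ℝ}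
    (h1 : ∀ u v, IntervalIntegrable (fun θ => pk a c θ * Λ θ) volume u v)
    (h2 : ∀ᵐ θ, F θ ≠ 0 ∧ Λ θ = Real.log ‖F θ‖) {u v w β : ℝ} (huv : u ≤ v) (hw : 0 < w)
    (hβ : 0 < β) (h : ∀ θ ∈ Set.Icc u v, ‖F θ‖ ^ 2 ≤ β * w ^ 2) :
    ∫ θ in u..v, pk a c θ * Λ θ ≤
      (∫ θ in u..v, pk a c θ) * (Real.log w + (β / 1600 - 1) / 2 + Real.log 40) := by
  rw [← intervalIntegral.integral_mul_const]
  refine intervalIntegral.integral_mono_ae_restrict huv (h1 u v)
    (((jn_pk_cont ha c).mul continuous_const).intervalIntegrable _ _) ?_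
  filter_upwards [ae_restrict_of_ae h2, ae_restrict_mem measurableSet_Icc] with θ hθ hm
  refine mul_le_mul_of_nonneg_left ?_ (jn_pk_nonneg ha c θ)
  rw [hθ.2]
  have hF := norm_pos_iff.2 hθ.1
  have e1 := Real.log_le_log (by positivity) (h θ hm)
  rw [Real.log_pow, Real.log_mul hβ.ne' (by positivity), Real.log_pow] at e1
  have e2 := Real.log_le_sub_one_of_pos (show 0 < β / 1600 by positivity)
  rw [Real.log_div hβ.ne' (by norm_num), show (1600 : ℝ) = 40 ^ 2 by norm_num, Real.log_pow] at e2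
  push_cast at e1 e2
  norm_num at e2 ⊢
  linarith

lemma jn_cells (kT : ℕ) (ϑ : ℝ) {g : ℝ → ℝ} (hg : ∀ u v, IntervalIntegrable g volume u v) :
    ∑ k ∈ Icc (-(kT : ℤ)) kT, ∫ θ in ((k : ℝ) - 1 / 2) * ϑ..((k : ℝ) + 1 / 2) * ϑ, g θ =
      ∫ θ in -((kT + 1 / 2) * ϑ)..(kT + 1 / 2) * ϑ, g θ := by
  have h := intervalIntegral.sum_integral_adjacent_intervals (f := g) (μ := volume)
    (a := fun i : ℕ => ((i : ℝ) - kT - 1 / 2) * ϑ) (n := 2 * kT + 1) fun k _ => hg _ _
  have e1 : (((0 : ℕ) : ℝ) - kT - 1 / 2) * ϑ = -((kT + 1 / 2) * ϑ) := by push_cast; ring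
  have e2 : (((2 * kT + 1 : ℕ) : ℝ) - kT - 1 / 2) * ϑ = (kT + 1 / 2) * ϑ := by push_cast; ring
  rw [e1, e2] at h
  rw [← h]
  symm
  refine sum_nbij' (fun i : ℕ => (i : ℤ) - kT) (fun k => (k + kT).toNat) ?_ ?_ ?_ ?_ ?_
  · intro i hi; simp only [mem_range, mem_Icc] at hi ⊢; omega
  · intro k hk; simp only [mem_range, mem_Icc] at hk ⊢; omega
  · intro i _; simp
  · intro k hk; simp only [mem_Icc] at hk; omega
  · intro i _
    push_cast
    congr 1
    ring

lemma jn_lip (N : ℕ) (D : ℕ → ℂ) {B : ℝ} (hD : ∑ s ∈ range N, ‖D s‖ ≤ B) (θ φ : ℝ) :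
    ‖∑ s ∈ range N, D s * circleMap 0 1 θ ^ s‖ ≤
      ‖∑ s ∈ range N, D s * Complex.exp ((φ : ℂ) * (s : ℂ) * I)‖ + N * B * |θ - φ| := by
  have h1 : ‖∑ s ∈ range N, D s * circleMap 0 1 θ ^ s -
      ∑ s ∈ range N, D s * Complex.exp ((φ : ℂ) * (s : ℂ) * I)‖ ≤ N * B * |θ - φ| := by
    rw [← sum_sub_distrib]
    refine (norm_sum_le _ _).trans ?_
    calc _ ≤ ∑ s ∈ range N, ‖D s‖ * (N * |θ - φ|) := by
          refine sum_le_sum fun s hs => ?_
          rw [← mul_sub, norm_mul]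
          refine mul_le_mul_of_nonneg_left ?_ (norm_nonneg _)
          have e : circleMap 0 1 θ ^ s - Complex.exp ((φ : ℂ) * (s : ℂ) * I) =
              Complex.exp ((φ : ℂ) * (s : ℂ) * I) *
                (Complex.exp (I * (((θ - φ) * s : ℝ) : ℂ)) - 1) := by
            rw [mul_sub, ← Complex.exp_add, mul_one]
            simp only [circleMap, zero_add, ofReal_one, one_mul, ← Complex.exp_nat_mul]
            congr 2
            push_cast; ring
          have e2 : ‖Complex.exp ((φ : ℂ) * (s : ℂ) * I)‖ = 1 := by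
            rw [Complex.norm_exp]; simp
          rw [e, norm_mul, e2, one_mul]
          refine (Real.norm_exp_I_mul_ofReal_sub_one_le).trans ?_
          rw [Real.norm_eq_abs, abs_mul, Nat.abs_cast, mul_comm]
          have : (s : ℝ) ≤ N := by exact_mod_cast (mem_range.1 hs).le
          gcongr
      _ = (∑ s ∈ range N, ‖D s‖) * (N * |θ - φ|) := by rw [sum_mul]
      _ ≤ B * (N * |θ - φ|) := by gcongr
      _ = _ := by ring
  have := norm_sub_norm_le (∑ s ∈ range N, D s * circleMap 0 1 θ ^ s)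
    (∑ s ∈ range N, D s * Complex.exp ((φ : ℂ) * (s : ℂ) * I))
  linarith

lemma jn_sup (N : ℕ) (D : ℕ → ℂ) {B : ℝ} (hD : ∑ s ∈ range N, ‖D s‖ ≤ B) (θ : ℝ) :
    ‖∑ s ∈ range N, D s * circleMap 0 1 θ ^ s‖ ≤ B := by
  refine (norm_sum_le _ _).trans (le_trans (le_of_eq ?_) hD)
  refine sum_congr rfl fun s _ => ?_
  rw [norm_mul, norm_pow, norm_circleMap_zero]; simp

end Crest.Agent.R300.UB
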