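import Crest.Agent.R300.UBDefs

set_option autoImplicit false

noncomputable section

namespace Crest.Agent.R300.UB

open Complex Finset Crest.Agent.Lib.PT Crest.TraceRecon Crest.FinProb

theorem ls_sq (r u : ℂ) : ‖r‖ ^ 2 + 2 * ((starRingEnd ℂ) u * r).re ≤ ‖r + u‖ ^ 2 := by
  rw [Complex.sq_norm, Complex.sq_norm, normSq_apply, normSq_apply]
  simp only [mul_re, conj_re, conj_im, add_re, add_im]
  nlinarith [mul_self_nonneg u.re, mul_self_nonneg u.im]

theorem ls_form {n m : Type} [Fintype n] [DecidableEq n] [Fintype m] (a : m → n → ℂ) (ω : m → ℝ)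
    (ρ : n → ℝ) (h x : n → ℂ) :
    ∑ i, (starRingEnd ℂ) (h i) * (Matrix.of fun i i' : n =>
      ∑ j, (ω j : ℂ) * (starRingEnd ℂ) (a j i) * a j i' +
        if i = i' then (ρ i : ℂ) else 0).mulVec x i =
      ∑ j, (ω j : ℂ) * ((starRingEnd ℂ) (∑ i, h i * a j i) * ∑ i, x i * a j i) +
        ∑ i, (ρ i : ℂ) * ((starRingEnd ℂ) (h i) * x i) := by
  simp only [Matrix.mulVec, dotProduct, Matrix.of_apply, add_mul, sum_add_distrib, mul_add, ite_mul,
    zero_mul, sum_ite_eq, mem_univ, if_true, map_sum, map_mul, sum_mul, mul_sum]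
  congr 1
  · conv_rhs => rw [sum_comm]
    rw [sum_comm]
    refine sum_congr rfl fun i _ => ?_
    rw [sum_comm]
    exact sum_congr rfl fun j _ => sum_congr rfl fun i' _ => by ring
  · exact sum_congr rfl fun i _ => by ring

theorem ls_core {n m : Type} [Fintype n] [DecidableEq n] [Fintype m] (a : m → n → ℂ) (ω : m → ℝ)
    (c : m → ℂ) (ρ : n → ℝ) (hω : ∀ j, 0 ≤ ω j) (hρ : ∀ i, 0 < ρ i) (γ g : n → ℂ)
    (hg : g = (Matrix.of fun i i' : n => ∑ j, (ω j : ℂ) * (starRingEnd ℂ) (a j i) * a j i' +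
        if i = i' then (ρ i : ℂ) else 0)⁻¹.mulVec
      fun i => ∑ j, (ω j : ℂ) * (starRingEnd ℂ) (a j i) * c j) :
    ∑ j, ω j * ‖∑ i, g i * a j i - c j‖ ^ 2 + ∑ i, ρ i * ‖g i‖ ^ 2 ≤
      ∑ j, ω j * ‖∑ i, γ i * a j i - c j‖ ^ 2 + ∑ i, ρ i * ‖γ i‖ ^ 2 := by
  have hf := ls_form a ω ρ
  obtain ⟨A, hA⟩ : ∃ A, A = (Matrix.of fun i i' : n =>
      ∑ j, (ω j : ℂ) * (starRingEnd ℂ) (a j i) * a j i' + if i = i' then (ρ i : ℂ) else 0) :=
    ⟨_, rfl⟩
  rw [← hA] at hf hg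
  have hdet : A.det ≠ 0 := by
    intro h0
    obtain ⟨v, hv, hAv⟩ := Matrix.exists_mulVec_eq_zero_iff.2 h0
    have h1 := hf v v
    simp only [hAv, Pi.zero_apply, mul_zero, sum_const_zero, conj_mul'] at h1
    have h2 : ∑ j, ω j * ‖∑ i, v i * a j i‖ ^ 2 + ∑ i, ρ i * ‖v i‖ ^ 2 = 0 := by
      exact_mod_cast h1.symm
    obtain ⟨i, hi⟩ := Function.ne_iff.1 hv
    have h3 : 0 < ∑ i, ρ i * ‖v i‖ ^ 2 :=
      sum_pos' (fun i _ => mul_nonneg (hρ i).le (sq_nonneg _))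
        ⟨i, mem_univ i, mul_pos (hρ i) (pow_pos (norm_pos_iff.2 hi) 2)⟩
    have h4 : 0 ≤ ∑ j, ω j * ‖∑ i, v i * a j i‖ ^ 2 :=
      sum_nonneg fun j _ => mul_nonneg (hω j) (sq_nonneg _)
    linarith
  have hAg : A.mulVec g = fun i => ∑ j, (ω j : ℂ) * (starRingEnd ℂ) (a j i) * c j := by
    rw [hg, Matrix.mulVec_mulVec, Matrix.mul_nonsing_inv _ (isUnit_iff_ne_zero.2 hdet),
      Matrix.one_mulVec]
  have h1 := hf (fun i => γ i - g i) g
  have h2 : ∑ i, (starRingEnd ℂ) (γ i - g i) * A.mulVec g i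
      = ∑ j, (ω j : ℂ) * ((starRingEnd ℂ) (∑ i, (γ i - g i) * a j i) * c j) := by
    rw [hAg]
    simp only [map_sum, map_mul, sum_mul, mul_sum]
    rw [sum_comm]
    exact sum_congr rfl fun j _ => sum_congr rfl fun i _ => by ring
  have h3 : ∑ j, (ω j : ℂ) * ((starRingEnd ℂ) (∑ i, (γ i - g i) * a j i) *
      (∑ i, g i * a j i - c j)) + ∑ i, (ρ i : ℂ) * ((starRingEnd ℂ) (γ i - g i) * g i) = 0 := by
    simp only [mul_sub, sum_sub_distrib]
    linear_combination h2 - h1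
  have h4 := congrArg Complex.re h3
  simp only [add_re, re_sum, re_ofReal_mul, zero_re] at h4
  have h5 : ∑ j, (ω j * ‖∑ i, g i * a j i - c j‖ ^ 2 + 2 * (ω j *
      ((starRingEnd ℂ) (∑ i, (γ i - g i) * a j i) * (∑ i, g i * a j i - c j)).re)) ≤
      ∑ j, ω j * ‖∑ i, γ i * a j i - c j‖ ^ 2 := by
    refine sum_le_sum fun j _ => ?_
    have h6 := mul_le_mul_of_nonneg_left
      (ls_sq (∑ i, g i * a j i - c j) (∑ i, (γ i - g i) * a j i)) (hω j)
    have h7 : ∑ i, g i * a j i - c j + ∑ i, (γ i - g i) * a j i = ∑ i, γ i * a j i - c j := by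
      simp only [sub_mul, sum_sub_distrib]
      ring
    rw [h7] at h6
    linarith
  have h6 : ∑ i, (ρ i * ‖g i‖ ^ 2 + 2 * (ρ i * ((starRingEnd ℂ) (γ i - g i) * g i).re)) ≤
      ∑ i, ρ i * ‖γ i‖ ^ 2 := by
    refine sum_le_sum fun i _ => ?_
    have h7 := mul_le_mul_of_nonneg_left (ls_sq (g i) (γ i - g i)) (hρ i).le
    rw [add_sub_cancel] at h7
    linarith
  rw [sum_add_distrib, ← mul_sum] at h5 h6
  linarith

theorem ls_list {κ M : Type} [AddCommMonoid M] (J : List κ) (f : κ → M) :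
    (J.map f).sum = ∑ j : Fin J.length, f J[j] := (Fin.sum_univ_fun_getElem J f).symm

/-- The normal equations give the minimiser of the regularised least squares objective. -/
theorem lsq_min {ι κ : Type} (I : List ι) (J : List κ) (a : κ → ι → ℂ) (ω : κ → ℝ) (c : κ → ℂ)
    (ρ : ι → ℝ) (hω : ∀ j ∈ J, 0 ≤ ω j) (hρ : ∀ i ∈ I, 0 < ρ i) (γ : Fin I.length → ℂ) :
    lsObj I J a ω c ρ (lsq I J a ω c ρ) ≤ lsObj I J a ω c ρ γ := by
  unfold lsObj
  rw [ls_list, ls_list]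
  refine ls_core (fun (j : Fin J.length) (i : Fin I.length) => a J[j] I[i]) (fun j => ω J[j])
    (fun j => c J[j]) (fun i => ρ I[i]) (fun j => hω _ (List.getElem_mem _))
    (fun i => hρ _ (List.getElem_mem _)) γ _ ?_
  unfold lsq
  simp only [ls_list]

end Crest.Agent.R300.UB
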