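import Crest.Agent.R300.UBNum
import Crest.Agent.R300.UBLsq
import Crest.Agent.R300.UBCh
import Crest.Agent.R300.UBJen

set_option autoImplicit false

noncomputable section

namespace Crest.Agent.R300.UB

open Complex Finset Crest.Agent.Lib.PT Crest.TraceRecon Crest.FinProb

/-! The continuation step. -/

theorem jo_sum {A : Type} [AddCommMonoid A] (N : ℕ) (F : ℕ → A) :
    ∑ i : Fin (List.range N).length, F i = ∑ s ∈ range N, F s := by
  rw [Fin.sum_univ_eq_sum_range, List.length_range]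

theorem jo_obj (N kT : ℕ) (a : ℤ → ℕ → ℂ) (ω : ℤ → ℝ) (c : ℤ → ℂ) (ρ : ℕ → ℝ) (v : ℕ → ℂ) :
    lsObj (List.range N) (intRange kT) a ω c ρ (fun i => v i) =
      ∑ k ∈ Icc (-(kT : ℤ)) kT, ω k * ‖∑ s ∈ range N, v s * a k s - c k‖ ^ 2 +
        ∑ s ∈ range N, ρ s * ‖v s‖ ^ 2 := by
  unfold lsObj
  rw [sum_intRange]
  simp only [Fin.getElem_fin, List.getElem_range]
  rw [jo_sum N fun s => ρ s * ‖v s‖ ^ 2]
  congr 1
  refine sum_congr rfl fun k _ => ?_
  rw [jo_sum N fun s => v s * a k s]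

theorem jo_card (kT : ℕ) : (#(Icc (-(kT : ℤ)) kT) : ℝ) = 2 * kT + 1 := by
  have : #(Icc (-(kT : ℤ)) kT) = 2 * kT + 1 := by
    rw [Int.card_Icc]
    omega
  rw [this]
  push_cast
  ring

theorem jenLS_spec {Y r N kT : ℕ} {M : ℝ} {c : ℤ → ℂ} {w2 : ℤ → ℝ} {z : Mono} {g : ℕ → ℂ}
    (hY : 100 ≤ Y) (hM : 1 ≤ M) (hg : ∀ s, ‖g s‖ ≤ 1) (hW : ∑ s ∈ range N, Wt Y r s ≤ M)
    (hz : 1 ≤ z.1) (hz' : z.1 * a0 Y ≤ 3 / 2) (hk : kT ≤ 100 * z.1) (hk' : kT ≤ Y)
    (hw : ∀ k : ℤ, k.natAbs ≤ kT → 0 < w2 k ∧ (N * (3 * M) * th Y) ^ 2 ≤ w2 k ∧ w2 k ≤ (3 * M) ^ 2 ∧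
      ‖c k - ∑ s ∈ range N, g s * (Wt Y r s : ℂ) * uu Y ^ (k * s)‖ ^ 2 ≤ w2 k) :
    ‖jenLS Y r N M kT c w2 z - ∑ s ∈ range N, g s * (Wt Y r s : ℂ) * ev Y z ^ s‖ ≤
      120 * M * Real.exp (-∑ k ∈ Icc (-(kT : ℤ)) kT,
        cellMass (z.1 * a0 Y) (z.2 * th Y) (th Y) k * Real.log (3 * M / Real.sqrt (w2 k))) := by
  have hM0 : 0 < M := by linarith
  have hK : (0 : ℝ) < 2 * kT + 1 := by positivity
  have hmem : ∀ k ∈ Icc (-(kT : ℤ)) kT, k.natAbs ≤ kT := fun k hk => by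
    have := mem_Icc.1 hk
    omega
  have hWp := Wt_pos hY r
  set u := lsq (List.range N) (intRange kT) (fun k s => (Wt Y r s : ℂ) * uu Y ^ (k * s))
    (fun k => 1 / ((2 * kT + 1) * w2 k)) c (fun s => Wt Y r s / M) with hu
  obtain ⟨v, hv⟩ : ∃ v : ℕ → ℂ, u = fun i : Fin (List.range N).length => v i :=
    ⟨fun s => if h : s < (List.range N).length then u ⟨s, h⟩ else 0, funext fun i => by
      simp only [i.2, dif_pos]⟩
  have hmin := lsq_min (List.range N) (intRange kT)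
    (fun k s => (Wt Y r s : ℂ) * uu Y ^ (k * s)) (fun k => 1 / ((2 * kT + 1) * w2 k)) c
    (fun s => Wt Y r s / M)
    (fun k hk => (one_div_pos.2 (mul_pos hK (hw k (mem_intRange.1 hk)).1)).le)
    (fun s _ => div_pos (hWp s) hM0) (fun i => g i)
  rw [← hu, hv, jo_obj, jo_obj] at hmin
  simp only [← mul_assoc] at hmin
  have g1 : ∑ k ∈ Icc (-(kT : ℤ)) kT, 1 / ((2 * kT + 1) * w2 k) *
      ‖∑ s ∈ range N, g s * (Wt Y r s : ℂ) * uu Y ^ (k * s) - c k‖ ^ 2 ≤ 1 := by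
    calc _ ≤ ∑ _k ∈ Icc (-(kT : ℤ)) kT, 1 / ((2 * kT + 1 : ℝ)) := by
          refine sum_le_sum fun k hk => ?_
          obtain ⟨h1, -, -, h2⟩ := hw k (hmem k hk)
          rw [norm_sub_rev, one_div_mul_eq_div, div_le_div_iff₀ (mul_pos hK h1) hK]
          nlinarith
      _ = 1 := by rw [sum_const, nsmul_eq_mul, jo_card, mul_one_div_cancel hK.ne']
  have g2 : ∑ s ∈ range N, Wt Y r s / M * ‖g s‖ ^ 2 ≤ 1 := by
    calc _ ≤ ∑ s ∈ range N, Wt Y r s / M := sum_le_sum fun s _ =>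
          mul_le_of_le_one_right (div_pos (hWp s) hM0).le
            (pow_le_one₀ (norm_nonneg _) (hg s))
      _ ≤ 1 := by rw [← sum_div, div_le_one hM0]; exact hW
  have n1 : 0 ≤ ∑ k ∈ Icc (-(kT : ℤ)) kT, 1 / ((2 * kT + 1) * w2 k) *
      ‖∑ s ∈ range N, v s * (Wt Y r s : ℂ) * uu Y ^ (k * s) - c k‖ ^ 2 :=
    sum_nonneg fun k hk => mul_nonneg (one_div_pos.2 (mul_pos hK (hw k (hmem k hk)).1)).le
      (sq_nonneg _)
  have n2 : 0 ≤ ∑ s ∈ range N, Wt Y r s / M * ‖v s‖ ^ 2 :=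
    sum_nonneg fun s _ => mul_nonneg (div_pos (hWp s) hM0).le (sq_nonneg _)
  have v1 : ∑ k ∈ Icc (-(kT : ℤ)) kT,
      ‖∑ s ∈ range N, v s * (Wt Y r s : ℂ) * uu Y ^ (k * s) - c k‖ ^ 2 / w2 k ≤
        2 * (2 * kT + 1) := by
    rw [← div_le_iff₀ hK, sum_div]
    refine le_trans (le_of_eq (sum_congr rfl fun k _ => ?_))
      ((le_add_of_nonneg_right n2).trans (hmin.trans (by linarith)))
    rw [div_div, one_div_mul_eq_div, mul_comm (w2 k)]
  have v2 : ∑ s ∈ range N, Wt Y r s * ‖v s‖ ^ 2 ≤ 2 * M := by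
    rw [← div_le_iff₀ hM0, sum_div]
    refine le_trans (le_of_eq (sum_congr rfl fun s _ => ?_))
      ((le_add_of_nonneg_left n1).trans (hmin.trans (by linarith)))
    rw [div_mul_eq_mul_div]
  have hth := th_pos hY
  have ha0 := a0_pos hY
  have hz1 : (1 : ℝ) ≤ z.1 := by exact_mod_cast hz
  have hY' : (100 : ℝ) ≤ Y := by exact_mod_cast hY
  have key := jensen_core (N := N) (kT := kT) (D := fun s => (v s - g s) * (Wt Y r s : ℂ))
    (a := z.1 * a0 Y) (c := z.2 * th Y) (ϑ := th Y) (B := 3 * M) (w := fun k => Real.sqrt (w2 k))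
    (by positivity) hz' hth ((th_le_a0 hY).trans (le_mul_of_one_le_left ha0.le hz1))
    (by
      have : (kT : ℝ) ≤ 100 * z.1 := by exact_mod_cast hk
      calc (kT : ℝ) * th Y ≤ 100 * z.1 * a0 Y :=
            mul_le_mul this (th_le_a0 hY) hth.le (by positivity)
        _ = _ := by ring)
    (by
      have h1 : (kT : ℝ) ≤ Y := by exact_mod_cast hk'
      have h2 := th_le hY
      rw [le_div_iff₀ (by linarith)] at h2
      have := Real.pi_gt_three
      nlinarith)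
    (by positivity)
    (by
      calc _ ≤ ∑ s ∈ range N, (3 / 2 * Wt Y r s + 1 / 2 * (Wt Y r s * ‖v s‖ ^ 2)) := by
            refine sum_le_sum fun s _ => ?_
            rw [norm_mul, Complex.norm_real, Real.norm_of_nonneg (hWp s).le]
            have h1 := norm_sub_le (v s) (g s)
            have h2 := hg s
            have h3 : ‖v s - g s‖ ≤ 3 / 2 + 1 / 2 * ‖v s‖ ^ 2 := by
              nlinarith [sq_nonneg (‖v s‖ - 1)]
            have := mul_le_mul_of_nonneg_right h3 (hWp s).le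
            linarith
        _ ≤ 3 * M := by
            rw [sum_add_distrib, ← mul_sum, ← mul_sum]
            linarith)
    (fun k hk => by
      obtain ⟨h1, h2, h3, -⟩ := hw k hk
      exact ⟨Real.sqrt_pos.2 h1, Real.sqrt_le_iff.2 ⟨by positivity, h3⟩,
        Real.le_sqrt_of_sq_le h2⟩)
    (by
      calc _ ≤ ∑ k ∈ Icc (-(kT : ℤ)) kT, (2 *
            (‖∑ s ∈ range N, v s * (Wt Y r s : ℂ) * uu Y ^ (k * s) - c k‖ ^ 2 / w2 k) + 2) := by
            refine sum_le_sum fun k hk => ?_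
            obtain ⟨h1, -, -, h2⟩ := hw k (hmem k hk)
            have e : ∑ s ∈ range N, (v s - g s) * (Wt Y r s : ℂ) *
                Complex.exp ((k : ℂ) * (th Y : ℂ) * (s : ℂ) * I) =
                (∑ s ∈ range N, v s * (Wt Y r s : ℂ) * uu Y ^ (k * s) - c k) +
                  (c k - ∑ s ∈ range N, g s * (Wt Y r s : ℂ) * uu Y ^ (k * s)) := by
              rw [sub_add_sub_cancel, ← sum_sub_distrib]
              refine sum_congr rfl fun s _ => ?_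
              rw [uu_zpow hY]
              push_cast
              ring_nf
            rw [e, Real.sq_sqrt h1.le, div_le_iff₀ h1, add_mul, mul_assoc, div_mul_cancel₀ _ h1.ne']
            generalize ∑ s ∈ range N, v s * (Wt Y r s : ℂ) * uu Y ^ (k * s) - c k = A
            generalize c k - ∑ s ∈ range N, g s * (Wt Y r s : ℂ) * uu Y ^ (k * s) = B at h2
            have h3 := pow_le_pow_left₀ (norm_nonneg _) (norm_add_le A B) 2
            nlinarith [sq_nonneg (‖A‖ - ‖B‖)]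
        _ ≤ 6 * (2 * (kT : ℝ) + 1) := by
            rw [sum_add_distrib, ← mul_sum, sum_const, nsmul_eq_mul, jo_card]
            linarith)
  have e1 : jenLS Y r N M kT c w2 z = ∑ s ∈ range N, v s * (Wt Y r s : ℂ) * ev Y z ^ s := by
    unfold jenLS
    rw [← hu, hv]
    exact jo_sum N fun s => v s * (Wt Y r s : ℂ) * ev Y z ^ s
  have e2 : ev Y z = Complex.exp (-((z.1 * a0 Y : ℝ) : ℂ) + ((z.2 * th Y : ℝ) : ℂ) * I) := by
    rw [ev_eq hY, val]
    push_cast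
    rfl
  rw [e1, ← sum_sub_distrib]
  rw [← e2] at key
  simp only [← sub_mul]
  refine key.trans (le_of_eq ?_)
  ring

theorem jenOut_spec {Y r N η : ℕ} {P : P4} {X lf : ℤ → ℂ} {V ε M χ : ℝ} {z : Mono} {g : ℕ → ℂ}
    (hY : 100 ≤ Y) (h : POK P X V ε M (kTh Y z) η) (hg : ∀ s, ‖g s‖ ≤ 1)
    (hW : ∑ s ∈ range N, Wt Y r s ≤ M) (hz : 1 ≤ z.1) (hz' : z.1 * a0 Y ≤ 3 / 2)
    (hA : kH z ≤ kTh Y z) (hϑ : 3 * M ^ 2 * N * th Y ≤ ε)
    (hX : ∀ k : ℤ, X k = lf k + ∑ s ∈ range N, g s * (Wt Y r s : ℂ) * uu Y ^ (k * s))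
    (hχ : 0 ≤ χ) (hm : MassOK (z.1 * a0 Y) (z.2 * th Y) (th Y) (kH z) (kTh Y z) χ) :
    ‖jenOut Y r N P V ε M η lf z - ∑ s ∈ range N, g s * (Wt Y r s : ℂ) * ev Y z ^ s‖ ≤
      120 * M * (((kH z / η + 1 : ℕ) : ℝ) * ε) ^ χ := by
  have hM := h.hM
  have hM0 : 0 < M := by linarith
  have hε := h.hε
  have hth := th_pos hY
  refine (jenLS_spec (kT := kTh Y z) hY hM hg hW hz hz' (min_le_left _ _) (min_le_right _ _)
    fun k hk => ?_).trans ?_
  · obtain ⟨h1, h2, h3⟩ := wsq_spec h hA hk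
    refine ⟨lt_of_lt_of_le (by positivity) h2, le_trans (pow_le_pow_left₀ (by positivity) ?_ 2) h2,
      h3, ?_⟩
    · rw [le_div_iff₀ hM0]
      linarith
    · rwa [hX k, ← sub_sub] at h1
  · refine mul_le_mul_of_nonneg_left ?_ (by positivity)
    have hx : 0 < ((kH z / η + 1 : ℕ) : ℝ) * ε := by positivity
    have h1 := wsq_mass h hA hχ hm
    rw [one_div, Real.log_inv] at h1
    rw [Real.rpow_def_of_pos hx]
    exact Real.exp_le_exp.2 (by linarith)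

end Crest.Agent.R300.UB
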