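import Crest.Agent.R300.UBNum

/-! Poisson masses at level `0`. -/

set_option autoImplicit false

noncomputable section

namespace Crest.Agent.R300.UB

open Finset

theorem m2_pk {a : ℝ} (ha : 139 / 100 ≤ a) (θ : ℝ) : 3 / 5 / (2 * Real.pi) ≤ pk a 0 θ := by
  have hE : 4 ≤ Real.exp a := by
    have h1 : (4 : ℝ) = Real.exp (Real.log 2 + Real.log 2) := by
      rw [Real.exp_add, Real.exp_log (by norm_num)]; norm_num
    rw [h1]
    exact Real.exp_le_exp.2 (by linarith [Real.log_two_lt_d9])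
  have hE' : Real.exp (-a) ≤ 1 / 4 := by
    rw [Real.exp_neg, one_div]
    exact inv_anti₀ (by norm_num) hE
  have h0 := Real.exp_pos (-a)
  unfold pk
  refine div_le_div_of_nonneg_right ?_ (by positivity)
  have h1 := Real.neg_one_le_cos (θ - 0)
  have h2 := Real.cos_le_one (θ - 0)
  rw [le_div_iff₀ (by rw [Real.cosh_eq]; linarith), Real.sinh_eq, Real.cosh_eq]
  linarith

theorem m2_cell {a ϑ : ℝ} (ha : 139 / 100 ≤ a) (hϑ : 0 < ϑ) (k : ℤ) :
    ϑ * (3 / 5 / (2 * Real.pi)) ≤ cellMass a 0 ϑ k := by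
  have hc : Continuous (pk a 0) := by
    unfold pk
    refine Continuous.div_const (continuous_const.div (by fun_prop) fun θ => ?_) _
    have h1 := Real.cos_le_one (θ - 0)
    have h2 : 1 < Real.cosh a := Real.one_lt_cosh.2 (by linarith)
    linarith
  have hle : ((k : ℝ) - 1 / 2) * ϑ ≤ ((k : ℝ) + 1 / 2) * ϑ := by nlinarith
  have h := intervalIntegral.integral_mono_on hle
    (f := fun _ => 3 / 5 / (2 * Real.pi)) (g := pk a 0) (μ := MeasureTheory.volume)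
    intervalIntegrable_const (hc.intervalIntegrable _ _) fun θ _ => m2_pk ha θ
  rw [intervalIntegral.integral_const, smul_eq_mul] at h
  unfold cellMass
  convert h using 2
  ring

theorem m2_pairs {f : ℤ → ℝ} (hf : ∀ k, 0 ≤ f k) (A B : ℤ) (h : ℕ) {t : ℝ} (ht : 0 ≤ t)
    (H : ∀ k, A < k → k + h ≤ B → t ≤ f k + f (k + h)) :
    ((B : ℝ) - h - A) * t ≤ 2 * ∑ k ∈ Ioc A B, f k := by
  have h1 : ∑ _k ∈ Ioc A (B - h), t ≤ ∑ k ∈ Ioc A (B - h), (f k + f (k + h)) :=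
    sum_le_sum fun k hk => by
      rw [mem_Ioc] at hk
      exact H k hk.1 (by omega)
  have h2 : ∑ k ∈ Ioc A (B - h), f k ≤ ∑ k ∈ Ioc A B, f k :=
    sum_le_sum_of_subset_of_nonneg (Ioc_subset_Ioc_right (by omega)) fun k _ _ => hf k
  have h3 : ∑ k ∈ Ioc A (B - h), f (k + h) ≤ ∑ k ∈ Ioc A B, f k := by
    rw [← sum_image (s := Ioc A (B - h)) (g := fun k => k + h) (f := f)
      fun x _ y _ e => add_right_cancel e]
    refine sum_le_sum_of_subset_of_nonneg (fun k hk => ?_) fun k _ _ => hf k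
    obtain ⟨j, hj, rfl⟩ := mem_image.1 hk
    rw [mem_Ioc] at hj ⊢
    omega
  rw [sum_add_distrib, sum_const, nsmul_eq_mul, Int.card_Ioc] at h1
  have h4 : (B : ℝ) - h - A ≤ ((B - h - A).toNat : ℝ) := by
    have := Int.self_le_toNat (B - h - A)
    exact_mod_cast this
  nlinarith

theorem m2_mass {Y : ℕ} (hY : 32000 ≤ Y) :
    MassOK (((7 * Y / 10 : ℕ) : ℝ) * a0 Y) 0 (th Y) (kH (7 * Y / 10, 0)) Y (1 / 20) := by
  have hY' : 100 ≤ Y := by omega
  have hYr : (32000 : ℝ) ≤ Y := by exact_mod_cast hY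
  have hY0 : (0 : ℝ) < Y := by linarith
  have ha : 139 / 100 ≤ ((7 * Y / 10 : ℕ) : ℝ) * a0 Y := by
    have h1 : 7 * Y ≤ 10 * (7 * Y / 10) + 9 := by omega
    have h2 : 7 * (Y : ℝ) ≤ 10 * ((7 * Y / 10 : ℕ) : ℝ) + 9 := by exact_mod_cast h1
    refine le_trans ?_ (mul_le_mul_of_nonneg_left (le_a0 hY') (Nat.cast_nonneg _))
    rw [← mul_div_assoc, le_div_iff₀ hY0]
    linarith
  obtain ⟨kA, hkA, hk1, hk2⟩ : ∃ kA : ℕ, kH (7 * Y / 10, 0) = kA ∧ 15 * Y ≤ 100 * kA ∧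
      100 * kA ≤ 16 * Y := by
    refine ⟨_, rfl, ?_, ?_⟩ <;> simp only [kH, Int.natAbs_zero] <;> omega
  rw [hkA]
  intro f h α t hh hα ht hf harc hpair
  have hk1' : 15 * (Y : ℝ) ≤ 100 * kA := by exact_mod_cast hk1
  have hk2' : 100 * (kA : ℝ) ≤ 16 * Y := by exact_mod_cast hk2
  have hh' : (h : ℝ) ≤ kA := by exact_mod_cast hh
  have hμ : 19 / 100 / (Y : ℝ) ≤ th Y * (3 / 5 / (2 * Real.pi)) := by
    have h1 : (19 : ℝ) / 200 ≤ 3 / 5 / (2 * Real.pi) - 1 / 4000 := by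
      rw [le_sub_iff_add_le, le_div_iff₀ (by positivity)]
      linarith [Real.pi_lt_d4]
    refine le_trans ?_ (mul_le_mul (le_th hY') (show (19 : ℝ) / 200 + 1 / 4000 ≤ _ by linarith)
      (by norm_num) (th_pos hY').le)
    rw [div_mul_eq_mul_div]
    exact div_le_div_of_nonneg_right (by norm_num) hY0.le
  have hL := m2_pairs hf (-(Y : ℤ) - 1) (-(kA : ℤ) - 1) h ht fun k h1 h2 =>
    hpair k (by omega) (by omega) (by omega) (by omega)
  have hR := m2_pairs hf kA Y h ht fun k h1 h2 =>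
    hpair k (by omega) (by omega) (by omega) (by omega)
  have hM : (2 * (kA : ℝ) + 1) * α ≤ ∑ k ∈ Ioc (-(kA : ℤ) - 1) kA, f k := by
    have h1 : ∑ _k ∈ Ioc (-(kA : ℤ) - 1) kA, α ≤ ∑ k ∈ Ioc (-(kA : ℤ) - 1) kA, f k :=
      sum_le_sum fun k hk => by
        rw [mem_Ioc] at hk
        exact harc k (by omega)
    rw [sum_const, nsmul_eq_mul, Int.card_Ioc,
      show ((kA : ℤ) - (-(kA : ℤ) - 1)).toNat = 2 * kA + 1 by omega] at h1
    push_cast at h1
    exact h1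
  have hsum : ∑ k ∈ Ioc (-(Y : ℤ) - 1) (-(kA : ℤ) - 1), f k + ∑ k ∈ Ioc (-(kA : ℤ) - 1) kA, f k +
      ∑ k ∈ Ioc (kA : ℤ) Y, f k ≤ ∑ k ∈ Icc (-(Y : ℤ)) Y, f k := by
    rw [← sum_union, ← sum_union]
    · refine sum_le_sum_of_subset_of_nonneg (fun k hk => ?_) fun k _ _ => hf k
      simp only [mem_union, mem_Ioc, mem_Icc] at hk ⊢
      omega
    · rw [disjoint_left]
      intro k h1 h2
      simp only [mem_union, mem_Ioc] at h1 h2
      omega
    · rw [disjoint_left]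
      intro k h1 h2
      simp only [mem_Ioc] at h1 h2
      omega
  have h1 : 19 / 100 / (Y : ℝ) * ∑ k ∈ Icc (-(Y : ℤ)) Y, f k ≤
      ∑ k ∈ Icc (-(Y : ℤ)) Y, cellMass (((7 * Y / 10 : ℕ) : ℝ) * a0 Y) 0 (th Y) k * f k := by
    rw [mul_sum]
    exact sum_le_sum fun k _ =>
      mul_le_mul_of_nonneg_right (hμ.trans (m2_cell ha (th_pos hY') k)) (hf k)
  refine le_trans ?_ h1
  rw [div_mul_eq_mul_div (19 / 100 : ℝ), le_div_iff₀ hY0]
  push_cast at hL hR
  have e1 : 3 / 10 * Y * α ≤ (2 * (kA : ℝ) + 1) * α :=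
    mul_le_mul_of_nonneg_right (by linarith) hα
  have e2 : 68 / 100 * Y * t ≤ ((Y : ℝ) - h - kA) * t :=
    mul_le_mul_of_nonneg_right (by linarith) ht
  have e3 : 68 / 100 * Y * t ≤ (-(kA : ℝ) - 1 - h - (-(Y : ℝ) - 1)) * t :=
    mul_le_mul_of_nonneg_right (by linarith) ht
  have e4 : 0 ≤ Y * α := by positivity
  have e5 : 0 ≤ Y * t := by positivity
  nlinarith

end Crest.Agent.R300.UB
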