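import Crest.Agent.R300.UBNum

set_option autoImplicit false

noncomputable section

namespace Crest.Agent.R300.UB

open Complex Finset Crest.Agent.Lib.PT Crest.TraceRecon Crest.FinProb

lemma m7_cauchy {a : ℝ} (ha : 0 < a) (c θ : ℝ) :
    a / (a ^ 2 + (θ - c) ^ 2) / Real.pi ≤ pk a c θ := by
  unfold pk
  set φ := θ - c
  have h1 : 1 < Real.cosh a := Real.one_lt_cosh.2 ha.ne'
  have h2 := Real.cos_le_one φ
  have h3 : 1 - φ ^ 2 / 2 ≤ Real.cos φ := Real.one_sub_sq_div_two_le_cos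
  have h4 : a ≤ Real.sinh a := Real.self_le_sinh_iff.2 ha.le
  have h5 : 2 * (Real.cosh a - 1) ≤ a * Real.sinh a := by
    have e1 : Real.cosh a = 2 * Real.sinh (a / 2) ^ 2 + 1 := by
      have := Real.cosh_two_mul (a / 2)
      have h := Real.cosh_sq (a / 2)
      rw [show 2 * (a / 2) = a by ring] at this
      linarith
    have e2 : Real.sinh a = 2 * Real.sinh (a / 2) * Real.cosh (a / 2) := by
      have := Real.sinh_two_mul (a / 2)
      rwa [show 2 * (a / 2) = a by ring] at this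
    have e3 : Real.sinh (a / 2) ≤ (a / 2) * Real.cosh (a / 2) := by
      have hd : MonotoneOn (fun x => x * Real.cosh x - Real.sinh x) (Set.Ici 0) := by
        have hder : ∀ x, HasDerivAt (fun x => x * Real.cosh x - Real.sinh x) (x * Real.sinh x) x := by
          intro x
          have := ((hasDerivAt_id x).mul (Real.hasDerivAt_cosh x)).sub (Real.hasDerivAt_sinh x)
          exact this.congr_deriv (by simp)
        refine monotoneOn_of_deriv_nonneg (convex_Ici 0) (by fun_prop) (by fun_prop) fun x hx => ?_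
        rw [(hder x).deriv]
        rw [interior_Ici] at hx
        exact mul_nonneg (le_of_lt hx) (Real.sinh_nonneg_iff.2 (le_of_lt hx))
      have := hd (Set.mem_Ici.2 le_rfl) (Set.mem_Ici.2 (by linarith : 0 ≤ a / 2)) (by linarith)
      simp at this
      linarith
    have e4 : 0 ≤ Real.sinh (a / 2) := Real.sinh_nonneg_iff.2 (by linarith)
    rw [e1, e2]
    nlinarith
  have hp := Real.pi_pos
  have hd1 : 0 < a ^ 2 + φ ^ 2 := by positivity
  have hd2 : 0 < Real.cosh a - Real.cos φ := by linarith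
  rw [div_div, div_div, div_le_div_iff₀ (by positivity) (by positivity)]
  have : 2 * a * (Real.cosh a - Real.cos φ) ≤ Real.sinh a * (a ^ 2 + φ ^ 2) := by
    nlinarith [mul_le_mul_of_nonneg_right h4 (sq_nonneg φ)]
  nlinarith

lemma m7_arctan_ge {x : ℝ} (hx : 0 ≤ x) : x - x ^ 3 / 3 ≤ Real.arctan x := by
  have hder : ∀ x, HasDerivAt (fun x => Real.arctan x - (x - x ^ 3 / 3)) (x ^ 4 / (1 + x ^ 2)) x := by
    intro x
    have := (Real.hasDerivAt_arctan x).sub ((hasDerivAt_id x).sub ((hasDerivAt_pow 3 x).div_const 3))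
    exact this.congr_deriv (by push_cast; field_simp; ring)
  have hd : Monotone (fun x => Real.arctan x - (x - x ^ 3 / 3)) :=
    monotone_of_deriv_nonneg (fun x => (hder x).differentiableAt) fun x => by
      rw [(hder x).deriv]; positivity
  have := hd hx
  simp at this
  linarith

lemma m7_arctan_le {x : ℝ} (hx : 0 ≤ x) : Real.arctan x ≤ x - x ^ 3 / 3 + x ^ 5 / 5 := by
  have hder : ∀ x, HasDerivAt (fun x => (x - x ^ 3 / 3 + x ^ 5 / 5) - Real.arctan x)
      (x ^ 6 / (1 + x ^ 2)) x := by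
    intro x
    have := (((hasDerivAt_id x).sub ((hasDerivAt_pow 3 x).div_const 3)).add
      ((hasDerivAt_pow 5 x).div_const 5)).sub (Real.hasDerivAt_arctan x)
    exact this.congr_deriv (by push_cast; field_simp; ring)
  have hd : Monotone (fun x => (x - x ^ 3 / 3 + x ^ 5 / 5) - Real.arctan x) :=
    monotone_of_deriv_nonneg (fun x => (hder x).differentiableAt) fun x => by
      rw [(hder x).deriv]; positivity
  have := hd hx
  simp at this
  linarith

lemma m7_mono {x y : ℝ} (h : x ≤ y) : Real.arctan x ≤ Real.arctan y :=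
  Real.arctan_strictMono.monotone h

lemma m7_inv {x : ℝ} (hx : 0 < x) : Real.arctan x = Real.pi / 2 - Real.arctan x⁻¹ := by
  rw [Real.arctan_inv_of_pos hx]; ring

/-- Difference of arctangents of nonnegative numbers. -/
lemma m7_sub {x y : ℝ} (hx : 0 ≤ x) (hy : 0 ≤ y) :
    Real.arctan x - Real.arctan y = Real.arctan ((x - y) / (1 + x * y)) := by
  have := Real.arctan_add (x := x) (y := -y) (by nlinarith [mul_nonneg hx hy])
  rw [Real.arctan_neg] at this
  rw [sub_eq_add_neg, this]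
  congr 1
  ring

lemma m7_A {c H : ℝ} (hc : 0 ≤ c) (hc' : c ≤ 21 / 10) (hH : 2197 / 10000 + 37 / 100 * c ≤ H) :
    5 / 39 * Real.pi ≤ Real.arctan (H - c) + Real.arctan (H + c) := by
  set K := 2197 / 10000 + 37 / 100 * c with hK
  have h1 := m7_mono (show K - c ≤ H - c by linarith)
  have h2 := m7_mono (show K + c ≤ H + c by linarith)
  have h3 := Real.arctan_add (x := K - c) (y := K + c) (by nlinarith)
  have h4 : (44 / 100 : ℝ) ≤ (K - c + (K + c)) / (1 - (K - c) * (K + c)) := by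
    rw [le_div_iff₀ (by nlinarith)]
    nlinarith
  have h5 := m7_mono h4
  have h6 := m7_arctan_ge (show (0 : ℝ) ≤ 44 / 100 by norm_num)
  have := Real.pi_lt_d4
  norm_num at h6
  linarith

lemma m7_B {c : ℝ} (hc : 0 ≤ c) (hc' : c ≤ 21 / 10) {H : ℝ} (hH : H = 2215 / 10000 + 37 / 100 * c) :
    Real.arctan (max (2 * H - c) (H / 2)) + Real.arctan (c + 2 * H) -
      max 0 (Real.arctan (c - H) - Real.arctan (H / 2 + 5 / 10000)) ≤ 150 / 100 := by
  have hpi := Real.pi_lt_d4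
  have hpi' := Real.pi_gt_d4
  have hm0 := le_max_left 0 (Real.arctan (c - H) - Real.arctan (H / 2 + 5 / 10000))
  have hm1 := le_max_right 0 (Real.arctan (c - H) - Real.arctan (H / 2 + 5 / 10000))
  rcases le_total c (75 / 100) with h1 | h1
  · have a1 := m7_mono (show max (2 * H - c) (H / 2) ≤ 443 / 1000 from max_le (by linarith) (by linarith))
    have a2 := m7_mono (show c + 2 * H ≤ 1000 / 572 by linarith)
    have a3 := m7_arctan_le (show (0 : ℝ) ≤ 443 / 1000 by norm_num)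
    have a4 := m7_inv (show (0 : ℝ) < 1000 / 572 by norm_num)
    have a5 := m7_arctan_ge (show (0 : ℝ) ≤ (1000 / 572)⁻¹ by norm_num)
    norm_num at a3 a5
    linarith
  rcases le_total c (115 / 100) with h2 | h2
  · have a1 := m7_mono (show max (2 * H - c) (H / 2) ≤ 3235 / 10000 from
      max_le (by linarith) (by linarith))
    have a2 := m7_mono (show c + 2 * H ≤ 1000 / 409 by linarith)
    have a3 := m7_arctan_le (show (0 : ℝ) ≤ 3235 / 10000 by norm_num)
    have a4 := m7_inv (show (0 : ℝ) < 1000 / 409 by norm_num)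
    have a5 := m7_arctan_ge (show (0 : ℝ) ≤ (1000 / 409)⁻¹ by norm_num)
    norm_num at a3 a5
    linarith
  have b0 : max (2 * H - c) (H / 2) ≤ H / 2 + 5 / 10000 := max_le (by linarith) (by linarith)
  have b1 := m7_mono b0
  have b2 := m7_sub (x := c + 2 * H) (y := c - H) (by linarith) (by linarith)
  have hden : 0 < 1 + (c + 2 * H) * (c - H) := by nlinarith
  rcases le_total c (16 / 10) with h3 | h3
  · have a1 := m7_mono (show H / 2 + 5 / 10000 ≤ 4073 / 10000 by linarith)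
    have a2 := m7_mono (show (c + 2 * H - (c - H)) / (1 + (c + 2 * H) * (c - H)) ≤ 871 / 1000 by
      rw [div_le_iff₀ hden]; nlinarith)
    have a3 := m7_arctan_le (show (0 : ℝ) ≤ 4073 / 10000 by norm_num)
    have a4 := m7_sub (x := 1) (y := 871 / 1000) (by norm_num) (by norm_num)
    have a5 := m7_arctan_ge (show (0 : ℝ) ≤ (1 - 871 / 1000) / (1 + 1 * (871 / 1000)) by norm_num)
    rw [Real.arctan_one] at a4
    rw [← a4] at a5
    norm_num at a3 a5
    linarith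
  rcases le_total c (19 / 10) with h4 | h4
  · have a1 := m7_mono (show H / 2 + 5 / 10000 ≤ 4628 / 10000 by linarith)
    have a2 := m7_mono (show (c + 2 * H - (c - H)) / (1 + (c + 2 * H) * (c - H)) ≤ 691 / 1000 by
      rw [div_le_iff₀ hden]; nlinarith)
    have a3 := m7_arctan_le (show (0 : ℝ) ≤ 4628 / 10000 by norm_num)
    have a4 := m7_arctan_le (show (0 : ℝ) ≤ 691 / 1000 by norm_num)
    norm_num at a3 a4
    linarith
  · have a1 := m7_mono (show H / 2 + 5 / 10000 ≤ 1 / 2 by linarith)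
    have a2 := m7_mono (show (c + 2 * H - (c - H)) / (1 + (c + 2 * H) * (c - H)) ≤ 6 / 10 by
      rw [div_le_iff₀ hden]; nlinarith)
    have a3 := m7_arctan_le (show (0 : ℝ) ≤ 1 / 2 by norm_num)
    have a4 := m7_arctan_le (show (0 : ℝ) ≤ 6 / 10 by norm_num)
    norm_num at a3 a4
    linarith
/-- Primitive of the Cauchy density on the grid. -/
def m7_G (ρ x : ℝ) : ℝ := Real.arctan (x * ρ) / Real.pi

/-- Cauchy mass of a cell. -/
def m7_Q (ρ : ℝ) (j : ℤ) : ℝ := m7_G ρ (j + 1 / 2) - m7_G ρ (j - 1 / 2)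

lemma m7_Q_le {A ϑ : ℝ} (hA : 0 < A) (hϑ : 0 < ϑ) (κ k : ℤ) :
    m7_Q (ϑ / A) (k - κ) ≤ cellMass A (κ * ϑ) ϑ k := by
  have hc : Continuous (pk A (κ * ϑ)) := by
    unfold pk
    refine Continuous.div_const (continuous_const.div (by fun_prop) fun θ => ?_) _
    have h1 := Real.cos_le_one (θ - κ * ϑ)
    have h2 : 1 < Real.cosh A := Real.one_lt_cosh.2 hA.ne'
    linarith
  have hle : ((k : ℝ) - 1 / 2) * ϑ ≤ ((k : ℝ) + 1 / 2) * ϑ := by nlinarith
  have hder : ∀ θ, HasDerivAt (fun θ => Real.arctan ((θ - κ * ϑ) / A) / Real.pi)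
      (A / (A ^ 2 + (θ - κ * ϑ) ^ 2) / Real.pi) θ := by
    intro θ
    have := (((hasDerivAt_id θ).sub_const (κ * ϑ)).div_const A).arctan.div_const Real.pi
    exact this.congr_deriv (by simp only [id]; field_simp)
  have hc2 : Continuous fun θ : ℝ => A / (A ^ 2 + (θ - κ * ϑ) ^ 2) / Real.pi :=
    Continuous.div_const (continuous_const.div (by fun_prop) fun θ => by positivity) _
  have h1 := intervalIntegral.integral_eq_sub_of_hasDerivAt (a := ((k : ℝ) - 1 / 2) * ϑ)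
    (b := ((k : ℝ) + 1 / 2) * ϑ) (fun θ _ => hder θ) (hc2.intervalIntegrable _ _)
  have h2 := intervalIntegral.integral_mono_on hle (hc2.intervalIntegrable _ _)
    (hc.intervalIntegrable (μ := MeasureTheory.volume) _ _) fun θ _ => m7_cauchy hA (κ * ϑ) θ
  unfold cellMass m7_Q m7_G
  refine le_trans (le_of_eq ?_) h2
  rw [h1]
  push_cast
  congr 3 <;> ring

lemma m7_Q_neg (ρ : ℝ) (j : ℤ) : m7_Q ρ (-j) = m7_Q ρ j := by
  unfold m7_Q m7_G
  push_cast
  rw [show (-(j : ℝ) + 1 / 2) * ρ = -((j - 1 / 2) * ρ) by ring,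
    show (-(j : ℝ) - 1 / 2) * ρ = -((j + 1 / 2) * ρ) by ring, Real.arctan_neg, Real.arctan_neg]
  ring

lemma m7_Q_eq {ρ : ℝ} (hρ : 0 < ρ) (hρ1 : ρ ≤ 1) (j : ℤ) :
    m7_Q ρ j = Real.arctan (ρ / (1 + ((j : ℝ) ^ 2 - 1 / 4) * ρ ^ 2)) / Real.pi := by
  unfold m7_Q m7_G
  have := Real.arctan_add (x := (j + 1 / 2) * ρ) (y := -((j - 1 / 2) * ρ))
    (by nlinarith [sq_nonneg ((j : ℝ) * ρ), mul_pos hρ hρ])
  rw [Real.arctan_neg] at this
  rw [← sub_div, sub_eq_add_neg, this]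
  congr 2
  ring

lemma m7_Q_anti {ρ : ℝ} (hρ : 0 < ρ) (hρ1 : ρ ≤ 1) {i j : ℤ} (h : i.natAbs ≤ j.natAbs) :
    m7_Q ρ j ≤ m7_Q ρ i := by
  rw [m7_Q_eq hρ hρ1, m7_Q_eq hρ hρ1]
  have h1 : (i : ℝ) ^ 2 ≤ (j : ℝ) ^ 2 := by
    have : i ^ 2 ≤ j ^ 2 := by
      rw [← Int.natAbs_sq i, ← Int.natAbs_sq j]
      exact_mod_cast Nat.pow_le_pow_left h 2
    exact_mod_cast this
  have h2 : 0 < 1 + ((i : ℝ) ^ 2 - 1 / 4) * ρ ^ 2 := by
    nlinarith [sq_nonneg ((i : ℝ) * ρ), mul_pos hρ hρ]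
  refine div_le_div_of_nonneg_right (m7_mono ?_) Real.pi_pos.le
  exact div_le_div_of_nonneg_left hρ.le h2 (by nlinarith [sq_nonneg ρ])

lemma m7_Q_nonneg {ρ : ℝ} (hρ : 0 < ρ) (j : ℤ) : 0 ≤ m7_Q ρ j := by
  unfold m7_Q m7_G
  rw [← sub_div]
  exact div_nonneg (sub_nonneg.2 (m7_mono (by nlinarith))) Real.pi_pos.le

lemma m7_sum_Q (ρ : ℝ) (a d : ℤ) (n : ℕ) :
    ∑ k ∈ Ico a (a + n), m7_Q ρ (k + d) = m7_G ρ (a + n + d - 1 / 2) - m7_G ρ (a + d - 1 / 2) := by
  induction n with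
  | zero => simp
  | succ n ih =>
    rw [Nat.cast_succ, ← add_assoc, ← Finset.insert_Ico_right_eq_Ico_add_one (by omega),
      sum_insert (by simp), ih]
    unfold m7_Q
    push_cast
    ring_nf

lemma m7_sum_Q' {ρ : ℝ} (hρ : 0 < ρ) (a b d : ℤ) :
    m7_G ρ (b + d - 1 / 2) - m7_G ρ (a + d - 1 / 2) ≤ ∑ k ∈ Ico a b, m7_Q ρ (k + d) := by
  rcases le_total a b with h | h
  · obtain ⟨n, rfl⟩ := Int.le.dest h
    rw [m7_sum_Q]
    push_cast
    exact le_rfl
  · rw [Ico_eq_empty_of_le h, sum_empty, sub_nonpos]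
    unfold m7_G
    have : (b : ℝ) ≤ a := by exact_mod_cast h
    exact div_le_div_of_nonneg_right (m7_mono (by nlinarith)) Real.pi_pos.le

/-- The discrete pairing inequality. -/
lemma m7_pair {q f ν : ℤ → ℝ} (S U : Finset ℤ) (h : ℤ) {t : ℝ} (hf : ∀ k, 0 ≤ f k)
    (hq : ∀ k, 0 ≤ q k) (hν : ∀ k ∈ S, 0 ≤ ν k ∧ ν k ≤ q k ∧ ν k ≤ q (k + h) ∧ k ∈ U ∧ k + h ∈ U ∧
      t ≤ f k + f (k + h)) : t * ∑ k ∈ S, ν k ≤ 2 * ∑ k ∈ U, q k * f k := by
  have h1 : ∑ k ∈ S, q k * f k ≤ ∑ k ∈ U, q k * f k :=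
    sum_le_sum_of_subset_of_nonneg (fun k hk => (hν k hk).2.2.2.1) fun k _ _ =>
      mul_nonneg (hq k) (hf k)
  have h2 : ∑ k ∈ S, q (k + h) * f (k + h) ≤ ∑ k ∈ U, q k * f k := by
    rw [← sum_image (s := S) (g := fun k => k + h) (f := fun k => q k * f k)
      (fun a _ b _ hab => by simpa using hab)]
    refine sum_le_sum_of_subset_of_nonneg (fun k hk => ?_) fun k _ _ => mul_nonneg (hq k) (hf k)
    obtain ⟨j, hj, rfl⟩ := mem_image.1 hk
    exact (hν j hj).2.2.2.2.1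
  have h3 : t * ∑ k ∈ S, ν k ≤ ∑ k ∈ S, (q k * f k + q (k + h) * f (k + h)) := by
    rw [mul_sum]
    refine sum_le_sum fun k hk => ?_
    obtain ⟨a1, a2, a3, -, -, a4⟩ := hν k hk
    nlinarith [hf k, hf (k + h), mul_le_mul_of_nonneg_left a4 a1]
  rw [sum_add_distrib] at h3
  linarith
lemma m7_G_neg (ρ x : ℝ) : m7_G ρ (-x) = -m7_G ρ x := by
  unfold m7_G
  rw [neg_mul, Real.arctan_neg, neg_div]

lemma m7_big {x : ℝ} (hx : 97 ≤ x) : Real.pi / 2 - 1 / 97 ≤ Real.arctan x := by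
  have h1 := m7_mono hx
  have h2 := m7_inv (show (0 : ℝ) < 97 by norm_num)
  have h3 := m7_arctan_le (show (0 : ℝ) ≤ (97 : ℝ)⁻¹ by norm_num)
  norm_num at h3
  linarith

/-- The discrete Cauchy statement for a nonnegative centre. -/
lemma m7_main {l K kA h : ℕ} {ρ : ℝ} (hl : 1000 ≤ l) (hK : 10 * K ≤ 21 * l) (hρ : 0 < ρ)
    (h1 : ρ * l ≤ 1) (h2 : 1000 / 1001 ≤ ρ * l) (hA1 : 22 * l + 37 * K ≤ 100 * kA)
    (hA2 : 100 * kA ≤ 22 * l + 37 * K + 99) {f : ℤ → ℝ} {α t : ℝ} (hh : h ≤ kA) (hα : 0 ≤ α)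
    (ht : 0 ≤ t) (hf : ∀ k, 0 ≤ f k) (harc : ∀ k : ℤ, k.natAbs ≤ kA → α ≤ f k)
    (hp : ∀ k : ℤ, kA < k.natAbs → kA < (k + h).natAbs → k.natAbs ≤ 100 * l →
      (k + h).natAbs ≤ 100 * l → t ≤ f k + f (k + h)) :
    5 / 39 * α + 2 * (5 / 39) * t ≤
      ∑ k ∈ Icc (-((100 * l : ℕ) : ℤ)) ((100 * l : ℕ) : ℤ), m7_Q ρ (k - K) * f k := by
  have hl' : (1000 : ℝ) ≤ l := by exact_mod_cast hl
  have hρs : ρ ≤ 1 / 1000 := by nlinarith
  have hρ1 : ρ ≤ 1 := by linarith
  have hK' : 10 * (K : ℝ) ≤ 21 * l := by exact_mod_cast hK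
  have hA1' : 22 * (l : ℝ) + 37 * K ≤ 100 * kA := by exact_mod_cast hA1
  have hA2' : 100 * (kA : ℝ) ≤ 22 * l + 37 * K + 99 := by exact_mod_cast hA2
  have hh' : (h : ℝ) ≤ kA := by exact_mod_cast hh
  have hpi := Real.pi_pos
  set c : ℝ := K * ρ with hc
  set H : ℝ := (kA + 1 / 2) * ρ with hH
  have hc0 : 0 ≤ c := by positivity
  have hc1 : c ≤ 21 / 10 := by nlinarith
  have hH1 : 2197 / 10000 + 37 / 100 * c ≤ H := by nlinarith
  have hH2 : H ≤ 2215 / 10000 + 37 / 100 * c := by nlinarith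
  set kT : ℤ := ((100 * l : ℕ) : ℤ) with hkT
  have hkTr : (kT : ℝ) = 100 * l := by rw [hkT]; push_cast; ring
  have hq := fun k : ℤ => m7_Q_nonneg hρ (k - K)
  set U := (Icc (-kT) kT).filter fun k => kA < k.natAbs with hU
  have hsplit : ∑ k ∈ Icc (-kT) kT, m7_Q ρ (k - K) * f k =
      ∑ k ∈ Ico (-(kA : ℤ)) (kA + 1), m7_Q ρ (k - K) * f k + ∑ k ∈ U, m7_Q ρ (k - K) * f k := by
    rw [← sum_filter_not_add_sum_filter (Icc (-kT) kT) (fun k => kA < k.natAbs)]
    congr 1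
    refine sum_congr ?_ fun _ _ => rfl
    ext k
    simp only [mem_filter, mem_Icc, mem_Ico]
    omega
  -- the arc
  have harc' : 5 / 39 * α ≤ ∑ k ∈ Ico (-(kA : ℤ)) (kA + 1), m7_Q ρ (k - K) * f k := by
    have e1 := m7_sum_Q' hρ (-(kA : ℤ)) (kA + 1) (-K)
    have e2 : m7_G ρ (((kA + 1 : ℤ) : ℝ) + ((-K : ℤ) : ℝ) - 1 / 2) -
        m7_G ρ (((-(kA : ℤ) : ℤ) : ℝ) + ((-K : ℤ) : ℝ) - 1 / 2) =
        (Real.arctan (H - c) + Real.arctan (H + c)) / Real.pi := by
      unfold m7_G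
      push_cast
      rw [show (-(kA : ℝ) + -K - 1 / 2) * ρ = -(H + c) by rw [hH, hc]; ring, Real.arctan_neg,
        show ((kA : ℝ) + 1 + -K - 1 / 2) * ρ = H - c by rw [hH, hc]; ring]
      ring
    have e3 : 5 / 39 ≤ (Real.arctan (H - c) + Real.arctan (H + c)) / Real.pi := by
      rw [le_div_iff₀ hpi]; exact m7_A hc0 hc1 hH1
    calc 5 / 39 * α ≤ (∑ k ∈ Ico (-(kA : ℤ)) (kA + 1), m7_Q ρ (k + -K)) * α := by
          gcongr; linarith
      _ = ∑ k ∈ Ico (-(kA : ℤ)) (kA + 1), m7_Q ρ (k - K) * α := by rw [sum_mul]; rfl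
      _ ≤ _ := sum_le_sum fun k hk => by
          rw [mem_Ico] at hk
          exact mul_le_mul_of_nonneg_left (harc k (by omega)) (hq k)
  -- the pairs
  set k0 : ℤ := K - (h / 2 : ℕ) with hk0
  set ν : ℤ → ℝ := fun k => if k < k0 then m7_Q ρ (k - K) else m7_Q ρ (k + h - K) with hν
  set R1 := Ico (max ((kA : ℤ) + 1) k0) (kT - h + 1) with hR1
  set R2 := Ico ((kA : ℤ) + 1) k0 with hR2
  set R3 := Ico (-kT) (-(kA : ℤ) - h) with hR3
  have hpair := m7_pair (q := fun k => m7_Q ρ (k - K)) (f := f) (ν := ν) (R1 ∪ R2 ∪ R3) U h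
    (t := t) hf hq (by
      intro k hk
      simp only [hR1, hR2, hR3, mem_union, mem_Ico, max_le_iff] at hk
      have a1 : kA < k.natAbs ∧ kA < (k + h).natAbs ∧ k.natAbs ≤ 100 * l ∧
          (k + h).natAbs ≤ 100 * l := by omega
      refine ⟨?_, ?_, ?_, ?_, ?_, hp k a1.1 a1.2.1 a1.2.2.1 a1.2.2.2⟩
      · simp only [hν]; split_ifs
        · exact hq k
        · exact m7_Q_nonneg hρ _
      · simp only [hν]; split_ifs with hk'
        · exact le_rfl
        · exact m7_Q_anti hρ hρ1 (by omega)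
      · simp only [hν]; split_ifs with hk'
        · exact m7_Q_anti hρ hρ1 (by omega)
        · exact le_rfl
      · simp only [hU, mem_filter, mem_Icc]; omega
      · simp only [hU, mem_filter, mem_Icc]; omega)
  have hsum : ∑ k ∈ R1 ∪ R2 ∪ R3, ν k = ∑ k ∈ R1, m7_Q ρ (k + (h - K)) +
      ∑ k ∈ R2, m7_Q ρ (k + -K) + ∑ k ∈ R3, m7_Q ρ (k + -K) := by
    rw [sum_union, sum_union]
    · congr 1
      · congr 1
        · refine sum_congr rfl fun k hk => ?_
          simp only [hR1, mem_Ico, max_le_iff] at hk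
          simp only [hν]
          rw [if_neg (by omega), add_sub_assoc]
        · refine sum_congr rfl fun k hk => ?_
          simp only [hR2, mem_Ico] at hk
          simp only [hν]
          rw [if_pos hk.2, sub_eq_add_neg]
      · refine sum_congr rfl fun k hk => ?_
        simp only [hR3, mem_Ico] at hk
        simp only [hν]
        rw [if_pos (by omega), sub_eq_add_neg]
    · rw [disjoint_left]; intro k a b
      simp only [hR1, hR2, mem_Ico, max_le_iff] at a b; omega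
    · rw [disjoint_left]; intro k a b
      simp only [hR1, hR2, hR3, mem_union, mem_Ico, max_le_iff] at a b; omega
  set H' : ℝ := 2215 / 10000 + 37 / 100 * c with hH'
  have hB := m7_B hc0 hc1 hH'
  have hd1 : ((h / 2 : ℕ) : ℝ) ≤ h / 2 := by
    have := @Nat.cast_div_le ℝ _ _ _ h 2
    exact_mod_cast this
  have hd2 : (h : ℝ) - 1 ≤ 2 * ((h / 2 : ℕ) : ℝ) := by
    have : h ≤ 2 * (h / 2) + 1 := by omega
    have : (h : ℝ) ≤ 2 * ((h / 2 : ℕ) : ℝ) + 1 := by exact_mod_cast this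
    linarith
  have hk0r : (k0 : ℝ) = K - ((h / 2 : ℕ) : ℝ) := by rw [hk0, Int.cast_sub, Int.cast_natCast, Int.cast_natCast]
  have s1 : (Real.pi / 2 - 1 / 97 - Real.arctan (max (2 * H' - c) (H' / 2))) / Real.pi ≤
      ∑ k ∈ R1, m7_Q ρ (k + (h - K)) := by
    refine le_trans ?_ (m7_sum_Q' hρ _ _ _)
    unfold m7_G
    rw [← sub_div]
    refine div_le_div_of_nonneg_right (sub_le_sub (m7_big ?_) (m7_mono ?_)) hpi.le
    · push_cast; rw [hkTr]; nlinarith
    · push_cast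
      rcases le_total ((kA : ℝ) + 1) k0 with h3 | h3
      · rw [max_eq_right h3, hk0r]
        refine le_trans ?_ (le_max_right _ _)
        nlinarith
      · rw [max_eq_left h3]
        refine le_trans ?_ (le_max_left _ _)
        nlinarith
  have s2 : max 0 (Real.arctan (c - H') - Real.arctan (H' / 2 + 5 / 10000)) / Real.pi ≤
      ∑ k ∈ R2, m7_Q ρ (k + -K) := by
    rw [div_le_iff₀ hpi]
    refine max_le (mul_nonneg (sum_nonneg fun k _ => m7_Q_nonneg hρ _) hpi.le) ?_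
    rw [← div_le_iff₀ hpi]
    refine le_trans ?_ (m7_sum_Q' hρ _ _ _)
    unfold m7_G
    rw [← sub_div]
    refine div_le_div_of_nonneg_right ?_ hpi.le
    have b1 := m7_mono (show -(H' / 2 + 5 / 10000) ≤ ((k0 : ℝ) + ((-K : ℤ) : ℝ) - 1 / 2) * ρ by
      push_cast; rw [hk0r]; nlinarith)
    have b2 := m7_mono (show ((((kA : ℤ) + 1 : ℤ) : ℝ) + ((-K : ℤ) : ℝ) - 1 / 2) * ρ ≤ -(c - H') by
      push_cast; nlinarith)
    rw [Real.arctan_neg] at b1 b2
    linarith
  have s3 : (Real.pi / 2 - 1 / 97 - Real.arctan (c + 2 * H')) / Real.pi ≤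
      ∑ k ∈ R3, m7_Q ρ (k + -K) := by
    refine le_trans ?_ (m7_sum_Q' hρ _ _ _)
    unfold m7_G
    rw [← sub_div]
    refine div_le_div_of_nonneg_right ?_ hpi.le
    have b1 := m7_mono (show -(c + 2 * H') ≤
        (((-(kA : ℤ) - h : ℤ) : ℝ) + ((-K : ℤ) : ℝ) - 1 / 2) * ρ by push_cast; nlinarith)
    have b2 := m7_big (show 97 ≤ -((((-kT : ℤ) : ℝ) + ((-K : ℤ) : ℝ) - 1 / 2) * ρ) by
      push_cast; rw [hkTr]; nlinarith)
    rw [Real.arctan_neg] at b1
    rw [Real.arctan_neg] at b2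
    linarith
  have s4 : 20 / 39 ≤ ∑ k ∈ R1 ∪ R2 ∪ R3, ν k := by
    rw [hsum]
    refine le_trans ?_ (add_le_add (add_le_add s1 s2) s3)
    rw [← add_div, ← add_div, le_div_iff₀ hpi]
    have := Real.pi_gt_d4
    linarith
  rw [hsplit]
  have := mul_le_mul_of_nonneg_left s4 ht
  linarith

lemma m7_mass {l : ℕ} {κ : ℤ} {a ϑ : ℝ} (hl : 1000 ≤ l) (hκ : 10 * κ.natAbs ≤ 21 * l) (hϑ : 0 < ϑ)
    (hϑa : ϑ ≤ a) (haϑ : a ≤ 1001 / 1000 * ϑ) :
    MassOK (l * a) (κ * ϑ) ϑ (kH (l, κ)) (100 * l) (5 / 39) := by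
  intro f h α t hh hα ht hf harc hp
  have hl' : (1000 : ℝ) ≤ l := by exact_mod_cast hl
  have ha : 0 < a := by linarith
  have hA : 0 < (l : ℝ) * a := by positivity
  have hρ : 0 < ϑ / (l * a) := by positivity
  have e : ϑ / (l * a) * l = ϑ / a := by field_simp
  have h1 : ϑ / (l * a) * l ≤ 1 := by rw [e, div_le_one ha]; exact hϑa
  have h2 : 1000 / 1001 ≤ ϑ / (l * a) * l := by rw [e, le_div_iff₀ ha]; linarith
  have hA1 : 22 * l + 37 * κ.natAbs ≤ 100 * kH (l, κ) := by unfold kH; simp only; omega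
  have hA2 : 100 * kH (l, κ) ≤ 22 * l + 37 * κ.natAbs + 99 := by unfold kH; simp only; omega
  refine le_trans ?_ (sum_le_sum fun k _ =>
    mul_le_mul_of_nonneg_right (m7_Q_le hA hϑ κ k) (hf k))
  rcases le_total 0 κ with hk | hk
  · have := m7_main hl hκ hρ h1 h2 hA1 hA2 hh hα ht hf harc hp
    rwa [show ((κ.natAbs : ℕ) : ℤ) = κ by omega] at this
  · have := m7_main (f := fun k => f (-k)) hl hκ hρ h1 h2 hA1 hA2 hh hα ht (fun k => hf _)
      (fun k hk => harc _ (by omega)) (fun k a1 a2 a3 a4 => by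
        have := hp (-(k + h)) (by omega) (by omega) (by omega) (by omega)
        rw [show -(k + (h : ℤ)) + h = -k by ring] at this
        linarith)
    refine this.trans (le_of_eq ?_)
    refine sum_nbij' (fun k => -k) (fun k => -k) ?_ ?_ ?_ ?_ ?_
    · intro k hk; simp only [mem_Icc] at hk ⊢; omega
    · intro k hk; simp only [mem_Icc] at hk ⊢; omega
    · intro k _; simp
    · intro k _; simp
    · intro k _
      rw [← m7_Q_neg]
      congr 2
      omega

end Crest.Agent.R300.UB
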