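import Crest.Agent.R300.UBNum
import Crest.Agent.R300.UBMassAux2
import Crest.Agent.R300.UBMassAux7

set_option autoImplicit false

noncomputable section

namespace Crest.Agent.R300.UB

open Complex Finset Crest.Agent.Lib.PT Crest.TraceRecon Crest.FinProb

/-! Poisson masses of the arc and of the pairs. -/

/-- The Poisson density dominates the Cauchy density. -/
theorem cauchy_le_pk {a : ℝ} (ha : 0 < a) (c θ : ℝ) :
    a / (a ^ 2 + (θ - c) ^ 2) / Real.pi ≤ pk a c θ := m7_cauchy ha c θ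

theorem mass_I {l : ℕ} {κ : ℤ} {a ϑ : ℝ} (hl : 1000 ≤ l) (hκ : 10 * κ.natAbs ≤ 21 * l) (hϑ : 0 < ϑ)
    (hϑa : ϑ ≤ a) (haϑ : a ≤ 1001 / 1000 * ϑ) :
    MassOK (l * a) (κ * ϑ) ϑ (kH (l, κ)) (100 * l) (5 / 39) :=
  m7_mass hl hκ hϑ hϑa haϑ

theorem mass_II {Y : ℕ} (hY : 32000 ≤ Y) :
    MassOK (((7 * Y / 10 : ℕ) : ℝ) * a0 Y) 0 (th Y) (kH (7 * Y / 10, 0)) Y (1 / 20) :=
  m2_mass hY

end Crest.Agent.R300.UB
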