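import Crest.Agent.R300.UBDefs

set_option autoImplicit false

noncomputable section

namespace Crest.Agent.R300.UB

open Complex Finset Crest.Agent.Lib.PT Crest.TraceRecon Crest.FinProb

/-! Proofs of the second half of `UBNum`. -/

theorem n2_mem_intRange {N : ℕ} {k : ℤ} : k ∈ intRange N ↔ k.natAbs ≤ N := by
  simp only [intRange, List.mem_map, List.mem_range]
  constructor
  · rintro ⟨i, hi, rfl⟩
    omega
  · intro h
    exact ⟨(k + N).toNat, by omega, by omega⟩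

theorem n2_length_intRange (N : ℕ) : (intRange N).length = 2 * N + 1 := by
  simp [intRange]

theorem n2_sum_intRange {M : Type} [AddCommMonoid M] (N : ℕ) (f : ℤ → M) :
    ((intRange N).map f).sum = ∑ k ∈ Icc (-(N : ℤ)) N, f k := by
  have hn : (intRange N).Nodup :=
    List.Nodup.map (fun i j h => by simpa using h) List.nodup_range
  rw [← List.sum_toFinset f hn]
  refine sum_congr ?_ fun _ _ => rfl
  ext k
  rw [List.mem_toFinset, n2_mem_intRange, mem_Icc]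
  omega

theorem n2_rndR (K : ℕ) (x w : ℝ) (hw : |w| ≤ 2 ^ K) :
    ∃ y : ℝ, |y - w| ≤ |x - w| ∧ |(rndR K x : ℝ) - y| ≤ 1 / 2 ^ K := by
  have hN : (0 : ℝ) < 2 ^ K := by positivity
  have h4 : (4 : ℝ) ^ K = 2 ^ K * 2 ^ K := by rw [← mul_pow]; norm_num
  obtain ⟨w1, w2⟩ := abs_le.1 hw
  refine ⟨max (-(2 ^ K)) (min (2 ^ K) x), ?_, ?_⟩
  · have a1 := abs_max_sub_max_le_abs (min (2 ^ K) x) (min (2 ^ K) w) (-(2 ^ K) : ℝ)
    have a2 := abs_min_sub_min_le_max (2 ^ K : ℝ) x (2 ^ K) w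
    rw [min_eq_right w2] at a1 a2
    rw [max_eq_left w1, max_comm] at a1
    rw [sub_self, abs_zero, max_eq_right (abs_nonneg _)] at a2
    exact a1.trans a2
  · have e1 : (rndR K x : ℝ) = max (-(4 ^ K)) (min (4 ^ K) (⌊x * 2 ^ K⌋ : ℝ)) / 2 ^ K := by
      unfold rndR
      push_cast
      rfl
    have e2 : max (-(2 ^ K)) (min (2 ^ K) x) = max (-(4 ^ K)) (min (4 ^ K) (x * 2 ^ K)) / 2 ^ K := by
      rw [eq_div_iff hN.ne', max_mul_of_nonneg _ _ hN.le, min_mul_of_nonneg _ _ hN.le, h4, neg_mul]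
    rw [e1, e2, ← sub_div, abs_div, abs_of_pos hN]
    refine div_le_div_of_nonneg_right ?_ hN.le
    have a1 := abs_max_sub_max_le_abs (min (4 ^ K) (⌊x * 2 ^ K⌋ : ℝ)) (min (4 ^ K) (x * 2 ^ K))
      (-(4 ^ K) : ℝ)
    have a2 := abs_min_sub_min_le_max (4 ^ K : ℝ) (⌊x * 2 ^ K⌋ : ℝ) (4 ^ K) (x * 2 ^ K)
    rw [sub_self, abs_zero, max_eq_right (abs_nonneg _)] at a2
    rw [max_comm, max_comm _ (min _ (x * 2 ^ K))]
    refine a1.trans (a2.trans (abs_le.2 ⟨?_, ?_⟩))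
    · linarith [Int.lt_floor_add_one (x * 2 ^ K)]
    · linarith [Int.floor_le (x * 2 ^ K)]

theorem n2_rnd_spec (K : ℕ) (z w : ℂ) (hw : ‖w‖ ≤ 2 ^ K) :
    ‖toC (rnd K z) - w‖ ≤ ‖z - w‖ + 2 / 2 ^ K := by
  obtain ⟨a, a1, a2⟩ := n2_rndR K z.re w.re ((abs_re_le_norm w).trans hw)
  obtain ⟨b, b1, b2⟩ := n2_rndR K z.im w.im ((abs_im_le_norm w).trans hw)
  have h1 : ‖(⟨a, b⟩ : ℂ) - w‖ ≤ ‖z - w‖ := by
    rw [norm_eq_sqrt_sq_add_sq, norm_eq_sqrt_sq_add_sq]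
    exact Real.sqrt_le_sqrt (add_le_add (sq_le_sq.2 a1) (sq_le_sq.2 b1))
  have h2 : ‖toC (rnd K z) - (⟨a, b⟩ : ℂ)‖ ≤ 2 / 2 ^ K := by
    refine (norm_le_abs_re_add_abs_im _).trans ?_
    have e1 : (toC (rnd K z) - (⟨a, b⟩ : ℂ)).re = (rndR K z.re : ℝ) - a := by simp [toC, rnd]
    have e2 : (toC (rnd K z) - (⟨a, b⟩ : ℂ)).im = (rndR K z.im : ℝ) - b := by simp [toC, rnd]
    rw [e1, e2, show (2 : ℝ) / 2 ^ K = 1 / 2 ^ K + 1 / 2 ^ K by ring]
    exact add_le_add a2 b2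
  have h3 := norm_sub_le_norm_sub_add_norm_sub (toC (rnd K z)) (⟨a, b⟩ : ℂ) w
  linarith

theorem n2_look_map (l : List Query) (f : Query → ℚ × ℚ) {q : Query} (hq : q ∈ l) :
    look (l.map fun q => (q, f q)) q = toC (f q) := by
  have : (l.map fun q => (q, f q)).lookup q = some (f q) := by
    induction l with
    | nil => simp at hq
    | cons a l ih =>
      rw [List.map_cons, List.lookup_cons]
      by_cases h : q = a
      · subst h; simp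
      · have : (q == a) = false := by simpa using h
        rw [this]
        exact ih ((List.mem_cons.1 hq).resolve_left h)
  rw [look, this, Option.getD_some]

theorem n2_hY100 {Y n : ℕ} {L : Lev} {zs : List Mono} {E' : ℕ} (h : LevOK Y n L zs E') :
    32000 ≤ Y := by
  rw [← h.hlb, pow_add]
  have h1 : 1 ≤ 2 ^ L.g := Nat.one_le_two_pow
  calc 32000 = 1000 * (1 * 2 ^ 5) := by norm_num
    _ ≤ _ := Nat.mul_le_mul h.hlb' (Nat.mul_le_mul_right _ h1)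

theorem n2_chain_mem {Y n l0 : ℕ} {ls : List Lev} {r E : ℕ} (h : ChainOK Y n l0 ls r E) :
    ∀ L ∈ ls, ∃ zs E', LevOK Y n L zs E' := by
  induction ls generalizing r E with
  | nil => simp
  | cons L ls ih =>
    intro L' hL'
    rcases List.mem_cons.1 hL' with rfl | h'
    · exact ⟨_, _, h.2.1⟩
    · exact ih h.2.2 L' h'

theorem n2_contour_mem {Y n : ℕ} {L : Lev} {zs : List Mono} {E' : ℕ} (h : LevOK Y n L zs E')
    {z : Mono} (hz : z ∈ contour L.lb L.kS) :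
    L.lb ≤ z.1 ∧ z.1 ≤ L.kS ∧ 128 * L.kS ≤ Y ∧ 10 * z.2.natAbs ≤ 21 * z.1 ∧ z.2.natAbs ≤ L.kS := by
  obtain ⟨κ, hκ, rfl⟩ := List.mem_map.1 hz
  rw [n2_mem_intRange] at hκ
  have h1 : L.kS = 2 ^ L.om * (32 * L.lb) := by
    refine Nat.eq_of_mul_eq_mul_right (Nat.two_pow_pos L.g) ?_
    rw [h.hkS, ← h.hlb]
    ring
  have h2 : 32 * L.lb ≤ L.kS := h1 ▸ Nat.le_mul_of_pos_left _ (Nat.two_pow_pos _)
  have h3 : 128 * L.kS ≤ Y := by
    refine Nat.le_of_mul_le_mul_left ?_ (Nat.two_pow_pos L.om)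
    rw [← h.hkS]
    calc 2 ^ L.om * (128 * L.kS) = L.kS * 2 ^ (L.om + 7) := by ring
      _ ≤ _ := Nat.mul_le_mul_left _ (Nat.pow_le_pow_right (by norm_num) h.hg)
  have h4 := h.hlb'
  dsimp only
  omega

theorem n2_mem_qlist {l0 : ℕ} {ls : List Lev} {q : Query} :
    q ∈ qlist l0 ls ↔ q.1 ∈ feats ls ∧ q.2 ∈ zsOf l0 ls := by
  simp only [qlist, List.mem_flatMap, List.mem_map]
  constructor
  · rintro ⟨a, ha, b, hb, rfl⟩
    exact ⟨ha, hb⟩
  · rintro ⟨ha, hb⟩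
    exact ⟨_, ha, _, hb, rfl⟩

theorem n2_mem_feats_cons {L : Lev} {ls : List Lev} {νs : List Node} :
    νs ∈ feats (L :: ls) ↔ ∃ ν ∈ nodeSet L, ∃ νs' ∈ feats ls, νs = ν :: νs' := by
  simp only [feats, List.foldr_cons, List.mem_flatMap, List.mem_map, eq_comm]

theorem n2_mem_kinds (κ : Kind) : κ ∈ kinds := by
  rcases κ with _ | _ | _ <;> simp [kinds]

theorem n2_mem_slotSet {L : Lev} {sl : Slot} :
    sl ∈ slotSet L ↔ sl.2.2.1 = L.lb ∧ sl.2.2.2.natAbs ≤ L.kF := by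
  simp only [slotSet, List.mem_flatMap, List.mem_map, n2_mem_intRange]
  constructor
  · rintro ⟨a, -, b, -, k, hk, rfl⟩
    exact ⟨rfl, hk⟩
  · obtain ⟨a, b, c, k⟩ := sl
    rintro ⟨rfl, hk⟩
    exact ⟨a, n2_mem_kinds a, b, by cases b <;> simp, k, hk, rfl⟩

theorem n2_mem_nodeSet {L : Lev} {ν : Node} :
    ν ∈ nodeSet L ↔ ν.2.1 = (L.lc, 0) ∧ ν.2.2.length = 3 ∧
      ∀ sl ∈ ν.2.2, sl.2.2.1 = L.lb ∧ sl.2.2.2.natAbs ≤ L.kF := by
  simp only [nodeSet, List.mem_flatMap, List.mem_map, ← n2_mem_slotSet]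
  constructor
  · rintro ⟨a, -, s1, h1, s2, h2, s3, h3, rfl⟩
    exact ⟨rfl, rfl, by simp [h1, h2, h3]⟩
  · obtain ⟨a, c, l⟩ := ν
    rintro ⟨rfl, hl, h⟩
    obtain ⟨s1, s2, s3, rfl⟩ := List.length_eq_three.1 hl
    exact ⟨a, n2_mem_kinds a, s1, h _ (by simp), s2, h _ (by simp), s3, h _ (by simp), rfl⟩

end Crest.Agent.R300.UB
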