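import Crest.Agent.R300.UBNumAuxA
import Crest.Agent.R300.UBDefs
import Crest.Agent.R300.UBNumAuxB

set_option autoImplicit false

noncomputable section

namespace Crest.Agent.R300.UB

open Complex Finset Crest.Agent.Lib.PT Crest.TraceRecon Crest.FinProb

/-! Basic facts about the numbers `alpha`, `uu`, windows, ranges, rounding and tables. -/

theorem th_pos {Y : ℕ} (hY : 100 ≤ Y) : 0 < th Y := n1_th_pos hY
theorem th_le {Y : ℕ} (hY : 100 ≤ Y) : th Y ≤ 2 / Y := n1_th_le hY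
theorem le_th {Y : ℕ} (hY : 100 ≤ Y) : 1999 / 1000 / (Y : ℝ) ≤ th Y := n1_le_th hY
theorem le_a0 {Y : ℕ} (hY : 100 ≤ Y) : 2 / (Y : ℝ) ≤ a0 Y := n1_le_a0 hY
theorem a0_le {Y : ℕ} (hY : 100 ≤ Y) : a0 Y ≤ 2001 / 1000 / (Y : ℝ) := n1_a0_le hY
theorem a0_pos {Y : ℕ} (hY : 100 ≤ Y) : 0 < a0 Y := n1_a0_pos hY
theorem th_le_a0 {Y : ℕ} (hY : 100 ≤ Y) : th Y ≤ a0 Y := n1_th_le_a0 hY
theorem a0_le_th {Y : ℕ} (hY : 100 ≤ Y) : a0 Y ≤ 1001 / 1000 * th Y := n1_a0_le_th hY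
theorem alpha_eq {Y : ℕ} (hY : 100 ≤ Y) : alpha Y = Real.exp (-a0 Y) := n1_alpha_eq hY
theorem uu_eq {Y : ℕ} (hY : 100 ≤ Y) : uu Y = Complex.exp ((th Y : ℂ) * I) := n1_uu_eq hY
theorem uu_zpow {Y : ℕ} (hY : 100 ≤ Y) (k : ℤ) :
    uu Y ^ k = Complex.exp ((k : ℂ) * (th Y : ℂ) * I) := n1_uu_zpow hY k
theorem norm_uu_zpow {Y : ℕ} (hY : 100 ≤ Y) (k : ℤ) : ‖uu Y ^ k‖ = 1 := n1_norm_uu_zpow hY k
theorem ev_eq {Y : ℕ} (hY : 100 ≤ Y) : ev Y = val (a0 Y) (th Y) := n1_ev_eq hY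
theorem val_zero (A B : ℝ) : val A B (0, 0) = 1 := n1_val_zero A B
theorem val_add (A B : ℝ) (μ ν : Mono) : val A B (μ + ν) = val A B μ * val A B ν := n1_val_add A B μ ν
theorem val_cj (A B : ℝ) (μ : Mono) : val A B (cj μ) = (starRingEnd ℂ) (val A B μ) := n1_val_cj A B μ
theorem norm_val (A B : ℝ) (μ : Mono) : ‖val A B μ‖ = Real.exp (-(μ.1 * A)) := n1_norm_val A B μ
theorem val_real (A : ℝ) (μ : Mono) : val A 0 μ = (Real.exp (-(μ.1 * A)) : ℝ) := n1_val_real A μ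
theorem Wt_eq {Y : ℕ} (hY : 100 ≤ Y) (r : ℕ) (s : ℤ) :
    Wt Y r s = Real.exp (-(r * a0 Y * (s : ℝ) ^ 2)) := n1_Wt_eq hY r s
theorem Wt_pos {Y : ℕ} (hY : 100 ≤ Y) (r : ℕ) (s : ℤ) : 0 < Wt Y r s := n1_Wt_pos hY r s
theorem Wt_le_one {Y : ℕ} (hY : 100 ≤ Y) (r : ℕ) (s : ℤ) : Wt Y r s ≤ 1 := n1_Wt_le_one hY r s
theorem Wt_zero (Y r : ℕ) : Wt Y r 0 = 1 := n1_Wt_zero Y r
theorem Wt_zero_left (Y : ℕ) (s : ℤ) : Wt Y 0 s = 1 := n1_Wt_zero_left Y s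
/-- The mass of the window (`σ ≤ 2^g`, mass `≤ 1 + σ √(2π)`). -/
theorem Vz_le {Y r g : ℕ} (hY : 100 ≤ Y) (hr : r * 4 ^ (g + 1) = Y) (m n : ℕ) :
    Vz Y r m n ≤ 2 ^ (g + 2) := n1_Vz_le hY hr m n
theorem one_le_Vz {Y : ℕ} (hY : 100 ≤ Y) (r : ℕ) {m n : ℕ} (h : m < n) : 1 ≤ Vz Y r m n := n1_one_le_Vz hY r h
theorem mem_intRange {N : ℕ} {k : ℤ} : k ∈ intRange N ↔ k.natAbs ≤ N :=
  n2_mem_intRange
theorem length_intRange (N : ℕ) : (intRange N).length = 2 * N + 1 :=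
  n2_length_intRange N
theorem sum_intRange {M : Type} [AddCommMonoid M] (N : ℕ) (f : ℤ → M) :
    ((intRange N).map f).sum = ∑ k ∈ Icc (-(N : ℤ)) N, f k :=
  n2_sum_intRange N f
theorem rnd_spec (K : ℕ) (z w : ℂ) (hw : ‖w‖ ≤ 2 ^ K) :
    ‖toC (rnd K z) - w‖ ≤ ‖z - w‖ + 2 / 2 ^ K :=
  n2_rnd_spec K z w hw
theorem look_map (l : List Query) (f : Query → ℚ × ℚ) {q : Query} (hq : q ∈ l) :
    look (l.map fun q => (q, f q)) q = toC (f q) :=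
  n2_look_map l f hq
theorem LevOK.hY100 {Y n : ℕ} {L : Lev} {zs : List Mono} {E' : ℕ} (h : LevOK Y n L zs E') :
    32000 ≤ Y :=
  n2_hY100 h
theorem ChainOK.mem {Y n l0 : ℕ} {ls : List Lev} {r E : ℕ} (h : ChainOK Y n l0 ls r E) :
    ∀ L ∈ ls, ∃ zs E', LevOK Y n L zs E' :=
  n2_chain_mem h
/-- Points of the contour of a valid level. -/
theorem LevOK.contour_mem {Y n : ℕ} {L : Lev} {zs : List Mono} {E' : ℕ} (h : LevOK Y n L zs E')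
    {z : Mono} (hz : z ∈ contour L.lb L.kS) :
    L.lb ≤ z.1 ∧ z.1 ≤ L.kS ∧ 128 * L.kS ≤ Y ∧ 10 * z.2.natAbs ≤ 21 * z.1 ∧ z.2.natAbs ≤ L.kS :=
  n2_contour_mem h hz
theorem mem_qlist {l0 : ℕ} {ls : List Lev} {q : Query} :
    q ∈ qlist l0 ls ↔ q.1 ∈ feats ls ∧ q.2 ∈ zsOf l0 ls :=
  n2_mem_qlist
theorem mem_feats_cons {L : Lev} {ls : List Lev} {νs : List Node} :
    νs ∈ feats (L :: ls) ↔ ∃ ν ∈ nodeSet L, ∃ νs' ∈ feats ls, νs = ν :: νs' :=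
  n2_mem_feats_cons
theorem mem_nodeSet {L : Lev} {ν : Node} :
    ν ∈ nodeSet L ↔ ν.2.1 = (L.lc, 0) ∧ ν.2.2.length = 3 ∧
      ∀ sl ∈ ν.2.2, sl.2.2.1 = L.lb ∧ sl.2.2.2.natAbs ≤ L.kF :=
  n2_mem_nodeSet

end Crest.Agent.R300.UB
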