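import Crest.Agent.R300.UBDefs

/-! Proofs of the basic facts about `alpha`, `uu` and the windows (restated in `UBNum`). -/

set_option autoImplicit false

namespace Crest.Agent.R300.UB

open Complex Finset

variable {Y : ℕ}

theorem n1_th_le (hY : 100 ≤ Y) : th Y ≤ 2 / Y := by
  have hY' : (100 : ℝ) ≤ Y := by exact_mod_cast hY
  have := Real.le_tan (Real.arctan_nonneg.2 (by positivity : (0 : ℝ) ≤ 1 / Y))
    (Real.arctan_lt_pi_div_two _)
  rw [Real.tan_arctan] at this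
  rw [th, div_eq_mul_one_div 2]
  linarith

theorem n1_le_th (hY : 100 ≤ Y) : 1999 / 1000 / (Y : ℝ) ≤ th Y := by
  have hY' : (100 : ℝ) ≤ Y := by exact_mod_cast hY
  have h0 : (0 : ℝ) ≤ 1 / Y := by positivity
  have h1 : (1 : ℝ) / Y ≤ 1 / 100 := by gcongr
  have := Real.sin_le (Real.arctan_nonneg.2 h0)
  rw [Real.sin_arctan] at this
  rw [th, div_eq_mul_one_div _ (Y : ℝ)]
  generalize (1 : ℝ) / Y = y at *
  have h2 : √(1 + y ^ 2) ≤ 2001 / 2000 := Real.sqrt_le_iff.2 ⟨by norm_num, by nlinarith⟩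
  have h3 : y / (2001 / 2000) ≤ y / √(1 + y ^ 2) := by gcongr
  linarith

theorem n1_th_pos (hY : 100 ≤ Y) : 0 < th Y := by
  have hY' : (100 : ℝ) ≤ Y := by exact_mod_cast hY
  exact lt_of_lt_of_le (by positivity) (n1_le_th hY)

theorem n1_le_a0 (hY : 100 ≤ Y) : 2 / (Y : ℝ) ≤ a0 Y := by
  have hY' : (100 : ℝ) ≤ Y := by exact_mod_cast hY
  have h : (0 : ℝ) < Y - 1 := by linarith
  convert Real.le_log_one_add_of_nonneg (x := 2 / (Y - 1)) (by positivity) using 1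
  · field_simp
    ring
  · rw [a0]
    congr 1
    field_simp
    ring

theorem n1_a0_pos (hY : 100 ≤ Y) : 0 < a0 Y := by
  have hY' : (100 : ℝ) ≤ Y := by exact_mod_cast hY
  exact lt_of_lt_of_le (by positivity) (n1_le_a0 hY)

theorem n1_a0_le' (hY : 100 ≤ Y) : a0 Y ≤ 20003 / 10000 / (Y : ℝ) := by
  have hY' : (100 : ℝ) ≤ Y := by exact_mod_cast hY
  have h : (0 : ℝ) < Y - 1 := by linarith
  refine (Real.self_le_sinh_iff.2 (n1_a0_pos hY).le).trans ?_
  rw [a0, Real.sinh_log (by positivity), inv_div, div_sub_div _ _ h.ne' (by positivity), div_div,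
    div_le_div_iff₀ (by positivity) (by positivity)]
  nlinarith

theorem n1_a0_le (hY : 100 ≤ Y) : a0 Y ≤ 2001 / 1000 / (Y : ℝ) :=
  (n1_a0_le' hY).trans (div_le_div_of_nonneg_right (by norm_num) Y.cast_nonneg)

theorem n1_th_le_a0 (hY : 100 ≤ Y) : th Y ≤ a0 Y := (n1_th_le hY).trans (n1_le_a0 hY)

theorem n1_a0_le_th (hY : 100 ≤ Y) : a0 Y ≤ 1001 / 1000 * th Y := by
  have a := n1_a0_le' hY
  have b := n1_le_th hY
  have h0 : (0 : ℝ) ≤ 1 / Y := by positivity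
  rw [div_eq_mul_one_div _ (Y : ℝ)] at a b
  linarith

theorem n1_alpha_eq (hY : 100 ≤ Y) : alpha Y = Real.exp (-a0 Y) := by
  have hY' : (100 : ℝ) ≤ Y := by exact_mod_cast hY
  have h : (0 : ℝ) < Y - 1 := by linarith
  rw [Real.exp_neg, a0, Real.exp_log (by positivity), inv_div, alpha]

theorem n1_uu_eq (hY : 100 ≤ Y) : uu Y = Complex.exp ((th Y : ℂ) * I) := by
  have hY' : (100 : ℝ) ≤ Y := by exact_mod_cast hY
  have ht := Real.tan_arctan (1 / (Y : ℝ))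
  rw [Real.tan_eq_sin_div_cos, div_eq_div_iff (Real.cos_arctan_pos _).ne' (by positivity),
    one_mul] at ht
  rw [uu, th]
  generalize Real.arctan (1 / (Y : ℝ)) = a at *
  have h1 := Complex.sin_sq_add_cos_sq a
  have h2 : Complex.cos a = Complex.sin a * Y := by exact_mod_cast ht.symm
  have hne : (Y : ℂ) - I ≠ 0 := fun h => by simpa using congrArg Complex.im h
  rw [div_eq_iff hne, show ((2 * a : ℝ) : ℂ) * I = a * I + a * I by push_cast; ring,
    Complex.exp_add, Complex.exp_mul_I, h2]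
  rw [h2] at h1
  linear_combination (-(Y + I)) * h1 + (Y + I) * Complex.sin a ^ 2 * I_sq

theorem n1_uu_zpow (hY : 100 ≤ Y) (k : ℤ) :
    uu Y ^ k = Complex.exp ((k : ℂ) * (th Y : ℂ) * I) := by
  rw [n1_uu_eq hY, ← Complex.exp_int_mul, mul_assoc]

theorem n1_norm_uu_zpow (hY : 100 ≤ Y) (k : ℤ) : ‖uu Y ^ k‖ = 1 := by
  rw [norm_zpow, n1_uu_eq hY, norm_exp_ofReal_mul_I, one_zpow]

theorem n1_ev_eq (hY : 100 ≤ Y) : ev Y = val (a0 Y) (th Y) := by
  funext μ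
  rw [ev, val, n1_uu_zpow hY, n1_alpha_eq hY, Complex.exp_add, ofReal_exp, ← Complex.exp_nat_mul,
    ofReal_neg, mul_neg]

theorem n1_val_zero (A B : ℝ) : val A B (0, 0) = 1 := by simp [val]

theorem n1_val_add (A B : ℝ) (μ ν : Mono) : val A B (μ + ν) = val A B μ * val A B ν := by
  rw [val, val, val, ← Complex.exp_add, Prod.fst_add, Prod.snd_add]
  congr 1
  push_cast
  ring

theorem n1_val_cj (A B : ℝ) (μ : Mono) : val A B (cj μ) = (starRingEnd ℂ) (val A B μ) := by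
  rw [val, val, ← Complex.exp_conj]
  simp [cj]

theorem n1_norm_val (A B : ℝ) (μ : Mono) : ‖val A B μ‖ = Real.exp (-(μ.1 * A)) := by
  rw [val, Complex.norm_exp]
  simp

theorem n1_val_real (A : ℝ) (μ : Mono) : val A 0 μ = (Real.exp (-(μ.1 * A)) : ℝ) := by
  simp [val]

theorem n1_Wt_eq (hY : 100 ≤ Y) (r : ℕ) (s : ℤ) :
    Wt Y r s = Real.exp (-(r * a0 Y * (s : ℝ) ^ 2)) := by
  rw [Wt, n1_alpha_eq hY, ← Real.exp_nat_mul]
  congr 1
  push_cast
  rw [Nat.cast_natAbs, Int.cast_abs, sq_abs]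
  ring

theorem n1_Wt_pos (hY : 100 ≤ Y) (r : ℕ) (s : ℤ) : 0 < Wt Y r s := by
  rw [n1_Wt_eq hY]
  positivity

theorem n1_Wt_le_one (hY : 100 ≤ Y) (r : ℕ) (s : ℤ) : Wt Y r s ≤ 1 := by
  have := n1_a0_pos hY
  rw [n1_Wt_eq hY, Real.exp_le_one_iff, neg_nonpos]
  positivity

theorem n1_Wt_zero (Y r : ℕ) : Wt Y r 0 = 1 := by simp [Wt]

theorem n1_Wt_zero_left (Y : ℕ) (s : ℤ) : Wt Y 0 s = 1 := by simp [Wt]

theorem n1_geo {q : ℝ} (h0 : 0 ≤ q) (h1 : q ≤ 1) (m n : ℕ) :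
    (∑ t ∈ range n, q ^ ((t : ℤ) - m).natAbs) * (1 - q) ≤ 1 + q := by
  have e : ∑ t ∈ range (m + n), q ^ ((t : ℤ) - m).natAbs =
      q * ∑ t ∈ range m, q ^ t + ∑ t ∈ range n, q ^ t := by
    rw [sum_range_add, mul_sum, ← sum_range_reflect]
    congr 1 <;> refine sum_congr rfl fun t ht => ?_
    · rw [mem_range] at ht
      rw [← pow_succ']
      congr 1
      omega
    · congr 1
      omega
  refine (mul_le_mul_of_nonneg_right (sum_le_sum_of_subset_of_nonneg (range_subset_range.2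
    (Nat.le_add_left n m)) fun _ _ _ => by positivity) (sub_nonneg.2 h1)).trans ?_
  rw [e, add_mul, mul_assoc, geom_sum_mul_neg, geom_sum_mul_neg]
  nlinarith [pow_nonneg h0 n, mul_nonneg h0 (pow_nonneg h0 m)]

theorem n1_Vz_le {r g : ℕ} (hY : 100 ≤ Y) (hr : r * 4 ^ (g + 1) = Y) (m n : ℕ) :
    Vz Y r m n ≤ 2 ^ (g + 2) := by
  have hY' : (100 : ℝ) ≤ Y := by exact_mod_cast hY
  have hS : (1 : ℝ) ≤ 2 ^ g := one_le_pow₀ one_le_two
  set x : ℝ := 1 / 2 ^ g with hx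
  have x0 : 0 < x := by positivity
  have x1 : x ≤ 1 := by rwa [hx, div_le_one (by positivity)]
  have ha : x ^ 2 / 2 ≤ r * a0 Y := by
    refine le_trans (le_of_eq ?_) (mul_le_mul_of_nonneg_left (n1_le_a0 hY) r.cast_nonneg)
    have e : (Y : ℝ) = r * (4 * (2 ^ g) ^ 2) := by
      rw [← hr, ← pow_mul, mul_comm g, pow_mul]
      push_cast
      ring
    have r0 : (r : ℝ) ≠ 0 := fun h => by rw [h] at e; linarith
    rw [e, hx]
    field_simp
    norm_num
  have he : Real.exp (1 / 2) ≤ 33 / 20 := by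
    rw [Real.exp_half]
    exact Real.sqrt_le_iff.2 ⟨by norm_num, by linarith [Real.exp_one_lt_d9]⟩
  have q0 := Real.exp_pos (-x)
  have q1 : Real.exp (-x) < 1 := Real.exp_lt_one_iff.2 (by linarith)
  have q2 : Real.exp (-x) * (1 + x + x ^ 2 / 2) ≤ 1 := by
    rw [Real.exp_neg, inv_mul_le_iff₀ (Real.exp_pos _), mul_one]
    exact Real.quadratic_le_exp_of_nonneg x0.le
  have h1 : Vz Y r m n ≤ 33 / 20 * ∑ t ∈ range n, Real.exp (-x) ^ ((t : ℤ) - m).natAbs := by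
    rw [Vz, mul_sum]
    refine sum_le_sum fun t _ => le_trans ?_ (mul_le_mul_of_nonneg_right he (by positivity))
    rw [n1_Wt_eq hY, ← Real.exp_nat_mul, ← Real.exp_add, Real.exp_le_exp, Nat.cast_natAbs,
      Int.cast_abs, ← sq_abs]
    generalize |(((t : ℤ) - m : ℤ) : ℝ)| = k
    nlinarith [mul_le_mul_of_nonneg_right ha (sq_nonneg k), sq_nonneg (k * x - 1)]
  have h2 := n1_geo q0.le q1.le m n
  generalize ∑ t ∈ range n, Real.exp (-x) ^ ((t : ℤ) - m).natAbs = V at h1 h2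
  generalize Real.exp (-x) = q at *
  have h3 : 33 / 20 * x * (1 + q) ≤ 4 * (1 - q) := by
    refine le_of_mul_le_mul_right ?_ (show 0 < 1 + x + x ^ 2 / 2 by positivity)
    nlinarith [mul_le_mul_of_nonneg_left q2 (show 0 ≤ 33 / 20 * x + 4 by positivity),
      mul_nonneg (sq_nonneg x) (sub_nonneg.2 x1), mul_nonneg x0.le (sub_nonneg.2 x1)]
  have h4 : 33 / 20 * V * x ≤ 4 := by
    refine le_of_mul_le_mul_right ?_ (sub_pos.2 q1)
    nlinarith [mul_le_mul_of_nonneg_left h2 x0.le]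
  rw [hx, mul_one_div, div_le_iff₀ (by positivity)] at h4
  rw [pow_add]
  linarith

theorem n1_one_le_Vz (hY : 100 ≤ Y) (r : ℕ) {m n : ℕ} (h : m < n) : 1 ≤ Vz Y r m n := by
  have := single_le_sum (f := fun t : ℕ => Wt Y r ((t : ℤ) - m))
    (fun t _ => (n1_Wt_pos hY r _).le) (mem_range.2 h)
  rwa [sub_self, n1_Wt_zero] at this

end Crest.Agent.R300.UB
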