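import Crest.Agent.R300.UBSched
import Crest.Agent.R300.UBComb
import Crest.Agent.R300.PTD6

set_option autoImplicit false

noncomputable section

namespace Crest.Agent.R300.UB

open Complex Finset Crest.Agent.Lib.PT Crest.TraceRecon Crest.FinProb

/-- The decoder runs in polynomial time on valid inputs. -/
theorem decode_pt : PT (fun a : {a : PTW.Raw // Valid a} => decode a.1) := decode_pt'

end Crest.Agent.R300.UB
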