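import Crest.Agent.R300.UBDefs
import Crest.Agent.R300.Rep2

set_option autoImplicit false

noncomputable section

namespace Crest.Agent.R300.UB

open Complex Finset Crest.Agent.Lib.PT Crest.TraceRecon Crest.FinProb

/-- REP: the product of four Gaussian windows is a combination, with small coefficients, of the
kernels of next-level queries. -/
theorem rep_exists {a ϑ σ : ℝ} {r r' lb kS n : ℕ} {kT : ℤ} (hϑ : 0 < ϑ) (hϑa : ϑ ≤ a)
    (haϑ : a ≤ 1001 / 1000 * ϑ) (hσ : 0 < σ) (hr : 2 * r * a * σ ^ 2 = 1) (hr' : 64 * r' ≤ r)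
    (hb : lb * a * σ ≤ 1 / 8) (hk : kT.natAbs ≤ lb) :
    ∃ γ : (ℤ × ℤ × ℤ) × ℤ → ℂ, (∀ i, ‖γ i‖ ≤ 2 ^ 20 * (σ * ϑ) ^ 4) ∧
      ∀ s d1 d2 d3 : ℕ, s < n → d1 < n → d2 < n → d3 < n →
        ‖(∑ p1 ∈ Icc (-(kS : ℤ)) kS, ∑ p2 ∈ Icc (-(kS : ℤ)) kS, ∑ p3 ∈ Icc (-(kS : ℤ)) kS,
            ∑ κ ∈ Icc (-(kS : ℤ)) kS, γ ((p1, p2, p3), κ) *
              ((Real.exp (-(r' * a * (s : ℝ) ^ 2)) : ℝ) *
                val a ϑ (lb + (10 * κ.natAbs + 20) / 21, κ) ^ s * val a ϑ (lb, -p1) ^ d1 *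
                val a ϑ (lb, -p2) ^ d2 * val a ϑ (lb, -p3) ^ d3)) -
          (Real.exp (-(r * a * ((s : ℝ) ^ 2 + ((s : ℝ) - d1) ^ 2 + ((s : ℝ) - d2) ^ 2 +
            ((s : ℝ) - d3) ^ 2))) : ℝ) * Complex.exp ((kT : ℂ) * (ϑ : ℂ) * (s : ℂ) * I)‖ ≤
        2 ^ 40 * (Real.exp (-((σ * kS * ϑ) ^ 2 / 512)) + a * n) *
          Real.exp (-(lb * a * (s + d1 + d2 + d3))) := by
  have hk' : |(kT : ℝ)| ≤ lb := by
    rw [← Int.cast_abs, ← Nat.cast_natAbs]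
    exact_mod_cast hk
  obtain ⟨γ, hγ, H⟩ := Rep.rep_main (r := r) (r' := r') (lb := lb) (k₀ := kT) hϑ hϑa (by linarith) hσ
    hr (Nat.cast_nonneg _) (by exact_mod_cast hr') hb hk' kS
  refine ⟨γ, fun i => (hγ i).trans (by gcongr <;> norm_num), fun s d1 d2 d3 hs h1 h2 h3 => ?_⟩
  have H' := H s d1 d2 d3 n (Nat.cast_nonneg _) (by exact_mod_cast hs.le) (Nat.cast_nonneg _)
    (by exact_mod_cast h1.le) (Nat.cast_nonneg _) (by exact_mod_cast h2.le) (Nat.cast_nonneg _)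
    (by exact_mod_cast h3.le)
  rw [neg_div] at H'
  refine le_trans (le_of_eq ?_) H'
  congr 2
  · simp only [Rep.box, Finset.sum_product]
    refine sum_congr rfl fun p1 _ => sum_congr rfl fun p2 _ => sum_congr rfl fun p3 _ =>
      sum_congr rfl fun κ _ => ?_
    congr 1
    simp only [val, Complex.ofReal_exp, ← Complex.exp_nat_mul, ← Complex.exp_add]
    congr 1
    generalize (10 * κ.natAbs + 20) / 21 = m
    push_cast
    ring
  · rw [Complex.ofReal_exp, ← Complex.exp_add]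
    congr 1
    push_cast
    ring

end Crest.Agent.R300.UB
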