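import Crest.Agent.R300.UBNum
import Crest.Agent.R300.UBLsq
import Crest.Agent.R300.UBRep

set_option autoImplicit false

noncomputable section

namespace Crest.Agent.R300.UB

open Complex Finset Crest.Agent.Lib.PT Crest.TraceRecon Crest.FinProb

theorem rl_abs {ι κ : Type} (I : List ι) (J : List κ) (a : κ → ι → ℂ) (ω : κ → ℝ) (c : κ → ℂ)
    {ρ ε Ω Γ F t : ℝ} (γ₀ : Fin I.length → ℂ) (hω : ∀ j ∈ J, 0 < ω j) (hρ : 0 < ρ) (ht : 0 < t)
    (h1 : ∀ j ∈ J, ‖∑ i, γ₀ i * a j I[i] - c j‖ ≤ ε * (ω j)⁻¹)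
    (hΩ : (J.map fun j => (ω j)⁻¹).sum ≤ Ω) (h2 : ∀ i, ‖γ₀ i‖ ≤ Γ)
    (hF : ε ^ 2 * Ω + I.length * (ρ * Γ ^ 2) ≤ F) :
    (J.map fun j => ‖∑ i, lsq I J a ω c (fun _ => ρ) i * a j I[i] - c j‖).sum ≤
        (t * F + Ω / t) / 2 ∧
      (∑ i, ‖lsq I J a ω c (fun _ => ρ) i‖) ^ 2 ≤ I.length * (F / ρ) := by
  have hmin := lsq_min I J a ω c (fun _ => ρ) (fun j hj => (hω j hj).le) (fun _ _ => hρ) γ₀
  have h3 : lsObj I J a ω c (fun _ => ρ) γ₀ ≤ F := by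
    refine le_trans (add_le_add ?_ ?_) hF
    · refine (List.sum_le_sum (g := fun j => ε ^ 2 * (ω j)⁻¹) fun j hj => ?_).trans ?_
      · have h0 := hω j hj
        have := mul_le_mul_of_nonneg_left (pow_le_pow_left₀ (norm_nonneg _) (h1 j hj) 2) h0.le
        refine this.trans (le_of_eq ?_)
        field_simp
      · rw [List.sum_map_mul_left]
        exact mul_le_mul_of_nonneg_left hΩ (sq_nonneg _)
    · refine (Finset.sum_le_card_nsmul _ _ (ρ * Γ ^ 2) fun i _ => ?_).trans (by simp)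
      exact mul_le_mul_of_nonneg_left (pow_le_pow_left₀ (norm_nonneg _) (h2 i) 2) hρ.le
  generalize lsq I J a ω c (fun _ => ρ) = γ at hmin ⊢
  have h4 := hmin.trans h3
  rw [lsObj] at h4
  have p1 : 0 ≤ (J.map fun j => ω j * ‖∑ i, γ i * a j I[i] - c j‖ ^ 2).sum :=
    List.sum_nonneg fun x hx => by
      obtain ⟨j, hj, rfl⟩ := List.mem_map.1 hx
      have := hω j hj
      positivity
  have p2 : 0 ≤ ∑ i : Fin I.length, ρ * ‖γ i‖ ^ 2 := by positivity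
  constructor
  · refine (List.sum_le_sum (g := fun j => t / 2 * (ω j * ‖∑ i, γ i * a j I[i] - c j‖ ^ 2) +
      1 / (2 * t) * (ω j)⁻¹) fun j hj => ?_).trans ?_
    · have h0 := hω j hj
      generalize ‖∑ i, γ i * a j I[i] - c j‖ = e
      have : t / 2 * (ω j * e ^ 2) + 1 / (2 * t) * (ω j)⁻¹ - e = (t * ω j * e - 1) ^ 2 / (2 * t * ω j) := by
        field_simp
        ring
      rw [← sub_nonneg, this]
      positivity
    · rw [List.sum_map_add, List.sum_map_mul_left, List.sum_map_mul_left]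
      have q1 := mul_le_mul_of_nonneg_left (show _ ≤ F from (le_add_of_nonneg_right p2).trans h4)
        (show 0 ≤ t / 2 by positivity)
      have q2 := mul_le_mul_of_nonneg_left hΩ (show 0 ≤ 1 / (2 * t) by positivity)
      refine (add_le_add q1 q2).trans (le_of_eq ?_)
      field_simp
  · refine (sq_sum_le_card_mul_sum_sq (s := Finset.univ) (f := fun i => ‖γ i‖)).trans ?_
    rw [Finset.card_univ, Fintype.card_fin]
    refine mul_le_mul_of_nonneg_left ?_ (Nat.cast_nonneg _)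
    rw [le_div_iff₀ hρ, mul_comm, Finset.mul_sum]
    linarith

theorem rl_flatMap {α β M : Type} [AddCommMonoid M] (l : List α) (g : α → List β) (f : β → M) :
    ((l.flatMap g).map f).sum = (l.map fun a => ((g a).map f).sum).sum := by
  induction l with
  | nil => simp
  | cons a l ih => simp [List.flatMap_cons, ih]

theorem rl_range {M : Type} [AddCommMonoid M] (n : ℕ) (f : ℕ → M) :
    ((List.range n).map f).sum = ∑ i ∈ range n, f i := rfl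

theorem rl_sumI {M : Type} [AddCommMonoid M] (L : Lev) (f : (ℤ × ℤ × ℤ) × Mono → M) :
    ∑ i : Fin (repI L).length, f (repI L)[i] =
      ∑ p1 ∈ Icc (-(L.kS : ℤ)) L.kS, ∑ p2 ∈ Icc (-(L.kS : ℤ)) L.kS, ∑ p3 ∈ Icc (-(L.kS : ℤ)) L.kS,
        ∑ κ ∈ Icc (-(L.kS : ℤ)) L.kS, f ((p1, p2, p3), (L.lb + (10 * κ.natAbs + 20) / 21, κ)) := by
  have := Fin.sum_univ_fun_getElem (repI L) f
  refine this.trans ?_
  simp only [repI, contour, rl_flatMap, List.map_map, sum_intRange, Function.comp_def]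

theorem rl_lenI (L : Lev) : (repI L).length = (2 * L.kS + 1) ^ 4 := by
  have := rl_sumI L fun _ => (1 : ℕ)
  simp only [sum_const, card_univ, Fintype.card_fin, smul_eq_mul, mul_one, Int.card_Icc] at this
  have e : ((L.kS : ℤ) + 1 - -(L.kS : ℤ)).toNat = 2 * L.kS + 1 := by omega
  rw [this, e]
  ring

theorem rl_geom {b : ℝ} (h0 : 0 < b) (h1 : b ≤ 1) (n : ℕ) :
    ∑ s ∈ range n, Real.exp (-(b * s)) ≤ 2 / b := by
  have e : ∀ s : ℕ, Real.exp (-(b * s)) = Real.exp (-b) ^ s := fun s => by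
    rw [← Real.exp_nat_mul]
    congr 1
    ring
  simp only [e]
  have h2 : Real.exp (-b) ≤ 1 - b / 2 := by
    rw [Real.exp_neg, inv_le_comm₀ (Real.exp_pos _) (by linarith)]
    refine le_trans ?_ (Real.add_one_le_exp b)
    rw [inv_le_iff_one_le_mul₀ (by linarith)]
    nlinarith
  have h3 := mul_neg_geom_sum (Real.exp (-b)) n
  have h4 : 0 ≤ ∑ s ∈ range n, Real.exp (-b) ^ s := by positivity
  have h5 : 0 ≤ Real.exp (-b) ^ n := by positivity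
  rw [le_div_iff₀ h0]
  nlinarith

theorem rl_Omega {b : ℝ} (h0 : 0 < b) (h1 : b ≤ 1) (n : ℕ) :
    ((repJ n).map fun j => Real.exp (-(b * (j.1 + j.2.1 + j.2.2.1 + j.2.2.2)))).sum ≤
      (2 / b) ^ 4 := by
  have e : ((repJ n).map fun j => Real.exp (-(b * (j.1 + j.2.1 + j.2.2.1 + j.2.2.2)))).sum =
      (∑ s ∈ range n, Real.exp (-(b * s))) * ((∑ s ∈ range n, Real.exp (-(b * s))) *
        ((∑ s ∈ range n, Real.exp (-(b * s))) * ∑ s ∈ range n, Real.exp (-(b * s)))) := by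
    simp only [repJ, rl_flatMap, List.map_map, rl_range, Function.comp_def]
    rw [Finset.sum_mul]
    refine sum_congr rfl fun s _ => ?_
    rw [Finset.sum_mul, Finset.mul_sum]
    refine sum_congr rfl fun d1 _ => ?_
    rw [Finset.sum_mul, Finset.mul_sum, Finset.mul_sum]
    refine sum_congr rfl fun d2 _ => ?_
    rw [Finset.mul_sum, Finset.mul_sum, Finset.mul_sum]
    refine sum_congr rfl fun d3 _ => ?_
    simp only [← Real.exp_add]
    congr 1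
    ring
  rw [e]
  have h2 := rl_geom h0 h1 n
  have h3 : 0 ≤ ∑ s ∈ range n, Real.exp (-(b * s)) := by positivity
  refine le_trans (le_of_eq ?_) (pow_le_pow_left₀ h3 h2 4)
  ring

theorem rl_n1 {kS σ ϑ G W Y : ℝ} (k2 : 1 ≤ kS) (hσ : 0 < σ) (s1 : σ ≤ G) (t3 : 0 < ϑ)
    (t2 : ϑ * Y ≤ 2) (hW1 : 1 ≤ W) (k1 : G * (kS * ϑ) = W * (ϑ * Y)) :
    (2 * kS + 1) ^ 4 * (2 ^ 20 * (σ * ϑ) ^ 4) ≤ 2 ^ 31 * W ^ 4 := by
  have k3 : (2 * kS + 1) * (σ * ϑ) ≤ 6 * W := by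
    have h1 : (2 * kS + 1) * (σ * ϑ) ≤ (3 * kS) * (G * ϑ) :=
      mul_le_mul (by linarith) (by gcongr) (by positivity) (by positivity)
    have h2 := mul_le_mul_of_nonneg_left t2 (show 0 ≤ W by positivity)
    linarith
  have := pow_le_pow_left₀ (by positivity) k3 4
  have h4 : (0 : ℝ) < W ^ 4 := by positivity
  rw [mul_pow, mul_pow 6] at this
  linarith

theorem rl_n2 {kS σ ϑ G W Y m : ℝ} (k2 : 0 ≤ kS) (s2 : 0.999 * G ≤ σ) (t3 : 0 < ϑ)
    (t1 : 1999 / 1000 ≤ ϑ * Y) (hW1 : 1 ≤ W) (k1 : G * (kS * ϑ) = W * (ϑ * Y)) (hm : 0 ≤ m)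
    (k3 : 128 * m ≤ W ^ 2) : 0.7 * m ≤ (σ * kS * ϑ) ^ 2 / 512 := by
  have k2 : 1.99 * W ≤ σ * kS * ϑ := by
    have := mul_le_mul_of_nonneg_right s2 (show 0 ≤ kS * ϑ by positivity)
    have h2 := mul_le_mul_of_nonneg_left t1 (show 0 ≤ W by positivity)
    linarith
  have := pow_le_pow_left₀ (by positivity) k2 2
  rw [mul_pow] at this
  linarith

theorem rl_n3 {a Y n P : ℝ} (a3 : 0 < a) (a2 : a * Y ≤ 2001 / 1000) (hP : 0 < P)
    (h2 : P * 4 * n ≤ Y) : a * n ≤ 1 / P := by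
  rw [le_div_iff₀ hP]
  have := mul_le_mul_of_nonneg_left h2 a3.le
  linarith

theorem rl_n4 {l Γ A P G : ℝ} (hl : 0 < l) (hΓ : 0 ≤ Γ) (hA : 0 < A) (hP : 0 < P) (hG : 1 ≤ G)
    (h : l * Γ ≤ A) :
    (1 / P) ^ 2 * (2 ^ 20 * G ^ 4) + l * (l / (P ^ 2 * A ^ 2) * Γ ^ 2) ≤ 2 ^ 21 * G ^ 4 / P ^ 2 := by
  have k2 := pow_le_pow_left₀ (by positivity) h 2
  have k3 : l * (l / (P ^ 2 * A ^ 2) * Γ ^ 2) ≤ 1 / P ^ 2 := by
    rw [div_mul_eq_mul_div, ← mul_div_assoc, div_le_div_iff₀ (by positivity) (by positivity)]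
    have := mul_le_mul_of_nonneg_right k2 (show (0 : ℝ) ≤ P ^ 2 by positivity)
    linarith
  refine (add_le_add le_rfl k3).trans ?_
  have k4 : 1 ≤ G ^ 4 := one_le_pow₀ hG
  rw [div_pow, one_pow, div_mul_eq_mul_div, ← add_div]
  gcongr
  linarith

theorem rl_n5 {c σ G b : ℝ} (hσ : 0 < σ) (hG : 1 ≤ G) (a1 : 2 ≤ c) (a2 : c ≤ 2001 / 1000)
    (h3 : c * σ ^ 2 = 2 * G ^ 2) (b0 : b * (32 * G) = c) :
    σ ≤ G ∧ 0.999 * G ≤ σ ∧ 0 < b ∧ b ≤ 1 ∧ b * σ ≤ 1 / 8 := by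
  have s1 : σ ≤ G := le_of_sq_le_sq (by nlinarith [sq_nonneg σ]) (by positivity)
  have s2 : 0.999 * G ≤ σ := le_of_sq_le_sq (by nlinarith [sq_nonneg σ, sq_nonneg G]) hσ.le
  have b3 : 0 < b := by
    by_contra h0
    nlinarith [not_lt.1 h0]
  exact ⟨s1, s2, b3, by nlinarith, by nlinarith⟩

theorem rl_exp_le {x : ℝ} {m : ℕ} (h : 0.7 * m ≤ x) : Real.exp (-x) ≤ 1 / 2 ^ m := by
  rw [Real.exp_neg, one_div]
  refine inv_anti₀ (by positivity) ?_
  calc (2 : ℝ) ^ m = Real.exp (m * Real.log 2) := by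
        rw [Real.exp_nat_mul, Real.exp_log (by norm_num)]
    _ ≤ Real.exp x := Real.exp_le_exp.2 (by
        nlinarith [Real.log_two_lt_d9, (Nat.cast_nonneg m : (0 : ℝ) ≤ m)])

/-- The least squares REP coefficients: `ℓ¹` kernel error and `ℓ¹` size. -/
theorem repCoef_spec {Y n : ℕ} {L : Lev} {zs : List Mono} {E' : ℕ} (h : LevOK Y n L zs E')
    {kT : ℤ} (hk : kT.natAbs ≤ L.lb) :
    ((repJ n).map fun j => ‖∑ i, repCoef Y n L kT i * repA Y L j (repI L)[i] - repC Y L kT j‖).sum ≤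
        1 / 2 ^ (L.eP + 3) ∧
      ∑ i, ‖repCoef Y n L kT i‖ ≤ 2 ^ (42 + 2 * L.g + 4 * L.om) := by
  have hY : 100 ≤ Y := le_trans (by norm_num) h.hY100
  have hY0 : (0 : ℝ) < Y := by exact_mod_cast (by omega : 0 < Y)
  have a1 := le_a0 hY
  have a2 := a0_le hY
  have a3 := a0_pos hY
  have t1 := le_th hY
  have t2 := th_le hY
  have t3 := th_pos hY
  rw [div_le_iff₀ hY0] at a1 t1
  rw [le_div_iff₀ hY0] at a2 t2
  obtain ⟨G, hG⟩ : ∃ G : ℝ, G = 2 ^ L.g := ⟨_, rfl⟩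
  obtain ⟨W, hW⟩ : ∃ W : ℝ, W = 2 ^ L.om := ⟨_, rfl⟩
  have hG1 : 1 ≤ G := hG ▸ one_le_pow₀ (by norm_num)
  have hW1 : 1 ≤ W := hW ▸ one_le_pow₀ (by norm_num)
  have hr : (L.r : ℝ) * (4 * G ^ 2) = Y := by
    rw [← h.hr, hG, ← pow_mul, mul_comm L.g 2, pow_mul]
    push_cast
    ring
  have hlb : (L.lb : ℝ) * (32 * G) = Y := by
    rw [← h.hlb, hG]
    push_cast
    ring
  have hkS : (L.kS : ℝ) * G = W * Y := by
    rw [hG, hW]
    exact_mod_cast h.hkS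
  have hr0 : (0 : ℝ) < L.r := by
    by_contra h0
    have : (L.r : ℝ) = 0 := le_antisymm (not_lt.1 h0) (Nat.cast_nonneg _)
    rw [this, zero_mul] at hr
    linarith
  obtain ⟨σ, hσ, hσ2⟩ : ∃ σ : ℝ, 0 < σ ∧ 2 * L.r * a0 Y * σ ^ 2 = 1 :=
    ⟨√(2 * L.r * a0 Y)⁻¹, Real.sqrt_pos.2 (by positivity), by
      rw [Real.sq_sqrt (by positivity), mul_inv_cancel₀ (by positivity)]⟩
  have hσ3 : a0 Y * Y * σ ^ 2 = 2 * G ^ 2 := by
    rw [← hr]
    linear_combination (2 * G ^ 2) * hσ2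
  obtain ⟨b, hb⟩ : ∃ b : ℝ, b = L.lb * a0 Y := ⟨_, rfl⟩
  have b0 : b * (32 * G) = a0 Y * Y := by rw [hb, ← hlb]; ring
  obtain ⟨s1, s2, b3, b4, b5⟩ := rl_n5 hσ hG1 a1 a2 hσ3 b0
  obtain ⟨γ, hγ, H⟩ := rep_exists (lb := L.lb) (kS := L.kS) (n := n) t3 (th_le_a0 hY) (a0_le_th hY)
    hσ hσ2 h.hr' (hb ▸ b5) hk
  rw [← hb] at H
  obtain ⟨e1, he1⟩ : ∃ e1, e1 = L.eP + 24 + 4 * L.g := ⟨_, rfl⟩
  have k1 : G * (L.kS * th Y) = W * (th Y * Y) := by linear_combination (th Y) * hkS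
  have hkS0 : (0 : ℝ) ≤ L.kS := Nat.cast_nonneg _
  have hε : 2 ^ 40 * (Real.exp (-((σ * L.kS * th Y) ^ 2 / 512)) + a0 Y * n) ≤ 1 / 2 ^ e1 := by
    have k3 : (128 : ℝ) * ((e1 + 41 : ℕ) : ℝ) ≤ W ^ 2 := by
      rw [hW, ← pow_mul, mul_comm L.om 2, pow_mul]
      have := h.hom
      rw [show (2 : ℝ) ^ 2 = 4 by norm_num]
      exact_mod_cast (by omega : 128 * (e1 + 41) ≤ 4 ^ L.om)
    have k4 : Real.exp (-((σ * L.kS * th Y) ^ 2 / 512)) ≤ 1 / 2 ^ (e1 + 41) := by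
      exact rl_exp_le (rl_n2 hkS0 s2 t3 t1 hW1 k1 (Nat.cast_nonneg _) k3)
    have k5 : a0 Y * n ≤ 1 / 2 ^ (e1 + 41) := by
      have h1 : 2 ^ (e1 + 41 + 2) * n ≤ Y :=
        le_trans (Nat.mul_le_mul_right _ (Nat.pow_le_pow_right (by norm_num)
          (by have := h.hE'; omega))) h.hY
      have h2 : (2 : ℝ) ^ (e1 + 41) * 4 * n ≤ Y := by
        rw [show (4 : ℝ) = 2 ^ 2 by norm_num, ← pow_add]
        exact_mod_cast h1
      exact rl_n3 a3 a2 (by positivity) h2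
    refine (mul_le_mul_of_nonneg_left (add_le_add k4 k5) (by positivity)).trans (le_of_eq ?_)
    rw [pow_add]
    field_simp
    norm_num
  have hW' : ∀ j : ℕ × ℕ × ℕ × ℕ,
      (repW Y L j)⁻¹ = Real.exp (-(b * (j.1 + j.2.1 + j.2.2.1 + j.2.2.2))) := fun j => by
    rw [repW, inv_inv, alpha_eq hY, ← Real.exp_nat_mul, hb]
    congr 1
    push_cast
    ring
  have hlen : (((repI L).length : ℕ) : ℝ) = (2 * L.kS + 1) ^ 4 := by
    rw [rl_lenI]
    push_cast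
    rfl
  have hlen0 : (0 : ℝ) < ((repI L).length : ℕ) := by rw [hlen]; positivity
  have hΩ : ((repJ n).map fun j => (repW Y L j)⁻¹).sum ≤ 2 ^ 20 * G ^ 4 := by
    simp only [hW']
    refine (rl_Omega b3 b4 n).trans ?_
    have : 2 / b ≤ 32 * G := by
      rw [div_le_iff₀ b3]
      linarith
    refine (pow_le_pow_left₀ (by positivity) this 4).trans (le_of_eq ?_)
    ring
  have heR : (2 : ℝ) ^ L.eR = (2 ^ e1) ^ 2 * (2 ^ 31 * W ^ 4) ^ 2 := by
    rw [h.heR, hW, ← he1]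
    ring
  have hGm : ((repI L).length : ℕ) * (2 ^ 20 * (σ * th Y) ^ 4) ≤ 2 ^ 31 * W ^ 4 := by
    have k2 : (1 : ℝ) ≤ L.kS := by
      have : L.kS ≠ 0 := by
        intro h0
        rw [h0, Nat.cast_zero, zero_mul] at hkS
        exact (show (0 : ℝ) < W * Y by positivity).ne hkS
      exact_mod_cast Nat.pos_of_ne_zero this
    rw [hlen]
    exact rl_n1 k2 hσ s1 t3 t2 hW1 k1
  obtain ⟨r1, r2⟩ := rl_abs (repI L) (repJ n) (repA Y L) (repW Y L) (repC Y L kT)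
    (ρ := (repI L).length / 2 ^ L.eR) (ε := 1 / 2 ^ e1) (Ω := 2 ^ 20 * G ^ 4)
    (Γ := 2 ^ 20 * (σ * th Y) ^ 4) (F := 2 ^ 21 * G ^ 4 / (2 ^ e1) ^ 2) (t := 2 ^ e1)
    (fun i => γ ((repI L)[i].1, (repI L)[i].2.2))
    (fun j _ => by rw [← inv_pos, hW']; positivity) (by positivity) (by positivity)
    (fun j hj => by
      obtain ⟨s, d1, d2, d3⟩ := j
      simp only [repJ, List.mem_flatMap, List.mem_map, List.mem_range, Prod.mk.injEq] at hj
      obtain ⟨_, hs, _, h1, _, h2, _, h3, rfl, rfl, rfl, rfl⟩ := hj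
      rw [hW', rl_sumI L fun i => γ (i.1, i.2.2) * repA Y L _ i]
      refine le_trans (le_of_eq ?_) ((H _ _ _ _ hs h1 h2 h3).trans
        (mul_le_mul_of_nonneg_right hε (Real.exp_pos _).le))
      congr 2
      · simp only [repA, Wt_eq hY, ev_eq hY, Int.cast_natCast]
      · simp only [repC, Wt_eq hY, uu_zpow hY, ← Real.exp_add]
        congr 3
        · push_cast
          ring
        · push_cast
          ring)
    hΩ (fun i => hγ _) (by
      rw [heR]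
      exact rl_n4 hlen0 (by positivity) (by positivity) (by positivity) hG1 hGm)
  constructor
  · refine r1.trans ?_
    have e : (2 : ℝ) ^ e1 = 2 ^ (L.eP + 3) * (2 ^ 21 * G ^ 4) := by
      rw [he1, hG]
      ring
    rw [e]
    field_simp
    norm_num
  · refine le_of_sq_le_sq (r2.trans ?_) (by positivity)
    have e : ((2 : ℝ) ^ (42 + 2 * L.g + 4 * L.om)) ^ 2 = 2 * (2 ^ 21 * G ^ 4 * (2 ^ 31 * W ^ 4) ^ 2) := by
      rw [hG, hW]
      ring
    rw [e, heR]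
    field_simp
    norm_num

end Crest.Agent.R300.UB
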