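import Crest.Agent.R300.UBNum
import Crest.Agent.R300.UBFeat
import Crest.Agent.R300.UBChain
import Crest.Agent.R300.UBRepLS

set_option autoImplicit false

noncomputable section

namespace Crest.Agent.R300.UB

open Complex Finset Crest.Agent.Lib.PT Crest.TraceRecon Crest.FinProb

/-! Four-fold products. -/

theorem pr_XX_succ (Y r m T : ℕ) (g : ℕ → ℂ) (a : Kind × ℤ) :
    XX Y r m (T + 1) g a = XX Y r m T g a +
      kindApp a.1 g T * (Wt Y r ((T : ℤ) - m) : ℂ) * uu Y ^ (a.2 * ((T : ℤ) - m)) := by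
  unfold XX
  rw [sum_range_succ]

theorem pr_sum_flatMap {α β : Type} (l : List α) (f : α → List β) (φ : β → ℝ) :
    ((l.flatMap f).map φ).sum = (l.map fun a => ((f a).map φ).sum).sum := by
  induction l with
  | nil => simp
  | cons a l ih => simp [List.flatMap_cons, ih]

theorem pr_sum_range (n : ℕ) (φ : ℕ → ℝ) : ((List.range n).map φ).sum = ∑ i ∈ range n, φ i := by
  induction n with
  | zero => simp
  | succ n ih => rw [List.range_succ, List.map_append, List.sum_append, ih, sum_range_succ]; simp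

theorem pr_sum_repJ (n : ℕ) (φ : ℕ × ℕ × ℕ × ℕ → ℝ) :
    ((repJ n).map φ).sum = ∑ s ∈ range n, ∑ d1 ∈ range n, ∑ d2 ∈ range n, ∑ d3 ∈ range n,
      φ (s, d1, d2, d3) := by
  unfold repJ
  simp only [pr_sum_flatMap, List.map_map, pr_sum_range, Function.comp_def]

theorem pr_reflect {h : ℕ → ℝ} (h0 : ∀ d, 0 ≤ h d) {T n : ℕ} (hT : T < n) (st : Bool) :
    ∑ t ∈ range (cond st T (T + 1)), h (T - t) ≤ ∑ d ∈ range n, h d := by
  calc ∑ t ∈ range (cond st T (T + 1)), h (T - t) ≤ ∑ t ∈ range (T + 1), h (T - t) := by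
        refine sum_le_sum_of_subset_of_nonneg (range_subset_range.2 ?_) fun _ _ _ => h0 _
        cases st <;> simp
    _ = ∑ t ∈ range (T + 1), h t := by
        rw [← sum_range_reflect h (T + 1)]
        simp
    _ ≤ _ := sum_le_sum_of_subset_of_nonneg (range_subset_range.2 hT) fun _ _ _ => h0 _

theorem pr_shift {h : ℕ → ℝ} (h0 : ∀ d, 0 ≤ h d) (m n : ℕ) :
    ∑ T ∈ Ico m n, h (T - m) ≤ ∑ d ∈ range n, h d := by
  rw [sum_Ico_eq_sum_range]
  simp only [Nat.add_sub_cancel_left]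
  exact sum_le_sum_of_subset_of_nonneg (range_subset_range.2 (Nat.sub_le _ _)) fun _ _ _ => h0 _

theorem pr_uu_ne {Y : ℕ} (hY : 100 ≤ Y) : uu Y ≠ 0 := by
  rw [uu_eq hY]
  exact Complex.exp_ne_zero _

/-- the common weight of a point `t ≤ T`. -/
def prW (Y : ℕ) (g : ℕ → ℂ) (a : Kind × ℤ) (T t : ℕ) : ℂ :=
  kindApp a.1 g t * (uu Y ^ (-a.2)) ^ (T - t)

theorem pr_norm_W {Y : ℕ} (hY : 100 ≤ Y) {g : ℕ → ℂ} (hg : ∀ t, ‖g t‖ ≤ 1) (a : Kind × ℤ)
    (T t : ℕ) : ‖prW Y g a T t‖ ≤ 1 := by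
  rw [prW, norm_mul, norm_pow, norm_uu_zpow hY, one_pow, mul_one]
  exact norm_kindApp_le le_rfl (hg t)

theorem pr_slot {Y : ℕ} (hY : 100 ≤ Y) (g : ℕ → ℂ) (a : (Kind × ℤ) × Bool) (lb : ℕ) (ψ : ℤ)
    (T : ℕ) :
    slotApp (ev Y) g (a.1.1, a.2, (lb, -(a.1.2 + ψ))) T =
      ∑ t ∈ range (cond a.2 T (T + 1)), prW Y g a.1 T t * ev Y (lb, -ψ) ^ (T - t) := by
  unfold slotApp
  refine sum_congr rfl fun t _ => ?_
  simp only [prW, ev]
  rw [neg_add, zpow_add₀ (pr_uu_ne hY), mul_assoc (kindApp _ _ _), ← mul_pow]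
  congr 2
  ring

theorem pr_XX {Y : ℕ} (hY : 100 ≤ Y) (r : ℕ) (g : ℕ → ℂ) (a : (Kind × ℤ) × Bool) {m T : ℕ}
    (hT : m ≤ T) :
    XX Y r m (cond a.2 T (T + 1)) g a.1 =
      uu Y ^ (a.1.2 * ((T - m : ℕ) : ℤ)) * ∑ t ∈ range (cond a.2 T (T + 1)),
        prW Y g a.1 T t * (Wt Y r (((T - m : ℕ) : ℤ) - ((T - t : ℕ) : ℤ)) : ℂ) := by
  unfold XX
  rw [mul_sum]
  refine sum_congr rfl fun t ht => ?_
  have htT : t ≤ T := by
    have := mem_range.1 ht
    revert this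
    cases a.2
    · simp only [cond_false]; omega
    · simp only [cond_true]; omega
  have e1 : ((T - m : ℕ) : ℤ) - ((T - t : ℕ) : ℤ) = (t : ℤ) - m := by omega
  have e2 : a.1.2 * ((t : ℤ) - m) = a.1.2 * ((T - m : ℕ) : ℤ) + -a.1.2 * ((T - t : ℕ) : ℤ) := by
    rw [← e1]; ring
  rw [e1, e2, zpow_add₀ (pr_uu_ne hY), prW, zpow_mul (uu Y) (-a.1.2), zpow_natCast]
  ring

theorem pr_sum3 (s1 s2 s3 : Finset ℕ) (f1 f2 f3 : ℕ → ℂ) (c : ℂ) :
    c * (∑ t ∈ s1, f1 t) * (∑ t ∈ s2, f2 t) * (∑ t ∈ s3, f3 t) =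
      ∑ t1 ∈ s1, ∑ t2 ∈ s2, ∑ t3 ∈ s3, c * f1 t1 * f2 t2 * f3 t3 := by
  simp only [← mul_sum, ← sum_mul]

theorem pr_Lam {Y : ℕ} (hY : 100 ≤ Y) (n : ℕ) (x : List Bool) (m : ℕ) (L : Lev) (νs : List Node)
    (f : Kind) (a b c : (Kind × ℤ) × Bool) (i : (ℤ × ℤ × ℤ) × Mono) :
    Lam Y n x m L.r' (repNode L f a b c i.1 :: νs, i.2) = (alpha Y : ℂ) ^ L.lc *
      ∑ T ∈ Ico m n, ∑ t1 ∈ range (cond a.2 T (T + 1)), ∑ t2 ∈ range (cond b.2 T (T + 1)),
        ∑ t3 ∈ range (cond c.2 T (T + 1)),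
          kindApp f (feat (ev Y) x νs) T * prW Y (feat (ev Y) x νs) a.1 T t1 *
            prW Y (feat (ev Y) x νs) b.1 T t2 * prW Y (feat (ev Y) x νs) c.1 T t3 *
            repA Y L (T - m, T - t1, T - t2, T - t3) i := by
  unfold Lam
  rw [mul_sum]
  refine sum_congr rfl fun T hT => ?_
  have hmT := (mem_Ico.1 hT).1
  have e0 : feat (ev Y) x (repNode L f a b c i.1 :: νs) T =
      nodeApp (ev Y) (repNode L f a b c i.1) (feat (ev Y) x νs) T := rfl
  have e1 : ((T : ℤ) - m) = ((T - m : ℕ) : ℤ) := by omega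
  have e2 : ev Y (L.lc, 0) = (alpha Y : ℂ) ^ L.lc := by simp [ev]
  simp only [e0]
  simp only [nodeApp, repNode, List.map_cons, List.map_nil, List.prod_cons, List.prod_nil,
    pr_slot hY, e1, e2, mul_one]
  have key := pr_sum3 (range (cond a.2 T (T + 1))) (range (cond b.2 T (T + 1)))
    (range (cond c.2 T (T + 1)))
    (fun t => prW Y (feat (ev Y) x νs) a.1 T t * ev Y (L.lb, -i.1.1) ^ (T - t))
    (fun t => prW Y (feat (ev Y) x νs) b.1 T t * ev Y (L.lb, -i.1.2.1) ^ (T - t))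
    (fun t => prW Y (feat (ev Y) x νs) c.1 T t * ev Y (L.lb, -i.1.2.2) ^ (T - t))
    (kindApp f (feat (ev Y) x νs) T * (Wt Y L.r' ((T - m : ℕ) : ℤ) : ℂ) * ev Y i.2 ^ (T - m))
  rw [show (∑ t1 ∈ range (cond a.2 T (T + 1)), ∑ t2 ∈ range (cond b.2 T (T + 1)),
        ∑ t3 ∈ range (cond c.2 T (T + 1)),
          kindApp f (feat (ev Y) x νs) T * prW Y (feat (ev Y) x νs) a.1 T t1 *
            prW Y (feat (ev Y) x νs) b.1 T t2 * prW Y (feat (ev Y) x νs) c.1 T t3 *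
            repA Y L (T - m, T - t1, T - t2, T - t3) i) = _ from
      Eq.trans (sum_congr rfl fun t1 _ => sum_congr rfl fun t2 _ => sum_congr rfl fun t3 _ => by
        simp only [repA]; ring) key.symm]
  ring

theorem pr_partTrue {Y : ℕ} (hY : 100 ≤ Y) (n m : ℕ) (L : Lev) (g : ℕ → ℂ)
    (f : Kind × ℤ) (a b c : (Kind × ℤ) × Bool) :
    partTrue Y n m L.r g f a b c =
      ∑ T ∈ Ico m n, ∑ t1 ∈ range (cond a.2 T (T + 1)), ∑ t2 ∈ range (cond b.2 T (T + 1)),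
        ∑ t3 ∈ range (cond c.2 T (T + 1)),
          kindApp f.1 g T * prW Y g a.1 T t1 * prW Y g b.1 T t2 * prW Y g c.1 T t3 *
            repC Y L (f.2 + a.1.2 + b.1.2 + c.1.2) (T - m, T - t1, T - t2, T - t3) := by
  unfold partTrue
  refine sum_congr rfl fun T hT => ?_
  have hmT := (mem_Ico.1 hT).1
  have e1 : ((T : ℤ) - m) = ((T - m : ℕ) : ℤ) := by omega
  rw [pr_XX hY _ _ a hmT, pr_XX hY _ _ b hmT, pr_XX hY _ _ c hmT, e1]
  have key := pr_sum3 (range (cond a.2 T (T + 1))) (range (cond b.2 T (T + 1)))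
    (range (cond c.2 T (T + 1)))
    (fun t => prW Y g a.1 T t * (Wt Y L.r (((T - m : ℕ) : ℤ) - ((T - t : ℕ) : ℤ)) : ℂ))
    (fun t => prW Y g b.1 T t * (Wt Y L.r (((T - m : ℕ) : ℤ) - ((T - t : ℕ) : ℤ)) : ℂ))
    (fun t => prW Y g c.1 T t * (Wt Y L.r (((T - m : ℕ) : ℤ) - ((T - t : ℕ) : ℤ)) : ℂ))
    (kindApp f.1 g T * (Wt Y L.r ((T - m : ℕ) : ℤ) : ℂ) *
      uu Y ^ ((f.2 + a.1.2 + b.1.2 + c.1.2) * ((T - m : ℕ) : ℤ)))
  rw [show (∑ t1 ∈ range (cond a.2 T (T + 1)), ∑ t2 ∈ range (cond b.2 T (T + 1)),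
        ∑ t3 ∈ range (cond c.2 T (T + 1)),
          kindApp f.1 g T * prW Y g a.1 T t1 * prW Y g b.1 T t2 * prW Y g c.1 T t3 *
            repC Y L (f.2 + a.1.2 + b.1.2 + c.1.2) (T - m, T - t1, T - t2, T - t3)) = _ from
      Eq.trans (sum_congr rfl fun t1 _ => sum_congr rfl fun t2 _ => sum_congr rfl fun t3 _ => by
        simp only [repC]; push_cast; ring) key.symm]
  rw [add_mul, add_mul, add_mul, zpow_add₀ (pr_uu_ne hY), zpow_add₀ (pr_uu_ne hY),
    zpow_add₀ (pr_uu_ne hY)]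
  ring

theorem pr_mem_repI {L : Lev} {i : (ℤ × ℤ × ℤ) × Mono} (hi : i ∈ repI L) :
    i.1.1.natAbs ≤ L.kS ∧ i.1.2.1.natAbs ≤ L.kS ∧ i.1.2.2.natAbs ≤ L.kS ∧
      i.2 ∈ contour L.lb L.kS := by
  simp only [repI, List.mem_flatMap, List.mem_map, mem_intRange] at hi
  obtain ⟨p1, h1, p2, h2, p3, h3, z, hz, rfl⟩ := hi
  exact ⟨h1, h2, h3, hz⟩

theorem pr_alpha {Y n : ℕ} {L : Lev} {zs : List Mono} {E' : ℕ} (h : LevOK Y n L zs E') :
    1 / 2 ^ (6 * (L.g + 5)) ≤ alpha Y ^ L.lc := by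
  have hY : 100 ≤ Y := le_trans (by norm_num) h.hY100
  have hY0 : (0 : ℝ) < Y := by exact_mod_cast lt_of_lt_of_le (by norm_num) hY
  have h1 := a0_le hY
  have h2 : (L.lc : ℝ) * a0 Y ≤ ((6 * (L.g + 5) : ℕ) : ℝ) * Real.log 2 := by
    have h3 : (Y : ℝ) * a0 Y ≤ 2001 / 1000 := by
      rw [le_div_iff₀ hY0] at h1
      linarith
    have h4 := Real.log_two_gt_d9
    rw [h.hlc]
    push_cast
    have h5 : (0 : ℝ) ≤ (L.g : ℝ) + 5 := by positivity
    nlinarith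
  rw [alpha_eq hY, ← Real.exp_nat_mul, one_div, ← Real.exp_log (show (0 : ℝ) < 2 by norm_num),
    ← Real.exp_nat_mul, ← Real.exp_neg, Real.exp_le_exp]
  linarith

/-- Decomposition according to the last point. -/
theorem prod_XX_eq (Y n m r : ℕ) (hm : m ≤ n) (g : ℕ → ℂ) (a b c d : Kind × ℤ) :
    XX Y r m n g a * XX Y r m n g b * XX Y r m n g c * XX Y r m n g d =
      XX Y r m m g a * XX Y r m m g b * XX Y r m m g c * XX Y r m m g d +
      partTrue Y n m r g a (b, true) (c, true) (d, true) +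
      partTrue Y n m r g b (a, false) (c, true) (d, true) +
      partTrue Y n m r g c (a, false) (b, false) (d, true) +
      partTrue Y n m r g d (a, false) (b, false) (c, false) := by
  induction n, hm using Nat.le_induction with
  | base => simp [partTrue]
  | succ n hn ih =>
    simp only [partTrue, sum_Ico_succ_top hn, cond_true, cond_false] at ih ⊢
    simp only [pr_XX_succ Y r m n]
    linear_combination ih

theorem part_spec {Y n l0 : ℕ} {L : Lev} {ls : List Lev} {zs : List Mono} {E' : ℕ}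
    (h : LevOK Y n L zs E') (hls : ∀ L ∈ ls, ∃ zs E', LevOK Y n L zs E') (x : List Bool) (m : ℕ)
    {O : Query → ℂ} (hO : ∀ q ∈ qlist l0 (L :: ls), ‖O q - Lam Y n x m L.r' q‖ ≤ 1 / 2 ^ E')
    {νs : List Node} (hν : νs ∈ feats ls) (f : Kind × ℤ) (a b c : (Kind × ℤ) × Bool)
    (ha : a.1.2.natAbs + L.kS ≤ L.kF) (hb : b.1.2.natAbs + L.kS ≤ L.kF)
    (hc : c.1.2.natAbs + L.kS ≤ L.kF) (hT : (f.2 + a.1.2 + b.1.2 + c.1.2).natAbs ≤ L.lb) :
    ‖part Y n L O νs f a b c - partTrue Y n m L.r (feat (ev Y) x νs) f a b c‖ ≤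
      1 / 2 ^ (L.eP + 2) := by
  have hY : 100 ≤ Y := le_trans (by norm_num) h.hY100
  obtain ⟨h1, h2⟩ := repCoef_spec h hT
  set γ := repCoef Y n L (f.2 + a.1.2 + b.1.2 + c.1.2) with hγ
  set g := feat (ev Y) x νs with hg
  have hg1 : ∀ t, ‖g t‖ ≤ 1 := norm_feat_le_one hls x hν
  have hα := pr_alpha h
  have hα0 : 0 < alpha Y ^ L.lc := lt_of_lt_of_le (by positivity) hα
  have hαc : (alpha Y : ℂ) ^ L.lc ≠ 0 := by exact_mod_cast hα0.ne'
  have hq : ∀ i : Fin (repI L).length,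
      (repNode L f.1 a b c (repI L)[i].1 :: νs, (repI L)[i].2) ∈ qlist l0 (L :: ls) := by
    intro i
    obtain ⟨i1, i2, i3, i4⟩ := pr_mem_repI (List.getElem_mem (l := repI L) i.2)
    refine mem_qlist.2 ⟨mem_feats_cons.2 ⟨_, ?_, νs, hν, rfl⟩, i4⟩
    refine mem_nodeSet.2 ⟨rfl, rfl, ?_⟩
    intro sl hsl
    simp only [repNode, List.mem_cons, List.not_mem_nil, or_false] at hsl
    simp only [Fin.getElem_fin] at hsl
    rcases hsl with rfl | rfl | rfl <;> refine ⟨rfl, ?_⟩ <;> simp only <;> omega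
  set D : ℕ × ℕ × ℕ × ℕ → ℂ := fun j =>
    ∑ i, γ i * repA Y L j (repI L)[i] - repC Y L (f.2 + a.1.2 + b.1.2 + c.1.2) j with hD
  have e1 : part Y n L O νs f a b c - partTrue Y n m L.r g f a b c =
      (∑ i, γ i * (O (repNode L f.1 a b c (repI L)[i].1 :: νs, (repI L)[i].2) -
        Lam Y n x m L.r' (repNode L f.1 a b c (repI L)[i].1 :: νs, (repI L)[i].2))) /
          (alpha Y : ℂ) ^ L.lc +
      ∑ T ∈ Ico m n, ∑ t1 ∈ range (cond a.2 T (T + 1)), ∑ t2 ∈ range (cond b.2 T (T + 1)),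
        ∑ t3 ∈ range (cond c.2 T (T + 1)),
          kindApp f.1 g T * prW Y g a.1 T t1 * prW Y g b.1 T t2 * prW Y g c.1 T t3 *
            D (T - m, T - t1, T - t2, T - t3) := by
    have e2 : (∑ i, γ i *
        Lam Y n x m L.r' (repNode L f.1 a b c (repI L)[i].1 :: νs, (repI L)[i].2)) /
          (alpha Y : ℂ) ^ L.lc =
        ∑ T ∈ Ico m n, ∑ t1 ∈ range (cond a.2 T (T + 1)), ∑ t2 ∈ range (cond b.2 T (T + 1)),
          ∑ t3 ∈ range (cond c.2 T (T + 1)),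
            kindApp f.1 g T * prW Y g a.1 T t1 * prW Y g b.1 T t2 * prW Y g c.1 T t3 *
              ∑ i, γ i * repA Y L (T - m, T - t1, T - t2, T - t3) (repI L)[i] := by
      rw [div_eq_iff hαc]
      simp only [pr_Lam hY, ← hg]
      simp only [mul_sum, sum_mul]
      rw [sum_comm]
      refine sum_congr rfl fun T _ => ?_
      rw [sum_comm]
      refine sum_congr rfl fun t1 _ => ?_
      rw [sum_comm]
      refine sum_congr rfl fun t2 _ => ?_
      rw [sum_comm]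
      refine sum_congr rfl fun t3 _ => sum_congr rfl fun i _ => ?_
      ring
    simp only [hD, mul_sub, sum_sub_distrib, sub_div]
    rw [← e2, ← pr_partTrue hY, part]
    ring
  rw [e1]
  refine (norm_add_le _ _).trans ?_
  have b1 : ‖(∑ i, γ i * (O (repNode L f.1 a b c (repI L)[i].1 :: νs, (repI L)[i].2) -
        Lam Y n x m L.r' (repNode L f.1 a b c (repI L)[i].1 :: νs, (repI L)[i].2))) /
          (alpha Y : ℂ) ^ L.lc‖ ≤ 1 / 2 ^ (L.eP + 3) := by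
    have hn : ‖(alpha Y : ℂ) ^ L.lc‖ = alpha Y ^ L.lc := by
      rw [← Complex.ofReal_pow, Complex.norm_real, Real.norm_of_nonneg hα0.le]
    rw [norm_div, hn, div_le_iff₀ hα0]
    calc _ ≤ ∑ i, ‖γ i‖ * (1 / 2 ^ E') := by
          refine (norm_sum_le _ _).trans (sum_le_sum fun i _ => ?_)
          rw [norm_mul]
          exact mul_le_mul_of_nonneg_left (hO _ (hq i)) (norm_nonneg _)
      _ ≤ 2 ^ (42 + 2 * L.g + 4 * L.om) * (1 / 2 ^ E') := by
          rw [← sum_mul]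
          exact mul_le_mul_of_nonneg_right h2 (by positivity)
      _ ≤ 1 / 2 ^ (L.eP + 3) * (1 / 2 ^ (6 * (L.g + 5))) := by
          rw [mul_one_div, one_div_mul_one_div, div_le_div_iff₀ (by positivity) (by positivity),
            one_mul, ← pow_add, ← pow_add]
          refine pow_le_pow_right₀ (by norm_num) ?_
          have := h.hE'
          omega
      _ ≤ _ := mul_le_mul_of_nonneg_left hα (by positivity)
  have b2 : ‖∑ T ∈ Ico m n, ∑ t1 ∈ range (cond a.2 T (T + 1)),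
        ∑ t2 ∈ range (cond b.2 T (T + 1)), ∑ t3 ∈ range (cond c.2 T (T + 1)),
          kindApp f.1 g T * prW Y g a.1 T t1 * prW Y g b.1 T t2 * prW Y g c.1 T t3 *
            D (T - m, T - t1, T - t2, T - t3)‖ ≤ 1 / 2 ^ (L.eP + 3) := by
    refine le_trans ?_ h1
    rw [pr_sum_repJ n fun j => ‖D j‖]
    refine le_trans ?_ (pr_shift (h := fun s => ∑ d1 ∈ range n, ∑ d2 ∈ range n, ∑ d3 ∈ range n,
      ‖D (s, d1, d2, d3)‖) (fun _ => by positivity) m n)
    refine (norm_sum_le _ _).trans (sum_le_sum fun T hT => ?_)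
    have hTn := (mem_Ico.1 hT).2
    refine le_trans ?_ (pr_reflect (h := fun d1 => ∑ d2 ∈ range n, ∑ d3 ∈ range n,
      ‖D (T - m, d1, d2, d3)‖) (fun _ => by positivity) hTn a.2)
    refine (norm_sum_le _ _).trans (sum_le_sum fun t1 _ => ?_)
    refine le_trans ?_ (pr_reflect (h := fun d2 => ∑ d3 ∈ range n,
      ‖D (T - m, T - t1, d2, d3)‖) (fun _ => by positivity) hTn b.2)
    refine (norm_sum_le _ _).trans (sum_le_sum fun t2 _ => ?_)
    refine le_trans ?_ (pr_reflect (h := fun d3 =>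
      ‖D (T - m, T - t1, T - t2, d3)‖) (fun _ => by positivity) hTn c.2)
    refine (norm_sum_le _ _).trans (sum_le_sum fun t3 _ => ?_)
    rw [norm_mul]
    refine mul_le_of_le_one_left (norm_nonneg _) ?_
    rw [norm_mul, norm_mul, norm_mul]
    exact mul_le_one₀ (mul_le_one₀ (mul_le_one₀ (norm_kindApp_le le_rfl (hg1 T)) (norm_nonneg _)
      (pr_norm_W hY hg1 _ _ _)) (norm_nonneg _) (pr_norm_W hY hg1 _ _ _)) (norm_nonneg _)
      (pr_norm_W hY hg1 _ _ _)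
  calc _ ≤ 1 / 2 ^ (L.eP + 3) + 1 / 2 ^ (L.eP + 3) := add_le_add b1 b2
    _ = _ := by rw [pow_succ (2 : ℝ) (L.eP + 2)]; field_simp; norm_num

theorem prod4_spec {Y n l0 : ℕ} {L : Lev} {ls : List Lev} {zs : List Mono} {E' : ℕ}
    (h : LevOK Y n L zs E') (hls : ∀ L ∈ ls, ∃ zs E', LevOK Y n L zs E') {x : List Bool}
    (hx : x.length = n) {m : ℕ} (hm : m ≤ n)
    {O : Query → ℂ} (hO : ∀ q ∈ qlist l0 (L :: ls), ‖O q - Lam Y n x m L.r' q‖ ≤ 1 / 2 ^ E')
    {νs : List Node} (hν : νs ∈ feats ls) (a b c d : Kind × ℤ)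
    (ha : a.2.natAbs + L.kS ≤ L.kF) (hb : b.2.natAbs + L.kS ≤ L.kF)
    (hc : c.2.natAbs + L.kS ≤ L.kF) (hd : d.2.natAbs + L.kS ≤ L.kF)
    (hT : (a.2 + b.2 + c.2 + d.2).natAbs ≤ L.lb) :
    ‖prod4 Y n L (x.take m) O νs a b c d -
      XX Y L.r m n (feat (ev Y) x νs) a * XX Y L.r m n (feat (ev Y) x νs) b *
        XX Y L.r m n (feat (ev Y) x νs) c * XX Y L.r m n (feat (ev Y) x νs) d‖ ≤ 1 / 2 ^ L.eP := by
  have hl : (x.take m).length = m := by rw [List.length_take]; omega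
  have hX : ∀ e : Kind × ℤ, XX Y L.r m m (feat (ev Y) (x.take m) νs) e =
      XX Y L.r m m (feat (ev Y) x νs) e := by
    intro e
    unfold XX
    refine sum_congr rfl fun t ht => ?_
    simp only [kindApp, feat_take (ev Y) x νs (mem_range.1 ht)]
  have p1 := part_spec h hls x m hO hν a (b, true) (c, true) (d, true) hb hc hd hT
  have p2 := part_spec h hls x m hO hν b (a, false) (c, true) (d, true) ha hc hd
    (by rw [show b.2 + a.2 + c.2 + d.2 = a.2 + b.2 + c.2 + d.2 by ring]; exact hT)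
  have p3 := part_spec h hls x m hO hν c (a, false) (b, false) (d, true) ha hb hd
    (by rw [show c.2 + a.2 + b.2 + d.2 = a.2 + b.2 + c.2 + d.2 by ring]; exact hT)
  have p4 := part_spec h hls x m hO hν d (a, false) (b, false) (c, false) ha hb hc
    (by rw [show d.2 + a.2 + b.2 + c.2 = a.2 + b.2 + c.2 + d.2 by ring]; exact hT)
  rw [prod_XX_eq Y n m L.r hm, prod4, hl, hX, hX, hX, hX]
  have e : ∀ P a1 a2 a3 a4 b1 b2 b3 b4 : ℂ, P + a1 + a2 + a3 + a4 - (P + b1 + b2 + b3 + b4) =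
      (a1 - b1) + (a2 - b2) + (a3 - b3) + (a4 - b4) := by intros; ring
  rw [e]
  calc _ ≤ 1 / 2 ^ (L.eP + 2) + 1 / 2 ^ (L.eP + 2) + 1 / 2 ^ (L.eP + 2) + 1 / 2 ^ (L.eP + 2) :=
        (norm_add_le _ _).trans (add_le_add ((norm_add_le _ _).trans (add_le_add
          ((norm_add_le _ _).trans (add_le_add p1 p2)) p3)) p4)
    _ = _ := by rw [pow_add]; field_simp; norm_num

end Crest.Agent.R300.UB
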