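import Crest.Agent.R300.UBProd
import Crest.Agent.R300.UBJenOut
import Crest.Agent.R300.UBMass

set_option autoImplicit false

noncomputable section

namespace Crest.Agent.R300.UB

open Complex Finset Crest.Agent.Lib.PT Crest.TraceRecon Crest.FinProb

/-! One level. -/

lemma st_norm_ev_le {Y : ℕ} (hY : 100 ≤ Y) (μ : Mono) : ‖ev Y μ‖ ≤ 1 := by
  rw [ev_eq hY, norm_val, Real.exp_le_one_iff]
  have := a0_pos hY
  have : (0 : ℝ) ≤ μ.1 * a0 Y := by positivity
  linarith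

theorem norm_Lam_le {Y n l0 : ℕ} {ls : List Lev} (hY : 100 ≤ Y)
    (hls : ∀ L ∈ ls, ∃ zs E', LevOK Y n L zs E') (x : List Bool) (m r : ℕ) {q : Query}
    (hq : q ∈ qlist l0 ls) : ‖Lam Y n x m r q‖ ≤ Vz Y r m n ∧ ‖Lam Y n x m r q‖ ≤ n := by
  have hf := (mem_qlist.1 hq).1
  have h1 : ‖Lam Y n x m r q‖ ≤ Vz Y r m n := by
    unfold Lam Vz
    refine (norm_sum_le _ _).trans ?_
    calc ∑ T ∈ Ico m n, ‖feat (ev Y) x q.1 T * (Wt Y r ((T : ℤ) - m) : ℂ) * ev Y q.2 ^ (T - m)‖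
        ≤ ∑ T ∈ Ico m n, Wt Y r ((T : ℤ) - m) := by
          refine sum_le_sum fun T _ => ?_
          rw [norm_mul, norm_mul, norm_pow, Complex.norm_real, Real.norm_eq_abs,
            abs_of_pos (Wt_pos hY _ _)]
          have a1 := norm_feat_le_one hls x hf T
          have a2 : ‖ev Y q.2‖ ^ (T - m) ≤ 1 := pow_le_one₀ (norm_nonneg _) (st_norm_ev_le hY _)
          have a3 := (Wt_pos hY r ((T : ℤ) - m)).le
          calc _ ≤ 1 * Wt Y r ((T : ℤ) - m) * 1 := by gcongr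
            _ = _ := by ring
      _ ≤ _ := sum_le_sum_of_subset_of_nonneg (fun T hT => by
            simp only [mem_Ico] at hT; exact mem_range.2 hT.2) fun T _ _ => (Wt_pos hY _ _).le
  refine ⟨h1, h1.trans ?_⟩
  unfold Vz
  calc _ ≤ ∑ _t ∈ range n, (1 : ℝ) := sum_le_sum fun t _ => Wt_le_one hY _ _
    _ = n := by simp

lemma st_XX_conj {Y : ℕ} (hY : 100 ≤ Y) (r m N : ℕ) (g : ℕ → ℂ) (j : ℤ) :
    XX Y r m N g (some true, -j) = (starRingEnd ℂ) (XX Y r m N g (some false, j)) := by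
  unfold XX
  rw [map_sum]
  refine sum_congr rfl fun t _ => ?_
  simp only [kindApp, Option.elim, cond_true, cond_false, map_mul, Complex.conj_ofReal]
  congr 1
  rw [uu_zpow hY, uu_zpow hY, ← Complex.exp_conj]
  congr 1
  simp only [map_mul, Complex.conj_ofReal, Complex.conj_I, map_intCast]
  push_cast
  ring

lemma st_XX_none (Y r m N : ℕ) (g : ℕ → ℂ) : XX Y r m N g (none, 0) = (Vz Y r m N : ℂ) := by
  unfold XX Vz
  push_cast
  refine sum_congr rfl fun t _ => ?_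
  simp [kindApp]

lemma st_norm_XX_le {Y : ℕ} (hY : 100 ≤ Y) (r m N : ℕ) {g : ℕ → ℂ} (hg : ∀ t, ‖g t‖ ≤ 1)
    (a : Kind × ℤ) : ‖XX Y r m N g a‖ ≤ Vz Y r m N := by
  unfold XX Vz
  refine (norm_sum_le _ _).trans (sum_le_sum fun t _ => ?_)
  rw [norm_mul, norm_mul, norm_uu_zpow hY, Complex.norm_real, Real.norm_eq_abs,
    abs_of_pos (Wt_pos hY _ _), mul_one]
  have a1 := norm_kindApp_le (κ := a.1) le_rfl (hg t)
  have a3 := (Wt_pos hY r ((t : ℤ) - m)).le
  calc _ ≤ 1 * Wt Y r ((t : ℤ) - m) := by gcongr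
    _ = _ := by ring

lemma st_XX_split (Y r : ℕ) {m n : ℕ} (hm : m ≤ n) (g : ℕ → ℂ) (k : ℤ) :
    XX Y r m n g (some false, k) = XX Y r m m g (some false, k) +
      ∑ s ∈ range (n - m), g (m + s) * (Wt Y r s : ℂ) * uu Y ^ (k * s) := by
  unfold XX
  obtain ⟨d, rfl⟩ := Nat.exists_eq_add_of_le hm
  rw [sum_range_add, Nat.add_sub_cancel_left]
  congr 1
  refine sum_congr rfl fun s _ => ?_
  simp [kindApp]

lemma st_XX_congr (Y r m : ℕ) {g g' : ℕ → ℂ} (h : ∀ t < m, g t = g' t) (a : Kind × ℤ) :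
    XX Y r m m g a = XX Y r m m g' a := by
  unfold XX
  refine sum_congr rfl fun t ht => ?_
  simp only [kindApp, h t (mem_range.1 ht)]

lemma st_Lam_eq (Y n : ℕ) (x : List Bool) (m r : ℕ) (q : Query) :
    Lam Y n x m r q =
      ∑ s ∈ range (n - m), feat (ev Y) x q.1 (m + s) * (Wt Y r s : ℂ) * ev Y q.2 ^ s := by
  unfold Lam
  rw [sum_Ico_eq_sum_range]
  refine sum_congr rfl fun s _ => ?_
  simp

lemma st_sum_Wt_le {Y : ℕ} (hY : 100 ≤ Y) (r : ℕ) {m n : ℕ} (hm : m ≤ n) :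
    ∑ s ∈ range (n - m), Wt Y r s ≤ Vz Y r m n := by
  unfold Vz
  obtain ⟨d, rfl⟩ := Nat.exists_eq_add_of_le hm
  rw [sum_range_add, Nat.add_sub_cancel_left]
  have : 0 ≤ ∑ t ∈ range m, Wt Y r ((t : ℤ) - m) := sum_nonneg fun t _ => (Wt_pos hY _ _).le
  have h2 : ∑ s ∈ range d, Wt Y r (((m + s : ℕ) : ℤ) - m) = ∑ s ∈ range d, Wt Y r s :=
    sum_congr rfl fun s _ => by simp
  linarith

lemma st_final {g eP E Nc : ℕ} {χ : ℝ} (hχ : 0 ≤ χ) (hN : Nc ≤ 2 ^ (g + 6))
    (h : ((E + g + 10 : ℕ) : ℝ) ≤ χ * ((eP : ℝ) - (g + 6))) :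
    120 * (2 : ℝ) ^ (g + 2) * ((Nc : ℝ) * (1 / 2 ^ eP)) ^ χ ≤ 1 / 2 ^ (E + 1) := by
  have h1 : (Nc : ℝ) * (1 / 2 ^ eP) ≤ (2 : ℝ) ^ (((g + 6 : ℕ) : ℝ) - eP) := by
    rw [Real.rpow_sub (by norm_num), Real.rpow_natCast, Real.rpow_natCast, mul_one_div]
    gcongr
    exact_mod_cast hN
  have h2 : ((Nc : ℝ) * (1 / 2 ^ eP)) ^ χ ≤ 1 / 2 ^ (E + g + 10) := by
    calc _ ≤ ((2 : ℝ) ^ (((g + 6 : ℕ) : ℝ) - eP)) ^ χ := Real.rpow_le_rpow (by positivity) h1 hχ
      _ = (2 : ℝ) ^ ((((g + 6 : ℕ) : ℝ) - eP) * χ) := by rw [← Real.rpow_mul (by norm_num)]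
      _ ≤ (2 : ℝ) ^ (-((E + g + 10 : ℕ) : ℝ)) := by
          apply Real.rpow_le_rpow_of_exponent_le (by norm_num)
          push_cast at h ⊢
          nlinarith
      _ = _ := by rw [Real.rpow_neg (by norm_num), Real.rpow_natCast, one_div]
  calc _ ≤ 120 * (2 : ℝ) ^ (g + 2) * (1 / 2 ^ (E + g + 10)) := by gcongr
    _ = (120 / 128) * (1 / 2 ^ (E + 1)) := by
        field_simp
        ring
    _ ≤ _ := by
        have : (0 : ℝ) < 1 / 2 ^ (E + 1) := by positivity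
        linarith

theorem stepVal_spec {Y n l0 : ℕ} {L : Lev} {ls : List Lev} {E' : ℕ}
    (h : LevOK Y n L (zsOf l0 ls) E') (hls : ∀ L ∈ ls, ∃ zs E', LevOK Y n L zs E') {x : List Bool}
    (hx : x.length = n) {m : ℕ} (hm : m < n)
    {O : Query → ℂ} (hO : ∀ q ∈ qlist l0 (L :: ls), ‖O q - Lam Y n x m L.r' q‖ ≤ 1 / 2 ^ E')
    {q : Query} (hq : q ∈ qlist l0 ls) :
    ‖stepVal Y n L (x.take m) O q - Lam Y n x m L.r q‖ ≤ 1 / 2 ^ (L.E + 1) := by
  have hY32 := h.hY100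
  have hY : 100 ≤ Y := by omega
  obtain ⟨hν, hz⟩ := mem_qlist.1 hq
  obtain ⟨hF, hcase⟩ := h.hz q.2 hz
  have hlen : (x.take m).length = m := by simp; omega
  set g := feat (ev Y) x q.1 with hg
  have hg1 : ∀ t, ‖g t‖ ≤ 1 := norm_feat_le_one hls x hν
  have hVM : Vz Y L.r m n ≤ (L.M : ℝ) := by
    rw [h.hM]; push_cast; exact Vz_le hY h.hr m n
  have hM1 : (1 : ℝ) ≤ L.M := (one_le_Vz hY L.r hm).trans hVM
  have hP4 := fun a b c d ha hb hc hd hT =>
    prod4_spec (l0 := l0) h hls hx hm.le hO hν a b c d ha hb hc hd hT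
  have heP : 1 ≤ L.eP := by rcases hcase with hc | hc <;> omega
  have hPOK : POK (prod4 Y n L (x.take m) O q.1) (fun k => XX Y L.r m n g (some false, k))
      (Vz Y L.r m n) (1 / 2 ^ L.eP) L.M (kTh Y q.2) L.lb := by
    refine ⟨one_le_Vz hY L.r hm, hM1, by positivity, ?_, by have := h.hlb'; omega,
      fun k => (st_norm_XX_le hY _ _ _ hg1 _).trans hVM, ?_, ?_, ?_, ?_⟩
    · have : (2 : ℝ) ^ 1 ≤ 2 ^ L.eP := pow_le_pow_right₀ (by norm_num) heP
      exact one_div_le_one_div_of_le (by norm_num) (by simpa using this)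
    · intro i j hi hj hij
      have := hP4 (some false, i) (some true, -j) (none, 0) (none, 0) (by simp only; omega)
        (by simp only; omega) (by simp only; omega) (by simp only; omega) (by simp only; omega)
      rwa [st_XX_conj hY, st_XX_none] at this
    · intro i j i' j' hi hj hi' hj' hij
      have := hP4 (some false, i) (some true, -j) (some true, -i') (some false, j')
        (by simp only; omega) (by simp only; omega) (by simp only; omega) (by simp only; omega)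
        (by simp only; omega)
      rwa [st_XX_conj hY, st_XX_conj hY] at this
    · intro k i j hk hi hj hij
      have := hP4 (some false, k) (some true, -i) (some false, j) (none, 0)
        (by simp only; omega) (by simp only; omega) (by simp only; omega) (by simp only; omega)
        (by simp only; omega)
      rwa [st_XX_conj hY, st_XX_none] at this
    · intro k i j hk hi hj hij
      have := hP4 (some false, k) (some false, i) (some true, -j) (none, 0)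
        (by simp only; omega) (by simp only; omega) (by simp only; omega) (by simp only; omega)
        (by simp only; omega)
      rwa [st_XX_conj hY, st_XX_none] at this
  have hYpos : (0 : ℝ) < Y := by exact_mod_cast (by omega : 0 < Y)
  have hϑ : 3 * (L.M : ℝ) ^ 2 * ((n - m : ℕ) : ℝ) * th Y ≤ 1 / 2 ^ L.eP := by
    have e1 : 2 ^ (L.eP + 2 * L.g + 7) * n ≤ Y :=
      le_trans (Nat.mul_le_mul_right _ (Nat.pow_le_pow_right (by norm_num)
        (by have := h.hE'; omega))) h.hY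
    have e2 : (2 : ℝ) ^ (L.eP + 2 * L.g + 7) * n ≤ Y := by exact_mod_cast e1
    have e3 : ((n - m : ℕ) : ℝ) ≤ n := by exact_mod_cast Nat.sub_le n m
    have e4 := th_le hY
    have e5 := (th_pos hY).le
    calc _ ≤ 3 * (L.M : ℝ) ^ 2 * n * (2 / Y) := by gcongr
      _ = 96 * (2 ^ L.g) ^ 2 * n / Y := by rw [h.hM]; push_cast; ring
      _ ≤ 1 / 2 ^ L.eP := by
          rw [div_le_div_iff₀ hYpos (by positivity)]
          have : (2 : ℝ) ^ (L.eP + 2 * L.g + 7) = 128 * (2 ^ L.g) ^ 2 * 2 ^ L.eP := by ring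
          rw [this] at e2
          have : (0 : ℝ) ≤ (2 ^ L.g) ^ 2 * n * 2 ^ L.eP := by positivity
          nlinarith
  have hX : ∀ k : ℤ, XX Y L.r m n g (some false, k) =
      XX Y L.r m m (feat (ev Y) (x.take m) q.1) (some false, k) +
        ∑ s ∈ range (n - m), g (m + s) * (Wt Y L.r s : ℂ) * uu Y ^ (k * s) := fun k => by
    rw [st_XX_split Y L.r hm.le g k,
      st_XX_congr Y L.r m (g := feat (ev Y) (x.take m) q.1) (g' := g)
        (fun t ht => feat_take _ _ _ ht)]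
  have key : ∀ χ : ℝ, 0 ≤ χ → 1 ≤ q.2.1 → q.2.1 * a0 Y ≤ 3 / 2 → kH q.2 ≤ kTh Y q.2 →
      MassOK (q.2.1 * a0 Y) (q.2.2 * th Y) (th Y) (kH q.2) (kTh Y q.2) χ →
      ((L.E + L.g + 10 : ℕ) : ℝ) ≤ χ * ((L.eP : ℝ) - (L.g + 6)) →
      ‖stepVal Y n L (x.take m) O q - Lam Y n x m L.r q‖ ≤ 1 / 2 ^ (L.E + 1) := by
    intro χ hχ hz1 hz2 hA hmass hnum
    have h1 := jenOut_spec (N := n - m) (r := L.r) (g := fun s => g (m + s)) hY hPOK
      (fun s => hg1 _) ((st_sum_Wt_le hY L.r hm.le).trans hVM) hz1 hz2 hA hϑ hX hχ hmass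
    unfold stepVal
    rw [hlen, st_Lam_eq]
    refine h1.trans ?_
    have hNc : kH q.2 / L.lb + 1 ≤ 2 ^ (L.g + 6) := by
      have b1 : kH q.2 ≤ Y := hA.trans (min_le_right _ _)
      have b2 : kH q.2 / L.lb ≤ 2 ^ (L.g + 5) := by
        apply Nat.div_le_of_le_mul
        rw [h.hlb]; exact b1
      have b3 : 1 ≤ 2 ^ (L.g + 5) := Nat.one_le_two_pow
      rw [pow_succ 2 (L.g + 5)]; omega
    have := st_final hχ hNc hnum
    rw [h.hM]; push_cast at this ⊢
    exact this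
  have ha := a0_le hY
  rcases hcase with ⟨c1, c2, c3, c4⟩ | ⟨c1, c2⟩
  · have hkT : kTh Y q.2 = 100 * q.2.1 := min_eq_left c2
    refine key (5 / 39) (by norm_num) (by omega) ?_ ?_ ?_ ?_
    · have : (100 : ℝ) * q.2.1 ≤ Y := by exact_mod_cast c2
      calc (q.2.1 : ℝ) * a0 Y ≤ q.2.1 * (2001 / 1000 / Y) := by gcongr
        _ ≤ 3 / 2 := by rw [← mul_div_assoc, div_le_iff₀ hYpos]; nlinarith
    · rw [hkT]; unfold kH; omega
    · rw [hkT]
      exact mass_I c1 c3 (th_pos hY) (th_le_a0 hY) (a0_le_th hY)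
    · have : ((5 * (L.g + 6) + 39 * (L.E + L.g + 10) : ℕ) : ℝ) ≤ ((5 * L.eP : ℕ) : ℝ) := by
        exact_mod_cast c4
      push_cast at this ⊢
      linarith
  · have hkT : kTh Y q.2 = Y := by rw [c1]; unfold kTh; simp only; omega
    refine key (1 / 20) (by norm_num) (by rw [c1]; simp only; omega) ?_ ?_ ?_ ?_
    · rw [c1]
      have : ((7 * Y / 10 : ℕ) : ℝ) ≤ 7 * Y / 10 := by
        have := @Nat.cast_div_le ℝ _ _ _ (7 * Y) 10
        push_cast at this; exact this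
      calc ((7 * Y / 10 : ℕ) : ℝ) * a0 Y ≤ (7 * Y / 10) * (2001 / 1000 / Y) := by
            have := (a0_pos hY).le
            gcongr
        _ = 7 / 10 * (2001 / 1000) := by field_simp
        _ ≤ 3 / 2 := by norm_num
    · rw [hkT, c1]; unfold kH; simp only; omega
    · rw [hkT, c1]
      simpa using mass_II hY32
    · have : ((L.g + 6 + 20 * (L.E + L.g + 10) : ℕ) : ℝ) ≤ (L.eP : ℝ) := by exact_mod_cast c2
      push_cast at this ⊢
      linarith

end Crest.Agent.R300.UB
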