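import Crest.Agent.R300.UBProb
import Crest.Prelude.Def_TraceSym

set_option autoImplicit false

noncomputable section

namespace Crest.Agent.R300.UB

open Complex Finset Crest.Agent.Lib.PT Crest.TraceRecon Crest.FinProb

/-! From binary words and rational `p` to arbitrary alphabets and real `p`. -/

theorem sy_sum_prod {α : Type} [Fintype α] {w : α → ℝ} (h1 : ∑ a, w a = 1) (m : ℕ) :
    ∑ ω : Fin m → α, ∏ k, w (ω k) = 1 := by
  classical
  have := Finset.prod_univ_sum (fun _ : Fin m => (Finset.univ : Finset α)) fun _ a => w a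
  rw [Fintype.piFinset_univ] at this
  rw [← this]
  simp [h1]

theorem sy_hybrid {α : Type} [Fintype α] {w w' : α → ℝ} (h0 : ∀ a, 0 ≤ w a) (h1 : ∑ a, w a = 1)
    (h0' : ∀ a, 0 ≤ w' a) (h1' : ∑ a, w' a = 1) {t : ℝ}
    (ht : ∀ f : α → ℝ, (∀ a, 0 ≤ f a ∧ f a ≤ 1) → |∑ a, w a * f a - ∑ a, w' a * f a| ≤ t) (m : ℕ) :
    ∀ F : (Fin m → α) → ℝ, (∀ ω, 0 ≤ F ω ∧ F ω ≤ 1) →
      |∑ ω : Fin m → α, (∏ k, w (ω k)) * F ω - ∑ ω : Fin m → α, (∏ k, w' (ω k)) * F ω| ≤ m * t := by
  induction m with
  | zero => intro F _; simp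
  | succ m ih =>
    intro F hF
    have split : ∀ v : α → ℝ, ∑ ω : Fin (m + 1) → α, (∏ k, v (ω k)) * F ω =
        ∑ a, v a * ∑ ω : Fin m → α, (∏ k, v (ω k)) * F (Fin.cons a ω) := by
      intro v
      rw [← (Fin.consEquiv fun _ : Fin (m + 1) => α).sum_comp, Fintype.sum_prod_type]
      refine Finset.sum_congr rfl fun a _ => ?_
      rw [Finset.mul_sum]
      refine Finset.sum_congr rfl fun ω _ => ?_
      simp [Fin.consEquiv, Fin.prod_univ_succ, mul_assoc]
    rw [split, split]
    set G : α → ℝ := fun a => ∑ ω : Fin m → α, (∏ k, w (ω k)) * F (Fin.cons a ω)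
    set G' : α → ℝ := fun a => ∑ ω : Fin m → α, (∏ k, w' (ω k)) * F (Fin.cons a ω)
    have hG : ∀ a, |G a - G' a| ≤ m * t := fun a => ih _ fun ω => hF _
    have hG' : ∀ a, 0 ≤ G' a ∧ G' a ≤ 1 := by
      intro a
      refine ⟨Finset.sum_nonneg fun ω _ =>
        mul_nonneg (Finset.prod_nonneg fun k _ => h0' _) (hF _).1, ?_⟩
      rw [← sy_sum_prod h1' m]
      exact Finset.sum_le_sum fun ω _ =>
        mul_le_of_le_one_right (Finset.prod_nonneg fun k _ => h0' _) (hF _).2
    have e1 := ht G' hG'
    have e2 : |∑ a, w a * G a - ∑ a, w a * G' a| ≤ m * t := by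
      rw [← Finset.sum_sub_distrib]
      refine (Finset.abs_sum_le_sum_abs _ _).trans ?_
      calc ∑ a, |w a * G a - w a * G' a| ≤ ∑ a, w a * (m * t) := by
            refine Finset.sum_le_sum fun a _ => ?_
            rw [← mul_sub, abs_mul, abs_of_nonneg (h0 a)]
            exact mul_le_mul_of_nonneg_left (hG a) (h0 a)
        _ = m * t := by rw [← Finset.sum_mul, h1, one_mul]
    have e3 := abs_sub_le (∑ a, w a * G a) (∑ a, w a * G' a) (∑ a, w' a * G' a)
    push_cast
    linarith

/-- Changing the retention probability slightly changes probabilities slightly. -/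
theorem abs_prK_sub_le {m n : ℕ} {p p' : ℝ} (hp : 0 ≤ p) (hp1 : p ≤ 1) (hp' : 0 ≤ p') (hp1' : p' ≤ 1)
    (E : (Fin m → Fin n → Bool) → Prop) : |prK p E - prK p' E| ≤ m * n * |p - p'| := by
  classical
  have b0 : ∀ {q : ℝ}, 0 ≤ q → q ≤ 1 → ∀ b : Bool, 0 ≤ if b = true then q else 1 - q := by
    intro q h0 h1 b
    split_ifs <;> linarith
  have b1 : ∀ q : ℝ, ∑ b : Bool, (if b = true then q else 1 - q) = 1 := by intro q; simp
  have h1 := sy_hybrid (α := Bool) (b0 hp hp1) (b1 p) (b0 hp' hp1') (b1 p') (t := |p - p'|)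
    (fun f hf => by
      have e : ∑ b : Bool, (if b = true then p else 1 - p) * f b -
          ∑ b : Bool, (if b = true then p' else 1 - p') * f b = (p - p') * (f true - f false) := by
        simp; ring
      rw [e, abs_mul]
      refine mul_le_of_le_one_right (abs_nonneg _) (abs_le.2 ⟨?_, ?_⟩) <;>
        linarith [hf true, hf false]) n
  have h2 := sy_hybrid (α := Fin n → Bool) (w := fun ω => bernoulliWeight p ω)
    (w' := fun ω => bernoulliWeight p' ω) (fun ω => Finset.prod_nonneg fun i _ => b0 hp hp1 _)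
    (sy_sum_prod (b1 p) n) (fun ω => Finset.prod_nonneg fun i _ => b0 hp' hp1' _)
    (sy_sum_prod (b1 p') n) h1 m (fun keeps => if E keeps then 1 else 0)
    (fun keeps => by split_ifs <;> norm_num)
  rw [← mul_assoc] at h2
  unfold prK
  convert h2

/-- A binary decoder with failure probability `≤ 1/(3(n+1))` gives a rule for every alphabet. -/
theorem sym_rule {s n m : ℕ} (hs : 2 ≤ s) {p : ℝ} (hp : 0 ≤ p) (hp1 : p ≤ 1)
    (dec : List (List Bool) → List Bool)
    (h : ∀ x : Fin n → Bool, prK p (fun keeps : Fin m → Fin n → Bool =>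
      dec (traces x keeps) ≠ List.ofFn x) ≤ 1 / (3 * (n + 1))) :
    ∃ K : (Fin m → List (Fin s)) → (Fin n → Fin s) → ℝ, IsSymRule K ∧
      ∀ x : Fin n → Fin s, 2 / 3 ≤ symSuccessProb p K x := by
  classical
  have : Nonempty (Fin s) := ⟨⟨0, by omega⟩⟩
  let d : (Fin m → List (Fin s)) → Fin s → List Bool := fun τ a =>
    dec (List.ofFn fun k => (τ k).map (· == a))
  let guess : (Fin m → List (Fin s)) → Fin n → Fin s := fun τ i =>
    Classical.epsilon fun a => (d τ a).getD i false = true
  refine ⟨fun τ y => if y = guess τ then 1 else 0, fun τ => ⟨fun y => ?_, by simp⟩, fun x => ?_⟩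
  · dsimp only
    split_ifs <;> norm_num
  let wd : Fin s → Fin n → Bool := fun a i => x i == a
  let l : List (Fin n → Bool) := (fun _ => false) :: List.ofFn fun i => wd (x i)
  have hl : ∀ a, wd a ∈ l := by
    intro a
    by_cases ha : ∃ i, x i = a
    · obtain ⟨i, rfl⟩ := ha
      exact List.mem_cons_of_mem _ (List.mem_ofFn.2 ⟨i, rfl⟩)
    · have : wd a = fun _ => false := by
        ext i
        simpa [wd] using fun h => ha ⟨i, h⟩
      rw [this]
      exact List.mem_cons_self
  have hbad := prK_exists_le (m := m) hp hp1 l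
    (fun y keeps => dec (traces y keeps) ≠ List.ofFn y) fun y _ => h y
  have hlen : (l.length : ℝ) = n + 1 := by simp [l]
  rw [hlen] at hbad
  have h13 : ((n : ℝ) + 1) * (1 / (3 * (n + 1))) = 1 / 3 := by field_simp
  have hgood := prK_mono (m := m) (n := n) hp hp1
    (E := fun keeps => ¬ ∃ y ∈ l, dec (traces y keeps) ≠ List.ofFn y)
    (F := fun keeps => x = guess fun k => symTraceOf x (keeps k)) (by
      intro keeps hk
      push Not at hk
      have hd : ∀ a, d (fun k => symTraceOf x (keeps k)) a = List.ofFn (wd a) := by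
        intro a
        rw [← hk _ (hl a)]
        simp only [d, traces, traceOf, symTraceOf, List.map_map]
        rfl
      have hget : ∀ a (i : Fin n),
          (d (fun k => symTraceOf x (keeps k)) a).getD i false = (x i == a) := by
        intro a i
        rw [hd]
        simp [wd]
      ext i
      have := Classical.epsilon_spec
        (p := fun a => (d (fun k => symTraceOf x (keeps k)) a).getD i false = true)
        ⟨x i, by rw [hget]; simp⟩
      rw [hget] at this
      exact congrArg Fin.val (beq_iff_eq.1 this))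
  rw [prK_not] at hgood
  have e : symSuccessProb p (fun τ y => if y = guess τ then (1 : ℝ) else 0) x =
      prK p fun keeps : Fin m → Fin n → Bool => x = guess fun k => symTraceOf x (keeps k) := by
    unfold symSuccessProb prK
    refine Finset.sum_congr rfl fun keeps _ => ?_
    dsimp only
    split_ifs <;> rfl
  rw [e]
  linarith

end Crest.Agent.R300.UB
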